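import Vale.Agent.P227.M.Defs

/-! # P227/M, block LIN: kernel facts.  If test functions `v m` converge to `h` in `L²(e^{-V})` and
all their first (second) derivatives tend to `0` there, then `h` is a.e. constant (affine). -/

set_option linter.all false

open MeasureTheory Filter Topology
open scoped Convolution

namespace Vale.Agent.P227.M.Aff

open Vale.Agent.P227.M

variable {n : ℕ}

noncomputable abbrev cv (f g : E n → ℝ) (x : E n) : ℝ := (f ⋆[ContinuousLinearMap.lsmul ℝ ℝ, volume] g) x

theorem cv_apply (f g : E n → ℝ) (x : E n) : cv f g x = ∫ t, f t * g (x - t) := by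
  simp [cv, convolution_def]

theorem cv_apply' (f g : E n → ℝ) (x : E n) : cv f g x = ∫ z, f (x - z) * g z := by
  rw [cv_apply, ← integral_sub_left_eq_self (fun t => f t * g (x - t)) volume x]
  congr 1; funext z; simp

theorem pd_continuous {f : E n → ℝ} (hf : ContDiff ℝ 1 f) (i : Fin n) : Continuous (pd i f) :=
  (hf.continuous_fderiv one_ne_zero).clm_apply continuous_const

theorem pd_contDiff {f : E n → ℝ} {k : ℕ∞} (hf : ContDiff ℝ ((k + 1 : ℕ∞) : WithTop ℕ∞) f) (i : Fin n) :
    ContDiff ℝ (k : WithTop ℕ∞) (pd i f) := by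
  have h := hf.fderiv_right (m := (k : WithTop ℕ∞)) (by push_cast; exact le_rfl)
  exact h.clm_apply contDiff_const

theorem pd_supp {f : E n → ℝ} (hf : HasCompactSupport f) (i : Fin n) : HasCompactSupport (pd i f) :=
  (hf.fderiv ℝ).comp_left (g := fun A : E n →L[ℝ] ℝ => A (ei i)) (by simp)

theorem hasFDeriv_right {f g : E n → ℝ} (hg : HasCompactSupport g) (hf : LocallyIntegrable f volume)
    (hg1 : ContDiff ℝ 1 g) (x : E n) :
    HasFDerivAt (cv f g) ((f ⋆[(ContinuousLinearMap.lsmul ℝ ℝ).precompR (E n), volume] fderiv ℝ g) x) x :=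
  hg.hasFDerivAt_convolution_right _ hf hg1 x

theorem hasFDeriv_left {f g : E n → ℝ} (hf : HasCompactSupport f) (hg : LocallyIntegrable g volume)
    (hf1 : ContDiff ℝ 1 f) (x : E n) :
    HasFDerivAt (cv f g) ((fderiv ℝ f ⋆[(ContinuousLinearMap.lsmul ℝ ℝ).precompL (E n), volume] g) x) x :=
  hf.hasFDerivAt_convolution_left _ hf1 hg x

theorem pd_cv_right {f g : E n → ℝ} (hg : HasCompactSupport g) (hf : LocallyIntegrable f volume)
    (hg1 : ContDiff ℝ 1 g) (i : Fin n) (x : E n) : pd i (cv f g) x = cv f (pd i g) x := by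
  unfold pd
  rw [(hasFDeriv_right hg hf hg1 x).fderiv]
  rw [convolution_precompR_apply _ hf (hg.fderiv ℝ) (hg1.continuous_fderiv one_ne_zero)]

theorem cv_comm (f g : E n → ℝ) (x : E n) : cv f g x = cv g f x := by
  rw [cv_apply, cv_apply']
  congr 1; funext z; ring

theorem cv_comm' (f g : E n → ℝ) : cv f g = cv g f := funext (cv_comm f g)

theorem pd_cv_left {f g : E n → ℝ} (hf : HasCompactSupport f) (hg : LocallyIntegrable g volume)
    (hf1 : ContDiff ℝ 1 f) (i : Fin n) (x : E n) : pd i (cv f g) x = cv (pd i f) g x := by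
  rw [cv_comm', pd_cv_right hf hg hf1 i x, cv_comm]

theorem diff_cv_left {f g : E n → ℝ} (hf : HasCompactSupport f) (hg : LocallyIntegrable g volume)
    (hf1 : ContDiff ℝ 1 f) : Differentiable ℝ (cv f g) :=
  fun x => (hasFDeriv_left hf hg hf1 x).differentiableAt

/-- all partial derivatives zero: constant -/
theorem const_of_pd {f : E n → ℝ} (hf : Differentiable ℝ f) (h : ∀ i x, pd i f x = 0) (x y : E n) :
    f x = f y := by
  refine is_const_of_fderiv_eq_zero hf (fun z => ?_) x y
  have hb : (fderiv ℝ f z).toLinearMap = (0 : E n →ₗ[ℝ] ℝ) := by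
    apply (EuclideanSpace.basisFun (Fin n) ℝ).toBasis.ext
    intro i
    have := h i z
    simpa [pd, ei] using this
  ext v
  have := congrArg (fun A : E n →ₗ[ℝ] ℝ => A v) hb
  simpa using this

/-- pairing with a compactly supported continuous function is continuous for `L²(e^{-V})` -/
theorem tendsto_cv {V : E n → ℝ} (hV : Continuous V) {v : ℕ → E n → ℝ} {h : E n → ℝ}
    (hvh : ∀ m, AEStronglyMeasurable (fun x => v m x - h x) volume)
    (hI : ∀ m, Integrable (fun x => (v m x - h x) ^ 2 * Real.exp (-V x)))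
    (hli : ∀ m, LocallyIntegrable (v m) volume) (hlh : LocallyIntegrable h volume)
    (h1 : Tendsto (fun m => ∫ x, (v m x - h x) ^ 2 * Real.exp (-V x)) atTop (𝓝 0))
    {f : E n → ℝ} (hf : Continuous f) (hfs : HasCompactSupport f) (x : E n) :
    Tendsto (fun m => cv f (v m) x) atTop (𝓝 (cv f h x)) := by
  set χ : E n → ℝ := fun z => f (x - z) with hχ
  have hχc : Continuous χ := hf.comp (by fun_prop)
  have hχs : HasCompactSupport χ := by
    have := hfs.comp_homeomorph (Homeomorph.subLeft x)
    exact this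
  have hint : ∀ g : E n → ℝ, LocallyIntegrable g volume → Integrable (fun z => χ z * g z) := by
    intro g hg
    have := hg.integrable_smul_left_of_hasCompactSupport hχc hχs
    simpa [smul_eq_mul] using this
  have hQ : Integrable (fun z => χ z ^ 2 * Real.exp (V z)) := by
    refine Continuous.integrable_of_hasCompactSupport ?_ ?_
    · exact (hχc.pow 2).mul (Real.continuous_exp.comp hV)
    · have h0 : HasCompactSupport (fun z => χ z * (χ z * Real.exp (V z))) := hχs.mul_right
      have h1 : (fun z => χ z * (χ z * Real.exp (V z))) = fun z => χ z ^ 2 * Real.exp (V z) := by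
        funext z; ring
      rw [h1] at h0
      exact h0
  set Q : ℝ := ∫ z, χ z ^ 2 * Real.exp (V z) with hQd
  have hQ0 : 0 ≤ Q := integral_nonneg (fun z => by positivity)
  have key : ∀ m, ∀ t : ℝ, 0 < t → |cv f (v m) x - cv f h x| ≤
      t * Q + (1 / t) * ∫ z, (v m z - h z) ^ 2 * Real.exp (-V z) := by
    intro m t ht
    rw [cv_apply', cv_apply', ← integral_sub (hint _ (hli m)) (hint _ hlh)]
    have hpt : ∀ z, |χ z * v m z - χ z * h z| ≤
        t * (χ z ^ 2 * Real.exp (V z)) + (1 / t) * ((v m z - h z) ^ 2 * Real.exp (-V z)) := by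
      intro z
      have e1 : Real.exp (V z) = Real.exp (V z / 2) ^ 2 := by rw [← Real.exp_nat_mul]; congr 1; push_cast; ring
      have e2 : Real.exp (-V z) = Real.exp (-(V z / 2)) ^ 2 := by
        rw [← Real.exp_nat_mul]; congr 1; push_cast; ring
      have e3 : Real.exp (V z / 2) * Real.exp (-(V z / 2)) = 1 := by rw [← Real.exp_add]; simp
      rw [e1, e2]
      set a := χ z * Real.exp (V z / 2) with ha
      set b := (v m z - h z) * Real.exp (-(V z / 2)) with hb
      have hab : χ z * v m z - χ z * h z = a * b := by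
        rw [ha, hb]
        calc χ z * v m z - χ z * h z = χ z * (v m z - h z) * 1 := by ring
          _ = χ z * (v m z - h z) * (Real.exp (V z / 2) * Real.exp (-(V z / 2))) := by rw [e3]
          _ = _ := by ring
      have hr : t * (χ z ^ 2 * Real.exp (V z / 2) ^ 2) + 1 / t * ((v m z - h z) ^ 2 * Real.exp (-(V z / 2)) ^ 2)
          = t * a ^ 2 + 1 / t * b ^ 2 := by rw [ha, hb]; ring
      rw [hab, hr, abs_mul]
      have h2 : 0 ≤ (t * |a| - |b|) ^ 2 / t := by positivity
      have h3 : (t * |a| - |b|) ^ 2 / t = t * a ^ 2 + 1 / t * b ^ 2 - 2 * (|a| * |b|) := by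
        have : a ^ 2 = |a| ^ 2 := (sq_abs a).symm
        have h' : b ^ 2 = |b| ^ 2 := (sq_abs b).symm
        rw [this, h']; field_simp; ring
      have h4 : 0 ≤ |a| * |b| := by positivity
      linarith
    calc |∫ z, (χ z * v m z - χ z * h z)| ≤ ∫ z, |χ z * v m z - χ z * h z| := abs_integral_le_integral_abs
      _ ≤ ∫ z, (t * (χ z ^ 2 * Real.exp (V z)) + (1 / t) * ((v m z - h z) ^ 2 * Real.exp (-V z))) := by
          refine integral_mono ?_ ?_ hpt
          · exact ((hint _ (hli m)).sub (hint _ hlh)).abs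
          · exact (hQ.const_mul t).add ((hI m).const_mul (1 / t))
      _ = _ := by
          rw [integral_add (hQ.const_mul t) ((hI m).const_mul (1 / t)), integral_const_mul, integral_const_mul]
  rw [Metric.tendsto_atTop]
  intro ε hε
  set t : ℝ := ε / (4 * (Q + 1)) with ht
  have htp : 0 < t := by positivity
  have h5 : t * Q < ε / 2 := by
    have : t * Q ≤ t * (Q + 1) := by nlinarith
    have h6 : t * (Q + 1) = ε / 4 := by rw [ht]; field_simp
    linarith
  obtain ⟨N, hN⟩ := (Metric.tendsto_atTop.1 h1) (t * (ε / 2)) (by positivity)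
  refine ⟨N, fun m hm => ?_⟩
  have h7 := hN m hm
  rw [Real.dist_eq, sub_zero] at h7
  have h8 := lt_of_le_of_lt (le_abs_self _) h7
  rw [Real.dist_eq]
  have h9 := key m t htp
  have h10 : (1 / t) * ∫ z, (v m z - h z) ^ 2 * Real.exp (-V z) < (1 / t) * (t * (ε / 2)) :=
    mul_lt_mul_of_pos_left h8 (by positivity)
  have h11 : (1 / t) * (t * (ε / 2)) = ε / 2 := by field_simp
  linarith

theorem locInt_of_sq {V : E n → ℝ} (hV : Continuous V) {h : E n → ℝ} (hh : AEStronglyMeasurable h volume)
    (hI : Integrable (fun x => h x ^ 2 * Real.exp (-V x))) : LocallyIntegrable h volume := by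
  have h1 : LocallyIntegrable (fun x => h x ^ 2 * Real.exp (-V x) + Real.exp (V x)) volume :=
    hI.locallyIntegrable.add (Real.continuous_exp.comp hV).locallyIntegrable
  refine h1.mono hh (Filter.Eventually.of_forall fun x => ?_)
  have e1 : Real.exp (V x) = Real.exp (V x / 2) ^ 2 := by rw [← Real.exp_nat_mul]; congr 1; push_cast; ring
  have e2 : Real.exp (-V x) = Real.exp (-(V x / 2)) ^ 2 := by
    rw [← Real.exp_nat_mul]; congr 1; push_cast; ring
  have e3 : Real.exp (V x / 2) * Real.exp (-(V x / 2)) = 1 := by rw [← Real.exp_add]; simp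
  have h2 : 0 ≤ h x ^ 2 * Real.exp (-V x) + Real.exp (V x) := by positivity
  rw [Real.norm_eq_abs, Real.norm_eq_abs, abs_of_nonneg h2, e1, e2]
  set a := |h x| * Real.exp (-(V x / 2)) with ha
  set b := Real.exp (V x / 2) with hb
  have h3 : |h x| = a * b := by
    rw [ha, hb]
    calc |h x| = |h x| * 1 := by ring
      _ = |h x| * (Real.exp (V x / 2) * Real.exp (-(V x / 2))) := by rw [e3]
      _ = _ := by ring
  have h4 : h x ^ 2 * Real.exp (-(V x / 2)) ^ 2 = a ^ 2 := by
    rw [ha, mul_pow, sq_abs]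
  rw [h3, h4]
  nlinarith [sq_nonneg (a - b), sq_nonneg a, sq_nonneg b, mul_nonneg (show 0 ≤ a by positivity) (show 0 ≤ b by positivity)]

/-- a sequence of bumps with radii tending to zero -/
theorem exists_bumps (n : ℕ) : ∃ φ : ℕ → ContDiffBump (0 : E n),
    Tendsto (fun k => (φ k).rOut) atTop (𝓝 0) ∧ ∀ᶠ k in atTop, (φ k).rOut ≤ 2 * (φ k).rIn := by
  refine ⟨fun k => ⟨1 / ((k : ℝ) + 1), 2 * (1 / ((k : ℝ) + 1)), by positivity, ?_⟩, ?_, ?_⟩
  · have : (0 : ℝ) < 1 / ((k : ℝ) + 1) := by positivity
    linarith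
  · have := (tendsto_one_div_add_atTop_nhds_zero_nat (𝕜 := ℝ)).const_mul 2
    simpa using this
  · exact Filter.Eventually.of_forall (fun k => le_rfl)

/-- a.e. limit of affine functions is a.e. affine -/
theorem affine_limit {c : ℕ → ℝ} {l : ℕ → Fin n → ℝ} {h : E n → ℝ}
    (H : ∀ᵐ x ∂(volume : Measure (E n)), Tendsto (fun k => c k + ∑ i, l k i * x i) atTop (𝓝 (h x))) :
    ∃ (C : ℝ) (L : Fin n → ℝ), (∀ i, Tendsto (fun k => l k i) atTop (𝓝 (L i))) ∧
      Tendsto c atTop (𝓝 C) ∧ ∀ᵐ x ∂(volume : Measure (E n)), h x = C + ∑ i, L i * x i := by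
  have hL : ∀ i, ∃ L, Tendsto (fun k => l k i) atTop (𝓝 L) := by
    intro i
    have H2 : ∀ᵐ x ∂(volume : Measure (E n)),
        Tendsto (fun k => c k + ∑ j, l k j * (x + ei i) j) atTop (𝓝 (h (x + ei i))) :=
      (quasiMeasurePreserving_add_right volume (ei i)).ae H
    obtain ⟨x, hx1, hx2⟩ := (H.and H2).exists
    refine ⟨h (x + ei i) - h x, ?_⟩
    refine (hx2.sub hx1).congr (fun k => ?_)
    have : ∀ j, l k j * (x + ei i) j = l k j * x j + l k j * (ei i : E n) j := by
      intro j; simp [mul_add]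
    simp only [this, Finset.sum_add_distrib]
    have h3 : ∑ j, l k j * (ei i : E n) j = l k i := by
      rw [Finset.sum_eq_single i]
      · simp [ei]
      · intro j _ hj; simp [ei, hj]
      · simp
    rw [h3]; ring
  choose L hL using hL
  obtain ⟨x0, hx0⟩ := H.exists
  have hs : ∀ x : E n, Tendsto (fun k => ∑ i, l k i * x i) atTop (𝓝 (∑ i, L i * x i)) := fun x =>
    tendsto_finset_sum _ (fun i _ => (hL i).mul_const _)
  have hc : Tendsto c atTop (𝓝 (h x0 - ∑ i, L i * x0 i)) := by
    refine (hx0.sub (hs x0)).congr (fun k => by ring)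
  refine ⟨_, L, hL, hc, ?_⟩
  filter_upwards [H] with x hx
  exact tendsto_nhds_unique hx (hc.add (hs x))

/-- weak first derivatives zero (tested through convolutions): constant -/
theorem const_of_cv {h : E n → ℝ} (hh : LocallyIntegrable h volume)
    (H : ∀ f : E n → ℝ, ContDiff ℝ (⊤ : ℕ∞) f → HasCompactSupport f → ∀ i x, cv (pd i f) h x = 0) :
    ∃ c : ℝ, ∀ᵐ x ∂(volume : Measure (E n)), h x = c := by
  obtain ⟨φ, hφ0, hφ1⟩ := exists_bumps n
  have hlim := ContDiffBump.ae_convolution_tendsto_right_of_locallyIntegrable (μ := volume) hφ0 hφ1 hh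
  have hc : ∀ k, ∃ c, ∀ x, cv ((φ k).normed volume) h x = c := by
    intro k
    have h1 : ContDiff ℝ (⊤ : ℕ∞) ((φ k).normed (volume : Measure (E n))) := (φ k).contDiff_normed
    have h2 : HasCompactSupport ((φ k).normed (volume : Measure (E n))) := (φ k).hasCompactSupport_normed
    have h11 : ContDiff ℝ 1 ((φ k).normed (volume : Measure (E n))) := h1.of_le (by exact_mod_cast le_top)
    refine ⟨cv ((φ k).normed volume) h 0, fun x => ?_⟩
    refine const_of_pd (diff_cv_left h2 hh h11) (fun i z => ?_) x 0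
    rw [pd_cv_left h2 hh h11 i z]
    exact H _ h1 h2 i z
  choose c hc using hc
  have : ∀ᵐ x ∂(volume : Measure (E n)), Tendsto (fun k => c k + ∑ i : Fin n, (0 : ℝ) * x i) atTop (𝓝 (h x)) := by
    filter_upwards [hlim] with x hx
    refine hx.congr (fun k => ?_)
    have := hc k x
    simp only [cv] at this
    rw [this]; simp
  obtain ⟨C, L, hL, -, hC⟩ := affine_limit (l := fun _ _ => (0 : ℝ)) this
  refine ⟨C, ?_⟩
  have hL0 : ∀ i, L i = 0 := fun i => tendsto_nhds_unique (hL i) tendsto_const_nhds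
  filter_upwards [hC] with x hx
  rw [hx]; simp [hL0]

/-- weak second derivatives zero (tested through convolutions): affine -/
theorem affine_of_cv {h : E n → ℝ} (hh : LocallyIntegrable h volume)
    (H : ∀ f : E n → ℝ, ContDiff ℝ (⊤ : ℕ∞) f → HasCompactSupport f →
      ∀ i j x, cv (pd i (pd j f)) h x = 0) :
    ∃ (c : ℝ) (l : Fin n → ℝ), ∀ᵐ x ∂(volume : Measure (E n)), h x = c + ∑ i, l i * x i := by
  obtain ⟨φ, hφ0, hφ1⟩ := exists_bumps n
  have hlim := ContDiffBump.ae_convolution_tendsto_right_of_locallyIntegrable (μ := volume) hφ0 hφ1 hh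
  have hc : ∀ k, ∃ (c : ℝ) (l : Fin n → ℝ), ∀ x : E n,
      cv ((φ k).normed volume) h x = c + ∑ i, l i * x i := by
    intro k
    have h1 : ContDiff ℝ (⊤ : ℕ∞) ((φ k).normed (volume : Measure (E n))) := (φ k).contDiff_normed
    have h2 : HasCompactSupport ((φ k).normed (volume : Measure (E n))) := (φ k).hasCompactSupport_normed
    have h11 : ContDiff ℝ 1 ((φ k).normed (volume : Measure (E n))) := h1.of_le (by exact_mod_cast le_top)
    have hj1 : ∀ j, ContDiff ℝ (⊤ : ℕ∞) (pd j ((φ k).normed (volume : Measure (E n)))) := fun j =>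
      pd_contDiff (k := ⊤) (by simpa using h1) j
    have hj11 : ∀ j, ContDiff ℝ 1 (pd j ((φ k).normed (volume : Measure (E n)))) := fun j =>
      (hj1 j).of_le (by exact_mod_cast le_top)
    have hj2 : ∀ j, HasCompactSupport (pd j ((φ k).normed (volume : Measure (E n)))) := fun j => pd_supp h2 j
    set l : Fin n → ℝ := fun j => cv (pd j ((φ k).normed volume)) h 0 with hl
    have hl1 : ∀ j x, cv (pd j ((φ k).normed volume)) h x = l j := by
      intro j x
      refine const_of_pd (diff_cv_left (hj2 j) hh (hj11 j)) (fun i z => ?_) x 0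
      rw [pd_cv_left (hj2 j) hh (hj11 j) i z]
      exact H _ h1 h2 i j z
    have hd : Differentiable ℝ (fun x : E n => cv ((φ k).normed volume) h x - ∑ i, l i * x i) :=
      (diff_cv_left h2 hh h11).sub (by fun_prop)
    refine ⟨cv ((φ k).normed volume) h 0, l, fun x => ?_⟩
    have hz := const_of_pd hd (fun i z => ?_) x 0
    · simp only [PiLp.zero_apply, mul_zero, Finset.sum_const_zero, sub_zero] at hz
      linarith
    · have e1 : HasFDerivAt (fun x : E n => ∑ j, l j * x j)
          (∑ j, l j • (EuclideanSpace.proj j : E n →L[ℝ] ℝ)) z := by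
        refine HasFDerivAt.fun_sum (fun j _ => ?_)
        exact ((EuclideanSpace.proj j : E n →L[ℝ] ℝ).hasFDerivAt).const_mul (l j)
      have e2 := ((diff_cv_left h2 hh h11) z).hasFDerivAt.sub e1
      unfold pd
      have e3 : fderiv ℝ (fun x : E n => cv ((φ k).normed volume) h x - ∑ i, l i * x i) z = _ := e2.fderiv
      rw [e3]
      have e4 := pd_cv_left h2 hh h11 i z
      rw [hl1 i z] at e4
      unfold pd at e4
      simp only [ContinuousLinearMap.sub_apply]
      rw [e4]
      simp only [ContinuousLinearMap.sum_apply, ContinuousLinearMap.smul_apply, smul_eq_mul]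
      have : ∑ j, l j * (EuclideanSpace.proj j : E n →L[ℝ] ℝ) (ei i) = l i := by
        rw [Finset.sum_eq_single i]
        · simp [ei]
        · intro j _ hj; simp [ei, hj]
        · simp
      rw [this]; ring
  choose c l hc using hc
  have : ∀ᵐ x ∂(volume : Measure (E n)), Tendsto (fun k => c k + ∑ i : Fin n, l k i * x i) atTop (𝓝 (h x)) := by
    filter_upwards [hlim] with x hx
    refine hx.congr (fun k => ?_)
    have := hc k x
    simp only [cv] at this
    rw [this]
  obtain ⟨C, L, -, -, hC⟩ := affine_limit this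
  exact ⟨C, L, hC⟩

section main

variable {V : E n → ℝ} (hV : Continuous V) {v : ℕ → E n → ℝ} (hv : ∀ m, Test (v m))
  {h : E n → ℝ} (hh : AEStronglyMeasurable h volume) (hI : Integrable (fun x => h x ^ 2 * Real.exp (-V x)))
  (h1 : Tendsto (fun m => ∫ x, (v m x - h x) ^ 2 * Real.exp (-V x)) atTop (𝓝 0))

include hV hv hh hI in
theorem int_sub_sq (m : ℕ) : Integrable (fun x => (v m x - h x) ^ 2 * Real.exp (-V x)) := by
  have hc : Continuous (v m) := (hv m).1.continuous
  have hi : Integrable (fun x => v m x ^ 2 * Real.exp (-V x)) := by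
    refine Continuous.integrable_of_hasCompactSupport
      ((hc.pow 2).mul (Real.continuous_exp.comp hV.neg)) ?_
    have h0 : HasCompactSupport (fun z => v m z * (v m z * Real.exp (-V z))) := (hv m).2.mul_right
    have h1 : (fun z => v m z * (v m z * Real.exp (-V z))) = fun z => v m z ^ 2 * Real.exp (-V z) := by
      funext z; ring
    rw [h1] at h0
    exact h0
  have hb : Integrable (fun x => 2 * (v m x ^ 2 * Real.exp (-V x)) + 2 * (h x ^ 2 * Real.exp (-V x))) :=
    (hi.const_mul 2).add (hI.const_mul 2)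
  refine hb.mono ?_ (Filter.Eventually.of_forall fun x => ?_)
  · exact ((hc.aestronglyMeasurable.sub hh).pow 2).mul
      (Real.continuous_exp.comp hV.neg).aestronglyMeasurable
  · have e := Real.exp_pos (-V x)
    rw [Real.norm_eq_abs, Real.norm_eq_abs, abs_of_nonneg (by positivity), abs_of_nonneg (by positivity)]
    nlinarith [sq_nonneg (v m x + h x), mul_nonneg e.le (sq_nonneg (v m x + h x))]

include hV hv hh hI h1 in
theorem tendsto_cv' {f : E n → ℝ} (hf : Continuous f) (hfs : HasCompactSupport f) (x : E n) :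
    Tendsto (fun m => cv f (v m) x) atTop (𝓝 (cv f h x)) :=
  tendsto_cv hV (fun m => (hv m).1.continuous.aestronglyMeasurable.sub hh)
    (int_sub_sq hV hv hh hI) (fun m => (hv m).1.continuous.locallyIntegrable) (locInt_of_sq hV hh hI) h1
    hf hfs x

omit hV in
theorem tendsto_cv_zero (hV : Continuous V) {g : ℕ → E n → ℝ} (hg : ∀ m, Continuous (g m)) (hgs : ∀ m, HasCompactSupport (g m))
    (h2 : Tendsto (fun m => ∫ x, (g m x) ^ 2 * Real.exp (-V x)) atTop (𝓝 0))
    {f : E n → ℝ} (hf : Continuous f) (hfs : HasCompactSupport f) (x : E n) :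
    Tendsto (fun m => cv f (g m) x) atTop (𝓝 0) := by
  have hz : LocallyIntegrable (fun _ : E n => (0 : ℝ)) volume := (integrable_zero (E n) ℝ volume).locallyIntegrable
  have := tendsto_cv (h := fun _ => (0 : ℝ)) hV
    (fun m => by simpa using (hg m).aestronglyMeasurable)
    (fun m => by
      simp only [sub_zero]
      refine Continuous.integrable_of_hasCompactSupport
        (((hg m).pow 2).mul (Real.continuous_exp.comp hV.neg)) ?_
      have h0 : HasCompactSupport (fun z => g m z * (g m z * Real.exp (-V z))) := (hgs m).mul_right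
      have h1 : (fun z => g m z * (g m z * Real.exp (-V z))) = fun z => g m z ^ 2 * Real.exp (-V z) := by
        funext z; ring
      rw [h1] at h0
      exact h0)
    (fun m => (hg m).locallyIntegrable) hz (by simpa using h2) hf hfs x
  have h0 : cv f (fun _ => (0 : ℝ)) x = 0 := by rw [cv_apply]; simp
  rwa [h0] at this

include hV hv hh hI h1 in
/-- (A0) -/
theorem ae_const_of_grad
    (h2 : ∀ i, Tendsto (fun m => ∫ x, (pd i (v m) x) ^ 2 * Real.exp (-V x)) atTop (𝓝 0)) :
    ∃ c : ℝ, ∀ᵐ x ∂(volume : Measure (E n)), h x = c := by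
  refine const_of_cv (locInt_of_sq hV hh hI) (fun f hf hfs i x => ?_)
  have hf1 : ContDiff ℝ 1 f := hf.of_le (by exact_mod_cast le_top)
  have a1 := tendsto_cv' hV hv hh hI h1 (pd_continuous hf1 i) (pd_supp hfs i) x
  have a2 := tendsto_cv_zero hV (fun m => pd_continuous ((hv m).1.of_le (by exact_mod_cast le_top)) i)
    (fun m => pd_supp (hv m).2 i) (h2 i) hf.continuous hfs x
  refine tendsto_nhds_unique a1 (a2.congr (fun m => ?_))
  have hv1 : ContDiff ℝ 1 (v m) := (hv m).1.of_le (by exact_mod_cast le_top)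
  rw [← pd_cv_left hfs (hv m).1.continuous.locallyIntegrable hf1 i x,
    pd_cv_right (hv m).2 hf.continuous.locallyIntegrable hv1 i x]

include hV hv hh hI h1 in
/-- (A1) -/
theorem ae_affine_of_hess
    (h2 : ∀ i j, Tendsto (fun m => ∫ x, (hess (v m) x i j) ^ 2 * Real.exp (-V x)) atTop (𝓝 0)) :
    ∃ (c : ℝ) (l : Fin n → ℝ), ∀ᵐ x ∂(volume : Measure (E n)), h x = c + ∑ i, l i * x i := by
  refine affine_of_cv (locInt_of_sq hV hh hI) (fun f hf hfs i j x => ?_)
  have hf1 : ContDiff ℝ 1 f := hf.of_le (by exact_mod_cast le_top)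
  have hfj : ContDiff ℝ (⊤ : ℕ∞) (pd j f) := pd_contDiff (k := ⊤) (by simpa using hf) j
  have hfj1 : ContDiff ℝ 1 (pd j f) := hfj.of_le (by exact_mod_cast le_top)
  have hvj : ∀ m, ContDiff ℝ (⊤ : ℕ∞) (pd i (v m)) := fun m =>
    pd_contDiff (k := ⊤) (by simpa using (hv m).1) i
  have hvj1 : ∀ m, ContDiff ℝ 1 (pd i (v m)) := fun m => (hvj m).of_le (by exact_mod_cast le_top)
  have a1 := tendsto_cv' hV hv hh hI h1 (pd_continuous hfj1 i) (pd_supp (pd_supp hfs j) i) x
  have a2 := tendsto_cv_zero hV (g := fun m => pd j (pd i (v m))) (fun m => pd_continuous (hvj1 m) j)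
    (fun m => pd_supp (pd_supp (hv m).2 i) j) (h2 j i) hf.continuous hfs x
  refine tendsto_nhds_unique a1 (a2.congr (fun m => ?_))
  have hv1 : ContDiff ℝ 1 (v m) := (hv m).1.of_le (by exact_mod_cast le_top)
  have b1 : cv (pd i (pd j f)) (v m) x = cv (pd j f) (pd i (v m)) x := by
    rw [← pd_cv_left (pd_supp hfs j) (hv m).1.continuous.locallyIntegrable hfj1 i x,
      pd_cv_right (hv m).2 hfj.continuous.locallyIntegrable hv1 i x]
  have b2 : cv (pd j f) (pd i (v m)) x = cv f (pd j (pd i (v m))) x := by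
    rw [← pd_cv_left hfs (hvj m).continuous.locallyIntegrable hf1 j x,
      pd_cv_right (pd_supp (hv m).2 i) hf.continuous.locallyIntegrable (hvj1 m) j x]
  rw [b1, b2]

include hV hv hh hI h1 in
/-- (A0') gradients tend to zero and mean zero: `h = 0` -/
theorem ae_zero_of_grad (hVi : Integrable (fun x => Real.exp (-V x)))
    (h0 : ∫ x, h x * Real.exp (-V x) = 0)
    (h2 : ∀ i, Tendsto (fun m => ∫ x, (pd i (v m) x) ^ 2 * Real.exp (-V x)) atTop (𝓝 0)) :
    ∀ᵐ x ∂(volume : Measure (E n)), h x = 0 := by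
  obtain ⟨c, hc⟩ := ae_const_of_grad hV hv hh hI h1 h2
  have e1 : ∫ x, h x * Real.exp (-V x) = ∫ x, c * Real.exp (-V x) :=
    integral_congr_ae (hc.mono (fun x hx => by simp only [hx]))
  rw [h0, integral_const_mul] at e1
  have hp : 0 < ∫ x, Real.exp (-V x) := integral_exp_pos hVi
  have hc0 : c = 0 := by
    rcases mul_eq_zero.1 e1.symm with h | h
    · exact h
    · exact absurd h hp.ne'
  filter_upwards [hc] with x hx
  rw [hx, hc0]

include hV hv hh hI h1 in
/-- `h` is a.e. even when the `v m` and `V` are even -/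
theorem ae_even (hVe : ∀ x, V (-x) = V x) (hve : ∀ m x, v m (-x) = v m x) :
    ∀ᵐ x ∂(volume : Measure (E n)), h (-x) = h x := by
  have hh' : AEStronglyMeasurable (fun x => h (-x)) (volume : Measure (E n)) :=
    hh.comp_quasiMeasurePreserving (Measure.measurePreserving_neg (volume : Measure (E n))).quasiMeasurePreserving
  have hI' : Integrable (fun x => h (-x) ^ 2 * Real.exp (-V x)) := by
    have := hI.comp_neg
    simpa [hVe] using this
  have h1' : Tendsto (fun m => ∫ x, (v m x - h (-x)) ^ 2 * Real.exp (-V x)) atTop (𝓝 0) := by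
    refine h1.congr (fun m => ?_)
    rw [← integral_neg_eq_self (fun x => (v m x - h x) ^ 2 * Real.exp (-V x)) volume]
    simp only [hve, hVe]
  have hd : Integrable (fun x => (h (-x) - h x) ^ 2 * Real.exp (-V x)) := by
    have hb : Integrable (fun x => 2 * (h (-x) ^ 2 * Real.exp (-V x)) + 2 * (h x ^ 2 * Real.exp (-V x))) :=
      (hI'.const_mul 2).add (hI.const_mul 2)
    refine hb.mono ?_ (Filter.Eventually.of_forall fun x => ?_)
    · exact ((hh'.sub hh).pow 2).mul (Real.continuous_exp.comp hV.neg).aestronglyMeasurable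
    · have e := Real.exp_pos (-V x)
      rw [Real.norm_eq_abs, Real.norm_eq_abs, abs_of_nonneg (by positivity), abs_of_nonneg (by positivity)]
      nlinarith [sq_nonneg (h (-x) + h x), mul_nonneg e.le (sq_nonneg (h (-x) + h x))]
  have hle : ∀ m, ∫ x, (h (-x) - h x) ^ 2 * Real.exp (-V x) ≤
      2 * (∫ x, (v m x - h (-x)) ^ 2 * Real.exp (-V x)) + 2 * ∫ x, (v m x - h x) ^ 2 * Real.exp (-V x) := by
    intro m
    rw [← integral_const_mul, ← integral_const_mul, ← integral_add
      ((int_sub_sq hV hv hh' hI' m).const_mul 2) ((int_sub_sq hV hv hh hI m).const_mul 2)]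
    refine integral_mono hd (((int_sub_sq hV hv hh' hI' m).const_mul 2).add
      ((int_sub_sq hV hv hh hI m).const_mul 2)) (fun x => ?_)
    have e := Real.exp_pos (-V x)
    simp only
    nlinarith [mul_nonneg e.le (sq_nonneg ((v m x - h (-x)) + (v m x - h x)))]
  have hlim : Tendsto (fun m => 2 * (∫ x, (v m x - h (-x)) ^ 2 * Real.exp (-V x)) +
      2 * ∫ x, (v m x - h x) ^ 2 * Real.exp (-V x)) atTop (𝓝 0) := by
    simpa using (h1'.const_mul 2).add (h1.const_mul 2)
  have hzero : ∫ x, (h (-x) - h x) ^ 2 * Real.exp (-V x) ≤ 0 := ge_of_tendsto' hlim hle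
  have hnn : ∀ x, 0 ≤ (h (-x) - h x) ^ 2 * Real.exp (-V x) := fun x => by positivity
  have hz : ∫ x, (h (-x) - h x) ^ 2 * Real.exp (-V x) = 0 := le_antisymm hzero (integral_nonneg hnn)
  have := (integral_eq_zero_iff_of_nonneg hnn hd).1 hz
  filter_upwards [this] with x hx
  have e := Real.exp_pos (-V x)
  simp only [Pi.zero_apply, mul_eq_zero, pow_eq_zero_iff, ne_eq, OfNat.ofNat_ne_zero, not_false_eq_true,
    e.ne', or_false] at hx
  linarith

include hV hv hh hI h1 in
/-- (A2) second derivatives tend to zero, everything even, mean zero: `h = 0` -/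
theorem ae_zero_of_hess (hVe : ∀ x, V (-x) = V x) (hve : ∀ m x, v m (-x) = v m x)
    (hVi : Integrable (fun x => Real.exp (-V x))) (h0 : ∫ x, h x * Real.exp (-V x) = 0)
    (h2 : ∀ i j, Tendsto (fun m => ∫ x, (hess (v m) x i j) ^ 2 * Real.exp (-V x)) atTop (𝓝 0)) :
    ∀ᵐ x ∂(volume : Measure (E n)), h x = 0 := by
  obtain ⟨c, l, hc⟩ := ae_affine_of_hess hV hv hh hI h1 h2
  have he := ae_even hV hv hh hI h1 hVe hve
  have hc' : ∀ᵐ x ∂(volume : Measure (E n)), h (-x) = c + ∑ i, l i * (-x) i :=
    (Measure.measurePreserving_neg (volume : Measure (E n))).quasiMeasurePreserving.ae hc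
  have h3 : (fun x : E n => ∑ i, l i * x i) =ᵐ[volume] fun _ => (0 : ℝ) := by
    filter_upwards [hc, hc', he] with x a b d
    rw [b, a] at d
    simp only [PiLp.neg_apply, mul_neg, Finset.sum_neg_distrib] at d
    linarith
  have h4 : (fun x : E n => ∑ i, l i * x i) = fun _ => (0 : ℝ) :=
    Continuous.ae_eq_iff_eq volume (by fun_prop) continuous_const |>.1 h3
  have hc2 : ∀ᵐ x ∂(volume : Measure (E n)), h x = c := by
    filter_upwards [hc] with x hx
    have := congrFun h4 x
    simp only at this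
    rw [hx, this, add_zero]
  have e1 : ∫ x, h x * Real.exp (-V x) = ∫ x, c * Real.exp (-V x) :=
    integral_congr_ae (hc2.mono (fun x hx => by simp only [hx]))
  rw [h0, integral_const_mul] at e1
  have hp : 0 < ∫ x, Real.exp (-V x) := integral_exp_pos hVi
  have hc0 : c = 0 := by
    rcases mul_eq_zero.1 e1.symm with h | h
    · exact h
    · exact absurd h hp.ne'
  filter_upwards [hc2] with x hx
  rw [hx, hc0]

end main

/-- (A3) an even mean-zero function is orthogonal to affine functions -/
theorem orth_affine {V r h : E n → ℝ} (hVe : ∀ x, V (-x) = V x) (hr : ∀ x, r (-x) = r x)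
    (hr0 : ∫ x, r x * Real.exp (-V x) = 0) (hri : Integrable (fun x => r x * Real.exp (-V x)))
    (hrh : Integrable (fun x => r x * h x * Real.exp (-V x)))
    {c : ℝ} {l : Fin n → ℝ} (hc : ∀ᵐ x ∂(volume : Measure (E n)), h x = c + ∑ i, l i * x i) :
    ∫ x, r x * h x * Real.exp (-V x) = 0 := by
  have e0 : ∫ x, r x * h x * Real.exp (-V x)
      = ∫ x, (c * (r x * Real.exp (-V x)) + (r x * h x * Real.exp (-V x) - c * (r x * Real.exp (-V x)))) := by
    congr 1; funext x; ring
  have hs : Integrable (fun x => r x * h x * Real.exp (-V x) - c * (r x * Real.exp (-V x))) :=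
    hrh.sub (hri.const_mul c)
  rw [e0, integral_add (hri.const_mul c) hs, integral_const_mul, hr0, mul_zero, zero_add]
  have e1 : ∫ x, (r x * h x * Real.exp (-V x) - c * (r x * Real.exp (-V x)))
      = ∫ x, r x * (∑ i, l i * x i) * Real.exp (-V x) := by
    refine integral_congr_ae (hc.mono (fun x hx => ?_))
    simp only [hx]; ring
  rw [e1]
  have e2 := integral_neg_eq_self (fun x : E n => r x * (∑ i, l i * x i) * Real.exp (-V x)) volume
  simp only [hr, hVe, PiLp.neg_apply, mul_neg, Finset.sum_neg_distrib, neg_mul, integral_neg] at e2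
  linarith

end Vale.Agent.P227.M.Aff
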