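import Vale.Agent.P227.M.LIN.Iface
import Vale.Agent.P227.M.LIN.Aff
import Vale.Agent.P227.M.Bas

/-! # P227/M, block LIN: `StmtConst` and `StmtAff` (LIN-5b/c). -/

set_option linter.all false

open MeasureTheory Filter
open scoped Topology

namespace Vale.Agent.P227.M.LIN

open Vale.Agent.P227.M Vale.Agent.P227.M.Aff

variable {n : ℕ}

theorem meas_wt {V : E n → ℝ} (hV : Continuous V) :
    Measurable (fun x => ENNReal.ofReal (Real.exp (-V x))) :=
  (Real.continuous_exp.comp hV.neg).measurable.ennreal_ofReal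

theorem aesm_of_memLp {V : E n → ℝ} (hV : Continuous V) {h : E n → ℝ} (hh : MemLp h 2 (mu V)) :
    AEStronglyMeasurable h volume := by
  refine hh.1.mono_ac ?_
  refine withDensity_absolutelyContinuous' (meas_wt hV).aemeasurable (Filter.Eventually.of_forall fun x => ?_)
  simp [Real.exp_pos]

theorem int_sq_of_memLp {V : E n → ℝ} (hV : Continuous V) {h : E n → ℝ} (hh : MemLp h 2 (mu V)) :
    Integrable (fun x => h x ^ 2 * Real.exp (-V x)) := by
  have h1 := hh.integrable_sq
  rw [mu, integrable_withDensity_iff (meas_wt hV) (Filter.Eventually.of_forall fun x => ENNReal.ofReal_lt_top)] at h1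
  refine h1.congr (Filter.Eventually.of_forall fun x => ?_)
  simp only [ENNReal.toReal_ofReal (Real.exp_pos _).le]

theorem ex_tendsto {V : E n → ℝ} (hZ : 0 < ∫ x, Real.exp (-V x)) {g : ℕ → E n → ℝ}
    (hg : Tendsto (fun m => Ex V (g m)) atTop (𝓝 0)) :
    Tendsto (fun m => ∫ x, g m x * Real.exp (-V x)) atTop (𝓝 0) := by
  have := hg.mul_const (∫ x, Real.exp (-V x))
  rw [zero_mul] at this
  refine this.congr (fun m => ?_)
  unfold Ex
  field_simp

theorem sum_tendsto {ι : Type*} [Fintype ι] {V : E n → ℝ} (hV : Continuous V) {g : ι → ℕ → E n → ℝ}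
    (hc : ∀ i m, Continuous (g i m)) (hs : ∀ i m, HasCompactSupport (g i m))
    (h : Tendsto (fun m => ∫ x, (∑ i, (g i m x) ^ 2) * Real.exp (-V x)) atTop (𝓝 0)) (i : ι) :
    Tendsto (fun m => ∫ x, (g i m x) ^ 2 * Real.exp (-V x)) atTop (𝓝 0) := by
  have hint : ∀ j m, Integrable (fun x => (g j m x) ^ 2 * Real.exp (-V x)) := by
    intro j m
    refine Continuous.integrable_of_hasCompactSupport
      (((hc j m).pow 2).mul (Real.continuous_exp.comp hV.neg)) ?_
    have h0 : HasCompactSupport (fun z => g j m z * (g j m z * Real.exp (-V z))) := (hs j m).mul_right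
    have h1 : (fun z => g j m z * (g j m z * Real.exp (-V z))) = fun z => g j m z ^ 2 * Real.exp (-V z) := by
      funext z; ring
    rw [h1] at h0
    exact h0
  refine squeeze_zero (fun m => integral_nonneg fun x => by positivity) (fun m => ?_) h
  refine integral_mono (hint i m) ?_ (fun x => ?_)
  · simp only [Finset.sum_mul]
    exact integrable_finset_sum _ (fun j _ => hint j m)
  · refine mul_le_mul_of_nonneg_right ?_ (Real.exp_pos _).le
    exact Finset.single_le_sum (f := fun j => (g j m x) ^ 2) (fun j _ => sq_nonneg _) (Finset.mem_univ i)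

theorem stmtConst : StmtConst := by
  intro n V c C hN f h hf hh h1 h2
  have hV : Continuous V := hN.toReg.cont
  have hZ := hN.toReg.Z_pos
  have hc : ∀ i m, Continuous (pd i (f m)) := fun i m => pd_continuous ((hf m).1.of_le (by exact_mod_cast le_top)) i
  exact ae_const_of_grad hV hf (aesm_of_memLp hV hh) (int_sq_of_memLp hV hh) (ex_tendsto hZ h1)
    (fun i => sum_tendsto hV (g := fun i m => pd i (f m)) hc (fun i m => pd_supp (hf m).2 i) (ex_tendsto hZ h2) i)

theorem stmtAff : StmtAff := by
  intro n V c C hN f h hf hh h1 h2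
  have hV : Continuous V := hN.toReg.cont
  have hZ := hN.toReg.Z_pos
  have hp : ∀ j m, ContDiff ℝ (⊤ : ℕ∞) (pd j (f m)) := fun j m => contDiff_pd_top (hf m).1 j
  have hc : ∀ (i : Fin n × Fin n) m, Continuous (fun x => hess (f m) x i.1 i.2) := fun i m =>
    pd_continuous ((hp i.2 m).of_le (by exact_mod_cast le_top)) i.1
  have h3 : Tendsto (fun m => ∫ x, (∑ i : Fin n × Fin n, (hess (f m) x i.1 i.2) ^ 2) * Real.exp (-V x))
      atTop (𝓝 0) := by
    refine (ex_tendsto hZ h2).congr (fun m => ?_)
    simp only [Fintype.sum_prod_type]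
  exact ae_affine_of_hess hV hf (aesm_of_memLp hV hh) (int_sq_of_memLp hV hh) (ex_tendsto hZ h1)
    (fun i j => sum_tendsto hV (g := fun (i : Fin n × Fin n) m x => hess (f m) x i.1 i.2) hc
      (fun i m => pd_supp (pd_supp (hf m).2 i.2) i.1) h3 (i, j))

end Vale.Agent.P227.M.LIN
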