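import Vale.Agent.P227.M.Stmts

/-! # P227/M/LIN: interface of the block LIN (owner: helper592).

`StmtLin` follows (file `LIN/Top.lean`) from
`StmtIBP` (block ID), `StmtESA`, `StmtBoch`, `StmtConst`, `StmtAff`, `StmtH1` and the abstract lemma `StmtHilb`. -/

open MeasureTheory Filter
open scoped Topology

namespace Vale.Agent.P227.M.LIN

/-- the measure `e^{-V} dx` -/
noncomputable def mu {n : ℕ} (V : E n → ℝ) : Measure (E n) :=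
  volume.withDensity (fun x => ENNReal.ofReal (Real.exp (-V x)))

/-- LIN-2 (456, hedge 929): essential self-adjointness -/
def StmtESA : Prop := ∀ (n : ℕ) (ψ V : E n → ℝ) (c C M : ℝ), Nice V c C → MM ψ V c C M →
  ∀ h : E n → ℝ, MemLp h 2 (mu V) →
    (∀ f : E n → ℝ, Test f → ∫ x, h x * (f x - Lop ψ f x) * Real.exp (-V x) = 0) →
    h =ᵐ[volume] 0

/-- LIN-5a (365, 150): Bochner `E (Lf)² = E tr(τD²fτD²f) + E ⟨τ∇f,∇f⟩` -/
def StmtBoch : Prop := ∀ (n : ℕ) (ψ V : E n → ℝ) (c C M : ℝ), Nice V c C → MM ψ V c C M →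
  ∀ f : E n → ℝ, Test f →
    Ex V (fun x => (Lop ψ f x) ^ 2) =
      Ex V (fun x => (tau ψ x * hess f x * tau ψ x * hess f x).trace)
        + Ex V (fun x => ∑ b, pd b f x * fld ψ f b x)

/-- LIN-5b (985, 113): gradients `→ 0` implies constant limit -/
def StmtConst : Prop := ∀ (n : ℕ) (V : E n → ℝ) (c C : ℝ), Nice V c C →
  ∀ (f : ℕ → E n → ℝ) (h : E n → ℝ), (∀ m, Test (f m)) → MemLp h 2 (mu V) →
    Tendsto (fun m => Ex V (fun x => (f m x - h x) ^ 2)) atTop (𝓝 0) →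
    Tendsto (fun m => Ex V (fun x => ∑ a, (pd a (f m) x) ^ 2)) atTop (𝓝 0) →
    ∃ a0 : ℝ, h =ᵐ[volume] fun _ => a0

/-- LIN-5c (985, 113): Hessians `→ 0` implies affine limit -/
def StmtAff : Prop := ∀ (n : ℕ) (V : E n → ℝ) (c C : ℝ), Nice V c C →
  ∀ (f : ℕ → E n → ℝ) (h : E n → ℝ), (∀ m, Test (f m)) → MemLp h 2 (mu V) →
    Tendsto (fun m => Ex V (fun x => (f m x - h x) ^ 2)) atTop (𝓝 0) →
    Tendsto (fun m => Ex V (fun x => ∑ a, ∑ b, (hess (f m) x a b) ^ 2)) atTop (𝓝 0) →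
    ∃ (a0 : ℝ) (a : Fin n → ℝ), h =ᵐ[volume] fun x => a0 + ∑ i, a i * x i

/-- LIN-4 (479, hedge 929/52): second Friedrichs step -/
def StmtH1 : Prop := ∀ (n : ℕ) (ψ V : E n → ℝ) (c C M : ℝ), Nice V c C → MM ψ V c C M →
  ∀ (w : E n → ℝ) (v : ℕ → E n → ℝ), Test w → (∀ i, Test (v i)) →
    Tendsto (fun i => Ex V (fun x => (v i x - Lop ψ (v i) x - w x) ^ 2)) atTop (𝓝 0) →
    (∀ ε > 0, ∃ N : ℕ, ∀ i ≥ N, ∀ j ≥ N, Ex V (fun x => (v i x - v j x) ^ 2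
      + (∑ a, (pd a (v i) x - pd a (v j) x) ^ 2)
      + ∑ a, ∑ b, (hess (v i) x a b - hess (v j) x a b) ^ 2) ≤ ε) →
    ∃ B : ℝ, ∀ δ > 0, ∃ (F : E n → ℝ) (N : ℕ), Test F ∧
      Ex V (fun x => ∑ b, (pd b (fun z => F z - Lop ψ F z - w z) x) ^ 2) ≤ δ ∧
      (∀ i ≥ N, Ex V (fun x => ∑ b, (pd b F x - pd b (v i) x) ^ 2) ≤ δ) ∧
      Ex V (fun x => ∑ b, (Lop ψ (pd b F) x) ^ 2) ≤ B

/-- LIN-3 (737, hedges 879/437/119): abstract Hilbert space part -/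
def StmtHilb : Prop := ∀ (W H : Type) [AddCommGroup W] [Module ℝ W] [NormedAddCommGroup H]
  [InnerProductSpace ℝ H] [CompleteSpace H] (J A : W →ₗ[ℝ] H),
  (∀ f g, inner ℝ (A f) (J g) = inner ℝ (J f) (A g)) →
  (∀ f, inner ℝ (A f) (J f) ≤ 0) →
  DenseRange (fun f => J f - A f) →
  ∀ r : H,
  (∀ (h : H) (f : ℕ → W), Tendsto (fun m => J (f m)) atTop (𝓝 h) →
    Tendsto (fun m => A (f m)) atTop (𝓝 0) → inner ℝ r h = 0) →
  (∀ (h : H) (f : ℕ → W), Tendsto (fun m => J (f m)) atTop (𝓝 h) →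
    Tendsto (fun m => A (f m)) atTop (𝓝 (-h)) → inner ℝ r h = 0) →
  ∀ ε > 0, ∃ (w : W) (v : ℕ → W), Tendsto (fun i => J (v i) - A (v i)) atTop (𝓝 (J w)) ∧
    ∀ i, ‖r + A (w - (2 : ℝ) • v i)‖ ≤ ε

end Vale.Agent.P227.M.LIN
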