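import Vale.Agent.P227.M.LIN.ESA5
import Vale.Agent.P227.M.LIN.Iface
import Vale.Agent.P227.M.ID.Stein294

/-! # `StmtESA`: essential self-adjointness of `L` on test functions -/

open MeasureTheory Filter Topology
open scoped ContDiff

namespace Vale.Agent.P227.M.LIN.E456

open Vale.Agent.P227.M Vale.Agent.P227.Moll

variable {n : ℕ} {ψ V : E n → ℝ} {c C M : ℝ}

lemma sum_sq_eq (v : E n) : ∑ i, v i ^ 2 = ‖v‖ ^ 2 := by
  rw [EuclideanSpace.norm_sq_eq]
  refine Finset.sum_congr rfl fun i _ => ?_
  rw [Real.norm_eq_abs, sq_abs]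

lemma tau_qf_eq (h : MM ψ V c C M) (x v : E n) :
    ∑ i, ∑ j, tau ψ x i j * v i * v j = inner ℝ (B294.Top ψ x v) v := by
  rw [B294.inner_eq]
  refine Finset.sum_congr rfl fun i _ => ?_
  rw [B294.Top_apply, Finset.sum_mul]
  refine Finset.sum_congr rfl fun j _ => ?_
  ring

lemma tau_lower (h : MM ψ V c C M) (x v : E n) :
    c / (C ^ 2 + 1) * ∑ i, v i ^ 2 ≤ ∑ i, ∑ j, tau ψ x i j * v i * v j := by
  have hc := h.c_pos
  rw [sum_sq_eq, tau_qf_eq h]
  set w := B294.Top ψ x v with hw
  have h1 : B294.Aop ψ x w = v := B294.Aop_Top h x v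
  have h2 := (B294.gmap h).lower x w
  rw [h1, real_inner_comm] at h2
  have h3 := (B294.gmap h).norm_A_apply_le x w
  rw [h1] at h3
  have h4 : ‖v‖ ^ 2 ≤ (C ^ 2 + 1) * ‖w‖ ^ 2 := by
    have h5 := pow_le_pow_left₀ (norm_nonneg v) h3 2
    have h6 : 0 ≤ ‖w‖ ^ 2 := by positivity
    nlinarith
  calc c / (C ^ 2 + 1) * ‖v‖ ^ 2 ≤ c / (C ^ 2 + 1) * ((C ^ 2 + 1) * ‖w‖ ^ 2) := by gcongr
    _ = c * ‖w‖ ^ 2 := by field_simp
    _ ≤ _ := h2

lemma tau_upper (h : MM ψ V c C M) (x v : E n) :
    ∑ i, ∑ j, tau ψ x i j * v i * v j ≤ c⁻¹ * ∑ i, v i ^ 2 := by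
  rw [sum_sq_eq, tau_qf_eq h]
  have h1 := B294.norm_Top_le h x v
  have h2 := real_inner_le_norm (B294.Top ψ x v) v
  have h3 := norm_nonneg v
  nlinarith

theorem stmtESA : StmtESA := by
  intro n ψ V c C M hV h g hg heq
  have hc := h.c_pos
  have hVc : ContDiff ℝ 1 V := hV.smooth.of_le (by simp)
  set r : E n → ℝ := fun x => Real.exp (-V x) with hr
  set A : E n → Fin n → Fin n → ℝ := fun x i j => Real.exp (-V x) * tau ψ x i j with hA
  have hrC1 : ContDiff ℝ 1 r := (hVc.neg).exp
  have rcont : Continuous r := hrC1.continuous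
  have rpos : ∀ x, 0 < r x := fun x => Real.exp_pos _
  have hlipr : ∀ R : ℝ, ∃ K : ℝ, 0 ≤ K ∧ ∀ x ∈ Metric.closedBall (0 : E n) R,
      ∀ y ∈ Metric.closedBall (0 : E n) R, |r x - r y| ≤ K * ‖x - y‖ := by
    intro R
    obtain ⟨B, hB⟩ := (isCompact_closedBall (0 : E n) R).exists_bound_of_continuousOn
      (hrC1.continuous_fderiv (by simp)).continuousOn
    refine ⟨|B|, abs_nonneg _, fun x hx y hy => ?_⟩
    have h1 := (convex_closedBall (0 : E n) R).norm_image_sub_le_of_norm_fderiv_le (𝕜 := ℝ)
      (f := r) (C := |B|) (fun z _ => (hrC1.differentiable (by simp)) z)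
      (fun z hz => (hB z hz).trans (le_abs_self B)) hy hx
    exact h1
  have D : Dat r A := by
    refine ⟨rcont, fun i j => rcont.mul (B294.continuous_tau h i j), fun x i j => ?_, ?_, ?_⟩
    · simp only [hA]
      rw [B294.tau_symm h]
    · intro R
      obtain ⟨K, hK, hKr⟩ := hlipr R
      obtain ⟨B, hB⟩ := (isCompact_closedBall (0 : E n) R).exists_bound_of_continuousOn
        rcont.continuousOn
      refine ⟨K * c⁻¹ + |B| * |n * (n * (c⁻¹ * M * c⁻¹))|, by positivity, fun x hx y hy i j => ?_⟩
      have e : A x i j - A y i j = (r x - r y) * tau ψ x i j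
          + r y * (tau ψ x i j - tau ψ y i j) := by
        simp only [hA, hr]; ring
      have h1 := hKr x hx y hy
      have h2 := B294.abs_tau_le h x i j
      have h3 := B294.tau_lip h i j x y
      have h4 : |r y| ≤ |B| := (hB y hy).trans (le_abs_self B)
      have h5 : |tau ψ x i j - tau ψ y i j| ≤ |n * (n * (c⁻¹ * M * c⁻¹))| * ‖x - y‖ :=
        h3.trans (mul_le_mul_of_nonneg_right (le_abs_self _) (norm_nonneg _))
      have hn := norm_nonneg (x - y)
      rw [e]
      calc _ ≤ |(r x - r y) * tau ψ x i j| + |r y * (tau ψ x i j - tau ψ y i j)| := abs_add_le _ _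
        _ ≤ (K * ‖x - y‖) * c⁻¹ + |B| * (|n * (n * (c⁻¹ * M * c⁻¹))| * ‖x - y‖) := by
            rw [abs_mul, abs_mul]
            gcongr
        _ = _ := by ring
    · intro f hf j
      have h1 := B294.core_gr hV h j f (B294.tDiff hf) (B294.tGr hf)
        (fun b => B294.tGr (B294.test_pd hf b))
      have e1 : ∀ x, ∑ i, A x i j * pd i f x =
          (∑ b, tau ψ x j b * pd b f x) * Real.exp (-(V x)) := by
        intro x
        rw [Finset.sum_mul]
        refine Finset.sum_congr rfl fun i _ => ?_
        simp only [hA]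
        rw [B294.tau_symm h x i j]
        ring
      simp only [e1]
      rw [h1]
      refine integral_congr_ae (Eventually.of_forall fun x => ?_)
      simp only [hr]
      ring
  have hgm : AEStronglyMeasurable g volume := by
    have h1 : AEStronglyMeasurable g (mu V) := hg.1
    unfold mu at h1
    have hm : Measurable (fun x : E n => ENNReal.ofReal (Real.exp (-V x))) :=
      rcont.measurable.ennreal_ofReal
    have hac : (volume : Measure (E n)) ≪ volume.withDensity
        (fun x => ENNReal.ofReal (Real.exp (-V x))) :=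
      withDensity_absolutelyContinuous' hm.aemeasurable
        (Eventually.of_forall fun x => by simp [Real.exp_pos])
    exact h1.mono_ac hac
  have hgi : Integrable (fun x => g x ^ 2 * r x) := by
    have h1 : Integrable (fun x => g x ^ 2) (mu V) := hg.integrable_sq
    unfold mu at h1
    rw [integrable_withDensity_iff_integrable_smul₀'
      (rcont.measurable.ennreal_ofReal.aemeasurable) (Eventually.of_forall fun x =>
        ENNReal.ofReal_lt_top)] at h1
    refine h1.congr (Eventually.of_forall fun x => ?_)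
    simp only [smul_eq_mul, hr]
    rw [ENNReal.toReal_ofReal (Real.exp_pos _).le]
    ring
  refine esa_core D rpos (c := c / (C ^ 2 + 1)) (C := c⁻¹) (by positivity) (by positivity)
    (fun x v => ?_) (fun x v => ?_) hgm hgi (fun F hF => ?_)
  · have h1 := tau_lower h x (WithLp.toLp 2 v)
    have e : ∑ i, ∑ j, A x i j * v i * v j = r x * ∑ i, ∑ j, tau ψ x i j * v i * v j := by
      rw [Finset.mul_sum]
      refine Finset.sum_congr rfl fun i _ => ?_
      rw [Finset.mul_sum]
      refine Finset.sum_congr rfl fun j _ => ?_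
      simp only [hA, hr]; ring
    rw [e]
    have h2 := mul_le_mul_of_nonneg_left h1 (rpos x).le
    refine le_trans (le_of_eq ?_) h2
    simp only []
    ring
  · have h1 := tau_upper h x (WithLp.toLp 2 v)
    have e : ∑ i, ∑ j, A x i j * v i * v j = r x * ∑ i, ∑ j, tau ψ x i j * v i * v j := by
      rw [Finset.mul_sum]
      refine Finset.sum_congr rfl fun i _ => ?_
      rw [Finset.mul_sum]
      refine Finset.sum_congr rfl fun j _ => ?_
      simp only [hA, hr]; ring
    rw [e]
    have h2 := mul_le_mul_of_nonneg_left h1 (rpos x).le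
    refine h2.trans (le_of_eq ?_)
    simp only []
    ring
  · rw [← heq F hF]
    refine integral_congr_ae (Eventually.of_forall fun x => ?_)
    simp only [hA, hr, Lop, hess]
    rw [show ∀ a b d : ℝ, a * (b - d) * Real.exp (-V x) =
      a * (Real.exp (-V x) * b - Real.exp (-V x) * d) by intros; ring]
    congr 1
    rw [mul_sub, Finset.mul_sum, Finset.mul_sum]
    rw [sub_sub_eq_add_sub, add_sub_right_comm]
    congr 1
    · congr 1
      refine Finset.sum_congr rfl fun i _ => ?_
      rw [Finset.mul_sum]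
      refine Finset.sum_congr rfl fun j _ => ?_
      ring
    · refine Finset.sum_congr rfl fun j _ => ?_
      ring

end Vale.Agent.P227.M.LIN.E456
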