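import Vale.Agent.P227.M.LIN.H1Defs
import Vale.Agent.P227.M.Bas
import Vale.Agent.P227.M.Loc.TauB

/-! # P227/M/LIN: algebra of `Lop` for `StmtH1` (owner: helper47). -/

open MeasureTheory Filter Metric Set
open scoped Topology

namespace Vale.Agent.P227.M.LIN

namespace Alg47

variable {n : ℕ}

lemma test_pd {f : E n → ℝ} (hf : Test f) (a : Fin n) : Test (pd a f) :=
  ⟨contDiff_pd_top hf.1 a, hf.2.fderiv_apply (𝕜 := ℝ) (ei a)⟩

lemma diff {f : E n → ℝ} (hf : Test f) : Differentiable ℝ f := hf.1.differentiable (by simp)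

lemma pd_mul {f g : E n → ℝ} (hf : Differentiable ℝ f) (hg : Differentiable ℝ g) (a : Fin n) (x : E n) :
    pd a (fun z => f z * g z) x = pd a f x * g x + f x * pd a g x := by
  unfold pd
  rw [fderiv_fun_mul (hf x) (hg x)]
  simp
  ring

lemma pd_add {f g : E n → ℝ} (hf : Differentiable ℝ f) (hg : Differentiable ℝ g) (a : Fin n) (x : E n) :
    pd a (fun z => f z + g z) x = pd a f x + pd a g x := by
  unfold pd
  rw [fderiv_fun_add (hf x) (hg x)]
  simp

lemma test_mul {f g : E n → ℝ} (hf : Test f) (hg : Test g) : Test (fun z => f z * g z) :=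
  ⟨hf.1.mul hg.1, hg.2.mul_left⟩

lemma hess_mul {f g : E n → ℝ} (hf : Test f) (hg : Test g) (x : E n) (i j : Fin n) :
    hess (fun z => f z * g z) x i j = hess f x i j * g x + pd j f x * pd i g x + pd i f x * pd j g x
      + f x * hess g x i j := by
  have h1 : pd j (fun z => f z * g z) = fun x => pd j f x * g x + f x * pd j g x := by
    funext y; exact pd_mul (diff hf) (diff hg) j y
  have h2 : hess (fun z => f z * g z) x i j = pd i (pd j (fun z => f z * g z)) x := rfl
  rw [h2, h1, pd_add (diff (test_mul (test_pd hf j) hg)) (diff (test_mul hf (test_pd hg j))),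
    pd_mul (diff (test_pd hf j)) (diff hg), pd_mul (diff hf) (diff (test_pd hg j))]
  show hess f x i j * g x + pd j f x * pd i g x + (pd i f x * pd j g x + f x * hess g x i j) = _
  ring

lemma hess_add {f g : E n → ℝ} (hf : Test f) (hg : Test g) (x : E n) (i j : Fin n) :
    hess (fun z => f z + g z) x i j = hess f x i j + hess g x i j := by
  have h1 : pd j (fun z => f z + g z) = fun x => pd j f x + pd j g x := by
    funext y; exact pd_add (diff hf) (diff hg) j y
  have h2 : hess (fun z => f z + g z) x i j = pd i (pd j (fun z => f z + g z)) x := rfl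
  rw [h2, h1, pd_add (diff (test_pd hf j)) (diff (test_pd hg j))]
  rfl

/-! ### mollification -/

lemma rkc (m : ℕ) : Continuous (rk m : E n → ℝ) := (bp n m).continuous_normed

lemma rks (m : ℕ) : HasCompactSupport (rk m : E n → ℝ) := (bp n m).hasCompactSupport_normed

lemma integ (m : ℕ) {g : E n → ℝ} (hg : Continuous g) (x : E n) :
    Integrable (fun t => rk m t * g (x - t)) :=
  ((rkc m).mul (hg.comp (continuous_const.sub continuous_id))).integrable_of_hasCompactSupport
    (rks m).mul_right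

lemma mo_hasFDerivAt (m : ℕ) {g : E n → ℝ} (hg : Test g) (x : E n) :
    HasFDerivAt (mo m g) (∫ t, rk m t • fderiv ℝ g (x - t)) x := by
  have hfd := hg.1.continuous_fderiv (by simp)
  obtain ⟨C, hC⟩ := (hg.2.fderiv (𝕜 := ℝ)).exists_bound_of_continuous hfd
  refine hasFDerivAt_integral_of_dominated_of_fderiv_le (F := fun x t => rk m t * g (x - t))
    (F' := fun x t => rk m t • fderiv ℝ g (x - t)) (bound := fun t => |rk m t| * C)
    (s := Set.univ) (x₀ := x) Filter.univ_mem ?_ ?_ ?_ ?_ ?_ ?_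
  · exact Filter.Eventually.of_forall fun y => (integ m hg.1.continuous y).aestronglyMeasurable
  · exact integ m hg.1.continuous x
  · have h1 : Continuous fun t : E n => fderiv ℝ g (x - t) := hfd.comp (by fun_prop)
    exact ((rkc m).smul h1).aestronglyMeasurable
  · refine Filter.Eventually.of_forall fun t y _ => ?_
    rw [norm_smul]
    exact mul_le_mul_of_nonneg_left (hC _) (norm_nonneg _)
  · exact (((rkc m).integrable_of_hasCompactSupport (rks m)).abs).mul_const C
  · refine Filter.Eventually.of_forall fun t y _ => ?_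
    have h1 : HasFDerivAt g (fderiv ℝ g (y - t)) (y - t) := (diff hg _).hasFDerivAt
    have h2 : HasFDerivAt (fun y : E n => g (y - t)) (fderiv ℝ g (y - t)) y := by
      have h3 : HasFDerivAt (fun y : E n => y - t) (ContinuousLinearMap.id ℝ (E n)) y :=
        (hasFDerivAt_id y).sub_const t
      have := h1.comp y h3
      rwa [ContinuousLinearMap.comp_id] at this
    exact h2.const_mul (rk m t)

lemma pd_mo47 (m : ℕ) {g : E n → ℝ} (hg : Test g) (a : Fin n) : pd a (mo m g) = mo m (pd a g) := by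
  funext x
  have h := (mo_hasFDerivAt m hg x).fderiv
  show fderiv ℝ (mo m g) x (ei a) = _
  rw [h, ContinuousLinearMap.integral_apply]
  · rfl
  · have hfd := hg.1.continuous_fderiv (by simp)
    have h2 : Continuous fun t : E n => fderiv ℝ g (x - t) := hfd.comp (by fun_prop)
    exact ((rkc m).smul h2).integrable_of_hasCompactSupport (rks m).smul_right

lemma mo_sub47 (m : ℕ) {f g : E n → ℝ} (hf : Continuous f) (hg : Continuous g) (x : E n) :
    mo m (fun y => f y - g y) x = mo m f x - mo m g x := by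
  unfold mo
  rw [← integral_sub (integ m hf x) (integ m hg x)]
  refine integral_congr_ae (Eventually.of_forall fun t => ?_)
  simp only; ring

lemma mo_sum47 {ι : Type*} (s : Finset ι) (m : ℕ) {f : ι → E n → ℝ} (hf : ∀ i, Continuous (f i)) (x : E n) :
    mo m (fun y => ∑ i ∈ s, f i y) x = ∑ i ∈ s, mo m (f i) x := by
  unfold mo
  rw [← integral_finsetSum _ (fun i _ => integ m (hf i) x)]
  refine integral_congr_ae (Eventually.of_forall fun t => ?_)
  simp only [Finset.mul_sum]

lemma hess_mo (m : ℕ) {g : E n → ℝ} (hg : Test g) (x : E n) (i j : Fin n) :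
    hess (mo m g) x i j = mo m (fun y => hess g y i j) x := by
  have h2 : hess (mo m g) x i j = pd i (pd j (mo m g)) x := rfl
  rw [h2, pd_mo47 m hg, pd_mo47 m (test_pd hg j)]
  rfl

lemma Lp_mul {a g : E n → ℝ} {A K B K' : ℝ} (ha : ∀ x, |a x| ≤ A) (hal : Lp a K)
    (hg : ∀ x, |g x| ≤ B) (hgl : Lp g K') : Lp (fun x => a x * g x) (A * K' + B * K) := by
  intro x y
  have hA : 0 ≤ A := (abs_nonneg _).trans (ha x)
  have hB : 0 ≤ B := (abs_nonneg _).trans (hg x)
  have h1 : a x * g x - a y * g y = a x * (g x - g y) + g y * (a x - a y) := by ring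
  rw [h1]
  refine (abs_add_le _ _).trans ?_
  rw [abs_mul, abs_mul]
  have h2 := mul_le_mul (ha x) (hgl x y) (abs_nonneg _) hA
  have h3 := mul_le_mul (hg y) (hal x y) (abs_nonneg _) hB
  calc _ ≤ A * (K' * ‖x - y‖) + B * (K * ‖x - y‖) := add_le_add h2 h3
    _ = _ := by ring

lemma Lp_sum {ι : Type*} (s : Finset ι) {f : ι → E n → ℝ} (h : ∀ i, ∃ K, Lp (f i) K) :
    ∃ K, Lp (fun x => ∑ i ∈ s, f i x) K := by
  choose K hK using h
  refine ⟨∑ i ∈ s, K i, fun x y => ?_⟩
  rw [← Finset.sum_sub_distrib, Finset.sum_mul]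
  refine (Finset.abs_sum_le_sum_abs _ _).trans (Finset.sum_le_sum fun i _ => hK i x y)

lemma Lp_test {f : E n → ℝ} (hf : Test f) : ∃ K, Lp f K := by
  obtain ⟨K, hK⟩ := ContDiff.lipschitzWith_of_hasCompactSupport hf.2 (hf.1.of_le (m := 1) (by exact_mod_cast le_top)) one_ne_zero
  refine ⟨K, fun x y => ?_⟩
  have := hK.dist_le_mul x y
  rwa [Real.dist_eq, dist_eq_norm] at this

lemma bdd_test {f : E n → ℝ} (hf : Test f) : ∃ B, ∀ x, |f x| ≤ B :=
  hf.2.exists_bound_of_continuous hf.1.continuous

end Alg47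

open Alg47

/-- product rule -/
theorem Lop_mul {n : ℕ} {ψ V : E n → ℝ} {c C M : ℝ} (hM : MM ψ V c C M) {χ f : E n → ℝ} (hχ : Test χ) (hf : Test f) (x : E n) :
    Lop ψ (fun z => χ z * f z) x = χ x * Lop ψ f x + f x * Lop ψ χ x
      + 2 * ∑ i, ∑ j, tau ψ x i j * pd i χ x * pd j f x := by
  unfold Lop
  simp only [hess_mul hχ hf, pd_mul (diff hχ) (diff hf)]
  have h1 : ∑ i, ∑ j, tau ψ x i j * (pd j χ x * pd i f x) = ∑ i, ∑ j, tau ψ x i j * (pd i χ x * pd j f x) := by
    rw [Finset.sum_comm]
    refine Finset.sum_congr rfl fun i _ => Finset.sum_congr rfl fun j _ => ?_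
    rw [Loc.tau_symm hM x j i]
  have h2 : ∑ i, ∑ j, tau ψ x i j * (hess χ x i j * f x + pd j χ x * pd i f x + pd i χ x * pd j f x
      + χ x * hess f x i j) = f x * (∑ i, ∑ j, tau ψ x i j * hess χ x i j)
      + (∑ i, ∑ j, tau ψ x i j * (pd j χ x * pd i f x)) + (∑ i, ∑ j, tau ψ x i j * (pd i χ x * pd j f x))
      + χ x * (∑ i, ∑ j, tau ψ x i j * hess f x i j) := by
    simp only [Finset.mul_sum, ← Finset.sum_add_distrib]
    refine Finset.sum_congr rfl fun i _ => Finset.sum_congr rfl fun j _ => ?_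
    ring
  have h3 : ∑ i, x i * (pd i χ x * f x + χ x * pd i f x) =
      f x * (∑ i, x i * pd i χ x) + χ x * (∑ i, x i * pd i f x) := by
    simp only [Finset.mul_sum, ← Finset.sum_add_distrib]
    refine Finset.sum_congr rfl fun i _ => ?_
    ring
  have h4 : ∑ i, ∑ j, tau ψ x i j * pd i χ x * pd j f x = ∑ i, ∑ j, tau ψ x i j * (pd i χ x * pd j f x) := by
    refine Finset.sum_congr rfl fun i _ => Finset.sum_congr rfl fun j _ => ?_
    ring
  rw [h2, h3, h1, h4]
  ring

/-- (in its own namespace: `TopA.lean` has `LIN.Lop_add`) -/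
theorem Alg47.Lop_add {n : ℕ} (ψ : E n → ℝ) {χ f : E n → ℝ} (hχ : Test χ) (hf : Test f) (x : E n) :
    Lop ψ (fun z => χ z + f z) x = Lop ψ χ x + Lop ψ f x := by
  unfold Lop
  simp only [hess_add hχ hf, pd_add (diff hχ) (diff hf), mul_add, Finset.sum_add_distrib]
  ring

/-- `L (mo m d) = mo m (L d) + commutators` -/
theorem Lop_mo {n : ℕ} {ψ V : E n → ℝ} {c C M : ℝ} (hM : MM ψ V c C M) {d : E n → ℝ} (hd : Test d) (m : ℕ) (x : E n) :
    Lop ψ (mo m d) x = mo m (Lop ψ d) x
      + (∑ i, ∑ j, cm m (fun y => tau ψ y i j) (fun y => hess d y i j) x)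
      - ∑ i, cm m (fun y => y i) (pd i d) x := by
  have hτ : ∀ i j, Continuous fun y => tau ψ y i j := fun i j => Loc.tau_continuous hM i j
  have hh : ∀ i j, Continuous fun y => hess d y i j := fun i j =>
    (test_pd (test_pd hd j) i).1.continuous
  have hp : ∀ i, Continuous (pd i d) := fun i => (test_pd hd i).1.continuous
  have hL : mo m (Lop ψ d) x = (∑ i, ∑ j, mo m (fun y => tau ψ y i j * hess d y i j) x)
      - ∑ i, mo m (fun y => y i * pd i d y) x := by
    have h1 : mo m (Lop ψ d) x = mo m (fun y => (∑ i, ∑ j, tau ψ y i j * hess d y i j) - ∑ i, y i * pd i d y) x := rfl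
    have h2 : ∀ i, Continuous fun y : E n => ∑ j, tau ψ y i j * hess d y i j := fun i =>
      continuous_finsetSum _ fun j _ => (hτ i j).mul (hh i j)
    have h3 : ∀ i, Continuous fun y : E n => y i * pd i d y := fun i => by
      have := hp i
      fun_prop
    rw [h1, mo_sub47 m (continuous_finsetSum _ fun i _ => h2 i) (continuous_finsetSum _ fun i _ => h3 i),
      mo_sum47 _ m h2, mo_sum47 _ m h3]
    congr 1
    refine Finset.sum_congr rfl fun i _ => ?_
    exact mo_sum47 _ m (f := fun j y => tau ψ y i j * hess d y i j) (fun j => (hτ i j).mul (hh i j)) x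
  rw [hL]
  unfold Lop cm
  simp only [hess_mo m hd, pd_mo47 m hd, Finset.sum_sub_distrib]
  ring

/-- support and regularity of `L f` -/
theorem Lop_lip {n : ℕ} {ψ V : E n → ℝ} {c C M : ℝ} (hM : MM ψ V c C M) {f : E n → ℝ} (hf : Test f) :
    Continuous (Lop ψ f) ∧ HasCompactSupport (Lop ψ f) ∧ ∃ K, Lp (Lop ψ f) K := by
  have hτ : ∀ i j, Continuous fun y => tau ψ y i j := fun i j => Loc.tau_continuous hM i j
  have hh : ∀ i j, Test fun y => hess f y i j := fun i j => test_pd (test_pd hf j) i
  have hp : ∀ i, Test (pd i f) := fun i => test_pd hf i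
  refine ⟨?_, ?_, ?_⟩
  · unfold Lop
    refine Continuous.sub ?_ ?_
    · exact continuous_finsetSum _ fun i _ => continuous_finsetSum _ fun j _ =>
        (hτ i j).mul (hh i j).1.continuous
    · refine continuous_finsetSum _ fun i _ => ?_
      have := (hp i).1.continuous
      fun_prop
  · refine HasCompactSupport.intro hf.2.isCompact ?_
    intro x hx
    have h0 : ∀ i, pd i f x = 0 := by
      intro i
      have : x ∉ tsupport (pd i f) := fun h => hx (tsupport_fderiv_apply_subset ℝ (ei i) h)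
      exact image_eq_zero_of_notMem_tsupport this
    have h1 : ∀ i j, hess f x i j = 0 := by
      intro i j
      have h2 : x ∉ tsupport (pd i (pd j f)) := fun h =>
        hx (tsupport_fderiv_apply_subset ℝ (ei j) (tsupport_fderiv_apply_subset ℝ (ei i) h))
      have h3 : pd i (pd j f) x = 0 := image_eq_zero_of_notMem_tsupport h2
      exact h3
    unfold Lop
    simp [h0, h1]
  · have h1 : ∀ i j, ∃ K, Lp (fun x => tau ψ x i j * hess f x i j) K := by
      intro i j
      obtain ⟨B, hB⟩ := bdd_test (hh i j)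
      obtain ⟨K, hK⟩ := Lp_test (hh i j)
      exact ⟨_, Lp_mul (fun x => Loc.tau_bdd hM x i j) (fun x y => Loc.tau_lip hM x y i j) hB hK⟩
    have h2 : ∀ i, ∃ K, Lp (fun x => x i * pd i f x) K := by
      intro i
      refine Lp_test ⟨?_, (hp i).2.mul_left⟩
      have := (hp i).1
      have h3 : ContDiff ℝ (⊤ : ℕ∞) fun x : E n => x i :=
        (EuclideanSpace.proj i : E n →L[ℝ] ℝ).contDiff
      exact h3.mul this
    obtain ⟨K1, hK1⟩ := Lp_sum Finset.univ (fun i => Lp_sum Finset.univ (h1 i))
    obtain ⟨K2, hK2⟩ := Lp_sum Finset.univ h2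
    refine ⟨K1 + K2, fun x y => ?_⟩
    have h4 := hK1 x y
    have h5 := hK2 x y
    unfold Lop
    rw [add_mul]
    have h6 : ∀ a b c d : ℝ, (a - b) - (c - d) = (a - c) - (b - d) := by intros; ring
    rw [h6]
    exact (abs_sub _ _).trans (add_le_add h4 h5)

end Vale.Agent.P227.M.LIN
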