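import Vale.Agent.P227.M.LIN.Iface

/-! # P227/M/LIN: definitions for `StmtH1` (second Friedrichs step). -/

open MeasureTheory Filter Metric Set
open scoped Topology

namespace Vale.Agent.P227.M.LIN

/-- radius `δ_m = 1/(m+1)` -/
noncomputable def dl (m : ℕ) : ℝ := 1 / ((m : ℝ) + 1)

lemma dl_pos (m : ℕ) : 0 < dl m := by unfold dl; positivity

lemma dl_le_one (m : ℕ) : dl m ≤ 1 := by
  unfold dl
  rw [div_le_one (by positivity)]
  have : (0 : ℝ) ≤ m := Nat.cast_nonneg m
  linarith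

lemma dl_tendsto : Tendsto dl atTop (𝓝 0) := tendsto_one_div_add_atTop_nhds_zero_nat

/-- the bump with radii `δ/2, δ` -/
noncomputable def bp (n m : ℕ) : ContDiffBump (0 : E n) :=
  ⟨dl m / 2, dl m, by have := dl_pos m; linarith, by have := dl_pos m; linarith⟩

/-- mollifier kernel -/
noncomputable def rk {n : ℕ} (m : ℕ) (x : E n) : ℝ := (bp n m).normed volume x

/-- mollification -/
noncomputable def mo {n : ℕ} (m : ℕ) (g : E n → ℝ) (x : E n) : ℝ := ∫ t, rk m t * g (x - t)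

/-- average over the ball of radius `2 δ_m` -/
noncomputable def av {n : ℕ} (m : ℕ) (g : E n → ℝ) (x : E n) : ℝ :=
  (dl m ^ n)⁻¹ * ∫ t in ball (0 : E n) (2 * dl m), g (x - t)

/-- local Lipschitz bound in direction `b` -/
def LocB {n : ℕ} (b : Fin n) (g : E n → ℝ) (x : E n) (K : ℝ) : Prop :=
  ∀ ε > 0, ∀ᶠ t in 𝓝 (0 : ℝ), |g (x + t • ei b) - g x| ≤ (K + ε) * |t|

/-- Lipschitz, in terms of `|·|` -/
def Lp {n : ℕ} (g : E n → ℝ) (K : ℝ) : Prop := ∀ x y, |g x - g y| ≤ K * ‖x - y‖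

/-- commutator of multiplication by `a` and mollification -/
noncomputable def cm {n : ℕ} (m : ℕ) (a G : E n → ℝ) (x : E n) : ℝ :=
  a x * mo m G x - mo m (fun y => a y * G y) x

end Vale.Agent.P227.M.LIN
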