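import Vale.Agent.P227.M.Bas
import Vale.Agent.P227.M.Loc.TauB
import Vale.Agent.P227.M.LIN.H1Defs

/-! # P227/M/LIN: cutoff functions with constants independent of the radius -/

open MeasureTheory
open scoped Topology

namespace Vale.Agent.P227.M.LIN

namespace Cut

variable {n : ℕ}

theorem pd_scale {f : E n → ℝ} (hf : Differentiable ℝ f) (a : ℝ) (i : Fin n) :
    pd i (fun x => f (a • x)) = fun x => a * pd i f (a • x) := by
  funext x
  have h1 : HasFDerivAt (fun x : E n => a • x) (a • ContinuousLinearMap.id ℝ (E n)) x :=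
    (hasFDerivAt_id x).const_smul a
  have h2 := (hf (a • x)).hasFDerivAt.comp x h1
  have h3 : fderiv ℝ (fun x => f (a • x)) x
      = (fderiv ℝ f (a • x)).comp (a • ContinuousLinearMap.id ℝ (E n)) := h2.fderiv
  unfold pd
  rw [h3]
  simp

theorem pd_mul_scale {f : E n → ℝ} (hf : Differentiable ℝ f) (b a : ℝ) (i : Fin n) :
    pd i (fun x => b * f (a • x)) = fun x => b * a * pd i f (a • x) := by
  have hd : Differentiable ℝ (fun x : E n => f (a • x)) :=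
    hf.comp (differentiable_id.const_smul a)
  funext x
  have h1 : fderiv ℝ (fun x => b * f (a • x)) x = b • fderiv ℝ (fun x => f (a • x)) x :=
    fderiv_const_mul (hd x) b
  have h2 := congrFun (pd_scale hf a i) x
  unfold pd at h2 ⊢
  rw [h1, smul_apply, h2, smul_eq_mul]
  ring

/-- the fixed bump: equal to `1` on the closed unit ball, supported in the ball of radius `2` -/
noncomputable def bmp (n : ℕ) : ContDiffBump (0 : E n) := ⟨1, 2, one_pos, one_lt_two⟩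

/-- the cutoff function -/
noncomputable def cut (n : ℕ) (R : ℝ) (x : E n) : ℝ := bmp n (R⁻¹ • x)

theorem bmp_smooth : ContDiff ℝ (⊤ : ℕ∞) (bmp n : E n → ℝ) := (bmp n).contDiff

theorem bmp_hcs : HasCompactSupport (bmp n : E n → ℝ) := (bmp n).hasCompactSupport

/-- compactly supported continuous functions are bounded -/
theorem bdd_of_test {f : E n → ℝ} (hf : Continuous f) (hc : HasCompactSupport f) :
    ∃ C : ℝ, 0 ≤ C ∧ ∀ x, |f x| ≤ C := by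
  obtain ⟨C, hC⟩ := hf.bounded_above_of_compact_support hc
  exact ⟨C, (norm_nonneg _).trans (hC 0), hC⟩

theorem pd_test {f : E n → ℝ} (hf : Test f) (i : Fin n) : Test (pd i f) := by
  refine ⟨contDiff_pd_top hf.1 i, ?_⟩
  exact hf.2.fderiv_apply ℝ (ei i)

/-- a common bound for finitely many test functions -/
theorem bdd_fin {ι : Type*} [Fintype ι] {f : ι → E n → ℝ} (hf : ∀ i, Test (f i)) :
    ∃ C : ℝ, 0 ≤ C ∧ ∀ i x, |f i x| ≤ C := by
  choose B hB0 hB using fun i => bdd_of_test (hf i).1.continuous (hf i).2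
  refine ⟨∑ i, B i, Finset.sum_nonneg fun i _ => hB0 i, fun i x => (hB i x).trans ?_⟩
  exact Finset.single_le_sum (f := B) (fun i _ => hB0 i) (Finset.mem_univ i)

theorem cut_test {R : ℝ} (hR : 0 < R) : Test (cut n R) := by
  constructor
  · exact bmp_smooth.comp (contDiff_id.const_smul R⁻¹)
  · have h := (bmp_hcs (n := n)).comp_homeomorph (Homeomorph.smulOfNeZero R⁻¹ (inv_ne_zero hR.ne'))
    exact h

theorem cut_nonneg (R : ℝ) (x : E n) : 0 ≤ cut n R x := (bmp n).nonneg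

theorem cut_le_one (R : ℝ) (x : E n) : cut n R x ≤ 1 := (bmp n).le_one

theorem cut_one {R : ℝ} (hR : 0 < R) {x : E n} (hx : ‖x‖ ≤ R) : cut n R x = 1 := by
  refine (bmp n).one_of_mem_closedBall ?_
  rw [Metric.mem_closedBall, dist_zero_right, norm_smul, norm_inv, Real.norm_of_nonneg hR.le]
  change R⁻¹ * ‖x‖ ≤ 1
  rw [inv_mul_le_iff₀ hR, mul_one]
  exact hx

theorem cut_zero {R : ℝ} (hR : 0 < R) {x : E n} (hx : 2 * R ≤ ‖x‖) : cut n R x = 0 := by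
  refine (bmp n).zero_of_le_dist ?_
  rw [dist_zero_right, norm_smul, norm_inv, Real.norm_of_nonneg hR.le]
  change 2 ≤ R⁻¹ * ‖x‖
  rw [le_inv_mul_iff₀ hR, mul_comm]
  exact hx

/-- a test function vanishing off the ball of radius `2` and its rescaling -/
theorem norm_mul_scale_le {g : E n → ℝ} {C : ℝ} (hC : ∀ x, |g x| ≤ C) (hC0 : 0 ≤ C)
    (hg : ∀ x, 2 < ‖x‖ → g x = 0) {R : ℝ} (hR : 0 < R) (x : E n) :
    ‖x‖ * |g (R⁻¹ • x)| ≤ 2 * R * C := by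
  by_cases hx : 2 < ‖R⁻¹ • x‖
  · rw [hg _ hx]
    simp only [abs_zero, mul_zero]
    positivity
  · rw [not_lt, norm_smul, norm_inv, Real.norm_of_nonneg hR.le, inv_mul_le_iff₀ hR] at hx
    exact mul_le_mul (hx.trans_eq (mul_comm _ _)) (hC _) (abs_nonneg _) (by positivity)

theorem fderiv_zero_off {g : E n → ℝ} {r : ℝ} (hg : ∀ x, r < ‖x‖ → g x = 0) (i : Fin n) :
    ∀ x, r < ‖x‖ → pd i g x = 0 := by
  intro x hx
  have h : g =ᶠ[𝓝 x] fun _ => 0 := by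
    filter_upwards [(isOpen_lt continuous_const continuous_norm).mem_nhds hx] with y hy
    exact hg y hy
  unfold pd
  rw [h.fderiv_eq]
  simp

theorem pd_zero_in {g : E n → ℝ} {r b : ℝ} (hg : ∀ x, ‖x‖ < r → g x = b) (i : Fin n) :
    ∀ x, ‖x‖ < r → pd i g x = 0 := by
  intro x hx
  have h : g =ᶠ[𝓝 x] fun _ => b := by
    filter_upwards [(isOpen_lt continuous_norm continuous_const).mem_nhds hx] with y hy
    exact hg y hy
  unfold pd
  rw [h.fderiv_eq]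
  simp

theorem bmp_off : ∀ x : E n, 2 < ‖x‖ → bmp n x = 0 := by
  intro x hx
  refine (bmp n).zero_of_le_dist ?_
  rw [dist_zero_right]
  exact hx.le

theorem pd_cut (R : ℝ) (i : Fin n) :
    pd i (cut n R) = fun x => R⁻¹ * pd i (bmp n) (R⁻¹ • x) :=
  pd_scale (bmp_smooth.differentiable (by simp)) R⁻¹ i

theorem hess_cut (R : ℝ) (i j : Fin n) (x : E n) :
    hess (cut n R) x i j = R⁻¹ * R⁻¹ * hess (bmp n) (R⁻¹ • x) i j := by
  unfold hess
  rw [pd_cut]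
  have h := pd_mul_scale (f := pd j (bmp n)) ((contDiff_pd_top bmp_smooth j).differentiable
    (by simp)) R⁻¹ R⁻¹ i
  exact congrFun h x

theorem pd_hess_cut (R : ℝ) (i j k : Fin n) (x : E n) :
    pd k (fun z => hess (cut n R) z i j) x
      = R⁻¹ * R⁻¹ * R⁻¹ * pd k (fun z => hess (bmp n) z i j) (R⁻¹ • x) := by
  have h0 : (fun z => hess (cut n R) z i j) = fun x => R⁻¹ * R⁻¹ * hess (bmp n) (R⁻¹ • x) i j := by
    funext z
    exact hess_cut R i j z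
  rw [h0]
  have h := pd_mul_scale (f := fun z => hess (bmp n) z i j)
    ((contDiff_hess_top bmp_smooth i j).differentiable (by simp)) (R⁻¹ * R⁻¹) R⁻¹ k
  exact congrFun h x

/-- the cutoff functions, with a constant independent of the radius -/
theorem exists_cut (n : ℕ) : ∃ C : ℝ, 0 ≤ C ∧ ∀ R : ℝ, 1 ≤ R → ∃ χ : E n → ℝ, Test χ ∧
    (∀ x, 0 ≤ χ x) ∧ (∀ x, χ x ≤ 1) ∧ (∀ x, ‖x‖ ≤ R → χ x = 1) ∧ (∀ x, 2 * R ≤ ‖x‖ → χ x = 0) ∧
    (∀ x i, |pd i χ x| ≤ C) ∧ (∀ x i j, |hess χ x i j| ≤ C) ∧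
    (∀ x i j k, |pd k (fun z => hess χ z i j) x| ≤ C) ∧
    (∀ x i, ‖x‖ * |pd i χ x| ≤ C) ∧ (∀ x i j, ‖x‖ * |hess χ x i j| ≤ C) ∧
    (∀ x i j k, ‖x‖ * |pd k (fun z => hess χ z i j) x| ≤ C) := by
  have hb : Test (bmp n : E n → ℝ) := ⟨bmp_smooth, bmp_hcs⟩
  have hb1 : ∀ i, Test (pd i (bmp n)) := fun i => pd_test hb i
  have hb2 : ∀ p : Fin n × Fin n, Test (fun z => hess (bmp n) z p.1 p.2) := fun p =>
    pd_test (hb1 p.2) p.1
  have hb3 : ∀ p : Fin n × Fin n × Fin n, Test (pd p.1 (fun z => hess (bmp n) z p.2.1 p.2.2)) :=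
    fun p => pd_test (hb2 p.2) p.1
  obtain ⟨C1, hC1, h1⟩ := bdd_fin hb1
  obtain ⟨C2, hC2, h2⟩ := bdd_fin hb2
  obtain ⟨C3, hC3, h3⟩ := bdd_fin hb3
  have o1 : ∀ i : Fin n, ∀ x, 2 < ‖x‖ → pd i (bmp n) x = 0 := fun i => fderiv_zero_off bmp_off i
  have o2 : ∀ i j : Fin n, ∀ x, 2 < ‖x‖ → hess (bmp n) x i j = 0 := fun i j =>
    fderiv_zero_off (o1 j) i
  have o3 : ∀ i j k : Fin n, ∀ x, 2 < ‖x‖ → pd k (fun z => hess (bmp n) z i j) x = 0 :=
    fun i j k => fderiv_zero_off (o2 i j) k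
  refine ⟨2 * C1 + 2 * C2 + 2 * C3, by positivity, fun R hR => ?_⟩
  have hR0 : 0 < R := lt_of_lt_of_le one_pos hR
  have hi : R⁻¹ ≤ 1 := inv_le_one_of_one_le₀ hR
  have hi0 : 0 < R⁻¹ := inv_pos.2 hR0
  have hii : R⁻¹ * R⁻¹ ≤ 1 := mul_le_one₀ hi hi0.le hi
  have hiii : R⁻¹ * R⁻¹ * R⁻¹ ≤ 1 := mul_le_one₀ hii hi0.le hi
  have hRR : R⁻¹ * R = 1 := inv_mul_cancel₀ hR0.ne'
  refine ⟨cut n R, cut_test hR0, cut_nonneg R, cut_le_one R, fun x hx => cut_one hR0 hx,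
    fun x hx => cut_zero hR0 hx, ?_, ?_, ?_, ?_, ?_, ?_⟩
  · intro x i
    rw [pd_cut, abs_mul, abs_of_pos hi0]
    have := h1 i (R⁻¹ • x)
    nlinarith [abs_nonneg (pd i (bmp n) (R⁻¹ • x))]
  · intro x i j
    rw [hess_cut, abs_mul, abs_of_pos (mul_pos hi0 hi0)]
    have := h2 (i, j) (R⁻¹ • x)
    simp only at this
    nlinarith [abs_nonneg (hess (bmp n) (R⁻¹ • x) i j)]
  · intro x i j k
    rw [pd_hess_cut, abs_mul, abs_of_pos (mul_pos (mul_pos hi0 hi0) hi0)]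
    have := h3 (k, i, j) (R⁻¹ • x)
    simp only at this
    nlinarith [abs_nonneg (pd k (fun z => hess (bmp n) z i j) (R⁻¹ • x))]
  · intro x i
    rw [pd_cut, abs_mul, abs_of_pos hi0]
    have := norm_mul_scale_le (h1 i) hC1 (o1 i) hR0 x
    calc ‖x‖ * (R⁻¹ * |pd i (bmp n) (R⁻¹ • x)|)
        = R⁻¹ * (‖x‖ * |pd i (bmp n) (R⁻¹ • x)|) := by ring
      _ ≤ R⁻¹ * (2 * R * C1) := by gcongr
      _ = 2 * C1 * (R⁻¹ * R) := by ring
      _ = 2 * C1 := by rw [hRR, mul_one]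
      _ ≤ _ := by linarith
  · intro x i j
    rw [hess_cut, abs_mul, abs_of_pos (mul_pos hi0 hi0)]
    have := norm_mul_scale_le (h2 (i, j)) hC2 (o2 i j) hR0 x
    simp only at this
    calc ‖x‖ * (R⁻¹ * R⁻¹ * |hess (bmp n) (R⁻¹ • x) i j|)
        = R⁻¹ * (R⁻¹ * (‖x‖ * |hess (bmp n) (R⁻¹ • x) i j|)) := by ring
      _ ≤ R⁻¹ * (R⁻¹ * (2 * R * C2)) := by gcongr
      _ = R⁻¹ * (2 * C2) * (R⁻¹ * R) := by ring
      _ = R⁻¹ * (2 * C2) := by rw [hRR, mul_one]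
      _ ≤ 1 * (2 * C2) := by gcongr
      _ ≤ _ := by linarith
  · intro x i j k
    rw [pd_hess_cut, abs_mul, abs_of_pos (mul_pos (mul_pos hi0 hi0) hi0)]
    have := norm_mul_scale_le (h3 (k, i, j)) hC3 (o3 i j k) hR0 x
    simp only at this
    calc ‖x‖ * (R⁻¹ * R⁻¹ * R⁻¹ * |pd k (fun z => hess (bmp n) z i j) (R⁻¹ • x)|)
        = R⁻¹ * R⁻¹ * (R⁻¹ * (‖x‖ * |pd k (fun z => hess (bmp n) z i j) (R⁻¹ • x)|)) := by ring
      _ ≤ R⁻¹ * R⁻¹ * (R⁻¹ * (2 * R * C3)) := by gcongr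
      _ = R⁻¹ * R⁻¹ * (2 * C3) * (R⁻¹ * R) := by ring
      _ = R⁻¹ * R⁻¹ * (2 * C3) := by rw [hRR, mul_one]
      _ ≤ 1 * (2 * C3) := by gcongr
      _ ≤ _ := by linarith

end Cut

/-- cut-offs with constants independent of `R` -/
theorem cutoff (n : ℕ) : ∃ C3 : ℝ, 0 < C3 ∧ ∀ R : ℝ, 1 ≤ R → ∃ χ : E n → ℝ, Test χ ∧
    (∀ x, |χ x| ≤ 1) ∧ (∀ x, ‖x‖ < R → χ x = 1) ∧ (∀ x, 2 * R < ‖x‖ → χ x = 0) ∧
    (∀ x a, |pd a χ x| ≤ C3 ∧ ‖x‖ * |pd a χ x| ≤ C3) ∧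
    (∀ x a b, |pd a (pd b χ) x| ≤ C3 ∧ ‖x‖ * |pd a (pd b χ) x| ≤ C3) ∧
    (∀ x a b d, |pd a (pd b (pd d χ)) x| ≤ C3) := by
  obtain ⟨C, hC, h⟩ := Cut.exists_cut n
  refine ⟨C + 1, by positivity, fun R hR => ?_⟩
  obtain ⟨χ, h0, h1, h2, h3, h4, h5, h6, h7, h8, h9, h10⟩ := h R hR
  refine ⟨χ, h0, fun x => ?_, fun x hx => h3 x hx.le, fun x hx => h4 x hx.le, fun x a => ?_,
    fun x a b => ?_, fun x a b d => ?_⟩
  · rw [abs_of_nonneg (h1 x)]
    exact h2 x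
  · exact ⟨(h5 x a).trans (by linarith), (h8 x a).trans (by linarith)⟩
  · exact ⟨(h6 x a b).trans (by linarith), (h9 x a b).trans (by linarith)⟩
  · exact (h7 x b d a).trans (by linarith)

/-- `τ` is bounded and Lipschitz -/
theorem tau_bdd {n : ℕ} {ψ V : E n → ℝ} {c C M : ℝ} (hM : MM ψ V c C M) :
    ∃ T : ℝ, 0 < T ∧ (∀ x i j, |tau ψ x i j| ≤ T) ∧ ∀ i j, Lp (fun x => tau ψ x i j) T := by
  have hc := hM.c_pos
  have h1 : 0 < 1 / c := by positivity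
  refine ⟨1 / c + (n : ℝ) ^ 2 * (1 / c) ^ 2 * |M|, by positivity, fun x i j => ?_, fun i j x y => ?_⟩
  · have h2 := Loc.tau_bdd hM x i j
    have h3 : 0 ≤ (n : ℝ) ^ 2 * (1 / c) ^ 2 * |M| := by positivity
    linarith
  · have h2 := Loc.tau_lip hM x y i j
    have h3 : (n : ℝ) ^ 2 * (1 / c) ^ 2 * M ≤ 1 / c + (n : ℝ) ^ 2 * (1 / c) ^ 2 * |M| := by
      have h4 : (n : ℝ) ^ 2 * (1 / c) ^ 2 * M ≤ (n : ℝ) ^ 2 * (1 / c) ^ 2 * |M| := by
        gcongr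
        exact le_abs_self M
      linarith
    exact h2.trans (mul_le_mul_of_nonneg_right h3 (norm_nonneg _))

end Vale.Agent.P227.M.LIN
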