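import Vale.Agent.P227.M.LIN.H1Defs

/-! # P227/M/LIN: kernel bounds for the second Friedrichs step (helper479). -/

open MeasureTheory Filter Metric Set
open scoped Topology

namespace Vale.Agent.P227.M.LIN

/-- reference bump, radii `1, 2` -/
noncomputable def bp0 (n : ℕ) : ContDiffBump (0 : E n) := ⟨1, 2, one_pos, one_lt_two⟩

lemma ker_bp_apply {n : ℕ} (m : ℕ) (x : E n) : (bp n m) x = (bp0 n) ((dl m / 2)⁻¹ • x) := by
  rw [ContDiffBump.apply, ContDiffBump.apply]
  have hd := dl_pos m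
  have h1 : (bp n m).rOut / (bp n m).rIn = 2 := by
    show dl m / (dl m / 2) = 2
    field_simp
  have h2 : (bp0 n).rOut / (bp0 n).rIn = 2 := by
    show (2 : ℝ) / 1 = 2
    norm_num
  rw [h1, h2]
  congr 1
  show (dl m / 2)⁻¹ • (x - 0) = (1 : ℝ)⁻¹ • ((dl m / 2)⁻¹ • x - 0)
  simp

lemma ker_rk_zero {n : ℕ} (m : ℕ) {x : E n} (hx : dl m ≤ ‖x‖) : rk m x = 0 := by
  have h : x ∉ Function.support ((bp n m).normed volume) := by
    rw [ContDiffBump.support_normed_eq]
    intro h
    rw [mem_ball_zero_iff] at h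
    exact absurd h (not_lt.2 hx)
  simpa [rk] using h

lemma ker_rk_cont {n : ℕ} (m : ℕ) : Continuous (rk (n := n) m) := (bp n m).continuous_normed

lemma ker_rk_int {n : ℕ} (m : ℕ) : ∫ x : E n, rk m x = 1 := (bp n m).integral_normed

theorem ker_bounds (n : ℕ) : ∃ C0 : ℝ, 0 < C0 ∧ ∀ m : ℕ, (∀ x : E n, 0 ≤ rk m x ∧ rk m x ≤ C0 * (dl m ^ n)⁻¹) ∧
    (∀ x y : E n, |rk m x - rk m y| ≤ C0 * (dl m ^ n)⁻¹ * (dl m)⁻¹ * ‖x - y‖) := by
  obtain ⟨L, hL⟩ := ContDiff.lipschitzWith_of_hasCompactSupport (n := 1) (bp0 n).hasCompactSupport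
    ((bp0 n).contDiff) one_ne_zero
  set ω : ℝ := volume.real (ball (0 : E n) 1) with hω
  have hωpos : 0 < ω := by
    rw [hω, measureReal_def]
    exact ENNReal.toReal_pos (measure_ball_pos volume _ one_pos).ne' measure_ball_lt_top.ne
  refine ⟨2 ^ n / ω * (2 * L + 1), by positivity, fun m => ?_⟩
  have hd := dl_pos m
  have hI : (dl m / 2) ^ n * ω ≤ ∫ x : E n, (bp n m) x := by
    have := (bp n m).measure_closedBall_le_integral (μ := volume)
    rw [Measure.addHaar_real_closedBall volume _ (bp n m).rIn_pos.le, finrank_euclideanSpace_fin] at this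
    exact this
  have hIpos : 0 < ∫ x : E n, (bp n m) x := lt_of_lt_of_le (by positivity) hI
  have hIinv : (∫ x : E n, (bp n m) x)⁻¹ ≤ 2 ^ n / ω * (dl m ^ n)⁻¹ := by
    rw [inv_le_comm₀ hIpos (by positivity)]
    refine le_trans (le_of_eq ?_) hI
    rw [div_pow]
    field_simp
  have hrk : ∀ x : E n, rk m x = (bp n m) x * (∫ x : E n, (bp n m) x)⁻¹ := by
    intro x
    rw [rk, ContDiffBump.normed_def, div_eq_mul_inv]
  constructor
  · intro x
    refine ⟨(bp n m).nonneg_normed x, ?_⟩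
    rw [hrk]
    calc (bp n m) x * (∫ x : E n, (bp n m) x)⁻¹ ≤ 1 * (2 ^ n / ω * (dl m ^ n)⁻¹) := by
          exact mul_le_mul (bp n m).le_one hIinv (by positivity) (by norm_num)
      _ ≤ 2 ^ n / ω * (2 * L + 1) * (dl m ^ n)⁻¹ := by
          have h3 : (0 : ℝ) ≤ 2 ^ n / ω * (dl m ^ n)⁻¹ := by positivity
          have h4 : (0 : ℝ) ≤ L := L.2
          nlinarith [mul_nonneg h3 h4]
  · intro x y
    rw [hrk, hrk, ← sub_mul, abs_mul, ker_bp_apply, ker_bp_apply, abs_of_pos (inv_pos.2 hIpos)]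
    have h1 : |(bp0 n) ((dl m / 2)⁻¹ • x) - (bp0 n) ((dl m / 2)⁻¹ • y)| ≤ L * (2 * (dl m)⁻¹ * ‖x - y‖) := by
      have := hL.dist_le_mul ((dl m / 2)⁻¹ • x) ((dl m / 2)⁻¹ • y)
      rw [Real.dist_eq, dist_eq_norm, ← smul_sub, norm_smul, Real.norm_eq_abs,
        abs_of_pos (by positivity : 0 < (dl m / 2)⁻¹)] at this
      refine this.trans (le_of_eq ?_)
      rw [inv_div]
      ring
    calc |(bp0 n) ((dl m / 2)⁻¹ • x) - (bp0 n) ((dl m / 2)⁻¹ • y)| * (∫ x : E n, (bp n m) x)⁻¹
        ≤ (L * (2 * (dl m)⁻¹ * ‖x - y‖)) * (2 ^ n / ω * (dl m ^ n)⁻¹) := by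
          refine mul_le_mul h1 hIinv (by positivity) ?_
          have h4 : (0 : ℝ) ≤ L := L.2
          positivity
      _ ≤ 2 ^ n / ω * (2 * L + 1) * (dl m ^ n)⁻¹ * (dl m)⁻¹ * ‖x - y‖ := by
          have h3 : (0 : ℝ) ≤ 2 ^ n / ω * (dl m ^ n)⁻¹ * (dl m)⁻¹ * ‖x - y‖ := by positivity
          nlinarith [h3]

lemma av_eq {n : ℕ} (m : ℕ) (g : E n → ℝ) (x : E n) :
    av m g x = (dl m ^ n)⁻¹ * ∫ y in ball x (2 * dl m), g y := by
  unfold av
  congr 1
  rw [← integral_indicator measurableSet_ball, ← integral_indicator measurableSet_ball,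
    ← integral_sub_left_eq_self _ volume x]
  refine integral_congr_ae (Eventually.of_forall fun t => ?_)
  simp only [indicator, mem_ball, dist_eq_norm, sub_zero, sub_sub_cancel]
  rw [norm_sub_rev x t]

lemma mo_eq {n : ℕ} (m : ℕ) (g : E n → ℝ) (x : E n) : mo m g x = ∫ y, rk m (x - y) * g y := by
  unfold mo
  rw [← integral_sub_left_eq_self _ volume x]
  simp

lemma av_nonneg {n : ℕ} (m : ℕ) {g : E n → ℝ} (hg : ∀ x, 0 ≤ g x) (x : E n) : 0 ≤ av m g x := by
  rw [av_eq]
  have hd := dl_pos m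
  exact mul_nonneg (by positivity) (integral_nonneg fun y => hg y)

/-- basic integral bound -/
lemma int_bd {n : ℕ} (m : ℕ) (x : E n) {Φ g : E n → ℝ} {A : ℝ} (hg : Continuous g)
    (h1 : ∀ y, 2 * dl m ≤ ‖x - y‖ → Φ y = 0) (h2 : ∀ y, |Φ y| ≤ A * |g y|) :
    |∫ y, Φ y| ≤ A * ∫ y in ball x (2 * dl m), |g y| := by
  have hint : IntegrableOn (fun y => A * |g y|) (ball x (2 * dl m)) :=
    ((continuous_const.mul hg.abs).continuousOn.integrableOn_compact (isCompact_closedBall x (2 * dl m))).mono_set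
      ball_subset_closedBall
  have : ‖∫ y, Φ y‖ ≤ ∫ y, (ball x (2 * dl m)).indicator (fun y => A * |g y|) y := by
    refine norm_integral_le_of_norm_le (hint.integrable_indicator measurableSet_ball)
      (Eventually.of_forall fun y => ?_)
    by_cases hy : y ∈ ball x (2 * dl m)
    · rw [indicator_of_mem hy]
      exact h2 y
    · rw [indicator_of_notMem hy, h1 y ?_, norm_zero]
      rw [mem_ball, dist_comm, dist_eq_norm, not_lt] at hy
      exact hy
  rw [integral_indicator measurableSet_ball, integral_const_mul] at this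
  exact this

lemma rk_mul_int {n : ℕ} (m : ℕ) {g : E n → ℝ} (hg : Continuous g) (x : E n) :
    Integrable (fun y => rk m (x - y) * g y) := by
  refine Continuous.integrable_of_hasCompactSupport
    (((ker_rk_cont m).comp (continuous_const.sub continuous_id)).mul hg) ?_
  refine HasCompactSupport.intro (isCompact_closedBall x (dl m)) (fun y hy => ?_)
  rw [mem_closedBall, dist_comm, dist_eq_norm, not_le] at hy
  rw [ker_rk_zero m hy.le, zero_mul]

theorem mo_bound (n : ℕ) : ∃ C0 : ℝ, 0 < C0 ∧ ∀ (m : ℕ) (g : E n → ℝ), Continuous g → ∀ x,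
    |mo m g x| ≤ C0 * av m (fun y => |g y|) x := by
  obtain ⟨C0, hC0, hk⟩ := ker_bounds n
  refine ⟨C0, hC0, fun m g hg x => ?_⟩
  have hd := dl_pos m
  rw [mo_eq, av_eq, ← mul_assoc]
  refine int_bd m x hg (fun y hy => ?_) (fun y => ?_)
  · rw [ker_rk_zero m (by linarith), zero_mul]
  · rw [abs_mul, abs_of_nonneg ((hk m).1 _).1]
    exact mul_le_mul_of_nonneg_right ((hk m).1 _).2 (abs_nonneg _)

lemma ker_norm_ei {n : ℕ} (b : Fin n) : ‖(ei b : E n)‖ = 1 := by
  simp [ei]

lemma step_norm {n : ℕ} (b : Fin n) (t : ℝ) (x : E n) : ‖x + t • ei b - x‖ = |t| := by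
  rw [add_sub_cancel_left, norm_smul, ker_norm_ei, mul_one, Real.norm_eq_abs]

theorem mo_locB (n : ℕ) : ∃ C0 : ℝ, 0 < C0 ∧ ∀ (m : ℕ) (g : E n → ℝ), Continuous g → ∀ x b,
    LocB b (mo m g) x (C0 * (dl m)⁻¹ * av m (fun y => |g y|) x) := by
  obtain ⟨C0, hC0, hk⟩ := ker_bounds n
  refine ⟨C0, hC0, fun m g hg x b => ?_⟩
  have hd := dl_pos m
  intro ε hε
  filter_upwards [Metric.ball_mem_nhds (0 : ℝ) hd] with t ht
  rw [mem_ball, Real.dist_eq, sub_zero] at ht
  have hst := step_norm b t x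
  set x' := x + t • ei b with hx'
  have key : |mo m g x' - mo m g x| ≤ (C0 * (dl m ^ n)⁻¹ * (dl m)⁻¹ * |t|) * ∫ y in ball x (2 * dl m), |g y| := by
    rw [mo_eq, mo_eq, ← integral_sub (rk_mul_int m hg x') (rk_mul_int m hg x)]
    refine int_bd m x hg (fun y hy => ?_) (fun y => ?_)
    · have h1 : dl m ≤ ‖x' - y‖ := by
        have h2 : ‖x - y‖ ≤ ‖x' - y‖ + ‖x' - x‖ := by
          have : x - y = (x' - y) - (x' - x) := by abel
          rw [this]
          exact norm_sub_le _ _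
        linarith [hst]
      rw [ker_rk_zero m h1, ker_rk_zero m (by linarith : dl m ≤ ‖x - y‖)]
      ring
    · rw [← sub_mul, abs_mul]
      refine mul_le_mul_of_nonneg_right ?_ (abs_nonneg _)
      have := (hk m).2 (x' - y) (x - y)
      rwa [sub_sub_sub_cancel_right, hst] at this
  have hav : 0 ≤ av m (fun y => |g y|) x := av_nonneg m (fun y => abs_nonneg _) x
  calc |mo m g x' - mo m g x| ≤ (C0 * (dl m ^ n)⁻¹ * (dl m)⁻¹ * |t|) * ∫ y in ball x (2 * dl m), |g y| := key
    _ = (C0 * (dl m)⁻¹ * av m (fun y => |g y|) x) * |t| := by rw [av_eq]; ring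
    _ ≤ (C0 * (dl m)⁻¹ * av m (fun y => |g y|) x + ε) * |t| := by
        refine mul_le_mul_of_nonneg_right (by linarith) (abs_nonneg _)

lemma cm_eq {n : ℕ} (m : ℕ) {a G : E n → ℝ} (ha : Continuous a) (hG : Continuous G) (x : E n) :
    cm m a G x = ∫ y, rk m (x - y) * ((a x - a y) * G y) := by
  unfold cm
  have h2 : Integrable (fun y => rk m (x - y) * (a y * G y)) := rk_mul_int m (ha.mul hG) x
  rw [mo_eq, mo_eq, ← integral_const_mul, ← integral_sub ((rk_mul_int m hG x).const_mul _) h2]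
  refine integral_congr_ae (Eventually.of_forall fun y => ?_)
  simp only []
  ring

theorem cm_bound (n : ℕ) : ∃ C0 : ℝ, 0 < C0 ∧ ∀ (m : ℕ) (a G : E n → ℝ) (K : ℝ), 0 ≤ K → Lp a K → Continuous a → Continuous G → ∀ x,
    |cm m a G x| ≤ C0 * K * av m (fun y => |G y|) x := by
  obtain ⟨C0, hC0, hk⟩ := ker_bounds n
  refine ⟨C0, hC0, fun m a G K hK hL ha hG x => ?_⟩
  have hd := dl_pos m
  have hd1 := dl_le_one m
  rw [cm_eq m ha hG, av_eq]
  have : |∫ y, rk m (x - y) * ((a x - a y) * G y)| ≤ (C0 * K * (dl m ^ n)⁻¹) * ∫ y in ball x (2 * dl m), |G y| := by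
    refine int_bd m x hG (fun y hy => ?_) (fun y => ?_)
    · rw [ker_rk_zero m (by linarith), zero_mul]
    · by_cases hy : dl m ≤ ‖x - y‖
      · rw [ker_rk_zero m hy, zero_mul, abs_zero]
        positivity
      · rw [not_le] at hy
        rw [abs_mul, abs_mul, abs_of_nonneg ((hk m).1 _).1]
        have h1 : |a x - a y| ≤ K := by
          refine (hL x y).trans ?_
          nlinarith
        calc rk m (x - y) * (|a x - a y| * |G y|) ≤ (C0 * (dl m ^ n)⁻¹) * (K * |G y|) := by
              refine mul_le_mul ((hk m).1 _).2 (mul_le_mul_of_nonneg_right h1 (abs_nonneg _)) (by positivity) (by positivity)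
          _ = C0 * K * (dl m ^ n)⁻¹ * |G y| := by ring
  refine this.trans (le_of_eq ?_)
  ring

theorem cm_locB (n : ℕ) : ∃ C0 : ℝ, 0 < C0 ∧ ∀ (m : ℕ) (a G : E n → ℝ) (K : ℝ), 0 ≤ K → Lp a K → Continuous a → Continuous G → ∀ x b,
    LocB b (cm m a G) x (C0 * K * av m (fun y => |G y|) x) := by
  obtain ⟨C0, hC0, hk⟩ := ker_bounds n
  refine ⟨3 * C0, by positivity, fun m a G K hK hL ha hG x b => ?_⟩
  have hd := dl_pos m
  intro ε hε
  filter_upwards [Metric.ball_mem_nhds (0 : ℝ) hd] with t ht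
  rw [mem_ball, Real.dist_eq, sub_zero] at ht
  have hst := step_norm b t x
  set x' := x + t • ei b with hx'
  have key : |cm m a G x' - cm m a G x| ≤ (3 * C0 * K * (dl m ^ n)⁻¹ * |t|) * ∫ y in ball x (2 * dl m), |G y| := by
    have i1 : ∀ z : E n, Integrable (fun y => rk m (z - y) * ((a z - a y) * G y)) := fun z =>
      rk_mul_int m ((continuous_const.sub ha).mul hG) z
    rw [cm_eq m ha hG, cm_eq m ha hG, ← integral_sub (i1 x') (i1 x)]
    refine int_bd m x hG (fun y hy => ?_) (fun y => ?_)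
    · have h1 : dl m ≤ ‖x' - y‖ := by
        have h2 : ‖x - y‖ ≤ ‖x' - y‖ + ‖x' - x‖ := by
          have : x - y = (x' - y) - (x' - x) := by abel
          rw [this]
          exact norm_sub_le _ _
        linarith [hst]
      rw [ker_rk_zero m h1, ker_rk_zero m (by linarith : dl m ≤ ‖x - y‖)]
      ring
    · by_cases hy : 2 * dl m ≤ ‖x - y‖
      · have h1 : dl m ≤ ‖x' - y‖ := by
          have h2 : ‖x - y‖ ≤ ‖x' - y‖ + ‖x' - x‖ := by
            have : x - y = (x' - y) - (x' - x) := by abel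
            rw [this]
            exact norm_sub_le _ _
          linarith [hst]
        rw [ker_rk_zero m h1, ker_rk_zero m (by linarith : dl m ≤ ‖x - y‖), zero_mul, zero_mul, sub_zero, abs_zero]
        positivity
      · rw [not_le] at hy
        have e : rk m (x' - y) * ((a x' - a y) * G y) - rk m (x - y) * ((a x - a y) * G y) =
            ((rk m (x' - y) - rk m (x - y)) * (a x - a y) + rk m (x' - y) * (a x' - a x)) * G y := by ring
        rw [e, abs_mul]
        refine mul_le_mul_of_nonneg_right ?_ (abs_nonneg _)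
        have h1 := (hk m).2 (x' - y) (x - y)
        rw [sub_sub_sub_cancel_right, hst] at h1
        have h2 : |a x - a y| ≤ K * (2 * dl m) := (hL x y).trans (mul_le_mul_of_nonneg_left hy.le hK)
        have h3 : |a x' - a x| ≤ K * |t| := by
          have := hL x' x
          rwa [hst] at this
        have h4 := (hk m).1 (x' - y)
        calc |(rk m (x' - y) - rk m (x - y)) * (a x - a y) + rk m (x' - y) * (a x' - a x)|
            ≤ |rk m (x' - y) - rk m (x - y)| * |a x - a y| + |rk m (x' - y)| * |a x' - a x| := by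
              refine (abs_add_le _ _).trans ?_
              rw [abs_mul, abs_mul]
          _ ≤ (C0 * (dl m ^ n)⁻¹ * (dl m)⁻¹ * |t|) * (K * (2 * dl m)) + (C0 * (dl m ^ n)⁻¹) * (K * |t|) := by
              rw [abs_of_nonneg h4.1]
              refine add_le_add (mul_le_mul h1 h2 (abs_nonneg _) (by positivity))
                (mul_le_mul h4.2 h3 (abs_nonneg _) (by positivity))
          _ = 3 * C0 * K * (dl m ^ n)⁻¹ * |t| := by
              field_simp
              ring
  have hav : 0 ≤ av m (fun y => |G y|) x := av_nonneg m (fun y => abs_nonneg _) x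
  calc |cm m a G x' - cm m a G x| ≤ (3 * C0 * K * (dl m ^ n)⁻¹ * |t|) * ∫ y in ball x (2 * dl m), |G y| := key
    _ = (3 * C0 * K * av m (fun y => |G y|) x) * |t| := by rw [av_eq]; ring
    _ ≤ (3 * C0 * K * av m (fun y => |G y|) x + ε) * |t| := by
        refine mul_le_mul_of_nonneg_right (by linarith) (abs_nonneg _)

end Vale.Agent.P227.M.LIN
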