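import Vale.Agent.P227.M.LIN.H1Defs

/-! # LIN-4, part LEB: mollification of Lipschitz functions with compact support. -/

open MeasureTheory Filter Metric Set
open scoped Topology

namespace Vale.Agent.P227.M.LIN

private theorem lw700 {n : ℕ} {g : E n → ℝ} {K : ℝ} (hg : Lp g K) : LipschitzWith K.toNNReal g := by
  refine LipschitzWith.of_dist_le_mul fun x y => ?_
  rw [Real.dist_eq, dist_eq_norm]
  exact (hg x y).trans (mul_le_mul_of_nonneg_right (Real.le_coe_toNNReal K) (norm_nonneg _))

theorem lip_ae {n : ℕ} {g : E n → ℝ} {K : ℝ} (hg : Lp g K) : ∀ᵐ x, DifferentiableAt ℝ g x :=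
  (lw700 hg).ae_differentiableAt

private theorem rkc700 {n : ℕ} (m : ℕ) : Continuous (rk (n := n) m) := (bp n m).continuous_normed

private theorem rkn700 {n : ℕ} (m : ℕ) (x : E n) : 0 ≤ rk m x := (bp n m).nonneg_normed x

private theorem rks700 {n : ℕ} (m : ℕ) : HasCompactSupport (rk (n := n) m) :=
  (bp n m).hasCompactSupport_normed

private theorem rki700 {n : ℕ} (m : ℕ) : Integrable (rk (n := n) m) :=
  (rkc700 m).integrable_of_hasCompactSupport (rks700 m)

private theorem rk1700 {n : ℕ} (m : ℕ) : ∫ x, rk (n := n) m x = 1 := (bp n m).integral_normed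

private theorem rk0700 {n : ℕ} (m : ℕ) {x : E n} (hx : 1 < ‖x‖) : rk m x = 0 := by
  have h : x ∉ Function.support (rk (n := n) m) := by
    have : Function.support (rk (n := n) m) = ball (0 : E n) (dl m) := (bp n m).support_normed_eq
    rw [this, mem_ball_zero_iff]
    have := dl_le_one m
    linarith
  simpa using h

private theorem normfd700 {n : ℕ} {g : E n → ℝ} {K : ℝ} (hg : Lp g K) (x : E n) :
    ‖fderiv ℝ g x‖ ≤ max K 0 := by
  have := norm_fderiv_le_of_lipschitz (x₀ := x) ℝ (lw700 hg)
  rwa [Real.coe_toNNReal'] at this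

private theorem pdb700 {n : ℕ} {g : E n → ℝ} {K : ℝ} (hg : Lp g K) (b : Fin n) (x : E n) :
    |pd b g x| ≤ max K 0 := by
  unfold pd
  rw [← Real.norm_eq_abs]
  refine ((fderiv ℝ g x).le_opNorm _).trans ?_
  have : ‖(ei b : E n)‖ = 1 := by simp [ei]
  rw [this, mul_one]
  exact normfd700 hg x

private theorem pdm700 {n : ℕ} (g : E n → ℝ) (b : Fin n) : Measurable (pd b g) := by
  unfold pd
  exact measurable_fderiv_apply_const ℝ g (ei b)

private theorem aedif700 {n : ℕ} {g : E n → ℝ} {K : ℝ} (hg : Lp g K) (x : E n) :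
    ∀ᵐ t, DifferentiableAt ℝ g (x - t) :=
  (quasiMeasurePreserving_sub_left (volume : Measure (E n)) x).ae (lip_ae hg)

/-- the mollification of a Lipschitz function is differentiable, and `∂_b` commutes -/
theorem lip_mo_aux {n : ℕ} {g : E n → ℝ} {K : ℝ} (hg : Lp g K) (m : ℕ) (x : E n) :
    Integrable (fun t => rk m t • fderiv ℝ g (x - t)) ∧
      HasFDerivAt (mo m g) (∫ t, rk m t • fderiv ℝ g (x - t)) x := by
  have hgc : Continuous g := (lw700 hg).continuous
  have hcont : ∀ y : E n, Continuous fun t => rk m t * g (y - t) := fun y =>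
    (rkc700 m).mul (hgc.comp (continuous_const.sub continuous_id))
  have hcs : ∀ y : E n, HasCompactSupport fun t => rk m t * g (y - t) := fun y =>
    (rks700 m).mul_right
  refine hasFDerivAt_integral_of_dominated_loc_of_lip (𝕜 := ℝ) (μ := volume)
    (F := fun y t => rk m t * g (y - t)) (F' := fun t => rk m t • fderiv ℝ g (x - t))
    (bound := fun t => rk m t * K.toNNReal) (s := univ) univ_mem ?_ ?_ ?_ ?_ ?_ ?_
  · exact Eventually.of_forall fun y => (hcont y).aestronglyMeasurable
  · exact (hcont x).integrable_of_hasCompactSupport (hcs x)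
  · refine AEStronglyMeasurable.smul (rkc700 m).aestronglyMeasurable ?_
    exact ((measurable_fderiv ℝ g).comp (measurable_const.sub measurable_id)).aestronglyMeasurable
  · refine Eventually.of_forall fun t => ?_
    refine LipschitzWith.lipschitzOnWith ?_
    refine LipschitzWith.of_dist_le_mul fun y z => ?_
    have h1 : dist (g (y - t)) (g (z - t)) ≤ K.toNNReal * dist (y - t) (z - t) := (lw700 hg).dist_le_mul _ _
    rw [dist_sub_right] at h1
    have h2 : dist (rk m t * g (y - t)) (rk m t * g (z - t)) = rk m t * dist (g (y - t)) (g (z - t)) := by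
      rw [Real.dist_eq, Real.dist_eq, ← mul_sub, abs_mul, abs_of_nonneg (rkn700 m t)]
    show dist (rk m t * g (y - t)) (rk m t * g (z - t)) ≤ _
    rw [h2, Real.coe_nnabs, abs_of_nonneg (mul_nonneg (rkn700 m t) (NNReal.coe_nonneg _)), mul_assoc]
    exact mul_le_mul_of_nonneg_left h1 (rkn700 m t)
  · exact (rki700 m).mul_const _
  · filter_upwards [aedif700 hg x] with t ht
    have h1 : HasFDerivAt (fun y => g (y - t)) (fderiv ℝ g (x - t)) x := by
      have h0 : HasFDerivAt (fun y : E n => y - t) (ContinuousLinearMap.id ℝ (E n)) x :=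
        (hasFDerivAt_id x).sub_const t
      have := HasFDerivAt.comp x (f := fun y : E n => y - t) (g := g) ht.hasFDerivAt h0
      rwa [ContinuousLinearMap.comp_id] at this
    exact h1.const_mul (rk m t)

theorem lip_mo {n : ℕ} {g : E n → ℝ} {K : ℝ} (hg : Lp g K) (hs : HasCompactSupport g) (m : ℕ) (x : E n) :
    DifferentiableAt ℝ (mo m g) x ∧ ∀ b, pd b (mo m g) x = mo m (pd b g) x := by
  obtain ⟨h1, h2⟩ := lip_mo_aux hg m x
  refine ⟨h2.differentiableAt, fun b => ?_⟩
  unfold pd
  rw [h2.fderiv, ContinuousLinearMap.integral_apply h1]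
  rfl

private theorem pdli700 {n : ℕ} {g : E n → ℝ} {K : ℝ} (hg : Lp g K) (b : Fin n) :
    LocallyIntegrable (pd b g) := by
  have hc : LocallyIntegrable (fun _ : E n => max K 0) := continuous_const.locallyIntegrable
  refine hc.mono (pdm700 g b).aestronglyMeasurable (Eventually.of_forall fun x => ?_)
  rw [Real.norm_eq_abs, Real.norm_eq_abs, abs_of_nonneg (le_max_right K 0)]
  exact pdb700 hg b x

private theorem mob700 {n : ℕ} {g : E n → ℝ} {K : ℝ} (hg : Lp g K) (b : Fin n) (m : ℕ) (x : E n) :
    |mo m (pd b g) x| ≤ max K 0 := by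
  unfold mo
  rw [← Real.norm_eq_abs]
  calc ‖∫ t, rk m t * pd b g (x - t)‖ ≤ ∫ t, rk m t * max K 0 := by
        refine norm_integral_le_of_norm_le ((rki700 m).mul_const _) (Eventually.of_forall fun t => ?_)
        rw [norm_mul, Real.norm_eq_abs, Real.norm_eq_abs, abs_of_nonneg (rkn700 m t)]
        exact mul_le_mul_of_nonneg_left (pdb700 hg b _) (rkn700 m t)
    _ = max K 0 := by rw [integral_mul_const, rk1700, one_mul]

/-- integrability of the square and convergence, `V` continuous -/
theorem leb {n : ℕ} {V g : E n → ℝ} {K : ℝ} (hV : Continuous V) (hg : Lp g K) (hs : HasCompactSupport g) (b : Fin n) :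
    (∀ m, Integrable (fun x => (pd b g x - mo m (pd b g) x) ^ 2 * Real.exp (-V x))) ∧
    Tendsto (fun m => ∫ x, (pd b g x - mo m (pd b g) x) ^ 2 * Real.exp (-V x)) atTop (𝓝 0) := by
  classical
  -- radius of the support
  obtain ⟨R, hR⟩ : ∃ R : ℝ, ∀ x : E n, R < ‖x‖ → pd b g x = 0 := by
    obtain ⟨R, hR⟩ := hs.isCompact.isBounded.subset_closedBall (0 : E n)
    refine ⟨R, fun x hx => ?_⟩
    have h1 : x ∉ tsupport g := fun h => by
      have := hR h
      rw [mem_closedBall_zero_iff] at this
      linarith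
    have h2 : x ∉ tsupport (fderiv ℝ g) := fun h => h1 (tsupport_fderiv_subset ℝ h)
    unfold pd
    rw [image_eq_zero_of_notMem_tsupport h2]
    rfl
  have hmo : ∀ m, ∀ x : E n, R + 1 < ‖x‖ → mo m (pd b g) x = 0 := by
    intro m x hx
    unfold mo
    refine integral_eq_zero_of_ae (Eventually.of_forall fun t => ?_)
    show rk m t * pd b g (x - t) = 0
    by_cases ht : 1 < ‖t‖
    · rw [rk0700 m ht, zero_mul]
    · rw [hR (x - t), mul_zero]
      have := norm_sub_norm_le x t
      push Not at ht
      linarith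
  have hdiff : ∀ m, Continuous (mo m (pd b g)) := by
    intro m
    have h1 : Continuous (convolution (rk (n := n) m) (pd b g) (ContinuousLinearMap.lsmul ℝ ℝ) volume) :=
      (rks700 m).continuous_convolution_left _ (rkc700 m) (pdli700 hg b)
    exact h1
  set B : ℝ := 2 * max K 0 with hB
  have hB0 : 0 ≤ B := by positivity
  have hbd : ∀ m x, |pd b g x - mo m (pd b g) x| ≤ B := by
    intro m x
    have h1 := pdb700 hg b x
    have h2 := mob700 hg b m x
    calc |pd b g x - mo m (pd b g) x| ≤ |pd b g x| + |mo m (pd b g) x| := abs_sub _ _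
      _ ≤ B := by rw [hB]; linarith
  set bd : E n → ℝ := fun x => (closedBall (0 : E n) (R + 1)).indicator (fun x => B ^ 2 * Real.exp (-V x)) x
    with hbdd
  have hbdi : Integrable bd := by
    rw [hbdd]
    refine (integrable_indicator_iff isClosed_closedBall.measurableSet).2 ?_
    exact (continuous_const.mul (Real.continuous_exp.comp hV.neg)).continuousOn.integrableOn_compact
      (isCompact_closedBall _ _)
  have hle : ∀ m x, ‖(pd b g x - mo m (pd b g) x) ^ 2 * Real.exp (-V x)‖ ≤ bd x := by
    intro m x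
    rw [hbdd]
    by_cases hx : x ∈ closedBall (0 : E n) (R + 1)
    · simp only [indicator_of_mem hx]
      rw [norm_mul, norm_pow, Real.norm_eq_abs, Real.norm_eq_abs, Real.abs_exp]
      have := hbd m x
      have h0 := abs_nonneg (pd b g x - mo m (pd b g) x)
      gcongr
    · simp only [indicator_of_notMem hx]
      rw [mem_closedBall_zero_iff] at hx
      push Not at hx
      rw [hR x (by linarith), hmo m x hx]
      simp
  have hmeas : ∀ m, AEStronglyMeasurable (fun x => (pd b g x - mo m (pd b g) x) ^ 2 * Real.exp (-V x)) volume := by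
    intro m
    refine Measurable.aestronglyMeasurable ?_
    exact (((pdm700 g b).sub (hdiff m).measurable).pow_const 2).mul
      (Real.continuous_exp.comp hV.neg).measurable
  refine ⟨fun m => hbdi.mono' (hmeas m) (Eventually.of_forall (hle m)), ?_⟩
  have hlim : ∀ᵐ x : E n, Tendsto (fun m => mo m (pd b g) x) atTop (𝓝 (pd b g x)) := by
    have := ContDiffBump.ae_convolution_tendsto_right_of_locallyIntegrable (μ := (volume : Measure (E n)))
      (φ := fun m => bp n m) (l := atTop) (K := 2) (g := pd b g) dl_tendsto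
      (Eventually.of_forall fun m => by
        show dl m ≤ 2 * (dl m / 2)
        linarith) (pdli700 hg b)
    exact this
  have h0 : (0 : ℝ) = ∫ _x : E n, (0 : ℝ) := by simp
  rw [h0]
  refine tendsto_integral_of_dominated_convergence bd hmeas hbdi
    (fun m => Eventually.of_forall (hle m)) ?_
  filter_upwards [hlim] with x hx
  have h1 : Tendsto (fun m => pd b g x - mo m (pd b g) x) atTop (𝓝 (pd b g x - pd b g x)) :=
    tendsto_const_nhds.sub hx
  have h2 := (h1.pow 2).mul_const (Real.exp (-V x))
  simpa using h2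

end Vale.Agent.P227.M.LIN
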