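import Vale.Agent.P227.M.LIN.H1Defs

/-! # P227/M/LIN: calculus of the local Lipschitz bounds `LocB`. -/

open MeasureTheory Filter Metric Set
open scoped Topology

namespace Vale.Agent.P227.M.LIN

theorem LocB.mono {n : ℕ} {b : Fin n} {f : E n → ℝ} {x : E n} {K K' : ℝ} (hf : LocB b f x K)
    (h : K ≤ K') : LocB b f x K' := by
  intro ε hε
  filter_upwards [hf ε hε] with t ht
  exact ht.trans (mul_le_mul_of_nonneg_right (by linarith) (abs_nonneg t))

theorem LocB.add {n : ℕ} {b : Fin n} {f g : E n → ℝ} {x : E n} {K K' : ℝ} (hf : LocB b f x K) (hg : LocB b g x K') :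
    LocB b (fun y => f y + g y) x (K + K') := by
  intro ε hε
  filter_upwards [hf (ε / 2) (by positivity), hg (ε / 2) (by positivity)] with t h1 h2
  have e : f (x + t • ei b) + g (x + t • ei b) - (f x + g x) =
      (f (x + t • ei b) - f x) + (g (x + t • ei b) - g x) := by ring
  rw [e]
  calc |(f (x + t • ei b) - f x) + (g (x + t • ei b) - g x)|
      ≤ |f (x + t • ei b) - f x| + |g (x + t • ei b) - g x| := abs_add_le _ _
    _ ≤ (K + ε / 2) * |t| + (K' + ε / 2) * |t| := add_le_add h1 h2
    _ = (K + K' + ε) * |t| := by ring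

theorem LocB.neg {n : ℕ} {b : Fin n} {f : E n → ℝ} {x : E n} {K : ℝ} (hf : LocB b f x K) :
    LocB b (fun y => - f y) x K := by
  intro ε hε
  filter_upwards [hf ε hε] with t ht
  have e : - f (x + t • ei b) - - f x = - (f (x + t • ei b) - f x) := by ring
  rw [e, abs_neg]
  exact ht

theorem LocB.sub {n : ℕ} {b : Fin n} {f g : E n → ℝ} {x : E n} {K K' : ℝ} (hf : LocB b f x K) (hg : LocB b g x K') :
    LocB b (fun y => f y - g y) x (K + K') := by
  have := hf.add hg.neg
  simpa [sub_eq_add_neg] using this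

theorem LocB.const_mul {n : ℕ} {b : Fin n} {f : E n → ℝ} {x : E n} {K : ℝ} (a : ℝ) (hf : LocB b f x K) :
    LocB b (fun y => a * f y) x (|a| * K) := by
  intro ε hε
  have ha : 0 < |a| + 1 := by positivity
  filter_upwards [hf (ε / (|a| + 1)) (by positivity)] with t ht
  have e : a * f (x + t • ei b) - a * f x = a * (f (x + t • ei b) - f x) := by ring
  rw [e, abs_mul]
  calc |a| * |f (x + t • ei b) - f x| ≤ |a| * ((K + ε / (|a| + 1)) * |t|) :=
        mul_le_mul_of_nonneg_left ht (abs_nonneg a)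
    _ = (|a| * K + |a| * (ε / (|a| + 1))) * |t| := by ring
    _ ≤ (|a| * K + ε) * |t| := by
        refine mul_le_mul_of_nonneg_right ?_ (abs_nonneg t)
        have : |a| * (ε / (|a| + 1)) ≤ ε := by
          rw [mul_div_assoc', div_le_iff₀ ha]
          nlinarith [abs_nonneg a]
        linarith

theorem LocB.const {n : ℕ} (b : Fin n) (a : ℝ) (x : E n) : LocB b (fun _ => a) x 0 := by
  intro ε hε
  filter_upwards with t
  rw [sub_self, abs_zero, zero_add]
  positivity

theorem LocB.sum {n : ℕ} {b : Fin n} {ι : Type*} (s : Finset ι) {f : ι → E n → ℝ} {x : E n} {K : ι → ℝ}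
    (hf : ∀ i ∈ s, LocB b (f i) x (K i)) : LocB b (fun y => ∑ i ∈ s, f i y) x (∑ i ∈ s, K i) := by
  classical
  induction s using Finset.induction_on with
  | empty => simpa using LocB.const b 0 x
  | insert i s hi ih =>
    have h1 := hf i (Finset.mem_insert_self i s)
    have h2 := ih (fun j hj => hf j (Finset.mem_insert_of_mem hj))
    have h3 := h1.add h2
    simpa only [Finset.sum_insert hi] using h3

theorem LocB.mul {n : ℕ} {b : Fin n} {f g : E n → ℝ} {x : E n} {K K' : ℝ} (hf : LocB b f x K) (hg : LocB b g x K')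
    (hK : 0 ≤ K) (hK' : 0 ≤ K') : LocB b (fun y => f y * g y) x (|f x| * K' + |g x| * K) := by
  intro ε hε
  set D : ℝ := |f x| + |g x| + (K + 1) * (K' + 1) with hD
  have hDpos : 0 < D := by
    have h1 := abs_nonneg (f x)
    have h2 := abs_nonneg (g x)
    have h3 : 0 < (K + 1) * (K' + 1) := by positivity
    linarith
  set η : ℝ := min 1 (ε / D) with hη
  have hη0 : 0 < η := lt_min one_pos (by positivity)
  have hη1 : η ≤ 1 := min_le_left _ _
  have hηD : η * D ≤ ε := by
    have : η ≤ ε / D := min_le_right _ _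
    calc η * D ≤ ε / D * D := mul_le_mul_of_nonneg_right this hDpos.le
      _ = ε := by field_simp
  have hsmall : ∀ᶠ t in 𝓝 (0 : ℝ), |t| ≤ η := by
    have : Tendsto (fun t : ℝ => |t|) (𝓝 0) (𝓝 |0|) := (continuous_abs).tendsto 0
    rw [abs_zero] at this
    filter_upwards [this.eventually (gt_mem_nhds hη0)] with t ht
    exact ht.le
  filter_upwards [hf η hη0, hg η hη0, hsmall] with t h1 h2 h3
  have e : f (x + t • ei b) * g (x + t • ei b) - f x * g x =
      (f (x + t • ei b) - f x) * (g (x + t • ei b) - g x) + f x * (g (x + t • ei b) - g x)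
        + g x * (f (x + t • ei b) - f x) := by ring
  have ht0 := abs_nonneg t
  have hf0 := abs_nonneg (f x)
  have hg0 := abs_nonneg (g x)
  rw [e]
  have a1 : |(f (x + t • ei b) - f x) * (g (x + t • ei b) - g x)| ≤ (K + 1) * (K' + 1) * η * |t| := by
    rw [abs_mul]
    calc |f (x + t • ei b) - f x| * |g (x + t • ei b) - g x|
        ≤ ((K + η) * |t|) * ((K' + η) * |t|) :=
          mul_le_mul h1 h2 (abs_nonneg _) (by positivity)
      _ ≤ ((K + 1) * |t|) * ((K' + 1) * η) := by
          refine mul_le_mul ?_ ?_ (by positivity) (by positivity)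
          · exact mul_le_mul_of_nonneg_right (by linarith) ht0
          · exact mul_le_mul (by linarith) h3 ht0 (by positivity)
      _ = (K + 1) * (K' + 1) * η * |t| := by ring
  have a2 : |f x * (g (x + t • ei b) - g x)| ≤ |f x| * ((K' + η) * |t|) := by
    rw [abs_mul]
    exact mul_le_mul_of_nonneg_left h2 hf0
  have a3 : |g x * (f (x + t • ei b) - f x)| ≤ |g x| * ((K + η) * |t|) := by
    rw [abs_mul]
    exact mul_le_mul_of_nonneg_left h1 hg0
  calc |(f (x + t • ei b) - f x) * (g (x + t • ei b) - g x) + f x * (g (x + t • ei b) - g x)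
        + g x * (f (x + t • ei b) - f x)|
      ≤ |(f (x + t • ei b) - f x) * (g (x + t • ei b) - g x) + f x * (g (x + t • ei b) - g x)|
        + |g x * (f (x + t • ei b) - f x)| := abs_add_le _ _
    _ ≤ |(f (x + t • ei b) - f x) * (g (x + t • ei b) - g x)| + |f x * (g (x + t • ei b) - g x)|
        + |g x * (f (x + t • ei b) - f x)| := by
          have := abs_add_le ((f (x + t • ei b) - f x) * (g (x + t • ei b) - g x))
            (f x * (g (x + t • ei b) - g x))
          linarith
    _ ≤ (K + 1) * (K' + 1) * η * |t| + |f x| * ((K' + η) * |t|) + |g x| * ((K + η) * |t|) := by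
          linarith
    _ = (|f x| * K' + |g x| * K + η * D) * |t| := by rw [hD]; ring
    _ ≤ (|f x| * K' + |g x| * K + ε) * |t| :=
          mul_le_mul_of_nonneg_right (by linarith) ht0

/-- the directional derivative along the line -/
theorem LocB.hasDerivAt_line {n : ℕ} {f : E n → ℝ} {x : E n} (b : Fin n) (hf : DifferentiableAt ℝ f x) :
    HasDerivAt (fun t : ℝ => f (x + t • ei b)) (pd b f x) 0 := by
  have h1 : HasFDerivAt f (fderiv ℝ f x) (x + (0 : ℝ) • ei b) := by
    rw [zero_smul, add_zero]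
    exact hf.hasFDerivAt
  have h2 : HasDerivAt (fun t : ℝ => x + t • (ei b : E n)) (ei b) 0 := by
    have := ((hasDerivAt_id (0 : ℝ)).smul_const (ei b : E n)).const_add x
    simpa using this
  exact h1.comp_hasDerivAt 0 h2

theorem LocB.of_diff {n : ℕ} {b : Fin n} {f : E n → ℝ} {x : E n} (hf : DifferentiableAt ℝ f x) :
    LocB b f x |pd b f x| := by
  intro ε hε
  have h := LocB.hasDerivAt_line b hf
  have h2 := (hasDerivAt_iff_isLittleO.mp h).def hε
  filter_upwards [h2] with t ht
  simp only [sub_zero, zero_smul, add_zero, smul_eq_mul, Real.norm_eq_abs] at ht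
  have e : f (x + t • ei b) - f x = (f (x + t • ei b) - f x - t * pd b f x) + t * pd b f x := by ring
  rw [e]
  calc |(f (x + t • ei b) - f x - t * pd b f x) + t * pd b f x|
      ≤ |f (x + t • ei b) - f x - t * pd b f x| + |t * pd b f x| := abs_add_le _ _
    _ ≤ ε * |t| + |t| * |pd b f x| := by rw [abs_mul]; linarith
    _ = (|pd b f x| + ε) * |t| := by ring

theorem LocB.pd_le {n : ℕ} {b : Fin n} {f : E n → ℝ} {x : E n} {K : ℝ} (hf : LocB b f x K) (hK : 0 ≤ K) :
    |pd b f x| ≤ K := by
  by_cases hd : DifferentiableAt ℝ f x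
  · have h := LocB.hasDerivAt_line b hd
    have hs := h.tendsto_slope_zero
    simp only [zero_add, zero_smul, add_zero, smul_eq_mul] at hs
    refine le_of_forall_pos_le_add (fun ε hε => ?_)
    have habs : Tendsto (fun t : ℝ => |t⁻¹ * (f (x + t • ei b) - f x)|) (𝓝[≠] 0) (𝓝 |pd b f x|) := hs.abs
    refine le_of_tendsto habs ?_
    have h1 : ∀ᶠ t in 𝓝[≠] (0 : ℝ), |f (x + t • ei b) - f x| ≤ (K + ε) * |t| :=
      (hf ε hε).filter_mono nhdsWithin_le_nhds
    have h2 : ∀ᶠ t in 𝓝[≠] (0 : ℝ), t ≠ 0 := eventually_mem_nhdsWithin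
    filter_upwards [h1, h2] with t h3 h4
    have ht : 0 < |t| := abs_pos.mpr h4
    rw [abs_mul, abs_inv, inv_mul_le_iff₀ ht]
    linarith
  · unfold pd
    rw [fderiv_zero_of_not_differentiableAt hd]
    simpa using hK

theorem LocB.norm_ei_one {n : ℕ} (b : Fin n) : ‖(ei b : E n)‖ = 1 := by
  simp [ei]

theorem LocB.of_lp {n : ℕ} {b : Fin n} {f : E n → ℝ} {K : ℝ} (hf : Lp f K) (x : E n) :
    LocB b f x K := by
  intro ε hε
  filter_upwards with t
  have h := hf (x + t • ei b) x
  have e : ‖x + t • ei b - x‖ = |t| := by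
    rw [add_sub_cancel_left, norm_smul, LocB.norm_ei_one, mul_one, Real.norm_eq_abs]
  rw [e] at h
  exact h.trans (mul_le_mul_of_nonneg_right (by linarith) (abs_nonneg t))

theorem LocB.congr {n : ℕ} {b : Fin n} {f g : E n → ℝ} {x : E n} {K : ℝ}
    (hfg : ∀ᶠ y in 𝓝 x, f y = g y) (hf : LocB b f x K) : LocB b g x K := by
  intro ε hε
  have hc : Tendsto (fun t : ℝ => x + t • (ei b : E n)) (𝓝 0) (𝓝 x) := by
    have : Continuous (fun t : ℝ => x + t • (ei b : E n)) := by fun_prop
    have h := this.tendsto 0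
    simpa using h
  filter_upwards [hf ε hε, hc.eventually hfg] with t ht h1
  rw [← h1, ← hfg.self_of_nhds]
  exact ht

end Vale.Agent.P227.M.LIN
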