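import Vale.Agent.P227.M.LIN.H1Defs

/-! # P227/M/LIN: elementary facts about the mollification `mo` (leaf KER of `StmtH1`). -/

open MeasureTheory Filter Metric Set
open scoped Topology Convolution

namespace Vale.Agent.P227.M.LIN

variable {n : ℕ}

theorem rk_contDiff (m : ℕ) : ContDiff ℝ (⊤ : ℕ∞) (rk m : E n → ℝ) :=
  (bp n m).contDiff_normed

theorem rk_continuous (m : ℕ) : Continuous (rk m : E n → ℝ) := (rk_contDiff m).continuous

theorem rk_hasCompactSupport (m : ℕ) : HasCompactSupport (rk m : E n → ℝ) :=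
  (bp n m).hasCompactSupport_normed

theorem rk_nonneg (m : ℕ) (x : E n) : 0 ≤ rk m x := (bp n m).nonneg_normed x

theorem rk_integral (m : ℕ) : ∫ x : E n, rk m x = 1 := (bp n m).integral_normed

theorem mo_rk_zero {m : ℕ} {x : E n} (hx : dl m ≤ ‖x‖) : rk m x = 0 := by
  have h : x ∉ Function.support ((bp n m).normed volume) := by
    rw [(bp n m).support_normed_eq]
    simp only [mem_ball_zero_iff, not_lt]
    exact hx
  simpa [rk] using Function.notMem_support.1 h

theorem rk_locInt (m : ℕ) : LocallyIntegrable (rk m : E n → ℝ) volume :=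
  (rk_continuous m).locallyIntegrable

/-- the integrand of the mollification is continuous with compact support -/
theorem mo_integrable (m : ℕ) {g : E n → ℝ} (hg : Continuous g) (x : E n) :
    Integrable (fun t => rk m t * g (x - t)) volume :=
  ((rk_continuous m).mul (hg.comp (continuous_const.sub continuous_id))).integrable_of_hasCompactSupport
    (rk_hasCompactSupport m).mul_right

theorem rk_integrable (m : ℕ) : Integrable (rk m : E n → ℝ) volume :=
  (rk_continuous m).integrable_of_hasCompactSupport (rk_hasCompactSupport m)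

theorem mo_eq_conv (m : ℕ) (g : E n → ℝ) (x : E n) :
    mo m g x = (rk m ⋆[ContinuousLinearMap.lsmul ℝ ℝ, volume] g) x := rfl

theorem mo_eq_conv' (m : ℕ) (g : E n → ℝ) :
    mo m g = (rk m ⋆[ContinuousLinearMap.lsmul ℝ ℝ, volume] g) := rfl

theorem mo_add (m : ℕ) {f g : E n → ℝ} (hf : Continuous f) (hg : Continuous g) (x : E n) :
    mo m (fun y => f y + g y) x = mo m f x + mo m g x := by
  unfold mo
  rw [← integral_add (mo_integrable m hf x) (mo_integrable m hg x)]
  refine integral_congr_ae (Eventually.of_forall fun t => ?_)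
  simp only
  ring

theorem mo_sub (m : ℕ) {f g : E n → ℝ} (hf : Continuous f) (hg : Continuous g) (x : E n) :
    mo m (fun y => f y - g y) x = mo m f x - mo m g x := by
  unfold mo
  rw [← integral_sub (mo_integrable m hf x) (mo_integrable m hg x)]
  refine integral_congr_ae (Eventually.of_forall fun t => ?_)
  simp only
  ring

theorem mo_const_mul (m : ℕ) (k : ℝ) (g : E n → ℝ) (x : E n) :
    mo m (fun y => k * g y) x = k * mo m g x := by
  unfold mo
  rw [← integral_const_mul]
  refine integral_congr_ae (Eventually.of_forall fun t => ?_)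
  simp only
  ring

theorem mo_neg (m : ℕ) (g : E n → ℝ) (x : E n) :
    mo m (fun y => - g y) x = - mo m g x := by
  unfold mo
  rw [← integral_neg]
  refine integral_congr_ae (Eventually.of_forall fun t => ?_)
  simp only
  ring

theorem mo_zero (m : ℕ) (x : E n) : mo m (fun _ => (0 : ℝ)) x = 0 := by
  unfold mo; simp

theorem mo_const (m : ℕ) (k : ℝ) (x : E n) : mo m (fun _ => k) x = k := by
  unfold mo
  rw [integral_mul_const, rk_integral, one_mul]

theorem mo_finset_sum {ι : Type*} (m : ℕ) (s : Finset ι) {f : ι → E n → ℝ}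
    (hf : ∀ i ∈ s, Continuous (f i)) (x : E n) :
    mo m (fun y => ∑ i ∈ s, f i y) x = ∑ i ∈ s, mo m (f i) x := by
  unfold mo
  rw [← integral_finsetSum s fun i hi => mo_integrable m (hf i hi) x]
  refine integral_congr_ae (Eventually.of_forall fun t => ?_)
  simp only
  rw [Finset.mul_sum]

theorem mo_cont (m : ℕ) {g : E n → ℝ} (hg : Continuous g) : Continuous (mo m g) := by
  rw [mo_eq_conv']
  exact (rk_hasCompactSupport m).continuous_convolution_left _ (rk_continuous m)
    hg.locallyIntegrable

/-- the mollification of a continuous (even locally integrable) function is smooth -/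
theorem mo_contDiff (m : ℕ) {g : E n → ℝ} (hg : LocallyIntegrable g volume) :
    ContDiff ℝ (⊤ : ℕ∞) (mo m g) := by
  rw [mo_eq_conv']
  exact (rk_hasCompactSupport m).contDiff_convolution_left _ (rk_contDiff m) hg

theorem mo_supp (m : ℕ) {g : E n → ℝ} {R : ℝ} (hg : ∀ x, R < ‖x‖ → g x = 0) :
    ∀ x, R + 1 < ‖x‖ → mo m g x = 0 := by
  intro x hx
  unfold mo
  refine integral_eq_zero_of_ae (Eventually.of_forall fun t => ?_)
  simp only [Pi.zero_apply]
  rcases le_or_gt (dl m) ‖t‖ with h | h
  · rw [mo_rk_zero h, zero_mul]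
  · have h1 : ‖x‖ ≤ ‖x - t‖ + ‖t‖ := by
      calc ‖x‖ = ‖(x - t) + t‖ := by rw [sub_add_cancel]
        _ ≤ ‖x - t‖ + ‖t‖ := norm_add_le _ _
    have h2 := dl_le_one m
    rw [hg (x - t) (by linarith), mul_zero]

theorem mo_hasCompactSupport (m : ℕ) {g : E n → ℝ} (hg : HasCompactSupport g) :
    HasCompactSupport (mo m g) := by
  rw [mo_eq_conv']
  exact HasCompactSupport.convolution _ (rk_hasCompactSupport m) hg

theorem mo_test (m : ℕ) {g : E n → ℝ} (hg : Test g) : Test (mo m g) :=
  ⟨mo_contDiff m hg.1.continuous.locallyIntegrable, mo_hasCompactSupport m hg.2⟩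

theorem pd_mo (m : ℕ) {g : E n → ℝ} (hg : Test g) (b : Fin n) (x : E n) :
    pd b (mo m g) x = mo m (pd b g) x := by
  have hg1 : ContDiff ℝ 1 g := hg.1.of_le (by exact_mod_cast le_top)
  have h := HasCompactSupport.hasFDerivAt_convolution_right (ContinuousLinearMap.lsmul ℝ ℝ)
    (μ := (volume : Measure (E n))) hg.2 (rk_locInt m) hg1 x
  unfold pd
  rw [mo_eq_conv', h.fderiv]
  rw [convolution_precompR_apply (ContinuousLinearMap.lsmul ℝ ℝ) (rk_locInt m)
    (hg.2.fderiv ℝ) (hg1.continuous_fderiv one_ne_zero)]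
  rfl

/-- `|mo m g x| ≤ sup |g|` on the unit ball around `x` -/
theorem abs_mo_le (m : ℕ) {g : E n → ℝ} {B : ℝ} (x : E n)
    (hB : ∀ y, ‖x - y‖ ≤ 1 → |g y| ≤ B) : |mo m g x| ≤ B := by
  unfold mo
  have h1 : ∀ t : E n, ‖rk m t * g (x - t)‖ ≤ rk m t * B := by
    intro t
    rw [Real.norm_eq_abs, abs_mul, abs_of_nonneg (rk_nonneg m t)]
    rcases le_or_gt (dl m) ‖t‖ with h | h
    · rw [mo_rk_zero h, zero_mul, zero_mul]
    · refine mul_le_mul_of_nonneg_left (hB _ ?_) (rk_nonneg m t)
      have h2 := dl_le_one m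
      have h3 : x - (x - t) = t := by abel
      rw [h3]; linarith
  have h2 := norm_integral_le_of_norm_le ((rk_integrable (n := n) m).mul_const B)
    (Eventually.of_forall h1)
  rw [integral_mul_const, rk_integral, one_mul] at h2
  exact h2

/-- mollification of a Lipschitz function stays within `K δ_m` -/
theorem abs_mo_sub_le (m : ℕ) {g : E n → ℝ} {K : ℝ} (hK : 0 ≤ K) (hg : Lp g K) (hc : Continuous g)
    (x : E n) : |mo m g x - g x| ≤ K * dl m := by
  have h0 : mo m g x - g x = ∫ t, rk m t * (g (x - t) - g x) := by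
    have h1 : g x = ∫ t : E n, rk m t * g x := by rw [integral_mul_const, rk_integral, one_mul]
    conv_lhs => rw [h1]
    unfold mo
    rw [← integral_sub (mo_integrable m hc x) ((rk_integrable (n := n) m).mul_const _)]
    refine integral_congr_ae (Eventually.of_forall fun t => ?_)
    simp only
    ring
  rw [h0]
  have h1 : ∀ t : E n, ‖rk m t * (g (x - t) - g x)‖ ≤ rk m t * (K * dl m) := by
    intro t
    rw [Real.norm_eq_abs, abs_mul, abs_of_nonneg (rk_nonneg m t)]
    rcases le_or_gt (dl m) ‖t‖ with h | h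
    · rw [mo_rk_zero h, zero_mul, zero_mul]
    · refine mul_le_mul_of_nonneg_left ((hg _ _).trans ?_) (rk_nonneg m t)
      have h3 : x - t - x = -t := by abel
      rw [h3, norm_neg]
      exact mul_le_mul_of_nonneg_left h.le hK
  have h2 := norm_integral_le_of_norm_le ((rk_integrable (n := n) m).mul_const (K * dl m))
    (Eventually.of_forall h1)
  rw [integral_mul_const, rk_integral, one_mul] at h2
  exact h2

end Vale.Agent.P227.M.LIN
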