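import Vale.Agent.P227.M.LIN.H1Pt1
import Vale.Agent.P227.M.LIN.H1Ker
import Vale.Agent.P227.M.LIN.H1Loc
import Vale.Agent.P227.M.LIN.H1Cut

/-! # P227/M/LIN: local Lipschitz bound of `χ ·` (commutator terms) (helper959). -/

open MeasureTheory Filter Metric Set
open scoped Topology

namespace Vale.Agent.P227.M.LIN

namespace PtB

theorem av_mono {n : ℕ} (m : ℕ) {g h : E n → ℝ} (hg : Continuous g) (hh : Continuous h)
    (hle : ∀ y, |g y| ≤ |h y|) (x : E n) : av m (fun y => |g y|) x ≤ av m (fun y => |h y|) x := by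
  rw [av_eq, av_eq]
  have hd := dl_pos m
  refine mul_le_mul_of_nonneg_left ?_ (by positivity)
  refine setIntegral_mono_on ?_ ?_ measurableSet_ball fun y _ => hle y
  · exact (hg.abs.continuousOn.integrableOn_compact (isCompact_closedBall x (2 * dl m))).mono_set
      ball_subset_closedBall
  · exact (hh.abs.continuousOn.integrableOn_compact (isCompact_closedBall x (2 * dl m))).mono_set
      ball_subset_closedBall

theorem cont_pd {n : ℕ} {d : E n → ℝ} (hd : Test d) (i : Fin n) : Continuous (pd i d) :=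
  (Cut.pd_test hd i).1.continuous

theorem cont_hess {n : ℕ} {d : E n → ℝ} (hd : Test d) (i j : Fin n) : Continuous (fun y => hess d y i j) :=
  (Cut.pd_test (Cut.pd_test hd j) i).1.continuous

theorem cont_S2 {n : ℕ} {d : E n → ℝ} (hd : Test d) : Continuous (S2 d) := by
  unfold S2
  refine (hd.1.continuous.abs.add ?_).add ?_
  · exact continuous_finsetSum _ fun a _ => (cont_pd hd a).abs
  · exact continuous_finsetSum _ fun a _ => continuous_finsetSum _ fun b _ => (cont_hess hd a b).abs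

theorem S2_nonneg {n : ℕ} (d : E n → ℝ) (y : E n) : 0 ≤ S2 d y := by
  unfold S2
  positivity

theorem pd_le_S2 {n : ℕ} (d : E n → ℝ) (y : E n) (i : Fin n) : |pd i d y| ≤ |S2 d y| := by
  rw [abs_of_nonneg (S2_nonneg d y)]
  unfold S2
  have h1 : |pd i d y| ≤ ∑ a, |pd a d y| :=
    Finset.single_le_sum (f := fun a => |pd a d y|) (fun a _ => abs_nonneg _) (Finset.mem_univ i)
  have h2 : 0 ≤ ∑ a, ∑ b, |hess d y a b| := by positivity
  have h3 := abs_nonneg (d y)
  linarith

theorem hess_le_S2 {n : ℕ} (d : E n → ℝ) (y : E n) (i j : Fin n) : |hess d y i j| ≤ |S2 d y| := by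
  rw [abs_of_nonneg (S2_nonneg d y)]
  unfold S2
  have h1 : |hess d y i j| ≤ ∑ b, |hess d y i b| :=
    Finset.single_le_sum (f := fun b => |hess d y i b|) (fun a _ => abs_nonneg _) (Finset.mem_univ j)
  have h2 : ∑ b, |hess d y i b| ≤ ∑ a, ∑ b, |hess d y a b| :=
    Finset.single_le_sum (f := fun a => ∑ b, |hess d y a b|)
      (fun a _ => Finset.sum_nonneg fun b _ => abs_nonneg _) (Finset.mem_univ i)
  have h3 : 0 ≤ ∑ a, |pd a d y| := by positivity
  have h4 := abs_nonneg (d y)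
  linarith

theorem lp_cont {n : ℕ} {g : E n → ℝ} {K : ℝ} (hg : Lp g K) : Continuous g := by
  have h : LipschitzWith (Real.toNNReal K) g := by
    refine LipschitzWith.of_dist_le_mul fun x y => ?_
    rw [Real.dist_eq, dist_eq_norm]
    refine (hg x y).trans (mul_le_mul_of_nonneg_right (Real.le_coe_toNNReal K) (norm_nonneg _))
  exact h.continuous

theorem coord_lp {n : ℕ} (i : Fin n) : Lp (fun y : E n => y i) 1 := by
  intro x y
  rw [one_mul, ← PiLp.sub_apply, ← Real.norm_eq_abs]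
  exact PiLp.norm_apply_le (x - y) i

/-- the commutator part -/
theorem comm_part {n : ℕ} {A : ℝ} (hA : 1 ≤ A) {ψ : E n → ℝ} (hT : TauC A ψ) (hK : KerC n A)
    {d : E n → ℝ} (hd : Test d) (m : ℕ) (x : E n) (b : Fin n) :
    |(∑ i, ∑ j, cm m (fun y => tau ψ y i j) (fun y => hess d y i j) x) - ∑ i, cm m (fun y => y i) (pd i d) x|
      ≤ (n ^ 2 + n) * A ^ 2 * av m (fun y => |S2 d y|) x ∧
    LocB b (fun z => (∑ i, ∑ j, cm m (fun y => tau ψ y i j) (fun y => hess d y i j) z)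
      - ∑ i, cm m (fun y => y i) (pd i d) z) x ((n ^ 2 + n) * A ^ 2 * av m (fun y => |S2 d y|) x) := by
  have hA0 : 0 ≤ A := by linarith
  set S := av m (fun y => |S2 d y|) x with hS
  have hS0 : 0 ≤ S := av_nonneg m (fun y => abs_nonneg _) x
  have hS2 := cont_S2 hd
  have e1 : ∀ i j, A * A * av m (fun y => |hess d y i j|) x ≤ A ^ 2 * S := by
    intro i j
    have h := av_mono m (cont_hess hd i j) hS2 (fun y => hess_le_S2 d y i j) x
    rw [pow_two]
    exact mul_le_mul_of_nonneg_left h (by positivity)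
  have e2 : ∀ i, A * 1 * av m (fun y => |pd i d y|) x ≤ A ^ 2 * S := by
    intro i
    have h := av_mono m (cont_pd hd i) hS2 (fun y => pd_le_S2 d y i) x
    calc A * 1 * av m (fun y => |pd i d y|) x ≤ A * 1 * S := mul_le_mul_of_nonneg_left h (by positivity)
      _ ≤ A ^ 2 * S := by
        refine mul_le_mul_of_nonneg_right ?_ hS0
        nlinarith
  have c1 : ∀ i j, |cm m (fun y => tau ψ y i j) (fun y => hess d y i j) x| ≤ A ^ 2 * S := fun i j =>
    (hK.cm_b m _ _ A hA0 (hT.lip i j) (lp_cont (hT.lip i j)) (cont_hess hd i j) x).trans (e1 i j)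
  have c2 : ∀ i, |cm m (fun y => y i) (pd i d) x| ≤ A ^ 2 * S := fun i =>
    (hK.cm_b m _ _ 1 zero_le_one (coord_lp i) (lp_cont (coord_lp i)) (cont_pd hd i) x).trans (e2 i)
  have l1 : ∀ i j, LocB b (cm m (fun y => tau ψ y i j) (fun y => hess d y i j)) x (A ^ 2 * S) := fun i j =>
    (hK.cm_l m _ _ A hA0 (hT.lip i j) (lp_cont (hT.lip i j)) (cont_hess hd i j) x b).mono (e1 i j)
  have l2 : ∀ i, LocB b (cm m (fun y : E n => y i) (pd i d)) x (A ^ 2 * S) := fun i =>
    (hK.cm_l m _ _ 1 zero_le_one (coord_lp i) (lp_cont (coord_lp i)) (cont_pd hd i) x b).mono (e2 i)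
  have key : (∑ _i : Fin n, ∑ _j : Fin n, A ^ 2 * S) + ∑ _i : Fin n, A ^ 2 * S = (n ^ 2 + n) * A ^ 2 * S := by
    simp only [Finset.sum_const, Finset.card_univ, Fintype.card_fin, nsmul_eq_mul]
    ring
  constructor
  · rw [← key]
    refine (abs_sub _ _).trans (add_le_add ?_ ?_)
    · refine (Finset.abs_sum_le_sum_abs _ _).trans (Finset.sum_le_sum fun i _ => ?_)
      exact (Finset.abs_sum_le_sum_abs _ _).trans (Finset.sum_le_sum fun j _ => c1 i j)
    · exact (Finset.abs_sum_le_sum_abs _ _).trans (Finset.sum_le_sum fun i _ => c2 i)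
  · rw [← key]
    exact LocB.sub (LocB.sum _ fun i _ => LocB.sum _ fun j _ => l1 i j) (LocB.sum _ fun i _ => l2 i)

end PtB

theorem locB_Cm {n : ℕ} {ψ V : E n → ℝ} {c C M A R : ℝ} (hM : MM ψ V c C M) (hA : 1 ≤ A) (hT : TauC A ψ) (hK : KerC n A)
    {χ d : E n → ℝ} (hχ : Cuto A R χ) (hd : Test d) (m : ℕ) (x : E n) (b : Fin n) :
    LocB b (fun z => χ z * ((∑ i, ∑ j, cm m (fun y => tau ψ y i j) (fun y => hess d y i j) z)
      - ∑ i, cm m (fun y => y i) (pd i d) z)) x (2 * (n ^ 2 + n) * A ^ 3 * av m (fun y => |S2 d y|) x) := by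
  have hA0 : 0 ≤ A := by linarith
  obtain ⟨h1, h2⟩ := PtB.comm_part hA hT hK hd m x b
  set S := av m (fun y => |S2 d y|) x with hS
  have hS0 : 0 ≤ S := av_nonneg m (fun y => abs_nonneg _) x
  have hN : (0 : ℝ) ≤ (n ^ 2 + n) * A ^ 2 * S := by positivity
  have hχl : LocB b χ x A :=
    (LocB.of_diff ((hχ.test.1.differentiable (by simp)) x)).mono (hχ.d1 x b)
  have h3 := hχl.mul h2 hA0 hN
  refine h3.mono ?_
  have h4 : |χ x| * ((n ^ 2 + n) * A ^ 2 * S) ≤ A * ((n ^ 2 + n) * A ^ 2 * S) :=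
    mul_le_mul_of_nonneg_right ((hχ.le1 x).trans hA) hN
  have h5 := mul_le_mul_of_nonneg_right h1 hA0
  calc _ ≤ A * ((n ^ 2 + n) * A ^ 2 * S) + (n ^ 2 + n) * A ^ 2 * S * A := add_le_add h4 h5
    _ = 2 * (n ^ 2 + n) * A ^ 3 * S := by ring

end Vale.Agent.P227.M.LIN
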