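import Vale.Agent.P227.M.LIN.H1Pt0

/-! # P227/M/LIN: bundled constants for the pointwise bound (helper479). -/

open MeasureTheory Filter Metric Set
open scoped Topology

namespace Vale.Agent.P227.M.LIN

/-- cut-off with constant `A` -/
structure Cuto {n : ℕ} (A R : ℝ) (χ : E n → ℝ) : Prop where
  test : Test χ
  le1 : ∀ x, |χ x| ≤ 1
  one : ∀ x, ‖x‖ < R → χ x = 1
  zero : ∀ x, 2 * R < ‖x‖ → χ x = 0
  d1 : ∀ x a, |pd a χ x| ≤ A
  d1x : ∀ x a, ‖x‖ * |pd a χ x| ≤ A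
  d2 : ∀ x a b, |pd a (pd b χ) x| ≤ A
  d2x : ∀ x a b, ‖x‖ * |pd a (pd b χ) x| ≤ A
  d3 : ∀ x a b d, |pd a (pd b (pd d χ)) x| ≤ A

/-- `τ` bounded and Lipschitz with constant `A` -/
structure TauC {n : ℕ} (A : ℝ) (ψ : E n → ℝ) : Prop where
  bdd : ∀ x i j, |tau ψ x i j| ≤ A
  lip : ∀ i j, Lp (fun x => tau ψ x i j) A

/-- kernel constants -/
structure KerC (n : ℕ) (A : ℝ) : Prop where
  mo_b : ∀ (m : ℕ) (g : E n → ℝ), Continuous g → ∀ x, |mo m g x| ≤ A * av m (fun y => |g y|) x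
  mo_l : ∀ (m : ℕ) (g : E n → ℝ), Continuous g → ∀ x b,
    LocB b (mo m g) x (A * (dl m)⁻¹ * av m (fun y => |g y|) x)
  cm_b : ∀ (m : ℕ) (a G : E n → ℝ) (K : ℝ), 0 ≤ K → Lp a K → Continuous a → Continuous G → ∀ x,
    |cm m a G x| ≤ A * K * av m (fun y => |G y|) x
  cm_l : ∀ (m : ℕ) (a G : E n → ℝ) (K : ℝ), 0 ≤ K → Lp a K → Continuous a → Continuous G → ∀ x b,
    LocB b (cm m a G) x (A * K * av m (fun y => |G y|) x)

end Vale.Agent.P227.M.LIN
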