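import Vale.Agent.P227.M.Bas
import Vale.Agent.P227.M.LIN.H1Pt1
import Vale.Agent.P227.M.LIN.H1Ker
import Vale.Agent.P227.M.LIN.H1Loc
import Vale.Agent.P227.M.LIN.H1Alg

/-! # P227/M/LIN: local Lipschitz bound of `mo m d * L χ` (helper966) -/

open MeasureTheory Filter Metric Set
open scoped Topology

namespace Vale.Agent.P227.M.LIN

namespace PtC

variable {n : ℕ}

theorem pd_test {f : E n → ℝ} (hf : Test f) (i : Fin n) : Test (pd i f) :=
  ⟨contDiff_pd_top hf.1 i, hf.2.fderiv_apply ℝ (ei i)⟩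

theorem test_diff {f : E n → ℝ} (hf : Test f) : Differentiable ℝ f := hf.1.differentiable (by simp)

theorem hess_test {f : E n → ℝ} (hf : Test f) (i j : Fin n) : Test (fun x => hess f x i j) :=
  pd_test (pd_test hf j) i

theorem S2_cont {d : E n → ℝ} (hd : Test d) : Continuous (S2 d) := by
  have h0 : Continuous d := hd.1.continuous
  have h1 : ∀ a, Continuous (pd a d) := fun a => (pd_test hd a).1.continuous
  have h2 : ∀ a b, Continuous (fun x => hess d x a b) := fun a b => (hess_test hd a b).1.continuous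
  have : S2 d = fun y => |d y| + (∑ a, |pd a d y|) + ∑ a, ∑ b, |hess d y a b| := rfl
  rw [this]
  fun_prop

theorem S2_nonneg (d : E n → ℝ) (y : E n) : 0 ≤ S2 d y := by
  unfold S2
  positivity

theorem le_S2_zero (d : E n → ℝ) (y : E n) : |d y| ≤ |S2 d y| := by
  rw [abs_of_nonneg (S2_nonneg d y)]
  unfold S2
  have h1 : 0 ≤ ∑ a, |pd a d y| := by positivity
  have h2 : 0 ≤ ∑ a, ∑ b, |hess d y a b| := by positivity
  linarith

theorem le_S2_one (d : E n → ℝ) (b : Fin n) (y : E n) : |pd b d y| ≤ |S2 d y| := by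
  rw [abs_of_nonneg (S2_nonneg d y)]
  unfold S2
  have h0 : 0 ≤ |d y| := abs_nonneg _
  have h1 : |pd b d y| ≤ ∑ a, |pd a d y| :=
    Finset.single_le_sum (f := fun a => |pd a d y|) (fun i _ => abs_nonneg _) (Finset.mem_univ b)
  have h2 : 0 ≤ ∑ a, ∑ b, |hess d y a b| := by positivity
  linarith

theorem av_mono {m : ℕ} {f g : E n → ℝ} (hf : Continuous f) (hg : Continuous g)
    (h : ∀ y, f y ≤ g y) (x : E n) : av m f x ≤ av m g x := by
  unfold av
  have hd := dl_pos m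
  refine mul_le_mul_of_nonneg_left ?_ (by positivity)
  have hi : ∀ {k : E n → ℝ}, Continuous k →
      IntegrableOn (fun t => k (x - t)) (ball (0 : E n) (2 * dl m)) := fun hk =>
    ((hk.comp (continuous_const.sub continuous_id)).continuousOn.integrableOn_compact
      (isCompact_closedBall (0 : E n) (2 * dl m))).mono_set ball_subset_closedBall
  exact setIntegral_mono (hi hf) (hi hg) fun t => h _

/-- bounds of `L χ` -/
theorem Lop_bound {ψ : E n → ℝ} {A R : ℝ} (hA : 1 ≤ A) (hT : TauC A ψ)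
    {χ : E n → ℝ} (hχ : Cuto A R χ) (x : E n) : |Lop ψ χ x| ≤ ((n : ℝ) ^ 2 + n) * A ^ 2 := by
  have hA0 : 0 ≤ A := by linarith
  have h1 : |∑ i, ∑ j, tau ψ x i j * hess χ x i j| ≤ (n : ℝ) ^ 2 * A ^ 2 := by
    calc |∑ i, ∑ j, tau ψ x i j * hess χ x i j| ≤ ∑ i, |∑ j, tau ψ x i j * hess χ x i j| :=
          Finset.abs_sum_le_sum_abs _ _
      _ ≤ ∑ i : Fin n, ∑ j : Fin n, A ^ 2 := by
          refine Finset.sum_le_sum fun i _ => (Finset.abs_sum_le_sum_abs _ _).trans ?_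
          refine Finset.sum_le_sum fun j _ => ?_
          rw [abs_mul, pow_two]
          exact mul_le_mul (hT.bdd x i j) (hχ.d2 x i j) (abs_nonneg _) hA0
      _ = (n : ℝ) ^ 2 * A ^ 2 := by
          simp only [Finset.sum_const, Finset.card_univ, Fintype.card_fin, nsmul_eq_mul]
          ring
  have h2 : |∑ i, x i * pd i χ x| ≤ (n : ℝ) * A := by
    calc |∑ i, x i * pd i χ x| ≤ ∑ i, |x i * pd i χ x| := Finset.abs_sum_le_sum_abs _ _
      _ ≤ ∑ i : Fin n, A := by
          refine Finset.sum_le_sum fun i _ => ?_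
          rw [abs_mul]
          exact (mul_le_mul_of_nonneg_right (abs_coord_le x i) (abs_nonneg _)).trans (hχ.d1x x i)
      _ = (n : ℝ) * A := by
          simp only [Finset.sum_const, Finset.card_univ, Fintype.card_fin, nsmul_eq_mul]
  have h3 : (n : ℝ) * A ≤ (n : ℝ) * A ^ 2 := by
    refine mul_le_mul_of_nonneg_left ?_ (Nat.cast_nonneg n)
    nlinarith
  have h4 : |Lop ψ χ x| ≤ |∑ i, ∑ j, tau ψ x i j * hess χ x i j| + |∑ i, x i * pd i χ x| :=
    abs_sub _ _
  linarith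

theorem Lop_locB {ψ : E n → ℝ} {A R : ℝ} (hA : 1 ≤ A) (hT : TauC A ψ)
    {χ : E n → ℝ} (hχ : Cuto A R χ) (x : E n) (b : Fin n) :
    LocB b (Lop ψ χ) x (2 * ((n : ℝ) ^ 2 + n) * A ^ 2) := by
  have hA0 : 0 ≤ A := by linarith
  have h1 : LocB b (fun z => ∑ i, ∑ j, tau ψ z i j * hess χ z i j) x
      (∑ i : Fin n, ∑ j : Fin n, 2 * A ^ 2) := by
    refine LocB.sum _ fun i _ => LocB.sum _ fun j _ => ?_
    have e1 : LocB b (fun z => tau ψ z i j) x A := LocB.of_lp (hT.lip i j) x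
    have e2 : LocB b (fun z => hess χ z i j) x A :=
      (LocB.of_diff (test_diff (hess_test hχ.test i j) x)).mono (hχ.d3 x b i j)
    refine (e1.mul e2 hA0 hA0).mono ?_
    have e3 : |tau ψ x i j| * A ≤ A * A := mul_le_mul_of_nonneg_right (hT.bdd x i j) hA0
    have e4 : |hess χ x i j| * A ≤ A * A := mul_le_mul_of_nonneg_right (hχ.d2 x i j) hA0
    linarith
  have h2 : LocB b (fun z : E n => ∑ i, z i * pd i χ z) x (∑ i : Fin n, 2 * A) := by
    refine LocB.sum _ fun i _ => ?_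
    have e1 : LocB b (fun z : E n => z i) x 1 := by
      refine LocB.of_lp (fun y z => ?_) x
      rw [one_mul]
      exact abs_coord_le (y - z) i
    have e2 : LocB b (fun z => pd i χ z) x |pd b (pd i χ) x| :=
      LocB.of_diff (test_diff (pd_test hχ.test i) x)
    refine (e1.mul e2 zero_le_one (abs_nonneg _)).mono ?_
    have e3 : |x i| * |pd b (pd i χ) x| ≤ A :=
      (mul_le_mul_of_nonneg_right (abs_coord_le x i) (abs_nonneg _)).trans (hχ.d2x x b i)
    have e4 := hχ.d1 x i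
    linarith
  have h3 := h1.sub h2
  refine LocB.mono (f := Lop ψ χ) h3 ?_
  simp only [Finset.sum_const, Finset.card_univ, Fintype.card_fin, nsmul_eq_mul]
  have h4 : (n : ℝ) * A ≤ (n : ℝ) * A ^ 2 := by
    refine mul_le_mul_of_nonneg_left ?_ (Nat.cast_nonneg n)
    nlinarith
  nlinarith

theorem mo_locB_S {A : ℝ} (hK : KerC n A) (hA : 1 ≤ A) {d : E n → ℝ} (hd : Test d) (m : ℕ)
    (x : E n) (b : Fin n) : LocB b (mo m d) x (A * av m (fun y => |S2 d y|) x) := by
  have hA0 : 0 ≤ A := by linarith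
  have hm : DifferentiableAt ℝ (mo m d) x := (Alg47.mo_hasFDerivAt m hd x).differentiableAt
  refine (LocB.of_diff hm).mono ?_
  rw [Alg47.pd_mo47 m hd]
  refine (hK.mo_b m _ (pd_test hd b).1.continuous x).trans (mul_le_mul_of_nonneg_left ?_ hA0)
  exact av_mono (pd_test hd b).1.continuous.abs (S2_cont hd).abs (fun y => le_S2_one d b y) x

theorem mo_bound_S {A : ℝ} (hK : KerC n A) (hA : 1 ≤ A) {d : E n → ℝ} (hd : Test d) (m : ℕ)
    (x : E n) : |mo m d x| ≤ A * av m (fun y => |S2 d y|) x := by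
  have hA0 : 0 ≤ A := by linarith
  refine (hK.mo_b m _ hd.1.continuous x).trans (mul_le_mul_of_nonneg_left ?_ hA0)
  exact av_mono hd.1.continuous.abs (S2_cont hd).abs (fun y => le_S2_zero d y) x

end PtC

open PtC

/-- L3 -/
theorem locB_fL {n : ℕ} {ψ V : E n → ℝ} {c C M A R : ℝ} (hM : MM ψ V c C M) (hA : 1 ≤ A) (hT : TauC A ψ) (hK : KerC n A)
    {χ d : E n → ℝ} (hχ : Cuto A R χ) (hd : Test d) (m : ℕ) (x : E n) (b : Fin n) :
    LocB b (fun z => mo m d z * Lop ψ χ z) x (3 * (n ^ 2 + n) * A ^ 3 * av m (fun y => |S2 d y|) x) := by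
  have hA0 : 0 ≤ A := by linarith
  have hS : 0 ≤ av m (fun y => |S2 d y|) x := av_nonneg m (fun y => abs_nonneg _) x
  have h1 := mo_locB_S hK hA hd m x b
  have h2 := Lop_locB hA hT hχ x b
  have h3 := mo_bound_S hK hA hd m x
  have h4 := Lop_bound hA hT hχ x
  set S := av m (fun y => |S2 d y|) x with hSdef
  refine (h1.mul h2 (by positivity) (by positivity)).mono ?_
  have h5 : |mo m d x| * (2 * ((n : ℝ) ^ 2 + n) * A ^ 2) ≤ A * S * (2 * ((n : ℝ) ^ 2 + n) * A ^ 2) :=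
    mul_le_mul_of_nonneg_right h3 (by positivity)
  have h6 : |Lop ψ χ x| * (A * S) ≤ ((n : ℝ) ^ 2 + n) * A ^ 2 * (A * S) :=
    mul_le_mul_of_nonneg_right h4 (by positivity)
  calc |mo m d x| * (2 * ((n : ℝ) ^ 2 + n) * A ^ 2) + |Lop ψ χ x| * (A * S)
      ≤ A * S * (2 * ((n : ℝ) ^ 2 + n) * A ^ 2) + ((n : ℝ) ^ 2 + n) * A ^ 2 * (A * S) :=
        add_le_add h5 h6
    _ = _ := by ring

end Vale.Agent.P227.M.LIN
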