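import Vale.Agent.P227.M.LIN.H1Pt1
import Vale.Agent.P227.M.LIN.H1Ker
import Vale.Agent.P227.M.LIN.H1Mo
import Vale.Agent.P227.M.LIN.H1Loc
import Vale.Agent.P227.M.LIN.H1Cut

/-! # P227/M/LIN: the cross term of the pointwise bound (helper113). -/

open MeasureTheory Filter Metric Set
open scoped Topology

namespace Vale.Agent.P227.M.LIN

namespace PtD

theorem cont_pd {n : ℕ} {d : E n → ℝ} (hd : Test d) (a : Fin n) : Continuous (pd a d) :=
  (Cut.pd_test hd a).1.continuous

theorem cont_S2 {n : ℕ} {d : E n → ℝ} (hd : Test d) : Continuous (S2 d) := by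
  unfold S2
  refine (hd.1.continuous.abs.add ?_).add ?_
  · exact continuous_finsetSum _ fun a _ => (cont_pd hd a).abs
  · refine continuous_finsetSum _ fun a _ => continuous_finsetSum _ fun b _ => ?_
    exact (cont_pd (Cut.pd_test hd b) a).abs

theorem S2_nonneg {n : ℕ} (d : E n → ℝ) (y : E n) : 0 ≤ S2 d y := by
  unfold S2
  exact add_nonneg (add_nonneg (abs_nonneg _) (Finset.sum_nonneg fun _ _ => abs_nonneg _))
    (Finset.sum_nonneg fun _ _ => Finset.sum_nonneg fun _ _ => abs_nonneg _)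

theorem pd_le_S2 {n : ℕ} (d : E n → ℝ) (a : Fin n) (y : E n) : |pd a d y| ≤ |S2 d y| := by
  rw [abs_of_nonneg (S2_nonneg d y)]
  unfold S2
  have h1 : |pd a d y| ≤ ∑ a, |pd a d y| :=
    Finset.single_le_sum (f := fun a => |pd a d y|) (fun _ _ => abs_nonneg _) (Finset.mem_univ a)
  have h2 : 0 ≤ ∑ a, ∑ b, |hess d y a b| := 
    Finset.sum_nonneg fun _ _ => Finset.sum_nonneg fun _ _ => abs_nonneg _
  have h3 := abs_nonneg (d y)
  linarith

theorem hess_le_S2 {n : ℕ} (d : E n → ℝ) (a b : Fin n) (y : E n) : |hess d y a b| ≤ |S2 d y| := by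
  rw [abs_of_nonneg (S2_nonneg d y)]
  unfold S2
  have h0 : 0 ≤ ∑ a, |pd a d y| := Finset.sum_nonneg fun _ _ => abs_nonneg _
  have h1 : |hess d y a b| ≤ ∑ b, |hess d y a b| :=
    Finset.single_le_sum (f := fun b => |hess d y a b|) (fun _ _ => abs_nonneg _) (Finset.mem_univ b)
  have h2 : ∑ b, |hess d y a b| ≤ ∑ a, ∑ b, |hess d y a b| :=
    Finset.single_le_sum (f := fun a => ∑ b, |hess d y a b|)
      (fun _ _ => Finset.sum_nonneg fun _ _ => abs_nonneg _) (Finset.mem_univ a)
  have h3 := abs_nonneg (d y)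
  linarith

/-- monotonicity of the average for continuous functions -/
theorem av_mono' {n : ℕ} (m : ℕ) {f g : E n → ℝ} (hf : Continuous f) (hg : Continuous g)
    (h : ∀ y, f y ≤ g y) (x : E n) : av m f x ≤ av m g x := by
  rw [av_eq, av_eq]
  have hd := dl_pos m
  refine mul_le_mul_of_nonneg_left ?_ (by positivity)
  have hi : ∀ {u : E n → ℝ}, Continuous u → IntegrableOn u (ball x (2 * dl m)) := fun hu =>
    (hu.continuousOn.integrableOn_compact (isCompact_closedBall x (2 * dl m))).mono_set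
      ball_subset_closedBall
  exact integral_mono (hi hf) (hi hg) h

theorem mo_le {n : ℕ} {A : ℝ} (hA : 1 ≤ A) (hK : KerC n A) {d g : E n → ℝ} (hd : Test d)
    (hg : Continuous g) (hle : ∀ y, |g y| ≤ |S2 d y|) (m : ℕ) (x : E n) :
    |mo m g x| ≤ A * av m (fun y => |S2 d y|) x :=
  (hK.mo_b m g hg x).trans
    (mul_le_mul_of_nonneg_left (av_mono' m hg.abs (cont_S2 hd).abs hle x) (by linarith))

end PtD

/-- L4: local Lipschitz bound of the cross term -/
theorem locB_cross {n : ℕ} {ψ V : E n → ℝ} {c C M A R : ℝ} (_hM : MM ψ V c C M) (hA : 1 ≤ A)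
    (hT : TauC A ψ) (hK : KerC n A)
    {χ d : E n → ℝ} (hχ : Cuto A R χ) (hd : Test d) (m : ℕ) (x : E n) (b : Fin n) :
    LocB b (fun z => 2 * ∑ i, ∑ j, tau ψ z i j * pd i χ z * pd j (mo m d) z) x
      (6 * n ^ 2 * A ^ 3 * av m (fun y => |S2 d y|) x) := by
  set S : ℝ := av m (fun y => |S2 d y|) x with hS
  have hS0 : 0 ≤ S := av_nonneg m (fun _ => abs_nonneg _) x
  have hA0 : 0 ≤ A := by linarith
  have key : ∀ i j : Fin n, LocB b (fun z => tau ψ z i j * pd i χ z * pd j (mo m d) z) x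
      (3 * A ^ 3 * S) := by
    intro i j
    have h1 : LocB b (fun z => tau ψ z i j) x A := LocB.of_lp (hT.lip i j) x
    have h2 : LocB b (pd i χ) x A :=
      (LocB.of_diff ((Cut.pd_test hχ.test i).1.differentiable (by simp) x)).mono (hχ.d2 x b i)
    have hTj : Test (pd j d) := Cut.pd_test hd j
    have h3 : LocB b (pd j (mo m d)) x (A * S) := by
      have hmo : Test (mo m (pd j d)) := mo_test m hTj
      have e : pd j (mo m d) = mo m (pd j d) := funext fun y => pd_mo m hd j y
      rw [e]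
      refine (LocB.of_diff (hmo.1.differentiable (by simp) x)).mono ?_
      rw [pd_mo m hTj b x]
      exact PtD.mo_le hA hK hd (PtD.cont_pd hTj b) (fun y => PtD.hess_le_S2 d b j y) m x
    have h12 : LocB b (fun z => tau ψ z i j * pd i χ z) x (2 * A ^ 2) := by
      refine (h1.mul h2 hA0 hA0).mono ?_
      have e1 := hT.bdd x i j
      have e2 := hχ.d1 x i
      nlinarith
    refine (h12.mul h3 (by positivity) (by positivity)).mono ?_
    have e1 : |tau ψ x i j * pd i χ x| ≤ A * A := by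
      rw [abs_mul]
      exact mul_le_mul (hT.bdd x i j) (hχ.d1 x i) (abs_nonneg _) hA0
    have e2 : |pd j (mo m d) x| ≤ A * S := by
      rw [pd_mo m hd j x]
      exact PtD.mo_le hA hK hd (PtD.cont_pd hd j) (fun y => PtD.pd_le_S2 d j y) m x
    calc |tau ψ x i j * pd i χ x| * (A * S) + |pd j (mo m d) x| * (2 * A ^ 2)
        ≤ (A * A) * (A * S) + (A * S) * (2 * A ^ 2) :=
          add_le_add (mul_le_mul_of_nonneg_right e1 (by positivity))
            (mul_le_mul_of_nonneg_right e2 (by positivity))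
      _ = 3 * A ^ 3 * S := by ring
  have hsum := (LocB.sum (b := b) (x := x) Finset.univ
    (fun i (_ : i ∈ Finset.univ) => LocB.sum (b := b) (x := x) Finset.univ
      (fun j (_ : j ∈ Finset.univ) => key i j))).const_mul 2
  refine hsum.mono (le_of_eq ?_)
  simp only [Finset.sum_const, Finset.card_univ, Fintype.card_fin, nsmul_eq_mul]
  rw [abs_of_pos (by norm_num : (0 : ℝ) < 2)]
  ring

end Vale.Agent.P227.M.LIN
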