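import Vale.Agent.P227.M.LIN.H1Pt1
import Vale.Agent.P227.M.LIN.H1Mo
import Vale.Agent.P227.M.Bas

/-! # P227/M/LIN: bounds of the first and second derivatives of `χ · mo m d` (helper792). -/

open MeasureTheory Filter Metric Set
open scoped Topology

namespace Vale.Agent.P227.M.LIN

namespace PtE

variable {n : ℕ}

theorem av_mono (m : ℕ) {f g : E n → ℝ} (hf : Continuous f) (hg : Continuous g) (h : ∀ y, f y ≤ g y) (x : E n) :
    av m f x ≤ av m g x := by
  unfold av
  have hd := dl_pos m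
  refine mul_le_mul_of_nonneg_left ?_ (by positivity)
  have hint : ∀ k : E n → ℝ, Continuous k →
      IntegrableOn (fun t => k (x - t)) (ball (0 : E n) (2 * dl m)) := fun k hk =>
    ((hk.comp (continuous_const.sub continuous_id)).continuousOn.integrableOn_compact
      (isCompact_closedBall (0 : E n) (2 * dl m))).mono_set ball_subset_closedBall
  exact setIntegral_mono (hint f hf) (hint g hg) (fun t => h (x - t))

theorem test_diff {f : E n → ℝ} (hf : Test f) : Differentiable ℝ f :=
  hf.1.differentiable (by simp)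

theorem test_pd {f : E n → ℝ} (hf : Test f) (i : Fin n) : Test (pd i f) := by
  refine ⟨contDiff_pd_top hf.1 i, ?_⟩
  have h := (hf.2.fderiv (𝕜 := ℝ)).comp_left (g := fun L : E n →L[ℝ] ℝ => L (ei i)) (by simp)
  exact h

theorem pd_mul {f g : E n → ℝ} {x : E n} (hf : DifferentiableAt ℝ f x) (hg : DifferentiableAt ℝ g x)
    (a : Fin n) : pd a (fun y => f y * g y) x = pd a f x * g x + f x * pd a g x := by
  simp only [pd]
  rw [fderiv_fun_mul hf hg]
  simp only [_root_.add_apply, _root_.smul_apply, smul_eq_mul]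
  ring

theorem pd_add {f g : E n → ℝ} {x : E n} (hf : DifferentiableAt ℝ f x) (hg : DifferentiableAt ℝ g x)
    (a : Fin n) : pd a (fun y => f y + g y) x = pd a f x + pd a g x := by
  simp only [pd]
  rw [fderiv_fun_add hf hg]
  rfl

theorem pd_le_S2 (d : E n → ℝ) (y : E n) (a : Fin n) : |pd a d y| ≤ S2 d y := by
  unfold S2
  have h1 : |pd a d y| ≤ ∑ a, |pd a d y| :=
    Finset.single_le_sum (f := fun a => |pd a d y|) (fun _ _ => abs_nonneg _) (Finset.mem_univ a)
  have h2 : 0 ≤ ∑ a, ∑ b, |hess d y a b| :=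
    Finset.sum_nonneg (fun a _ => Finset.sum_nonneg (fun b _ => abs_nonneg _))
  have := abs_nonneg (d y)
  linarith

theorem hess_le_S2 (d : E n → ℝ) (y : E n) (a b : Fin n) : |hess d y a b| ≤ S2 d y := by
  unfold S2
  have h1 : |hess d y a b| ≤ ∑ b, |hess d y a b| :=
    Finset.single_le_sum (f := fun b => |hess d y a b|) (fun _ _ => abs_nonneg _) (Finset.mem_univ b)
  have h2 : ∑ b, |hess d y a b| ≤ ∑ a, ∑ b, |hess d y a b| :=
    Finset.single_le_sum (f := fun a => ∑ b, |hess d y a b|)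
      (fun a _ => Finset.sum_nonneg (fun b _ => abs_nonneg _)) (Finset.mem_univ a)
  have h3 : 0 ≤ ∑ a, |pd a d y| := Finset.sum_nonneg (fun a _ => abs_nonneg _)
  have := abs_nonneg (d y)
  linarith

theorem self_le_S2 (d : E n → ℝ) (y : E n) : |d y| ≤ S2 d y := by
  unfold S2
  have h2 : 0 ≤ ∑ a, ∑ b, |hess d y a b| :=
    Finset.sum_nonneg (fun a _ => Finset.sum_nonneg (fun b _ => abs_nonneg _))
  have h3 : 0 ≤ ∑ a, |pd a d y| := Finset.sum_nonneg (fun a _ => abs_nonneg _)
  linarith

theorem S2_cont {d : E n → ℝ} (hd : Test d) : Continuous (S2 d) := by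
  have h1 : ∀ a, Continuous (pd a d) := fun a => (test_pd hd a).1.continuous
  have h2 : ∀ a b, Continuous (fun x => hess d x a b) := fun a b => (test_pd (test_pd hd b) a).1.continuous
  unfold S2
  refine (hd.1.continuous.abs.add (continuous_finsetSum _ (fun a _ => (h1 a).abs))).add ?_
  exact continuous_finsetSum _ (fun a _ => continuous_finsetSum _ (fun b _ => (h2 a b).abs))

/-- bound of a mollification by the average of `S2` -/
theorem mo_le {A : ℝ} (hA : 1 ≤ A) (hK : KerC n A) {d : E n → ℝ} (hd : Test d) (m : ℕ) {g : E n → ℝ}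
    (hg : Continuous g) (h : ∀ y, |g y| ≤ S2 d y) (x : E n) :
    |mo m g x| ≤ A * av m (fun y => |S2 d y|) x := by
  refine (hK.mo_b m g hg x).trans (mul_le_mul_of_nonneg_left ?_ (by linarith))
  exact av_mono m hg.abs (S2_cont hd).abs (fun y => (h y).trans (le_abs_self _)) x

end PtE

open PtE in
theorem pd_chi_mo {n : ℕ} {A R : ℝ} (hA : 1 ≤ A) (hK : KerC n A)
    {χ d : E n → ℝ} (hχ : Cuto A R χ) (hd : Test d) (m : ℕ) (x : E n) (_hx : ‖x‖ ≤ 2 * R) :
    (∀ b, |pd b (fun z => χ z * mo m d z) x| ≤ 4 * A ^ 2 * av m (fun y => |S2 d y|) x) ∧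
    ∀ a b, |hess (fun z => χ z * mo m d z) x a b| ≤ 4 * A ^ 2 * av m (fun y => |S2 d y|) x := by
  have hA0 : 0 ≤ A := by linarith
  set W : ℝ := av m (fun y => |S2 d y|) x with hW
  have hmo : ∀ {g : E n → ℝ}, Test g → Test (mo m g) := fun hg => mo_test m hg
  have hχd := test_diff hχ.test
  have hmd := test_diff (hmo hd)
  have hmdb : ∀ b, Differentiable ℝ (mo m (pd b d)) := fun b => test_diff (hmo (test_pd hd b))
  have hχb : ∀ b, Differentiable ℝ (pd b χ) := fun b => test_diff (test_pd hχ.test b)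
  -- bounds of the mollified functions
  have b0 : |mo m d x| ≤ A * W := mo_le hA hK hd m hd.1.continuous (self_le_S2 d) x
  have b1 : ∀ a, |mo m (pd a d) x| ≤ A * W := fun a =>
    mo_le hA hK hd m (test_pd hd a).1.continuous (fun y => pd_le_S2 d y a) x
  have b2 : ∀ a b, |mo m (pd a (pd b d)) x| ≤ A * W := fun a b =>
    mo_le hA hK hd m (test_pd (test_pd hd b) a).1.continuous (fun y => hess_le_S2 d y a b) x
  have hAW : 0 ≤ A * W := (abs_nonneg _).trans b0
  have hW0 : A * W ≤ A ^ 2 * W := by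
    have : A ^ 2 * W = A * (A * W) := by ring
    rw [this]
    nlinarith
  have hAAW : 0 ≤ A ^ 2 * W := hAW.trans hW0
  have first : ∀ b, pd b (fun z => χ z * mo m d z) =
      fun z => pd b χ z * mo m d z + χ z * mo m (pd b d) z := by
    intro b
    funext z
    rw [pd_mul (hχd z) (hmd z) b, pd_mo m hd b z]
  have prod_bd : ∀ {u v : ℝ} {U : ℝ}, 0 ≤ U → |u| ≤ U → |v| ≤ A * W → |u * v| ≤ U * (A * W) := by
    intro u v U hU h1 h2
    rw [abs_mul]
    exact mul_le_mul h1 h2 (abs_nonneg _) hU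
  constructor
  · intro b
    rw [first b]
    have e1 := prod_bd hA0 (hχ.d1 x b) b0
    have e2 := prod_bd zero_le_one (hχ.le1 x) (b1 b)
    calc |pd b χ x * mo m d x + χ x * mo m (pd b d) x|
        ≤ |pd b χ x * mo m d x| + |χ x * mo m (pd b d) x| := abs_add_le _ _
      _ ≤ A * (A * W) + 1 * (A * W) := add_le_add e1 e2
      _ ≤ 4 * A ^ 2 * W := by nlinarith
  · intro a b
    have hh : hess (fun z => χ z * mo m d z) x a b =
        (pd a (pd b χ) x * mo m d x + pd b χ x * mo m (pd a d) x)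
          + (pd a χ x * mo m (pd b d) x + χ x * mo m (pd a (pd b d)) x) := by
      simp only [hess]
      rw [first b]
      have hD1 : DifferentiableAt ℝ (fun z => pd b χ z * mo m d z) x := (hχb b x).mul (hmd x)
      have hD2 : DifferentiableAt ℝ (fun z => χ z * mo m (pd b d) z) x := (hχd x).mul (hmdb b x)
      rw [pd_add hD1 hD2 a]
      rw [pd_mul (hχb b x) (hmd x) a, pd_mul (hχd x) (hmdb b x) a, pd_mo m hd a x,
        pd_mo m (test_pd hd b) a x]
    rw [hh]
    have e1 := prod_bd hA0 (hχ.d2 x a b) b0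
    have e2 := prod_bd hA0 (hχ.d1 x b) (b1 a)
    have e3 := prod_bd hA0 (hχ.d1 x a) (b1 b)
    have e4 := prod_bd zero_le_one (hχ.le1 x) (b2 a b)
    have t1 := abs_add_le (pd a (pd b χ) x * mo m d x + pd b χ x * mo m (pd a d) x)
      (pd a χ x * mo m (pd b d) x + χ x * mo m (pd a (pd b d)) x)
    have t2 := abs_add_le (pd a (pd b χ) x * mo m d x) (pd b χ x * mo m (pd a d) x)
    have t3 := abs_add_le (pd a χ x * mo m (pd b d) x) (χ x * mo m (pd a (pd b d)) x)
    have t4 : A * (A * W) = A ^ 2 * W := by ring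
    rw [t4] at e1 e2 e3
    linarith

end Vale.Agent.P227.M.LIN
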