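import Vale.Agent.P227.M.LIN.H1Pt1
import Vale.Agent.P227.M.LIN.H1Ker
import Vale.Agent.P227.M.LIN.H1Mo
import Vale.Agent.P227.M.LIN.H1Loc
import Vale.Agent.P227.M.LIN.H1Cut
import Vale.Agent.P227.M.LIN.H1Leb
import Vale.Agent.P227.M.Bas
import Vale.Agent.P227.M.LIN.H1Alg
import Vale.Agent.P227.M.LIN.H1PtB
import Vale.Agent.P227.M.LIN.H1PtC
import Vale.Agent.P227.M.LIN.H1PtD
import Vale.Agent.P227.M.LIN.H1PtE

open MeasureTheory Filter Metric Set
open scoped Topology

namespace Vale.Agent.P227.M.LIN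


/-! # P227/M/LIN: pointwise bound for the second Friedrichs step (helper479). -/

namespace Pt

/-! ## the identity -/

lemma test_mul {n : ℕ} {f g : E n → ℝ} (hf : Test f) (hg : Test g) : Test (fun z => f z * g z) :=
  ⟨hf.1.mul hg.1, hf.2.mul_right⟩

lemma test_add {n : ℕ} {f g : E n → ℝ} (hf : Test f) (hg : Test g) : Test (fun z => f z + g z) :=
  ⟨hf.1.add hg.1, hf.2.add hg.2⟩

lemma test_sub {n : ℕ} {f g : E n → ℝ} (hf : Test f) (hg : Test g) : Test (fun z => f z - g z) :=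
  ⟨hf.1.sub hg.1, hf.2.sub hg.2⟩

lemma FF_test {n : ℕ} {A R : ℝ} {χ v0 v : E n → ℝ} (hχ : Cuto A R χ) (h0 : Test v0) (hv : Test v) (m : ℕ) :
    Test (FF m χ v0 v) :=
  test_add h0 (test_mul hχ.test (mo_test m (test_sub hv h0)))

lemma gg_cont {n : ℕ} {ψ V : E n → ℝ} {c C M : ℝ} (hM : MM ψ V c C M) {w f : E n → ℝ} (hw : Test w) (hf : Test f) :
    Continuous (gg ψ w f) :=
  (hf.1.continuous.sub (Lop_lip hM hf).1).sub hw.1.continuous

lemma gg_hcs {n : ℕ} {ψ V : E n → ℝ} {c C M : ℝ} (hM : MM ψ V c C M) {w f : E n → ℝ} (hw : Test w) (hf : Test f) :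
    HasCompactSupport (gg ψ w f) :=
  (hf.2.sub (Lop_lip hM hf).2.1).sub hw.2

lemma lp_sub {n : ℕ} {f g : E n → ℝ} {K K' : ℝ} (hf : Lp f K) (hg : Lp g K') : Lp (fun x => f x - g x) (K + K') := by
  intro x y
  have h1 := hf x y
  have h2 := hg x y
  calc |f x - g x - (f y - g y)| = |(f x - f y) - (g x - g y)| := by ring_nf
    _ ≤ |f x - f y| + |g x - g y| := abs_sub _ _
    _ ≤ (K + K') * ‖x - y‖ := by linarith

lemma test_lp {n : ℕ} {f : E n → ℝ} (hf : Test f) : ∃ K, Lp f K := by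
  obtain ⟨K, hK⟩ := ContDiff.lipschitzWith_of_hasCompactSupport hf.2 hf.1 (by simp)
  refine ⟨K, fun x y => ?_⟩
  have := hK.dist_le_mul x y
  rwa [Real.dist_eq, dist_eq_norm] at this

lemma gg_lip {n : ℕ} {ψ V : E n → ℝ} {c C M : ℝ} (hM : MM ψ V c C M) {w f : E n → ℝ} (hw : Test w) (hf : Test f) :
    ∃ K, Lp (gg ψ w f) K := by
  obtain ⟨K1, h1⟩ := test_lp hf
  obtain ⟨K2, h2⟩ := (Lop_lip hM hf).2.2
  obtain ⟨K3, h3⟩ := test_lp hw
  exact ⟨_, lp_sub (lp_sub h1 h2) h3⟩

/-- the decomposition of `F - L F - w` -/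
lemma gg_FF {n : ℕ} {ψ V : E n → ℝ} {c C M A R : ℝ} (hM : MM ψ V c C M) {χ v0 v w : E n → ℝ} (hχ : Cuto A R χ)
    (h0 : Test v0) (hv : Test v) (hw : Test w) (m : ℕ) (hs : ∀ x, R - 1 ≤ ‖x‖ → gg ψ w v0 x = 0) (x : E n) :
    gg ψ w (FF m χ v0 v) x = (gg ψ w v0 x - mo m (gg ψ w v0) x) + χ x * mo m (gg ψ w v) x
      - χ x * ((∑ i, ∑ j, cm m (fun y => tau ψ y i j) (fun y => hess (fun y => v y - v0 y) y i j) x)
        - ∑ i, cm m (fun y => y i) (pd i (fun y => v y - v0 y)) x)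
      - mo m (fun y => v y - v0 y) x * Lop ψ χ x
      - 2 * ∑ i, ∑ j, tau ψ x i j * pd i χ x * pd j (mo m (fun y => v y - v0 y)) x := by
  have hd : Test (fun y => v y - v0 y) := test_sub hv h0
  have hf : Test (mo m (fun y => v y - v0 y)) := mo_test m hd
  have e1 : Lop ψ (FF m χ v0 v) x = Lop ψ v0 x + Lop ψ (fun z => χ z * mo m (fun y => v y - v0 y) z) x :=
    Alg47.Lop_add ψ h0 (test_mul hχ.test hf) x
  have e2 := Lop_mul hM hχ.test hf x
  have e3 := Lop_mo hM hd m x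
  -- `L v = L v0 + L d`
  have e4 : ∀ z, Lop ψ (fun y => v y - v0 y) z = Lop ψ v z - Lop ψ v0 z := by
    intro z
    have := Alg47.Lop_add ψ h0 hd z
    have h5 : (fun z => v0 z + (fun y => v y - v0 y) z) = v := by
      funext z; ring
    rw [h5] at this
    linarith
  have e5 : mo m (Lop ψ (fun y => v y - v0 y)) x =
      mo m (fun y => v y - v0 y) x - (mo m (gg ψ w v) x - mo m (gg ψ w v0) x) := by
    have h6 : (Lop ψ (fun y => v y - v0 y)) = fun z => (fun y => v y - v0 y) z - (gg ψ w v z - gg ψ w v0 z) := by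
      funext z
      rw [e4]
      unfold gg
      ring
    have hc1 := gg_cont hM hw hv
    have hc0 := gg_cont hM hw h0
    have h7 : mo m (fun z => (v z - v0 z) - (gg ψ w v z - gg ψ w v0 z)) x =
        mo m (fun y => v y - v0 y) x - mo m (fun z => gg ψ w v z - gg ψ w v0 z) x :=
      mo_sub m hd.1.continuous (hc1.sub hc0) x
    have h8 : mo m (fun z => gg ψ w v z - gg ψ w v0 z) x = mo m (gg ψ w v) x - mo m (gg ψ w v0) x :=
      mo_sub m hc1 hc0 x
    rw [h6, ← h8]
    exact h7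
  -- `χ mo g0 = mo g0`
  have e6 : χ x * mo m (gg ψ w v0) x = mo m (gg ψ w v0) x := by
    by_cases hx : ‖x‖ < R
    · rw [hχ.one x hx, one_mul]
    · rw [not_lt] at hx
      have : mo m (gg ψ w v0) x = 0 := by
        rw [mo_eq]
        refine integral_eq_zero_of_ae (Eventually.of_forall fun y => ?_)
        show rk m (x - y) * gg ψ w v0 y = 0
        by_cases hy : dl m ≤ ‖x - y‖
        · rw [ker_rk_zero m hy, zero_mul]
        · rw [not_le] at hy
          have h7 : R - 1 ≤ ‖y‖ := by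
            have h8 : ‖x‖ ≤ ‖x - y‖ + ‖y‖ := by
              calc ‖x‖ = ‖(x - y) + y‖ := by rw [sub_add_cancel]
                _ ≤ _ := norm_add_le _ _
            have := dl_le_one m
            linarith
          rw [hs y h7, mul_zero]
      rw [this, mul_zero]
  have e7 : gg ψ w v0 x = v0 x - Lop ψ v0 x - w x := rfl
  have e8 : gg ψ w (FF m χ v0 v) x = (v0 x + χ x * mo m (fun y => v y - v0 y) x) - Lop ψ (FF m χ v0 v) x - w x := rfl
  rw [e8, e1, e2, e3, e5]
  linear_combination (-1 : ℝ) * e7 - e6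


/-! ## the pointwise bound -/

/-- constants -/
lemma exists_const {n : ℕ} {ψ V : E n → ℝ} {c C M : ℝ} (hM : MM ψ V c C M) :
    ∃ A : ℝ, 1 ≤ A ∧ TauC A ψ ∧ KerC n A ∧ ∀ R : ℝ, 1 ≤ R → ∃ χ : E n → ℝ, Cuto A R χ := by
  obtain ⟨C1, hC1, h1⟩ := mo_bound n
  obtain ⟨C2, hC2, h2⟩ := mo_locB n
  obtain ⟨C3, hC3, h3⟩ := cm_bound n
  obtain ⟨C4, hC4, h4⟩ := cm_locB n
  obtain ⟨C5, hC5, h5⟩ := cutoff n
  obtain ⟨T, hT, h6, h7⟩ := tau_bdd hM
  have hav : ∀ (m : ℕ) (g : E n → ℝ) (x : E n), 0 ≤ av m (fun y => |g y|) x := fun m g x =>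
    av_nonneg m (fun y => abs_nonneg _) x
  refine ⟨C1 + C2 + C3 + C4 + C5 + T + 1, by linarith, ⟨fun x i j => (h6 x i j).trans (by linarith),
    fun i j x y => (h7 i j x y).trans (mul_le_mul_of_nonneg_right (by linarith) (norm_nonneg _))⟩,
    ⟨?_, ?_, ?_, ?_⟩, ?_⟩
  · intro m g hg x
    exact (h1 m g hg x).trans (mul_le_mul_of_nonneg_right (by linarith) (hav m g x))
  · intro m g hg x b
    have hd := dl_pos m
    refine (h2 m g hg x b).mono ?_
    refine mul_le_mul_of_nonneg_right (mul_le_mul_of_nonneg_right (by linarith) (by positivity)) (hav m g x)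
  · intro m a G K hK hL ha hG x
    exact (h3 m a G K hK hL ha hG x).trans
      (mul_le_mul_of_nonneg_right (mul_le_mul_of_nonneg_right (by linarith) hK) (hav m G x))
  · intro m a G K hK hL ha hG x b
    exact (h4 m a G K hK hL ha hG x b).mono
      (mul_le_mul_of_nonneg_right (mul_le_mul_of_nonneg_right (by linarith) hK) (hav m G x))
  · intro R hR
    obtain ⟨χ, k1, k2, k3, k4, k5, k6, k7⟩ := h5 R hR
    have hle : C5 ≤ C1 + C2 + C3 + C4 + C5 + T + 1 := by linarith
    exact ⟨χ, k1, k2, k3, k4, fun x a => (k5 x a).1.trans hle, fun x a => (k5 x a).2.trans hle,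
      fun x a b => (k6 x a b).1.trans hle, fun x a b => (k6 x a b).2.trans hle, fun x a b d => (k7 x a b d).trans hle⟩

/-- the `q` term -/
lemma locB_q {n : ℕ} {A R : ℝ} (hA : 1 ≤ A) (hK : KerC n A) {χ q : E n → ℝ} (hχ : Cuto A R χ) (hq : Continuous q)
    (m : ℕ) (x : E n) (b : Fin n) :
    LocB b (fun z => χ z * mo m q z) x (2 * A ^ 2 * (dl m)⁻¹ * av m (fun y => |q y|) x) := by
  have hav : 0 ≤ av m (fun y => |q y|) x := av_nonneg m (fun y => abs_nonneg _) x
  have hd := dl_pos m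
  have hd1 : 1 ≤ (dl m)⁻¹ := (one_le_inv₀ hd).2 (dl_le_one m)
  have h1 : LocB b χ x |pd b χ x| := LocB.of_diff ((hχ.test.1.differentiable (by simp)) x)
  have h2 := hK.mo_l m q hq x b
  have hA0 : 0 ≤ A := by linarith
  refine (h1.mul h2 (abs_nonneg _) (by positivity)).mono ?_
  have h3 := hK.mo_b m q hq x
  have h4 := hχ.d1 x b
  have h5 := hχ.le1 x
  calc |χ x| * (A * (dl m)⁻¹ * av m (fun y => |q y|) x) + |mo m q x| * |pd b χ x|
      ≤ 1 * (A * (dl m)⁻¹ * av m (fun y => |q y|) x) + (A * av m (fun y => |q y|) x) * A := by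
        refine add_le_add (mul_le_mul_of_nonneg_right h5 (by positivity))
          (mul_le_mul h3 h4 (abs_nonneg _) (by positivity))
    _ ≤ 2 * A ^ 2 * (dl m)⁻¹ * av m (fun y => |q y|) x := by
        have e1 : A * (dl m)⁻¹ * av m (fun y => |q y|) x ≤ A ^ 2 * (dl m)⁻¹ * av m (fun y => |q y|) x := by
          have : A ≤ A ^ 2 := by nlinarith
          gcongr
        have e2 : (A * av m (fun y => |q y|) x) * A ≤ A ^ 2 * (dl m)⁻¹ * av m (fun y => |q y|) x := by
          have : A ^ 2 * av m (fun y => |q y|) x * 1 ≤ A ^ 2 * av m (fun y => |q y|) x * (dl m)⁻¹ :=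
            mul_le_mul_of_nonneg_left hd1 (by positivity)
          nlinarith
        linarith

lemma avR_in {n : ℕ} (m : ℕ) {R : ℝ} (g : E n → ℝ) {x : E n} (hx : ‖x‖ ≤ 2 * R) :
    avR m R g x = av m (fun y => |g y|) x := by
  unfold avR
  rw [indicator_of_mem (by simpa using hx)]

lemma avR_nonneg {n : ℕ} (m : ℕ) (R : ℝ) (g : E n → ℝ) (x : E n) : 0 ≤ avR m R g x := by
  unfold avR
  exact indicator_nonneg (fun y _ => av_nonneg m (fun y => abs_nonneg _) y) x

end Pt

open Pt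

theorem pt_bound {n : ℕ} {ψ V : E n → ℝ} {c C M : ℝ} (hM : MM ψ V c C M) :
    ∃ T1 : ℝ, 0 < T1 ∧ ∀ R : ℝ, 1 ≤ R → ∃ χ : E n → ℝ, Test χ ∧ PtBound ψ T1 R χ := by
  obtain ⟨A, hA, hT, hK, hcut⟩ := exists_const hM
  have hA0 : 0 < A := by linarith
  refine ⟨11 * (n ^ 2 + n + 1) * A ^ 3, by positivity, fun R hR => ?_⟩
  obtain ⟨χ, hχ⟩ := hcut R hR
  refine ⟨χ, hχ.test, ?_⟩
  intro m v0 v w h0 hv hw hs
  have hd : Test (fun y => v y - v0 y) := test_sub hv h0
  have hdl := dl_pos m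
  have hdl' : 0 < (dl m)⁻¹ := by positivity
  obtain ⟨K0, hL0⟩ := gg_lip hM hw h0
  have hc0 := gg_cont hM hw h0
  have hs0 := gg_hcs hM hw h0
  have hcq := gg_cont hM hw hv
  -- near a point outside of `B_{2R}` the cut-off vanishes
  have hout : ∀ x : E n, 2 * R < ‖x‖ → ∀ᶠ y in 𝓝 x, χ y = 0 := by
    intro x hx
    filter_upwards [(isOpen_lt continuous_const continuous_norm).mem_nhds hx] with y hy
    exact hχ.zero y hy
  have hT1 : ∀ x : E n, 4 * A ^ 2 * av m (fun y => |S2 (fun y => v y - v0 y) y|) x ≤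
      11 * (n ^ 2 + n + 1) * A ^ 3 * av m (fun y => |S2 (fun y => v y - v0 y) y|) x := by
    intro x
    have hav : 0 ≤ av m (fun y => |S2 (fun y => v y - v0 y) y|) x := av_nonneg m (fun y => abs_nonneg _) x
    refine mul_le_mul_of_nonneg_right ?_ hav
    have h1 : A ^ 2 ≤ A ^ 3 := pow_le_pow_right₀ hA (by norm_num)
    have h2 : (0 : ℝ) ≤ (n : ℝ) ^ 2 + n := by positivity
    have h3 : 0 ≤ A ^ 3 := by positivity
    nlinarith [mul_nonneg h2 h3]
  refine ⟨?_, ?_, ?_⟩
  · filter_upwards [lip_ae hL0] with x hx b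
    obtain ⟨hdm, hpm⟩ := lip_mo hL0 hs0 m x
    have g1 : LocB b (fun z => gg ψ w v0 z - mo m (gg ψ w v0) z) x
        |pd b (gg ψ w v0) x - mo m (pd b (gg ψ w v0)) x| := by
      have h1 : LocB b (fun z => gg ψ w v0 z - mo m (gg ψ w v0) z) x
          |pd b (fun z => gg ψ w v0 z - mo m (gg ψ w v0) z) x| := LocB.of_diff (hx.sub hdm)
      have h2 : pd b (fun z => gg ψ w v0 z - mo m (gg ψ w v0) z) x =
          pd b (gg ψ w v0) x - mo m (pd b (gg ψ w v0)) x := by
        rw [← hpm b]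
        unfold pd
        rw [fderiv_fun_sub hx hdm]
        rfl
      rwa [h2] at h1
    by_cases hxR : ‖x‖ ≤ 2 * R
    · rw [avR_in m _ hxR, avR_in m _ hxR]
      have g2 := locB_q hA hK hχ hcq m x b
      have g3 := locB_Cm hM hA hT hK hχ hd m x b
      have g4 := locB_fL hM hA hT hK hχ hd m x b
      have g5 := locB_cross hM hA hT hK hχ hd m x b
      have g6 := (((g1.add g2).sub g3).sub g4).sub g5
      have g7 := g6.congr (Eventually.of_forall fun y => (gg_FF hM hχ h0 hv hw m hs y).symm)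
      have hav1 : 0 ≤ av m (fun y => |S2 (fun y => v y - v0 y) y|) x := av_nonneg m (fun y => abs_nonneg _) x
      have hav2 : 0 ≤ av m (fun y => |gg ψ w v y|) x := av_nonneg m (fun y => abs_nonneg _) x
      refine (g7.pd_le (by positivity)).trans ?_
      have e1 : 2 * A ^ 2 * (dl m)⁻¹ * av m (fun y => |gg ψ w v y|) x ≤
          11 * (n ^ 2 + n + 1) * A ^ 3 * (dl m)⁻¹ * av m (fun y => |gg ψ w v y|) x := by
        refine mul_le_mul_of_nonneg_right (mul_le_mul_of_nonneg_right ?_ hdl'.le) hav2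
        have h1 : A ^ 2 ≤ A ^ 3 := pow_le_pow_right₀ hA (by norm_num)
        have h2 : (0 : ℝ) ≤ (n : ℝ) ^ 2 + n := by positivity
        have h3 : 0 ≤ A ^ 3 := by positivity
        nlinarith [mul_nonneg h2 h3]
      have e2 : 2 * (n ^ 2 + n) * A ^ 3 * av m (fun y => |S2 (fun y => v y - v0 y) y|) x +
          3 * (n ^ 2 + n) * A ^ 3 * av m (fun y => |S2 (fun y => v y - v0 y) y|) x +
          6 * n ^ 2 * A ^ 3 * av m (fun y => |S2 (fun y => v y - v0 y) y|) x ≤
          11 * (n ^ 2 + n + 1) * A ^ 3 * av m (fun y => |S2 (fun y => v y - v0 y) y|) x := by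
        have h3 : 0 ≤ A ^ 3 * av m (fun y => |S2 (fun y => v y - v0 y) y|) x := by positivity
        have h4 : (0 : ℝ) ≤ n := Nat.cast_nonneg n
        nlinarith [mul_nonneg h4 h3]
      linarith
    · rw [not_le] at hxR
      have g8 : LocB b (gg ψ w (FF m χ v0 v)) x |pd b (gg ψ w v0) x - mo m (pd b (gg ψ w v0)) x| := by
        refine g1.congr ?_
        have h9 := hout x hxR
        have h10 : ∀ᶠ y in 𝓝 x, ∀ᶠ z in 𝓝 y, χ z = 0 := eventually_eventually_nhds.2 h9
        filter_upwards [h10] with y hy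
        have hy0 : χ y = 0 := hy.self_of_nhds
        have hpd : ∀ᶠ z in 𝓝 y, ∀ i, pd i χ z = 0 := by
          filter_upwards [eventually_eventually_nhds.2 hy] with z hz i
          have : χ =ᶠ[𝓝 z] fun _ => (0 : ℝ) := hz
          unfold pd
          rw [this.fderiv_eq]
          simp
        have hL : Lop ψ χ y = 0 := by
          unfold Lop hess
          have h11 : ∀ i j, pd i (pd j χ) y = 0 := by
            intro i j
            have : pd j χ =ᶠ[𝓝 y] fun _ => (0 : ℝ) := hpd.mono fun z hz => hz j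
            show fderiv ℝ (pd j χ) y (ei i) = 0
            rw [this.fderiv_eq]
            simp
          have h12 : ∀ i, pd i χ y = 0 := hpd.self_of_nhds
          simp [h11, h12]
        rw [gg_FF hM hχ h0 hv hw m hs y, hy0, hL]
        have h12 : ∀ i, pd i χ y = 0 := hpd.self_of_nhds
        simp [h12]
      refine (g8.pd_le (abs_nonneg _)).trans ?_
      have e3 := avR_nonneg m R (gg ψ w v) x
      have e4 := avR_nonneg m R (S2 (fun y => v y - v0 y)) x
      have e5 : 0 ≤ 11 * ((n : ℝ) ^ 2 + n + 1) * A ^ 3 * (dl m)⁻¹ * avR m R (gg ψ w v) x := by positivity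
      have e6 : 0 ≤ 11 * ((n : ℝ) ^ 2 + n + 1) * A ^ 3 * avR m R (S2 (fun y => v y - v0 y)) x := by positivity
      linarith
  · intro x b
    by_cases hxR : ‖x‖ ≤ 2 * R
    · rw [avR_in m _ hxR]
      exact ((pd_chi_mo hA hK hχ hd m x hxR).1 b).trans (hT1 x)
    · rw [not_le] at hxR
      have h9 : (fun z => χ z * mo m (fun y => v y - v0 y) z) =ᶠ[𝓝 x] fun _ => (0 : ℝ) := by
        filter_upwards [hout x hxR] with y hy
        rw [hy, zero_mul]
      unfold pd
      rw [h9.fderiv_eq]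
      have e4 := avR_nonneg m R (S2 (fun y => v y - v0 y)) x
      simp only [fderiv_fun_const, Pi.zero_apply, zero_apply, abs_zero]
      positivity
  · intro x a b
    by_cases hxR : ‖x‖ ≤ 2 * R
    · rw [avR_in m _ hxR]
      exact ((pd_chi_mo hA hK hχ hd m x hxR).2 a b).trans (hT1 x)
    · rw [not_le] at hxR
      have h9 : pd b (fun z => χ z * mo m (fun y => v y - v0 y) z) =ᶠ[𝓝 x] fun _ => (0 : ℝ) := by
        filter_upwards [eventually_eventually_nhds.2 (hout x hxR)] with y hy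
        have h10 : (fun z => χ z * mo m (fun y => v y - v0 y) z) =ᶠ[𝓝 y] fun _ => (0 : ℝ) := by
          filter_upwards [hy] with z hz
          rw [hz, zero_mul]
        unfold pd
        rw [h10.fderiv_eq]
        simp
      show |pd a (pd b (fun z => χ z * mo m (fun y => v y - v0 y) z)) x| ≤ _
      unfold pd at h9 ⊢
      rw [h9.fderiv_eq]
      have e4 := avR_nonneg m R (S2 (fun y => v y - v0 y)) x
      simp only [fderiv_fun_const, Pi.zero_apply, zero_apply, abs_zero]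
      positivity

end Vale.Agent.P227.M.LIN
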