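import Vale.Agent.P227.M.LIN.H1Top
import Vale.Agent.P227.M.LIN.H1Pt

/-! # P227/M/LIN: the theorem `StmtH1` (helper792 / helper479). -/

namespace Vale.Agent.P227.M.LIN.H1T

theorem ptAll : PtAll := by
  intro n ψ V c C M hM
  obtain ⟨T1, hT1, h⟩ := pt_bound hM
  exact ⟨T1, hT1, fun R hR => h R (by linarith)⟩

/-- block LIN-4: the second Friedrichs step -/
theorem stmtH1 : StmtH1 := stmtH1_of ptAll

end Vale.Agent.P227.M.LIN.H1T
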