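import Mathlib

/-!
# P227, block LIN, leaf LIN-3: the soft Hilbert space step

`H` is a real Hilbert space, `D` a real vector space (the test functions), `J A : D → H` linear
(`J` the inclusion, `A` the generator), `A` symmetric and nonpositive, and the range of `J - A`
is dense.  If `f` is orthogonal to all limits `h = lim J s` with `A s → 0` and to all limits
`h = lim J s` with `A s → - h`, then `f` can be approximated by `- A (w - 2 v)` with
`(J - A) v` close to `J w`.
-/

namespace Vale.Agent.P227.M.LIN.H737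

open Filter Topology

variable {H : Type*} [NormedAddCommGroup H] [InnerProductSpace ℝ H]
variable {D : Type*} [AddCommGroup D] [Module ℝ D]

/-- `Rel J A r g`: `r = (1 - A)⁻¹ g` in the sense of sequences. -/
def Rel (J A : D →ₗ[ℝ] H) (r g : H) : Prop :=
  ∃ s : ℕ → D, Tendsto (fun m => J (s m)) atTop (𝓝 r) ∧
    Tendsto (fun m => J (s m) - A (s m)) atTop (𝓝 g)

theorem Rel.self (J A : D →ₗ[ℝ] H) (w : D) : Rel J A (J w) (J w - A w) :=
  ⟨fun _ => w, tendsto_const_nhds, tendsto_const_nhds⟩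

theorem Rel.add {J A : D →ₗ[ℝ] H} {r g r' g' : H} (h : Rel J A r g) (h' : Rel J A r' g') :
    Rel J A (r + r') (g + g') := by
  obtain ⟨s, hs1, hs2⟩ := h
  obtain ⟨t, ht1, ht2⟩ := h'
  refine ⟨fun m => s m + t m, ?_, ?_⟩
  · simpa using hs1.add ht1
  · have := hs2.add ht2
    refine this.congr (fun m => ?_)
    rw [map_add, map_add]; abel

theorem Rel.smul {J A : D →ₗ[ℝ] H} {r g : H} (c : ℝ) (h : Rel J A r g) :
    Rel J A (c • r) (c • g) := by
  obtain ⟨s, hs1, hs2⟩ := h
  refine ⟨fun m => c • s m, ?_, ?_⟩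
  · simpa using hs1.const_smul c
  · have := hs2.const_smul c
    refine this.congr (fun m => ?_)
    rw [map_smul, map_smul, smul_sub]

theorem Rel.symm {J A : D →ₗ[ℝ] H}
    (hsym : ∀ f g, inner ℝ (A f) (J g) = inner ℝ (J f) (A g))
    {r g r' g' : H} (h : Rel J A r g) (h' : Rel J A r' g') :
    inner ℝ r g' = inner ℝ g r' := by
  obtain ⟨s, hs1, hs2⟩ := h
  obtain ⟨t, ht1, ht2⟩ := h'
  have h1 : Tendsto (fun m => inner ℝ (J (s m)) (J (t m) - A (t m))) atTop (𝓝 (inner ℝ r g')) :=
    hs1.inner ht2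
  have h2 : Tendsto (fun m => inner ℝ (J (s m) - A (s m)) (J (t m))) atTop (𝓝 (inner ℝ g r')) :=
    hs2.inner ht1
  have h3 : (fun m => inner ℝ (J (s m)) (J (t m) - A (t m)))
      = fun m => inner ℝ (J (s m) - A (s m)) (J (t m)) := by
    funext m
    rw [inner_sub_right, inner_sub_left, hsym]
  rw [h3] at h1
  exact tendsto_nhds_unique h1 h2

theorem norm_le {J A : D →ₗ[ℝ] H} (hneg : ∀ f, inner ℝ (A f) (J f) ≤ 0) (f : D) :
    ‖J f‖ ≤ ‖J f - A f‖ := by
  have h1 : ‖J f - A f‖ ^ 2 = ‖J f‖ ^ 2 - 2 * inner ℝ (J f) (A f) + ‖A f‖ ^ 2 :=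
    norm_sub_sq_real _ _
  have h2 : inner ℝ (J f) (A f) ≤ 0 := by
    rw [real_inner_comm]; exact hneg f
  have h3 : ‖J f‖ ^ 2 ≤ ‖J f - A f‖ ^ 2 := by
    rw [h1]; nlinarith [sq_nonneg ‖A f‖]
  exact le_of_sq_le_sq h3 (norm_nonneg _)
where
  le_of_sq_le_sq {a b : ℝ} (h : a ^ 2 ≤ b ^ 2) (hb : 0 ≤ b) : a ≤ b :=
    le_of_abs_le (by simpa [abs_of_nonneg hb] using (sq_le_sq.mp h))

theorem Rel.total [CompleteSpace H] {J A : D →ₗ[ℝ] H}
    (hneg : ∀ f, inner ℝ (A f) (J f) ≤ 0)
    (hdense : Dense (Set.range fun f => J f - A f)) (g : H) : ∃ r, Rel J A r g := by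
  obtain ⟨u, hu, hlim⟩ := mem_closure_iff_seq_limit.mp (hdense g)
  choose s hs using hu
  have hs' : ∀ m, J (s m) - A (s m) = u m := hs
  have hB : CauchySeq u := hlim.cauchySeq
  have hC : CauchySeq (fun m => J (s m)) := by
    rw [Metric.cauchySeq_iff'] at hB ⊢
    intro ε hε
    obtain ⟨N, hN⟩ := hB ε hε
    refine ⟨N, fun m hm => ?_⟩
    have h1 := hN m hm
    rw [dist_eq_norm] at h1 ⊢
    have h2 : ‖J (s m - s N)‖ ≤ ‖J (s m - s N) - A (s m - s N)‖ := norm_le hneg _
    have h3 : J (s m - s N) - A (s m - s N) = u m - u N := by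
      rw [map_sub, map_sub, ← hs' m, ← hs' N]; abel
    rw [h3, map_sub] at h2
    exact lt_of_le_of_lt h2 h1
  obtain ⟨r, hr⟩ := cauchySeq_tendsto_of_complete hC
  exact ⟨r, s, hr, hlim.congr (fun m => (hs' m).symm)⟩

/-- The abstract approximation theorem. -/
theorem approx [CompleteSpace H] (J A : D →ₗ[ℝ] H)
    (hsym : ∀ f g, inner ℝ (A f) (J g) = inner ℝ (J f) (A g))
    (hneg : ∀ f, inner ℝ (A f) (J f) ≤ 0)
    (hdense : Dense (Set.range fun f => J f - A f))
    (f : H)
    (h1 : ∀ h : H, (∃ s : ℕ → D, Tendsto (fun m => J (s m)) atTop (𝓝 h) ∧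
      Tendsto (fun m => A (s m)) atTop (𝓝 0)) → inner ℝ f h = 0)
    (h2 : ∀ h : H, (∃ s : ℕ → D, Tendsto (fun m => J (s m)) atTop (𝓝 h) ∧
      Tendsto (fun m => A (s m)) atTop (𝓝 (-h))) → inner ℝ f h = 0) :
    ∀ ε > 0, ∃ (w : D) (v : ℕ → D), Tendsto (fun i => J (v i) - A (v i)) atTop (𝓝 (J w)) ∧
      ∀ i, ‖f + A (w - (2 : ℝ) • v i)‖ ≤ ε := by
  classical
  -- the subspace of attained right-hand sides
  let S : Submodule ℝ H :=
    { carrier := {g | ∃ (w : D) (r : H), Rel J A r (J w) ∧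
        g = (J w - A w) - (3 : ℝ) • J w + (2 : ℝ) • r}
      add_mem' := by
        rintro a b ⟨w, r, hr, rfl⟩ ⟨w', r', hr', rfl⟩
        refine ⟨w + w', r + r', by simpa using hr.add hr', ?_⟩
        simp only [map_add, smul_add]; abel
      zero_mem' := ⟨0, 0, by simpa using (Rel.self J A 0), by simp⟩
      smul_mem' := by
        rintro c a ⟨w, r, hr, rfl⟩
        refine ⟨c • w, c • r, by simpa using hr.smul c, ?_⟩
        simp only [map_smul, smul_add, smul_sub, smul_comm c (3 : ℝ), smul_comm c (2 : ℝ)] }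
  have hperp : ∀ h ∈ Sᗮ, inner ℝ f h = 0 := by
    intro h hh
    obtain ⟨h', hr'⟩ := Rel.total hneg hdense h
    obtain ⟨h'', hr''⟩ := Rel.total hneg hdense h'
    have key : ∀ w : D, inner ℝ (J w - A w) (h - (3 : ℝ) • h' + (2 : ℝ) • h'') = 0 := by
      intro w
      obtain ⟨r, hr⟩ := Rel.total hneg hdense (J w)
      have e0 : inner ℝ ((J w - A w) - (3 : ℝ) • J w + (2 : ℝ) • r) h = 0 :=
        hh _ ⟨w, r, hr, rfl⟩
      have e1 : inner ℝ (J w) h = inner ℝ (J w - A w) h' := (Rel.self J A w).symm hsym hr'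
      have e2 : inner ℝ r h = inner ℝ (J w) h' := hr.symm hsym hr'
      have e3 : inner ℝ (J w) h' = inner ℝ (J w - A w) h'' := (Rel.self J A w).symm hsym hr''
      rw [inner_add_left, inner_sub_left, inner_smul_left, inner_smul_left] at e0
      rw [inner_add_right, inner_sub_right, inner_smul_right, inner_smul_right]
      simp only [conj_trivial] at e0
      rw [e1, e2, e3] at e0
      linarith
    have hzero : h - (3 : ℝ) • h' + (2 : ℝ) • h'' = 0 := by
      set z := h - (3 : ℝ) • h' + (2 : ℝ) • h'' with hz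
      have hcl : ∀ x : H, inner ℝ x z = 0 := by
        have hclosed : IsClosed {x : H | inner ℝ x z = 0} :=
          isClosed_eq (continuous_id.inner continuous_const) continuous_const
        have hsub : Set.range (fun f => J f - A f) ⊆ {x : H | inner ℝ x z = 0} := by
          rintro _ ⟨w, rfl⟩; exact key w
        intro x
        have := (hclosed.closure_subset_iff.mpr hsub) (hdense x)
        exact this
      exact inner_self_eq_zero.mp (hcl z)
    have hsecond : (2 : ℝ) • h'' = (3 : ℝ) • h' - h := by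
      have := hzero
      rw [sub_add_eq_add_sub, sub_eq_zero] at this
      rw [← this]; abel
    -- first eigen-limit
    have r1 : Rel J A (h - (2 : ℝ) • h') (h - (2 : ℝ) • h') := by
      have := hr'.add (hr''.smul (-2))
      have e1 : h' + (-2 : ℝ) • h'' = h - (2 : ℝ) • h' := by
        rw [neg_smul, hsecond, show (3 : ℝ) • h' = (2 : ℝ) • h' + h' by
          rw [show (3 : ℝ) = 2 + 1 by norm_num, add_smul, one_smul]]
        abel
      have e2 : h + (-2 : ℝ) • h' = h - (2 : ℝ) • h' := by rw [neg_smul]; abel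
      rwa [e1, e2] at this
    have q1 : inner ℝ f (h - (2 : ℝ) • h') = 0 := by
      obtain ⟨s, hs1, hs2⟩ := r1
      refine h1 _ ⟨s, hs1, ?_⟩
      have := hs1.sub hs2
      simpa using this
    -- second eigen-limit
    have r2 : Rel J A ((1 / 2 : ℝ) • (h - h')) (h - h') := by
      have := hr'.add (hr''.smul (-1))
      have e1 : h' + (-1 : ℝ) • h'' = (1 / 2 : ℝ) • (h - h') := by
        have : h'' = (1 / 2 : ℝ) • ((2 : ℝ) • h'') := by
          rw [smul_smul]; norm_num
        rw [this, hsecond, smul_smul, smul_sub, smul_smul, smul_sub]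
        module
      have e2 : h + (-1 : ℝ) • h' = h - h' := by rw [neg_smul, one_smul]; abel
      rwa [e1, e2] at this
    have q2 : inner ℝ f ((1 / 2 : ℝ) • (h - h')) = 0 := by
      obtain ⟨s, hs1, hs2⟩ := r2
      refine h2 _ ⟨s, hs1, ?_⟩
      have := hs1.sub hs2
      have e : (1 / 2 : ℝ) • (h - h') - (h - h') = -((1 / 2 : ℝ) • (h - h')) := by module
      rw [e] at this
      simpa using this
    rw [inner_sub_right, inner_smul_right] at q1
    rw [inner_smul_right, inner_sub_right] at q2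
    linarith
  have hf : f ∈ S.topologicalClosure := by
    rw [← Submodule.orthogonal_orthogonal_eq_closure]
    rw [Submodule.mem_orthogonal']
    exact hperp
  intro ε hε
  have hf' : f ∈ closure (S : Set H) := hf
  obtain ⟨g0, hg0, hdist⟩ := Metric.mem_closure_iff.mp hf' ε hε
  obtain ⟨w, r, ⟨s, hs1, hs2⟩, rfl⟩ := hg0
  have hA : Tendsto (fun m => f + A (w - (2 : ℝ) • s m)) atTop
      (𝓝 (f - ((J w - A w) - (3 : ℝ) • J w + (2 : ℝ) • r))) := by
    have t1 : Tendsto (fun m => A (s m)) atTop (𝓝 (r - J w)) := by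
      have := hs1.sub hs2
      simpa using this
    have t2 := (tendsto_const_nhds (x := f + A w)).sub (t1.const_smul (2 : ℝ))
    have e : f + A w - (2 : ℝ) • (r - J w)
          = f - ((J w - A w) - (3 : ℝ) • J w + (2 : ℝ) • r) := by module
    rw [e] at t2
    refine t2.congr (fun m => ?_)
    rw [map_sub, map_smul, add_sub_assoc]
  have ev1 : ∀ᶠ m in atTop, ‖f + A (w - (2 : ℝ) • s m)‖ < ε := by
    have := hA.norm
    rw [dist_eq_norm] at hdist
    exact this.eventually (gt_mem_nhds hdist)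
  obtain ⟨N, hN⟩ := eventually_atTop.mp ev1
  refine ⟨w, fun i => s (i + N), ?_, fun i => (hN _ (Nat.le_add_left _ _)).le⟩
  exact hs2.comp (tendsto_add_atTop_nat N)

end Vale.Agent.P227.M.LIN.H737
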