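import Vale.Agent.P227.M.LIN.Iface
import Vale.Agent.P227.M.LIN.H737

/-! # P227/M/LIN: proof of `StmtHilb` (LIN-3). -/

open MeasureTheory Filter
open scoped Topology

namespace Vale.Agent.P227.M.LIN

theorem stmtHilb : StmtHilb := by
  intro W H _ _ _ _ _ J A hsym hneg hdense r h1 h2 ε hε
  exact H737.approx J A hsym hneg hdense r
    (fun h ⟨s, hs1, hs2⟩ => h1 h s hs1 hs2) (fun h ⟨s, hs1, hs2⟩ => h2 h s hs1 hs2) ε hε

end Vale.Agent.P227.M.LIN
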