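import Vale.Agent.P227.M.LIN.TopF
import Vale.Agent.P227.M.Loc.TauB

/-! # P227/M/LIN/TopG: `τ` facts for the assembly (helper592). -/

open MeasureTheory Filter Matrix
open scoped Topology

namespace Vale.Agent.P227.M.LIN.T592

variable {n : ℕ} {ψ V : E n → ℝ} {c C M : ℝ}

theorem dot_tau (A : Matrix (Fin n) (Fin n) ℝ) (g h : Fin n → ℝ) :
    g ⬝ᵥ (A *ᵥ h) = ∑ i, ∑ j, A i j * g i * h j := by
  simp only [dotProduct, Matrix.mulVec, Finset.mul_sum]
  refine Finset.sum_congr rfl fun i _ => Finset.sum_congr rfl fun j _ => ?_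
  ring

theorem tau_lower (h : MM ψ V c C M) (x : E n) (g : Fin n → ℝ) :
    (max C 1)⁻¹ * ∑ i, g i ^ 2 ≤ ∑ i, ∑ j, tau ψ x i j * g i * g j := by
  set D := max C 1 with hD
  have hD0 : 0 < D := lt_of_lt_of_le one_pos (le_max_right _ _)
  set A := hess ψ x with hA
  have hpd : A.PosDef := Loc.hess_psi_posDef h x
  have hdet : IsUnit A.det := (Matrix.isUnit_iff_isUnit_det A).1 hpd.isUnit
  set w : Fin n → ℝ := A⁻¹ *ᵥ g with hw
  have hAw : A *ᵥ w = g := by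
    rw [hw, Matrix.mulVec_mulVec, Matrix.mul_nonsing_inv _ hdet, Matrix.one_mulVec]
  have hs : ∑ i, ∑ j, tau ψ x i j * g i * g j = g ⬝ᵥ w := (dot_tau _ g g).symm
  have hsym : Aᵀ = A := by
    ext i j; exact hess_symm h.C2 x j i
  have h0 := h.lower x (WithLp.toLp 2 (g - D • w))
  have h0' : 0 ≤ (g - D • w) ⬝ᵥ (A *ᵥ (g - D • w)) := by
    refine le_trans ?_ (h0.trans (le_of_eq (Loc.qf_eq _ _)))
    have := h.c_pos; positivity
  have hup : g ⬝ᵥ (A *ᵥ g) ≤ D * ∑ i, g i ^ 2 := by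
    have h1 := h.upper x (WithLp.toLp 2 g)
    rw [Loc.qf_eq, norm_sq_eq_sum] at h1
    have h2 : C * ∑ i, g i ^ 2 ≤ D * ∑ i, g i ^ 2 :=
      mul_le_mul_of_nonneg_right (le_max_left _ _) (Finset.sum_nonneg fun _ _ => sq_nonneg _)
    exact h1.trans h2
  have hgg : g ⬝ᵥ g = ∑ i, g i ^ 2 := by simp [dotProduct, sq]
  have hwg : w ⬝ᵥ (A *ᵥ g) = ∑ i, g i ^ 2 := by
    rw [Matrix.dotProduct_mulVec, ← Matrix.mulVec_transpose, hsym, hAw, hgg]
  have hexp : (g - D • w) ⬝ᵥ (A *ᵥ (g - D • w)) =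
      g ⬝ᵥ (A *ᵥ g) - 2 * D * (∑ i, g i ^ 2) + D ^ 2 * (g ⬝ᵥ w) := by
    rw [Matrix.mulVec_sub, Matrix.mulVec_smul, hAw]
    simp only [sub_dotProduct, dotProduct_sub, smul_dotProduct, dotProduct_smul, smul_eq_mul, hgg,
      hwg, dotProduct_comm w g]
    ring
  rw [hexp] at h0'
  rw [hs, inv_mul_eq_div, div_le_iff₀ hD0]
  have h5 : D * (∑ i, g i ^ 2) ≤ D * (g ⬝ᵥ w * D) := by nlinarith
  exact le_of_mul_le_mul_left h5 hD0

theorem tauF_of (n : ℕ) (ψ V : E n → ℝ) (c C M : ℝ) (h : MM ψ V c C M) : ∃ a K, TauF ψ a K := by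
  refine ⟨(max C 1)⁻¹, 1 / c + |(n : ℝ) ^ 2 * (1 / c) ^ 2 * M|, ?_⟩
  have hc := h.c_pos
  refine ⟨by positivity, fun x => (Loc.tau_posDef h x).posSemidef, fun x i j => Loc.tau_symm h x i j,
    fun x g => tau_lower h x g, fun x i j => ?_, fun x y i j => ?_⟩
  · exact (Loc.tau_bdd h x i j).trans (le_add_of_nonneg_right (abs_nonneg _))
  · refine (Loc.tau_lip h x y i j).trans (mul_le_mul_of_nonneg_right ?_ (norm_nonneg _))
    refine (le_abs_self _).trans (le_add_of_nonneg_left (by positivity))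

/-- **assembly of block LIN** -/
theorem stmtLin_of (hI : StmtIBP) (hE : StmtESA) (hB : StmtBoch) (hC : StmtConst) (hAf : StmtAff)
    (hH1 : StmtH1) (hH : StmtHilb) : StmtLin :=
  stmtLin_of' tauF_of hI hE hB hC hAf hH1 hH

end Vale.Agent.P227.M.LIN.T592
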