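import Vale.Agent.P227.M.LIN.TopG
import Vale.Agent.P227.M.LIN.HilbPf
import Vale.Agent.P227.M.LIN.Boch
import Vale.Agent.P227.M.LIN.AffStmt
import Vale.Agent.P227.M.ID.Stein294

/-! # P227/M/LIN/Most: `StmtLin` from the two remaining leaves (helper592). -/

namespace Vale.Agent.P227.M.LIN

/-- `StmtLin` from ESA and the second Friedrichs step -/
theorem stmtLin_of_two (hE : StmtESA) (hH1 : StmtH1) : StmtLin :=
  T592.stmtLin_of B294.stmtIBP hE stmtBoch stmtConst stmtAff hH1 stmtHilb

end Vale.Agent.P227.M.LIN
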