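import Vale.Agent.P227.M.LIN.Esa205d
import Vale.Agent.P227.M.LIN.AE
import Vale.Agent.P227.M.LIN.Iface

/-! # `StmtESA` (helper205) -/

set_option linter.unusedSectionVars false

open MeasureTheory Filter Topology
open scoped ContDiff NNReal

namespace Vale.Agent.P227.Esa205

open Vale.Agent.P227.Moll Vale.Agent.P227.M Vale.Agent.P227.M.AE

variable {n : ℕ} {ψ V : E n → ℝ} {c C M : ℝ}

lemma tau_up (h : MM ψ V c C M) (x : E n) (v : Fin n → ℝ) :
    ∑ i, ∑ j, tau ψ x i j * v i * v j ≤ (((n : ℝ) + 1) / c) * ∑ i, v i ^ 2 := by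
  have hc := h.c_pos
  have h1 : ∀ i j, tau ψ x i j * v i * v j ≤ (1 / c) * ((v i ^ 2 + v j ^ 2) / 2) := by
    intro i j
    have h2 := tau_bound h x i j
    have h3 : |v i * v j| ≤ (v i ^ 2 + v j ^ 2) / 2 := by
      rw [abs_le]
      constructor <;> nlinarith [sq_nonneg (v i + v j), sq_nonneg (v i - v j)]
    calc tau ψ x i j * v i * v j ≤ |tau ψ x i j * v i * v j| := le_abs_self _
      _ = |tau ψ x i j| * |v i * v j| := by rw [mul_assoc, abs_mul]
      _ ≤ (1 / c) * ((v i ^ 2 + v j ^ 2) / 2) := by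
        exact mul_le_mul h2 h3 (abs_nonneg _) (by positivity)
  calc ∑ i, ∑ j, tau ψ x i j * v i * v j
      ≤ ∑ i, ∑ j, (1 / c) * ((v i ^ 2 + v j ^ 2) / 2) :=
        Finset.sum_le_sum fun i _ => Finset.sum_le_sum fun j _ => h1 i j
    _ = ((n : ℝ) / c) * ∑ i, v i ^ 2 := by
        have h4 : ∀ i, ∑ j : Fin n, (1 / c) * ((v i ^ 2 + v j ^ 2) / 2) =
            1 / (2 * c) * (n * v i ^ 2 + ∑ j, v j ^ 2) := by
          intro i
          rw [← Finset.mul_sum, ← Finset.sum_div, Finset.sum_add_distrib]
          simp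
          ring
        simp only [h4]
        rw [← Finset.mul_sum, Finset.sum_add_distrib, ← Finset.mul_sum]
        simp
        field_simp
        ring
    _ ≤ (((n : ℝ) + 1) / c) * ∑ i, v i ^ 2 := by
        refine mul_le_mul_of_nonneg_right ?_ (Finset.sum_nonneg fun i _ => sq_nonneg _)
        gcongr
        linarith

lemma tau_low (h : MM ψ V c C M) (x : E n) (v : Fin n → ℝ) :
    (1 / max C 1) * ∑ i, v i ^ 2 ≤ ∑ i, ∑ j, tau ψ x i j * v i * v j := by
  set D := max C 1 with hD
  have hD0 : 0 < D := lt_of_lt_of_le one_pos (le_max_right _ _)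
  have hCD : C ≤ D := le_max_left _ _
  set H := hess ψ x with hH
  -- `w = τ v`
  set w : Fin n → ℝ := fun i => ∑ j, tau ψ x i j * v j with hw
  have hHw : ∀ i, ∑ j, H i j * w j = v i := by
    intro i
    have h1 : ∑ j, H i j * w j = ∑ k, (∑ j, H i j * tau ψ x j k) * v k := by
      simp only [hw, Finset.mul_sum, Finset.sum_mul]
      rw [Finset.sum_comm]
      exact Finset.sum_congr rfl fun k _ => Finset.sum_congr rfl fun j _ => by ring
    rw [h1]
    have h2 : ∀ k, ∑ j, H i j * tau ψ x j k = if i = k then 1 else 0 := by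
      intro k
      have h3 := hess_mul_tau h x
      have h4 := congrFun (congrFun h3 i) k
      rw [Matrix.mul_apply, Matrix.one_apply] at h4
      exact h4
    simp [h2]
  have hsym : ∀ i j, H i j = H j i := fun i j => AE.hess_symm h.C2 x i j
  have hS : ∑ i, ∑ j, tau ψ x i j * v i * v j = ∑ i, v i * w i := by
    refine Finset.sum_congr rfl fun i _ => ?_
    rw [hw, Finset.mul_sum]
    exact Finset.sum_congr rfl fun j _ => by ring
  -- quadratic form of `H`
  have q1 : ∀ u : Fin n → ℝ, qf H (WithLp.toLp 2 u) = ∑ i, ∑ j, H i j * u i * u j := fun u => rfl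
  have nrm : ∀ u : Fin n → ℝ, ‖(WithLp.toLp 2 u : E n)‖ ^ 2 = ∑ i, u i ^ 2 := by
    intro u
    rw [EuclideanSpace.norm_sq_eq]
    simp
  have k1 : 0 ≤ ∑ i, ∑ j, H i j * (w i - v i / D) * (w j - v j / D) := by
    have h1 := h.lower x (WithLp.toLp 2 (fun i => w i - v i / D))
    rw [q1] at h1
    refine le_trans ?_ h1
    have := h.c_pos
    positivity
  have k2 : ∑ i, ∑ j, H i j * v i * v j ≤ D * ∑ i, v i ^ 2 := by
    have h1 := h.upper x (WithLp.toLp 2 v)
    rw [q1, nrm] at h1
    exact h1.trans (mul_le_mul_of_nonneg_right hCD (Finset.sum_nonneg fun i _ => sq_nonneg _))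
  have k3 : ∑ i, ∑ j, H i j * (w i - v i / D) * (w j - v j / D) =
      (∑ i, v i * w i) - 2 / D * (∑ i, v i ^ 2) + 1 / D ^ 2 * ∑ i, ∑ j, H i j * v i * v j := by
    have e1 : ∀ i, ∑ j, H i j * (w i - v i / D) * (w j - v j / D) =
        w i * v i - (1 / D) * (v i ^ 2) - (1 / D) * (∑ j, H i j * w i * v j)
          + 1 / D ^ 2 * ∑ j, H i j * v i * v j := by
      intro i
      have e2 : ∀ j, H i j * (w i - v i / D) * (w j - v j / D) =
          (w i - v i / D) * (H i j * w j) - (1 / D) * (H i j * w i * v j)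
          + 1 / D ^ 2 * (H i j * v i * v j) := by
        intro j
        field_simp
        ring
      simp only [e2]
      rw [Finset.sum_add_distrib, Finset.sum_sub_distrib, ← Finset.mul_sum, ← Finset.mul_sum,
        ← Finset.mul_sum, hHw i]
      ring
    simp only [e1]
    rw [Finset.sum_add_distrib, Finset.sum_sub_distrib, Finset.sum_sub_distrib, ← Finset.mul_sum,
      ← Finset.mul_sum, ← Finset.mul_sum]
    have e3 : ∑ i, ∑ j, H i j * w i * v j = ∑ i, v i ^ 2 := by
      rw [Finset.sum_comm]
      refine Finset.sum_congr rfl fun j _ => ?_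
      have e4 : ∑ i, H i j * w i * v j = v j * ∑ i, H j i * w i := by
        rw [Finset.mul_sum]
        exact Finset.sum_congr rfl fun i _ => by rw [hsym i j]; ring
      rw [e4, hHw j]; ring
    rw [e3]
    have e5 : ∑ i, w i * v i = ∑ i, v i * w i := Finset.sum_congr rfl fun i _ => mul_comm _ _
    rw [e5]
    ring
  rw [hS]
  rw [k3] at k1
  have k4 : 1 / D ^ 2 * ∑ i, ∑ j, H i j * v i * v j ≤ 1 / D * ∑ i, v i ^ 2 := by
    calc 1 / D ^ 2 * ∑ i, ∑ j, H i j * v i * v j ≤ 1 / D ^ 2 * (D * ∑ i, v i ^ 2) := by gcongr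
      _ = 1 / D * ∑ i, v i ^ 2 := by field_simp
  have k5 : 2 / D * ∑ i, v i ^ 2 = 2 * (1 / D * ∑ i, v i ^ 2) := by ring
  linarith

theorem stmtESA : LIN.StmtESA := by
  intro n ψ V c C M hV hM h hh hort
  obtain ⟨K, hK⟩ := AE.tau_lip hM
  have hc := hM.c_pos
  have cV : Continuous V := hV.smooth.continuous
  have cE : Continuous (fun x => Real.exp (-V x)) := by fun_prop
  -- data
  have D : Dat V (fun i j x => tau ψ x i j) K (1 / c) (1 / max C 1) (((n : ℝ) + 1) / c) := by
    refine ⟨hV.smooth, hK, fun i j x => tau_bound hM x i j, fun i j x => AE.tau_symm hM x i j,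
      ?_, by positivity, fun x v => tau_low hM x v, fun x v => tau_up hM x v, ?_⟩
    · have : 0 < max C 1 := lt_of_lt_of_le one_pos (le_max_right _ _)
      positivity
    · filter_upwards [ae_good hM] with x hx i
      have h1 := stein_ae hM hx i
      rw [Finset.sum_sub_distrib] at h1
      have h2 : ∀ j, lineDeriv ℝ (fun x => tau ψ x i j) x (ei j) = pd j (fun z => tau ψ z i j) x :=
        fun j => (hx.2 i j).lineDeriv_eq_fderiv
      simp only [h2]
      have h3 : ∑ b, pd b V x * tau ψ x i b = ∑ j, tau ψ x i j * pd j V x :=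
        Finset.sum_congr rfl fun j _ => mul_comm _ _
      rw [h3] at h1
      linarith
  -- the density
  have md : Measurable (fun x : E n => ENNReal.ofReal (Real.exp (-V x))) :=
    cE.measurable.ennreal_ofReal
  have hac : (volume : Measure (E n)) ≪ LIN.mu V :=
    withDensity_absolutelyContinuous' md.aemeasurable
      (Eventually.of_forall fun x => (ENNReal.ofReal_pos.2 (Real.exp_pos _)).ne')
  have hm : AEStronglyMeasurable h (volume : Measure (E n)) := hh.1.mono_ac hac
  have hI : Integrable (fun x => h x ^ 2 * Real.exp (-V x)) := by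
    have h1 : Integrable (fun x => h x ^ 2) (LIN.mu V) := hh.integrable_sq
    unfold LIN.mu at h1
    rw [integrable_withDensity_iff_integrable_smul' md
      (Eventually.of_forall fun x => ENNReal.ofReal_lt_top)] at h1
    refine h1.congr (Eventually.of_forall fun x => ?_)
    simp only [smul_eq_mul]
    rw [ENNReal.toReal_ofReal (Real.exp_pos _).le]
    ring
  set g : E n → ℝ := fun x => h x * Real.exp (-V x) with hg
  have gm : AEStronglyMeasurable g (volume : Measure (E n)) := hm.mul cE.aestronglyMeasurable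
  have hfin : Integrable (fun x => Real.exp (V x) * g x ^ 2) := by
    refine hI.congr (Eventually.of_forall fun x => ?_)
    have h1 : Real.exp (V x) * Real.exp (-V x) = 1 := by rw [← Real.exp_add]; simp
    simp only [hg]
    calc h x ^ 2 * Real.exp (-V x) = (Real.exp (V x) * Real.exp (-V x)) * (h x ^ 2 * Real.exp (-V x)) := by
          rw [h1, one_mul]
      _ = _ := by ring
  obtain ⟨A, hA⟩ := hV.toReg.quad_lower
  have hEb : ∀ x, Real.exp (-V x) ≤ Real.exp A := by
    intro x
    refine Real.exp_le_exp.2 ?_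
    have h1 := hA x
    have h2 := hV.c_pos
    have h3 : 0 ≤ c / 4 * ‖x‖ ^ 2 := by positivity
    linarith
  have gmem : MemLp g 2 (volume : Measure (E n)) := by
    rw [memLp_two_iff_integrable_sq gm]
    refine (hfin.bdd_mul (c := Real.exp A) cE.aestronglyMeasurable
      (Eventually.of_forall fun x => ?_)).congr (Eventually.of_forall fun x => ?_)
    · rw [Real.norm_of_nonneg (Real.exp_pos _).le]
      exact hEb x
    · have h1 : Real.exp (-V x) * Real.exp (V x) = 1 := by rw [← Real.exp_add]; simp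
      simp only
      rw [← mul_assoc, h1, one_mul]
  have W : Wk (fun i j x => tau ψ x i j) g := by
    refine ⟨gmem, fun j => ?_, fun f hf => ?_⟩
    · have h1 := locInt gmem
      rw [locallyIntegrable_iff] at h1 ⊢
      intro k hk
      exact IntegrableOn.continuousOn_mul (by fun_prop) (h1 k hk) hk
    · rw [← hort f hf]
      refine integral_congr_ae (Eventually.of_forall fun x => ?_)
      simp only [hg, Lop]
      ring
  have hz := zero_of_weak D W hfin
  filter_upwards [hz] with x hx
  have h1 : h x * Real.exp (-V x) = 0 := hx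
  rcases mul_eq_zero.1 h1 with h2 | h2
  · exact h2
  · exact absurd h2 (Real.exp_pos _).ne'

end Vale.Agent.P227.Esa205
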