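import Vale.Agent.P227.M.LIN.H1Defs

/-! # P227/M/LIN: weighted `L²` bound of the averages `av`, and the log-Lipschitz bound of `Nice` potentials. -/

open MeasureTheory Filter Metric Set
open scoped Topology

namespace Vale.Agent.P227.M.LIN

/-- Cauchy-Schwarz on a set of finite measure -/
theorem sq_setIntegral_le {α : Type*} [MeasurableSpace α] {μ : Measure α} [IsFiniteMeasure μ] {u : α → ℝ}
    (h1 : Integrable u μ) (h2 : Integrable (fun t => u t ^ 2) μ) :
    (∫ t, u t ∂μ) ^ 2 ≤ μ.real univ * ∫ t, u t ^ 2 ∂μ := by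
  have h3 : ∀ s : ℝ, 0 ≤ (∫ t, u t ^ 2 ∂μ) - 2 * s * (∫ t, u t ∂μ) + s ^ 2 * μ.real univ := by
    intro s
    have e : ∫ t, (u t - s) ^ 2 ∂μ
        = (∫ t, u t ^ 2 ∂μ) - 2 * s * (∫ t, u t ∂μ) + s ^ 2 * μ.real univ := by
      have e1 : ∀ t, (u t - s) ^ 2 = (u t ^ 2 - (2 * s) * u t) + s ^ 2 := fun t => by ring
      have i3 : Integrable (fun t => (2 * s) * u t) μ := h1.const_mul _
      have i4 : Integrable (fun t => u t ^ 2 - (2 * s) * u t) μ := h2.sub i3
      rw [integral_congr_ae (Eventually.of_forall e1), integral_add i4 (integrable_const _),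
        integral_sub h2 i3, integral_const_mul, integral_const, smul_eq_mul]
      ring
    rw [← e]
    exact integral_nonneg fun t => sq_nonneg _
  set m := μ.real univ with hm
  set a := ∫ t, u t ∂μ
  set b := ∫ t, u t ^ 2 ∂μ
  have hm0 : 0 ≤ m := measureReal_nonneg
  rcases hm0.eq_or_lt with h0 | h0
  · have ha : a = 0 := by
      by_contra hne
      have h4 := h3 ((b + 1) / (2 * a))
      rw [← h0] at h4
      have : 2 * ((b + 1) / (2 * a)) * a = b + 1 := by field_simp
      rw [this] at h4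
      linarith
    rw [ha, ← h0]
    simp
  · have h4 := h3 (a / m)
    have h5 : b - 2 * (a / m) * a + (a / m) ^ 2 * m = b - a ^ 2 / m := by field_simp; ring
    rw [h5] at h4
    have h6 : a ^ 2 / m ≤ b := by linarith
    rw [div_le_iff₀ h0] at h6
    linarith

theorem av_continuous {n : ℕ} (m : ℕ) {g : E n → ℝ} (hg : Continuous g) (hs : HasCompactSupport g) :
    Continuous (av m g) := by
  obtain ⟨B, hB⟩ := hs.exists_bound_of_continuous hg
  unfold av
  refine continuous_const.mul ?_
  refine continuous_of_dominated (bound := fun _ => B) (fun x => ?_) (fun x => ?_) ?_ ?_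
  · exact (hg.comp (continuous_const.sub continuous_id)).aestronglyMeasurable
  · exact Eventually.of_forall fun t => hB _
  · exact integrableOn_const (measure_ball_lt_top.ne)
  · exact Eventually.of_forall fun t => hg.comp (continuous_id.sub continuous_const)

/-- weighted `L²` bound of the averages, constant independent of `R` -/
theorem av_L2 {n : ℕ} {V : E n → ℝ} (hV : Continuous V)
    (hVl : ∃ A : ℝ, ∀ x y : E n, ‖x - y‖ ≤ 2 → |V x - V y| ≤ A * (1 + ‖x‖) * ‖x - y‖) :
    ∃ C2 : ℝ, 0 < C2 ∧ ∀ R : ℝ, ∃ m0 : ℕ, ∀ m ≥ m0, ∀ g : E n → ℝ, Continuous g → HasCompactSupport g →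
      Integrable (fun x => (closedBall (0 : E n) R).indicator (fun x => (av m (fun y => |g y|) x) ^ 2 * Real.exp (-V x)) x) ∧
      ∫ x in closedBall (0 : E n) R, (av m (fun y => |g y|) x) ^ 2 * Real.exp (-V x)
        ≤ C2 * ∫ x, g x ^ 2 * Real.exp (-V x) := by
  obtain ⟨A, hA⟩ := hVl
  -- volume of the unit ball
  set ω : ℝ := (volume (ball (0 : E n) 1)).toReal with hω
  have hω0 : 0 ≤ ω := ENNReal.toReal_nonneg
  refine ⟨Real.exp 1 * (2 ^ n * ω) ^ 2 + 1, by positivity, fun R => ?_⟩
  -- choice of `m0`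
  have hlim : Tendsto (fun m => |A| * (1 + |R|) * (2 * dl m)) atTop (𝓝 0) := by
    have := (dl_tendsto.const_mul 2).const_mul (|A| * (1 + |R|))
    simpa using this
  obtain ⟨m0, hm0⟩ := (hlim.eventually (ge_mem_nhds (show (0 : ℝ) < 1 by norm_num))).exists_forall_of_atTop
  refine ⟨m0, fun m hm g hg hs => ?_⟩
  have hδ := dl_pos m
  have hδ1 := dl_le_one m
  set δ := dl m with hδd
  have hsmall : |A| * (1 + |R|) * (2 * δ) ≤ 1 := hm0 m hm
  set u : E n → ℝ := fun y => |g y| with hu
  have huc : Continuous u := hg.abs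
  have hus : HasCompactSupport u := hs.comp_left (g := fun r : ℝ => |r|) abs_zero
  have hav := av_continuous m huc hus
  have hexp : Continuous fun x => Real.exp (-V x) := (hV.neg).rexp
  have hcont : Continuous fun x => (av m u x) ^ 2 * Real.exp (-V x) := (hav.pow 2).mul hexp
  have hint : IntegrableOn (fun x => (av m u x) ^ 2 * Real.exp (-V x)) (closedBall (0 : E n) R) :=
    hcont.continuousOn.integrableOn_compact (isCompact_closedBall _ _)
  refine ⟨(integrable_indicator_iff measurableSet_closedBall).2 hint, ?_⟩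
  -- measure of the ball of radius `2 δ`
  have hvol : (volume (ball (0 : E n) (2 * δ))).toReal = (2 * δ) ^ n * ω := by
    rw [Measure.addHaar_ball_of_pos volume (0 : E n) (by positivity : (0 : ℝ) < 2 * δ),
      ENNReal.toReal_mul, ENNReal.toReal_ofReal (by positivity), finrank_euclideanSpace_fin]
  have hfin : IsFiniteMeasure (volume.restrict (ball (0 : E n) (2 * δ))) :=
    ⟨by rw [Measure.restrict_apply_univ]; exact measure_ball_lt_top⟩
  have hureal : (volume.restrict (ball (0 : E n) (2 * δ))).real univ = (2 * δ) ^ n * ω := by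
    rw [← hvol, measureReal_def, Measure.restrict_apply_univ]
  have hsq : ∀ y, u y ^ 2 = g y ^ 2 := fun y => sq_abs _
  -- pointwise bound
  have hpt : ∀ x, (av m u x) ^ 2 ≤ (δ ^ n)⁻¹ * (2 ^ n * ω) * ∫ t in ball (0 : E n) (2 * δ), g (x - t) ^ 2 := by
    intro x
    have c1 : Continuous fun t => u (x - t) := huc.comp (continuous_const.sub continuous_id)
    have i1 : IntegrableOn (fun t => u (x - t)) (ball (0 : E n) (2 * δ)) :=
      (c1.continuousOn.integrableOn_compact (isCompact_closedBall _ _)).mono_set ball_subset_closedBall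
    have i2 : IntegrableOn (fun t => u (x - t) ^ 2) (ball (0 : E n) (2 * δ)) :=
      ((c1.pow 2).continuousOn.integrableOn_compact (isCompact_closedBall _ _)).mono_set ball_subset_closedBall
    have h1 := sq_setIntegral_le i1 i2
    rw [hureal] at h1
    have h2 : (av m u x) ^ 2 = ((δ ^ n)⁻¹) ^ 2 * (∫ t in ball (0 : E n) (2 * δ), u (x - t)) ^ 2 := by
      unfold av; rw [mul_pow]
    have h3 : ∀ t, u (x - t) ^ 2 = g (x - t) ^ 2 := fun t => hsq _
    simp only [h3] at h1
    rw [h2]
    have hδn : (0 : ℝ) < δ ^ n := by positivity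
    calc ((δ ^ n)⁻¹) ^ 2 * (∫ t in ball (0 : E n) (2 * δ), u (x - t)) ^ 2
        ≤ ((δ ^ n)⁻¹) ^ 2 * ((2 * δ) ^ n * ω * ∫ t in ball (0 : E n) (2 * δ), g (x - t) ^ 2) := by gcongr
      _ = (δ ^ n)⁻¹ * (2 ^ n * ω) * ∫ t in ball (0 : E n) (2 * δ), g (x - t) ^ 2 := by
        rw [mul_pow]; field_simp
  -- the double integral
  set F : E n → E n → ℝ := fun x t => g (x - t) ^ 2 * Real.exp (-V x) with hF
  have hFc : Continuous (Function.uncurry F) := by
    have : Continuous fun p : E n × E n => g (p.1 - p.2) ^ 2 * Real.exp (-V p.1) :=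
      ((hg.comp (continuous_fst.sub continuous_snd)).pow 2).mul (hexp.comp continuous_fst)
    exact this
  have hFi : Integrable (Function.uncurry F) ((volume.restrict (closedBall (0 : E n) R)).prod
      (volume.restrict (ball (0 : E n) (2 * δ)))) := by
    rw [Measure.prod_restrict]
    have h1 : IntegrableOn (Function.uncurry F) (closedBall (0 : E n) R ×ˢ closedBall (0 : E n) (2 * δ))
        (volume.prod volume) :=
      hFc.continuousOn.integrableOn_compact ((isCompact_closedBall _ _).prod (isCompact_closedBall _ _))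
    exact h1.mono_set (prod_mono_right ball_subset_closedBall)
  have hI0 : 0 ≤ ∫ x, g x ^ 2 * Real.exp (-V x) := integral_nonneg fun x => by positivity
  have hgc : Continuous fun x => g x ^ 2 * Real.exp (-V x) := (hg.pow 2).mul hexp
  have hgs : HasCompactSupport fun x => g x ^ 2 * Real.exp (-V x) := by
    have : HasCompactSupport fun x => g x ^ 2 := hs.comp_left (g := fun r : ℝ => r ^ 2) (by simp)
    exact this.mul_right
  have hgi : Integrable fun x => g x ^ 2 * Real.exp (-V x) := hgc.integrable_of_hasCompactSupport hgs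
  -- inner bound
  have hinner : ∀ t ∈ ball (0 : E n) (2 * δ), ∫ x in closedBall (0 : E n) R, F x t
      ≤ Real.exp 1 * ∫ x, g x ^ 2 * Real.exp (-V x) := by
    intro t ht
    rw [mem_ball_zero_iff] at ht
    have hti : Integrable fun x => g (x - t) ^ 2 * Real.exp (-V (x - t)) := hgi.comp_sub_right t
    have hshift : ∫ x, g (x - t) ^ 2 * Real.exp (-V (x - t)) = ∫ x, g x ^ 2 * Real.exp (-V x) :=
      integral_sub_right_eq_self (fun x => g x ^ 2 * Real.exp (-V x)) t
    rw [← hshift, ← integral_const_mul]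
    have hle : ∫ x in closedBall (0 : E n) R, F x t
        ≤ ∫ x in closedBall (0 : E n) R, Real.exp 1 * (g (x - t) ^ 2 * Real.exp (-V (x - t))) := by
      refine setIntegral_mono_on ?_ (hti.const_mul _).integrableOn measurableSet_closedBall ?_
      · have : Continuous fun x => F x t :=
          ((hg.comp (continuous_id.sub continuous_const)).pow 2).mul hexp
        exact this.continuousOn.integrableOn_compact (isCompact_closedBall _ _)
      · intro x hx
        rw [mem_closedBall_zero_iff] at hx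
        have hR : ‖x‖ ≤ |R| := hx.trans (le_abs_self R)
        have h1 := hA x (x - t) (by
          rw [sub_sub_cancel]
          linarith)
        rw [sub_sub_cancel] at h1
        have h2 : A * (1 + ‖x‖) * ‖t‖ ≤ |A| * (1 + |R|) * (2 * δ) := by
          have := le_abs_self A
          have h3 : 0 ≤ |A| := abs_nonneg A
          calc A * (1 + ‖x‖) * ‖t‖ ≤ |A| * (1 + ‖x‖) * ‖t‖ := by gcongr
            _ ≤ |A| * (1 + |R|) * (2 * δ) := by gcongr
        have h3 : -V x ≤ 1 + -V (x - t) := by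
          have h4 := (abs_le.1 (h1.trans (h2.trans hsmall))).1
          linarith
        have h5 : Real.exp (-V x) ≤ Real.exp 1 * Real.exp (-V (x - t)) := by
          rw [← Real.exp_add]
          exact Real.exp_le_exp.2 h3
        have h6 : 0 ≤ g (x - t) ^ 2 := sq_nonneg _
        simp only [hF]
        calc g (x - t) ^ 2 * Real.exp (-V x) ≤ g (x - t) ^ 2 * (Real.exp 1 * Real.exp (-V (x - t))) := by gcongr
          _ = Real.exp 1 * (g (x - t) ^ 2 * Real.exp (-V (x - t))) := by ring
    refine hle.trans ?_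
    exact setIntegral_le_integral (hti.const_mul _) (Eventually.of_forall fun x => by positivity)
  have hswap : ∫ x in closedBall (0 : E n) R, (∫ t in ball (0 : E n) (2 * δ), F x t)
      = ∫ t in ball (0 : E n) (2 * δ), (∫ x in closedBall (0 : E n) R, F x t) :=
    integral_integral_swap hFi
  have hdouble : ∫ t in ball (0 : E n) (2 * δ), (∫ x in closedBall (0 : E n) R, F x t)
      ≤ (2 * δ) ^ n * ω * (Real.exp 1 * ∫ x, g x ^ 2 * Real.exp (-V x)) := by
    have h1 : ∫ t in ball (0 : E n) (2 * δ), (∫ x in closedBall (0 : E n) R, F x t)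
        ≤ ∫ t in ball (0 : E n) (2 * δ), (Real.exp 1 * ∫ x, g x ^ 2 * Real.exp (-V x)) := by
      refine setIntegral_mono_on hFi.integral_prod_right (integrableOn_const measure_ball_lt_top.ne)
        measurableSet_ball hinner
    refine h1.trans (le_of_eq ?_)
    rw [setIntegral_const, measureReal_def, hvol, smul_eq_mul]
  have hδn : (0 : ℝ) < δ ^ n := by positivity
  have hF1 : Integrable (fun x => ∫ t in ball (0 : E n) (2 * δ), F x t) (volume.restrict (closedBall (0 : E n) R)) :=
    hFi.integral_prod_left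
  calc ∫ x in closedBall (0 : E n) R, (av m u x) ^ 2 * Real.exp (-V x)
      ≤ ∫ x in closedBall (0 : E n) R, (δ ^ n)⁻¹ * (2 ^ n * ω) * ∫ t in ball (0 : E n) (2 * δ), F x t := by
        refine setIntegral_mono_on hint (hF1.const_mul _) measurableSet_closedBall fun x _ => ?_
        have h1 := mul_le_mul_of_nonneg_right (hpt x) (Real.exp_pos (-V x)).le
        refine h1.trans (le_of_eq ?_)
        rw [mul_assoc ((δ ^ n)⁻¹ * (2 ^ n * ω)), ← integral_mul_const]
    _ = (δ ^ n)⁻¹ * (2 ^ n * ω) * ∫ t in ball (0 : E n) (2 * δ), (∫ x in closedBall (0 : E n) R, F x t) := by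
        rw [integral_const_mul, hswap]
    _ ≤ (δ ^ n)⁻¹ * (2 ^ n * ω) * ((2 * δ) ^ n * ω * (Real.exp 1 * ∫ x, g x ^ 2 * Real.exp (-V x))) := by gcongr
    _ = Real.exp 1 * (2 ^ n * ω) ^ 2 * ∫ x, g x ^ 2 * Real.exp (-V x) := by
        rw [mul_pow]; field_simp
    _ ≤ (Real.exp 1 * (2 ^ n * ω) ^ 2 + 1) * ∫ x, g x ^ 2 * Real.exp (-V x) := by
        gcongr
        linarith

/-- the hypothesis of `av_L2` for `Nice` potentials -/
theorem nice_lip {n : ℕ} {V : E n → ℝ} {c C : ℝ} (hV : Nice V c C) :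
    ∃ A : ℝ, ∀ x y : E n, ‖x - y‖ ≤ 2 → |V x - V y| ≤ A * (1 + ‖x‖) * ‖x - y‖ := by
  obtain ⟨B, hB⟩ := hV.bdd 2 le_rfl
  have hB0 : 0 ≤ B := (norm_nonneg _).trans (hB 0)
  have hd : ∀ x, DifferentiableAt ℝ V x := fun x => (hV.smooth.differentiable (by simp)) x
  have hd2 : ∀ x, DifferentiableAt ℝ (fderiv ℝ V) x := fun x =>
    ((hV.smooth.fderiv_right (m := (⊤ : ℕ∞)) (by simp)).differentiable (by simp)) x
  have hn : ∀ x, ‖fderiv ℝ (fderiv ℝ V) x‖ ≤ B := by
    intro x
    rw [← norm_iteratedFDeriv_one, norm_iteratedFDeriv_fderiv]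
    exact hB x
  have hlip : ∀ x, ‖fderiv ℝ V x‖ ≤ ‖fderiv ℝ V 0‖ + B * ‖x‖ := by
    intro x
    have h1 := Convex.norm_image_sub_le_of_norm_fderiv_le (𝕜 := ℝ) (f := fderiv ℝ V) (fun z _ => hd2 z)
      (fun z _ => hn z) convex_univ (mem_univ (0 : E n)) (mem_univ x)
    rw [sub_zero] at h1
    have h2 := norm_le_norm_add_norm_sub' (fderiv ℝ V x) (fderiv ℝ V 0)
    linarith
  refine ⟨‖fderiv ℝ V 0‖ + 2 * B, fun x y hxy => ?_⟩
  have hseg : ∀ z ∈ segment ℝ x y, ‖fderiv ℝ V z‖ ≤ (‖fderiv ℝ V 0‖ + 2 * B) * (1 + ‖x‖) := by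
    intro z hz
    have h1 : ‖z‖ ≤ ‖x‖ + 2 := by
      have h2 := norm_sub_le_of_mem_segment hz
      have h3 : ‖z‖ ≤ ‖x‖ + ‖z - x‖ := norm_le_norm_add_norm_sub' z x
      have h4 : ‖y - x‖ ≤ 2 := by rw [norm_sub_rev]; exact hxy
      linarith
    have h2 := hlip z
    have h3 := norm_nonneg (fderiv ℝ V 0)
    have h4 := norm_nonneg x
    nlinarith [mul_le_mul_of_nonneg_left h1 hB0, mul_nonneg h3 h4, mul_nonneg hB0 h4]
  have h1 := Convex.norm_image_sub_le_of_norm_fderiv_le (𝕜 := ℝ) (f := V) (fun z _ => hd z)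
    hseg (convex_segment x y) (right_mem_segment ℝ x y) (left_mem_segment ℝ x y)
  rw [Real.norm_eq_abs] at h1
  exact h1

end Vale.Agent.P227.M.LIN
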