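import Vale.Agent.P227.M.LIN.H1Defs
import Vale.Agent.P227.M.Bas
import Vale.Agent.P227.M.Loc.TauB
import Mathlib.Analysis.Calculus.Rademacher

/-! # P227/M/LIN: the commutator `L ∂_b F` (owner: helper717). -/

open MeasureTheory Filter Metric Set
open scoped Topology

namespace Vale.Agent.P227.M.LIN

/-- Rademacher for `Lp` functions (own copy) -/
private lemma lip_ae' {n : ℕ} {g : E n → ℝ} {K : ℝ} (hg : Lp g K) : ∀ᵐ x, DifferentiableAt ℝ g x := by
  have h : LipschitzWith (Real.toNNReal K) g := by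
    refine LipschitzWith.of_dist_le_mul fun x y => ?_
    rw [Real.dist_eq, dist_eq_norm]
    refine (hg x y).trans ?_
    gcongr
    exact Real.le_coe_toNNReal K
  exact h.ae_differentiableAt

/-- a Lipschitz function has bounded partial derivatives -/
private lemma abs_pd_le_of_Lp {n : ℕ} {g : E n → ℝ} {K : ℝ} (hK : 0 ≤ K) (hg : Lp g K) (b : Fin n) (x : E n) :
    |pd b g x| ≤ K := by
  have h : LipschitzWith (Real.toNNReal K) g := by
    refine LipschitzWith.of_dist_le_mul fun x y => ?_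
    rw [Real.dist_eq, dist_eq_norm]
    refine (hg x y).trans ?_
    gcongr
    exact Real.le_coe_toNNReal K
  have h1 : ‖fderiv ℝ g x‖ ≤ K := by
    have := norm_fderiv_le_of_lipschitz ℝ h (x₀ := x)
    rwa [Real.coe_toNNReal K hK] at this
  exact (abs_pd_le_norm g x b).trans h1

/-- pointwise form of the commutator formula -/
theorem pd_Lop {n : ℕ} {ψ F : E n → ℝ} (hF : ContDiff ℝ (⊤ : ℕ∞) F) {x : E n}
    (hx : ∀ i j, DifferentiableAt ℝ (fun y => tau ψ y i j) x) (b : Fin n) :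
    pd b (Lop ψ F) x = Lop ψ (pd b F) x + (∑ i, ∑ j, pd b (fun y => tau ψ y i j) x * hess F x i j)
      - pd b F x := by
  have hH : ∀ i j, DifferentiableAt ℝ (fun y => hess F y i j) x := fun i j =>
    ((contDiff_hess_top hF i j).differentiable (by simp)).differentiableAt
  have hP : ∀ i, DifferentiableAt ℝ (pd i F) x := fun i =>
    ((contDiff_pd_top hF i).differentiable (by simp)).differentiableAt
  have hX : ∀ i : Fin n, HasFDerivAt (fun y : E n => y i) (EuclideanSpace.proj i : E n →L[ℝ] ℝ) x := fun i =>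
    (EuclideanSpace.proj i : E n →L[ℝ] ℝ).hasFDerivAt
  have hd : HasFDerivAt (Lop ψ F)
      ((∑ i, ∑ j, (tau ψ x i j • fderiv ℝ (fun y => hess F y i j) x
        + hess F x i j • fderiv ℝ (fun y => tau ψ y i j) x))
        - ∑ i, (x i • fderiv ℝ (pd i F) x + pd i F x • (EuclideanSpace.proj i : E n →L[ℝ] ℝ))) x := by
    unfold Lop
    refine HasFDerivAt.sub ?_ ?_
    · refine HasFDerivAt.fun_sum fun i _ => HasFDerivAt.fun_sum fun j _ => ?_
      exact (hx i j).hasFDerivAt.mul (hH i j).hasFDerivAt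
    · refine HasFDerivAt.fun_sum fun i _ => ?_
      exact (hX i).mul (hP i).hasFDerivAt
  have hsym : ∀ i j, pd b (fun y => hess F y i j) x = hess (pd b F) x i j := by
    intro i j
    have h1 : hess F = fun y i j => pd i (pd j F) y := rfl
    have e1 : ∀ y, pd j (pd b F) y = pd b (pd j F) y := fun y =>
      hess_symm (hF.of_le (by norm_cast)) y j b
    have e2 : pd j (pd b F) = pd b (pd j F) := funext e1
    show pd b (pd i (pd j F)) x = pd i (pd j (pd b F)) x
    rw [e2]
    exact hess_symm ((contDiff_pd_top hF j).of_le (by norm_cast)) x b i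
  have hsym1 : ∀ i, pd b (pd i F) x = pd i (pd b F) x := fun i =>
    hess_symm (hF.of_le (by norm_cast)) x b i
  have e0 : pd b (Lop ψ F) x = (∑ i, ∑ j, (tau ψ x i j * pd b (fun y => hess F y i j) x
        + hess F x i j * pd b (fun y => tau ψ y i j) x))
        - ∑ i, (x i * pd b (pd i F) x + pd i F x * (ei b : E n) i) := by
    have := hd.fderiv
    unfold pd at this ⊢
    rw [this]
    simp only [_root_.sub_apply, _root_.sum_apply, _root_.add_apply, _root_.smul_apply, smul_eq_mul]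
    rfl
  rw [e0]
  have e3 : ∑ i, (x i * pd b (pd i F) x + pd i F x * (ei b : E n) i) =
      (∑ i, x i * pd i (pd b F) x) + pd b F x := by
    rw [Finset.sum_add_distrib]
    congr 1
    · exact Finset.sum_congr rfl fun i _ => by rw [hsym1]
    · simp [ei_apply]
  have e4 : ∑ i, ∑ j, (tau ψ x i j * pd b (fun y => hess F y i j) x
        + hess F x i j * pd b (fun y => tau ψ y i j) x) =
      (∑ i, ∑ j, tau ψ x i j * hess (pd b F) x i j)
        + ∑ i, ∑ j, pd b (fun y => tau ψ y i j) x * hess F x i j := by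
    rw [← Finset.sum_add_distrib]
    refine Finset.sum_congr rfl fun i _ => ?_
    rw [← Finset.sum_add_distrib]
    refine Finset.sum_congr rfl fun j _ => ?_
    rw [hsym, mul_comm (hess F x i j)]
  rw [e3, e4]
  unfold Lop
  ring

/-- the statement, from the Lipschitz bound of `τ` -/
theorem Lop_pd_of {n : ℕ} {ψ : E n → ℝ}
    (hT : ∃ T : ℝ, 0 < T ∧ ∀ i j, Lp (fun x => tau ψ x i j) T) :
    ∃ T : ℝ, 0 < T ∧ ∀ F : E n → ℝ, Test F → ∀ᵐ x, ∀ b, |Lop ψ (pd b F) x| ≤
      |pd b (Lop ψ F) x| + T * (∑ i, ∑ j, |hess F x i j|) + |pd b F x| := by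
  obtain ⟨T, hT0, hT⟩ := hT
  refine ⟨T, hT0, fun F hF => ?_⟩
  have hae : ∀ᵐ x, ∀ i j, DifferentiableAt ℝ (fun y => tau ψ y i j) x := by
    rw [ae_all_iff]; intro i
    rw [ae_all_iff]; intro j
    exact lip_ae' (hT i j)
  filter_upwards [hae] with x hx b
  have h := pd_Lop (ψ := ψ) hF.1 hx b
  have e : Lop ψ (pd b F) x = pd b (Lop ψ F) x
      - (∑ i, ∑ j, pd b (fun y => tau ψ y i j) x * hess F x i j) + pd b F x := by
    rw [h]; ring
  have hb : |∑ i, ∑ j, pd b (fun y => tau ψ y i j) x * hess F x i j| ≤ T * ∑ i, ∑ j, |hess F x i j| := by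
    rw [Finset.mul_sum]
    refine (Finset.abs_sum_le_sum_abs _ _).trans (Finset.sum_le_sum fun i _ => ?_)
    rw [Finset.mul_sum]
    refine (Finset.abs_sum_le_sum_abs _ _).trans (Finset.sum_le_sum fun j _ => ?_)
    rw [abs_mul]
    exact mul_le_mul_of_nonneg_right (abs_pd_le_of_Lp hT0.le (hT i j) b x) (abs_nonneg _)
  rw [e]
  calc |pd b (Lop ψ F) x - (∑ i, ∑ j, pd b (fun y => tau ψ y i j) x * hess F x i j) + pd b F x|
      ≤ |pd b (Lop ψ F) x - (∑ i, ∑ j, pd b (fun y => tau ψ y i j) x * hess F x i j)| + |pd b F x| :=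
        abs_add_le _ _
    _ ≤ (|pd b (Lop ψ F) x| + |∑ i, ∑ j, pd b (fun y => tau ψ y i j) x * hess F x i j|) + |pd b F x| := by
        gcongr
        exact abs_sub _ _
    _ ≤ _ := by linarith

/-- COM: the commutator `L ∂_b F` -/
theorem Lop_pd {n : ℕ} {ψ V : E n → ℝ} {c C M : ℝ} (hM : MM ψ V c C M) :
    ∃ T : ℝ, 0 < T ∧ ∀ F : E n → ℝ, Test F → ∀ᵐ x, ∀ b, |Lop ψ (pd b F) x| ≤
      |pd b (Lop ψ F) x| + T * (∑ i, ∑ j, |hess F x i j|) + |pd b F x| := by
  have hM0 : ∀ i j, ∃ K : ℝ, Lp (fun x => tau ψ x i j) K := fun i j => ⟨_, fun x y => Loc.tau_lip hM x y i j⟩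
  choose K hK using hM0
  refine Lop_pd_of ⟨1 + ∑ i, ∑ j, |K i j|, ?_, fun i j x y => (hK i j x y).trans ?_⟩
  · have : 0 ≤ ∑ i, ∑ j, |K i j| := Finset.sum_nonneg fun i _ => Finset.sum_nonneg fun j _ => abs_nonneg _
    linarith
  · refine mul_le_mul_of_nonneg_right ?_ (norm_nonneg _)
    have h1 : |K i j| ≤ ∑ j, |K i j| := Finset.single_le_sum (f := fun j => |K i j|) (fun j _ => abs_nonneg _) (Finset.mem_univ j)
    have h2 : ∑ j, |K i j| ≤ ∑ i, ∑ j, |K i j| :=
      Finset.single_le_sum (f := fun i => ∑ j, |K i j|) (fun i _ => Finset.sum_nonneg fun j _ => abs_nonneg _) (Finset.mem_univ i)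
    linarith [le_abs_self (K i j)]

end Vale.Agent.P227.M.LIN
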