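import Vale.Agent.P227.M.LIN.H1TopA
import Vale.Agent.P227.M.LIN.H1Av
import Vale.Agent.P227.M.LIN.H1Leb
import Vale.Agent.P227.M.LIN.H1Com
import Vale.Agent.P227.M.LIN.H1Alg
import Vale.Agent.P227.M.LIN.H1Mo

/-! # P227/M/LIN: `StmtH1` from the pointwise bound (helper792). -/

open MeasureTheory Filter Metric Set
open scoped Topology

namespace Vale.Agent.P227.M.LIN.H1T

variable {n : ℕ}

/-- the remaining hypothesis: the pointwise bound for all `R ≥ 2` -/
def PtAll : Prop := ∀ (n : ℕ) (ψ V : E n → ℝ) (c C M : ℝ), MM ψ V c C M →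
  ∃ T1 : ℝ, 0 < T1 ∧ ∀ R : ℝ, 2 ≤ R → ∃ χ : E n → ℝ, Test χ ∧ PtBound ψ T1 R χ

theorem gg_cont {ψ V : E n → ℝ} {c C M : ℝ} (hM : MM ψ V c C M) {w f : E n → ℝ} (hw : Test w) (hf : Test f) :
    Continuous (gg ψ w f) ∧ HasCompactSupport (gg ψ w f) ∧ ∃ K, Lp (gg ψ w f) K := by
  obtain ⟨h1, h2, K, hK⟩ := Lop_lip hM hf
  obtain ⟨K1, hK1⟩ := Alg47.Lp_test hf
  obtain ⟨K2, hK2⟩ := Alg47.Lp_test hw
  refine ⟨(hf.1.continuous.sub h1).sub hw.1.continuous, (hf.2.sub h2).sub hw.2, K1 + K + K2, ?_⟩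
  intro x y
  have e : gg ψ w f x - gg ψ w f y = (f x - f y) - (Lop ψ f x - Lop ψ f y) - (w x - w y) := by
    unfold gg; ring
  rw [e]
  have a1 := hK1 x y
  have a2 := hK x y
  have a3 := hK2 x y
  have b1 := abs_sub (f x - f y) (Lop ψ f x - Lop ψ f y)
  have b2 := abs_sub ((f x - f y) - (Lop ψ f x - Lop ψ f y)) (w x - w y)
  nlinarith

theorem avR_L2 {V : E n → ℝ} (hV : Continuous V)
    (hVl : ∃ A : ℝ, ∀ x y : E n, ‖x - y‖ ≤ 2 → |V x - V y| ≤ A * (1 + ‖x‖) * ‖x - y‖) :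
    ∃ C2 : ℝ, 0 < C2 ∧ ∀ R : ℝ, ∃ m0 : ℕ, ∀ m ≥ m0, ∀ g : E n → ℝ, Continuous g → HasCompactSupport g →
      ∀ c : ℝ, Integrable (fun x => (c * avR m R g x) ^ 2 * Real.exp (-V x)) ∧
      ∫ x, (c * avR m R g x) ^ 2 * Real.exp (-V x) ≤ c ^ 2 * (C2 * ∫ x, g x ^ 2 * Real.exp (-V x)) := by
  obtain ⟨C2, hC2, h⟩ := av_L2 hV hVl
  refine ⟨C2, hC2, fun R => ?_⟩
  obtain ⟨m0, hm0⟩ := h (2 * R)
  refine ⟨m0, fun m hm g hg hs c => ?_⟩
  obtain ⟨h1, h2⟩ := hm0 m hm g hg hs
  have e : (fun x => (c * avR m R g x) ^ 2 * Real.exp (-V x)) = fun x => c ^ 2 *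
      ((closedBall (0 : E n) (2 * R)).indicator
        (fun x => (av m (fun y => |g y|) x) ^ 2 * Real.exp (-V x)) x) := by
    funext x
    unfold avR
    by_cases hx : x ∈ closedBall (0 : E n) (2 * R)
    · rw [indicator_of_mem hx, indicator_of_mem hx]; ring
    · rw [indicator_of_notMem hx, indicator_of_notMem hx]; ring
  rw [e]
  refine ⟨h1.const_mul _, ?_⟩
  rw [integral_const_mul, integral_indicator measurableSet_closedBall]
  exact mul_le_mul_of_nonneg_left h2 (sq_nonneg c)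

theorem test_FF {m : ℕ} {χ v0 v : E n → ℝ} (hχ : Test χ) (h0 : Test v0) (hv : Test v) :
    Test (FF m χ v0 v) ∧ Test (fun z => χ z * mo m (fun y => v y - v0 y) z) := by
  have h1 : Test (mo m (fun y => v y - v0 y)) := mo_test m (test_sub hv h0)
  have h2 : Test (fun z => χ z * mo m (fun y => v y - v0 y) z) := Alg47.test_mul hχ h1
  exact ⟨⟨h0.1.add h2.1, h0.2.add h2.2⟩, h2⟩

theorem pd_le_S2 (d : E n → ℝ) (x : E n) (b : Fin n) : |pd b d x| ≤ S2 d x := by
  unfold S2
  have h1 : |pd b d x| ≤ ∑ a, |pd a d x| :=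
    Finset.single_le_sum (f := fun a => |pd a d x|) (fun a _ => abs_nonneg _) (Finset.mem_univ b)
  have h2 : 0 ≤ ∑ a, ∑ b, |hess d x a b| :=
    Finset.sum_nonneg (fun a _ => Finset.sum_nonneg (fun b _ => abs_nonneg _))
  have := abs_nonneg (d x)
  linarith

theorem hsum_le_S2 (d : E n → ℝ) (x : E n) : ∑ a, ∑ b, |hess d x a b| ≤ S2 d x := by
  unfold S2
  have h1 : 0 ≤ ∑ a, |pd a d x| := Finset.sum_nonneg (fun a _ => abs_nonneg _)
  have := abs_nonneg (d x)
  linarith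

theorem S2_sub_le {f g : E n → ℝ} (hf : Test f) (hg : Test g) (x : E n) :
    S2 f x ≤ S2 g x + S2 (fun y => f y - g y) x := by
  unfold S2
  have e1 : |f x| ≤ |g x| + |f x - g x| := by
    have := abs_add_le (g x) (f x - g x)
    rwa [add_sub_cancel] at this
  have e2 : ∑ a, |pd a f x| ≤ (∑ a, |pd a g x|) + ∑ a, |pd a (fun y => f y - g y) x| := by
    rw [← Finset.sum_add_distrib]
    refine Finset.sum_le_sum (fun a _ => ?_)
    rw [pd_sub (test_diff hf x) (test_diff hg x)]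
    have := abs_add_le (pd a g x) (pd a f x - pd a g x)
    rwa [add_sub_cancel] at this
  have e3 : ∑ a, ∑ b, |hess f x a b| ≤ (∑ a, ∑ b, |hess g x a b|)
      + ∑ a, ∑ b, |hess (fun y => f y - g y) x a b| := by
    rw [← Finset.sum_add_distrib]
    refine Finset.sum_le_sum (fun a _ => ?_)
    rw [← Finset.sum_add_distrib]
    refine Finset.sum_le_sum (fun b _ => ?_)
    rw [hess_sub hf hg]
    have := abs_add_le (hess g x a b) (hess f x a b - hess g x a b)
    rwa [add_sub_cancel] at this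
  linarith

/-- the Cauchy hypothesis in terms of `S2` -/
theorem cauchy_S2 {V : E n → ℝ} (hV : Continuous V) (hZ : 0 < ∫ x, Real.exp (-V x))
    {v : ℕ → E n → ℝ} (hv : ∀ i, Test (v i))
    (h : ∀ ε > 0, ∃ N : ℕ, ∀ i ≥ N, ∀ j ≥ N, Ex V (fun x => (v i x - v j x) ^ 2
      + (∑ a, (pd a (v i) x - pd a (v j) x) ^ 2)
      + ∑ a, ∑ b, (hess (v i) x a b - hess (v j) x a b) ^ 2) ≤ ε) :
    ∀ ε > 0, ∃ N : ℕ, ∀ i ≥ N, ∀ j ≥ N,
      ∫ x, (S2 (fun y => v i y - v j y) x) ^ 2 * Real.exp (-V x) ≤ ε := by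
  intro ε hε
  set Z := ∫ x, Real.exp (-V x) with hZd
  set K : ℝ := 3 * (1 + (n : ℝ) + (n : ℝ) ^ 2) with hK
  have hK0 : 0 < K := by positivity
  obtain ⟨N, hN⟩ := h (ε / (K * Z)) (by positivity)
  refine ⟨N, fun i hi j hj => ?_⟩
  have h1 := hN i hi j hj
  unfold Ex at h1
  rw [div_le_iff₀ hZ] at h1
  have e1 : ε / (K * Z) * Z = ε / K := by field_simp
  rw [e1] at h1
  have hd : Test (fun y => v i y - v j y) := test_sub (hv i) (hv j)
  have hc1 : Continuous (fun x => (v i x - v j x) ^ 2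
      + (∑ a, (pd a (v i) x - pd a (v j) x) ^ 2)
      + ∑ a, ∑ b, (hess (v i) x a b - hess (v j) x a b) ^ 2) := by
    have q1 : ∀ i a, Continuous (pd a (v i)) := fun i a => (pd_test (hv i) a).1.continuous
    have q2 : ∀ i a b, Continuous (fun x => hess (v i) x a b) :=
      fun i a b => (pd_test (pd_test (hv i) b) a).1.continuous
    have q0 : ∀ i, Continuous (v i) := fun i => (hv i).1.continuous
    refine ((((q0 i).sub (q0 j)).pow 2).add ?_).add ?_
    · exact continuous_finsetSum _ (fun a _ => ((q1 i a).sub (q1 j a)).pow 2)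
    · exact continuous_finsetSum _ (fun a _ => continuous_finsetSum _
        (fun b _ => ((q2 i a b).sub (q2 j a b)).pow 2))
  have hle : ∀ x, (S2 (fun y => v i y - v j y) x) ^ 2 ≤ K * ((v i x - v j x) ^ 2
      + (∑ a, (pd a (v i) x - pd a (v j) x) ^ 2)
      + ∑ a, ∑ b, (hess (v i) x a b - hess (v j) x a b) ^ 2) := by
    intro x
    have := S2_sq_le (fun y => v i y - v j y) x
    simp only [hess_sub (hv i) (hv j)] at this
    have e2 : ∀ a, pd a (fun y => v i y - v j y) x = pd a (v i) x - pd a (v j) x :=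
      fun a => pd_sub (test_diff (hv i) x) (test_diff (hv j) x) a
    simp only [e2] at this
    exact this
  have hge : ∀ x, ((v i x - v j x) ^ 2
      + (∑ a, (pd a (v i) x - pd a (v j) x) ^ 2)
      + ∑ a, ∑ b, (hess (v i) x a b - hess (v j) x a b) ^ 2) ≤ (S2 (fun y => v i y - v j y) x) ^ 2 * (1 + n + n ^ 2) := by
    intro x
    have g0 : (v i x - v j x) ^ 2 ≤ (S2 (fun y => v i y - v j y) x) ^ 2 := by
      rw [← sq_abs]
      refine pow_le_pow_left₀ (abs_nonneg _) ?_ 2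
      unfold S2
      have h1 : 0 ≤ ∑ a, |pd a (fun y => v i y - v j y) x| := Finset.sum_nonneg (fun a _ => abs_nonneg _)
      have h2 : 0 ≤ ∑ a, ∑ b, |hess (fun y => v i y - v j y) x a b| :=
        Finset.sum_nonneg (fun a _ => Finset.sum_nonneg (fun b _ => abs_nonneg _))
      linarith
    have g1 : ∀ a, (pd a (v i) x - pd a (v j) x) ^ 2 ≤ (S2 (fun y => v i y - v j y) x) ^ 2 := by
      intro a
      rw [← sq_abs, ← pd_sub (test_diff (hv i) x) (test_diff (hv j) x)]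
      exact pow_le_pow_left₀ (abs_nonneg _) (pd_le_S2 _ _ _) 2
    have g2 : ∀ a b, (hess (v i) x a b - hess (v j) x a b) ^ 2 ≤ (S2 (fun y => v i y - v j y) x) ^ 2 := by
      intro a b
      rw [← sq_abs, ← hess_sub (hv i) (hv j)]
      refine pow_le_pow_left₀ (abs_nonneg _) ?_ 2
      refine le_trans ?_ (hsum_le_S2 _ _)
      have k1 : |hess (fun y => v i y - v j y) x a b| ≤ ∑ b, |hess (fun y => v i y - v j y) x a b| :=
        Finset.single_le_sum (f := fun b => |hess (fun y => v i y - v j y) x a b|)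
          (fun b _ => abs_nonneg _) (Finset.mem_univ b)
      have k2 : ∑ b, |hess (fun y => v i y - v j y) x a b| ≤
          ∑ a, ∑ b, |hess (fun y => v i y - v j y) x a b| :=
        Finset.single_le_sum (f := fun a => ∑ b, |hess (fun y => v i y - v j y) x a b|)
          (fun a _ => Finset.sum_nonneg (fun b _ => abs_nonneg _)) (Finset.mem_univ a)
      exact k1.trans k2
    have s1 : ∑ a, (pd a (v i) x - pd a (v j) x) ^ 2 ≤ n * (S2 (fun y => v i y - v j y) x) ^ 2 := by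
      have := Finset.sum_le_sum (fun a (_ : a ∈ (Finset.univ : Finset (Fin n))) => g1 a)
      simpa using this
    have s2 : ∑ a, ∑ b, (hess (v i) x a b - hess (v j) x a b) ^ 2 ≤
        n ^ 2 * (S2 (fun y => v i y - v j y) x) ^ 2 := by
      have t1 : ∀ a, ∑ b, (hess (v i) x a b - hess (v j) x a b) ^ 2 ≤
          n * (S2 (fun y => v i y - v j y) x) ^ 2 := by
        intro a
        have := Finset.sum_le_sum (fun b (_ : b ∈ (Finset.univ : Finset (Fin n))) => g2 a b)
        simpa using this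
      have := Finset.sum_le_sum (fun a (_ : a ∈ (Finset.univ : Finset (Fin n))) => t1 a)
      have e3 : ∑ _a : Fin n, (n : ℝ) * (S2 (fun y => v i y - v j y) x) ^ 2 =
          n ^ 2 * (S2 (fun y => v i y - v j y) x) ^ 2 := by
        simp; ring
      linarith
    nlinarith
  have hint : Integrable (fun x => ((v i x - v j x) ^ 2
      + (∑ a, (pd a (v i) x - pd a (v j) x) ^ 2)
      + ∑ a, ∑ b, (hess (v i) x a b - hess (v j) x a b) ^ 2) * Real.exp (-V x)) := by
    have hi1 := (integrable_cs hV (S2_cont hd) (S2_supp hd)).const_mul (1 + (n : ℝ) + (n : ℝ) ^ 2)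
    refine hi1.mono' (hc1.mul (Real.continuous_exp.comp hV.neg)).aestronglyMeasurable ?_
    refine Eventually.of_forall (fun x => ?_)
    have hnn : 0 ≤ (v i x - v j x) ^ 2
      + (∑ a, (pd a (v i) x - pd a (v j) x) ^ 2)
      + ∑ a, ∑ b, (hess (v i) x a b - hess (v j) x a b) ^ 2 := by positivity
    rw [Real.norm_of_nonneg (mul_nonneg hnn (Real.exp_pos _).le)]
    calc _ ≤ ((S2 (fun y => v i y - v j y) x) ^ 2 * (1 + n + n ^ 2)) * Real.exp (-V x) :=
          mul_le_mul_of_nonneg_right (hge x) (Real.exp_pos _).le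
      _ = _ := by ring
  calc ∫ x, (S2 (fun y => v i y - v j y) x) ^ 2 * Real.exp (-V x)
      ≤ ∫ x, K * (((v i x - v j x) ^ 2
      + (∑ a, (pd a (v i) x - pd a (v j) x) ^ 2)
      + ∑ a, ∑ b, (hess (v i) x a b - hess (v j) x a b) ^ 2) * Real.exp (-V x)) := by
        refine integral_mono_of_nonneg (Eventually.of_forall (fun x => ?_)) (hint.const_mul K) ?_
        · exact mul_nonneg (sq_nonneg _) (Real.exp_pos _).le
        · refine Eventually.of_forall (fun x => ?_)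
          show _ ≤ K * (_ * _)
          rw [← mul_assoc]
          exact mul_le_mul_of_nonneg_right (hle x) (Real.exp_pos _).le
    _ = K * ∫ x, ((v i x - v j x) ^ 2
      + (∑ a, (pd a (v i) x - pd a (v j) x) ^ 2)
      + ∑ a, ∑ b, (hess (v i) x a b - hess (v j) x a b) ^ 2) * Real.exp (-V x) := integral_const_mul _ _
    _ ≤ K * (ε / K) := mul_le_mul_of_nonneg_left h1 hK0.le
    _ = ε := by field_simp

/-- the pointwise estimates for `F = v0 + χ · mo m (v - v0)` -/
theorem pt_est {ψ V : E n → ℝ} {c C M : ℝ} (hM : MM ψ V c C M) {T T1 R : ℝ} (hT : 0 < T) (hT1 : 0 < T1)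
    (hTL : ∀ F : E n → ℝ, Test F → ∀ᵐ x, ∀ b, |Lop ψ (pd b F) x| ≤
      |pd b (Lop ψ F) x| + T * (∑ i, ∑ j, |hess F x i j|) + |pd b F x|)
    {χ : E n → ℝ} (hχ : Test χ) (hP : PtBound ψ T1 R χ) (m : ℕ) {v0 v w : E n → ℝ}
    (h0 : Test v0) (hv : Test v) (hw : Test w) (hs : ∀ x, R - 1 ≤ ‖x‖ → gg ψ w v0 x = 0) :
    (∀ᵐ x, ∀ b, |pd b (gg ψ w (FF m χ v0 v)) x| ≤ |pd b (gg ψ w v0) x - mo m (pd b (gg ψ w v0)) x|
      + |T1 * (dl m)⁻¹ * avR m R (gg ψ w v) x| + |T1 * avR m R (S2 (fun y => v y - v0 y)) x|) ∧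
    (∀ (u : E n → ℝ), Test u → ∀ x b, |pd b (FF m χ v0 v) x - pd b u x| ≤ |S2 (fun y => v0 y - u y) x|
      + |T1 * avR m R (S2 (fun y => v y - v0 y)) x|) ∧
    (∀ᵐ x, ∀ b, |Lop ψ (pd b (FF m χ v0 v)) x| ≤ |(2 + T) * S2 v0 x|
      + |((3 + T * n ^ 2) * T1) * avR m R (S2 (fun y => v y - v0 y)) x|
      + |pd b (gg ψ w v0) x - mo m (pd b (gg ψ w v0)) x|
      + |T1 * (dl m)⁻¹ * avR m R (gg ψ w v) x| + |pd b w x|) := by
  obtain ⟨p1, p2, p3⟩ := hP m v0 v w h0 hv hw hs
  obtain ⟨hF, hq⟩ := test_FF (m := m) hχ h0 hv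
  have hpd : ∀ x b, pd b (FF m χ v0 v) x = pd b v0 x
      + pd b (fun z => χ z * mo m (fun y => v y - v0 y) z) x :=
    fun x b => pd_add (test_diff h0 x) (test_diff hq x) b
  have hhe : ∀ x a b, hess (FF m χ v0 v) x a b = hess v0 x a b
      + hess (fun z => χ z * mo m (fun y => v y - v0 y) z) x a b :=
    fun x a b => hess_add h0 hq x a b
  refine ⟨?_, ?_, ?_⟩
  · filter_upwards [p1] with x hx b
    refine (hx b).trans ?_
    have a1 := le_abs_self (T1 * (dl m)⁻¹ * avR m R (gg ψ w v) x)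
    have a2 := le_abs_self (T1 * avR m R (S2 (fun y => v y - v0 y)) x)
    linarith
  · intro u hu x b
    have e : pd b (FF m χ v0 v) x - pd b u x = pd b (fun y => v0 y - u y) x
        + pd b (fun z => χ z * mo m (fun y => v y - v0 y) z) x := by
      rw [hpd, pd_sub (test_diff h0 x) (test_diff hu x)]; ring
    rw [e]
    refine (abs_add_le _ _).trans ?_
    have a1 := pd_le_S2 (fun y => v0 y - u y) x b
    have a2 := p2 x b
    have a3 := le_abs_self (S2 (fun y => v0 y - u y) x)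
    have a4 := le_abs_self (T1 * avR m R (S2 (fun y => v y - v0 y)) x)
    linarith
  · obtain ⟨-, -, Kg, hKg⟩ := gg_cont hM hw hF
    filter_upwards [p1, hTL _ hF, lip_ae hKg] with x hx1 hx2 hx3 b
    set D := avR m R (S2 (fun y => v y - v0 y)) x with hD
    set G := T1 * (dl m)⁻¹ * avR m R (gg ψ w v) x with hG
    set A := |pd b (gg ψ w v0) x - mo m (pd b (gg ψ w v0)) x| with hA
    have b1 := hx1 b
    have b2 := hx2 b
    have b3 := p2 x b
    have hL : pd b (Lop ψ (FF m χ v0 v)) x = pd b (FF m χ v0 v) x - pd b (gg ψ w (FF m χ v0 v)) x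
        - pd b w x := by
      have e : Lop ψ (FF m χ v0 v) = fun z => (FF m χ v0 v z - gg ψ w (FF m χ v0 v) z) - w z := by
        funext z; unfold gg; ring
      have hd1 : DifferentiableAt ℝ (fun z => FF m χ v0 v z - gg ψ w (FF m χ v0 v) z) x :=
        (test_diff hF x).sub hx3
      rw [e, pd_sub hd1 (test_diff hw x), pd_sub (test_diff hF x) hx3]
    have c1 : |pd b (Lop ψ (FF m χ v0 v)) x| ≤ |pd b (FF m χ v0 v) x|
        + |pd b (gg ψ w (FF m χ v0 v)) x| + |pd b w x| := by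
      rw [hL]
      have k1 := abs_sub (pd b (FF m χ v0 v) x - pd b (gg ψ w (FF m χ v0 v)) x) (pd b w x)
      have k2 := abs_sub (pd b (FF m χ v0 v) x) (pd b (gg ψ w (FF m χ v0 v)) x)
      linarith
    have c2 : |pd b (FF m χ v0 v) x| ≤ S2 v0 x + T1 * D := by
      rw [hpd]
      refine (abs_add_le _ _).trans ?_
      exact add_le_add (pd_le_S2 _ _ _) b3
    have c3 : ∑ i, ∑ j, |hess (FF m χ v0 v) x i j| ≤ S2 v0 x + n ^ 2 * (T1 * D) := by
      have k1 : ∑ i, ∑ j, |hess (FF m χ v0 v) x i j| ≤ ∑ i, ∑ j, (|hess v0 x i j| + T1 * D) := by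
        refine Finset.sum_le_sum (fun i _ => Finset.sum_le_sum (fun j _ => ?_))
        rw [hhe]
        refine (abs_add_le _ _).trans ?_
        exact add_le_add le_rfl (p3 x i j)
      have k2 : ∑ i : Fin n, ∑ j : Fin n, (|hess v0 x i j| + T1 * D) =
          (∑ i, ∑ j, |hess v0 x i j|) + n ^ 2 * (T1 * D) := by
        simp only [Finset.sum_add_distrib, Finset.sum_const, Finset.card_univ, Fintype.card_fin,
          nsmul_eq_mul]
        ring
      have k3 := hsum_le_S2 v0 x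
      linarith
    have c4 : T * (∑ i, ∑ j, |hess (FF m χ v0 v) x i j|) ≤ T * (S2 v0 x + n ^ 2 * (T1 * D)) :=
      mul_le_mul_of_nonneg_left c3 hT.le
    have a1 := le_abs_self ((2 + T) * S2 v0 x)
    have a2 := le_abs_self (((3 + T * n ^ 2) * T1) * D)
    have a3 := le_abs_self G
    have e1 : T * (S2 v0 x + n ^ 2 * (T1 * D)) + 2 * (S2 v0 x + T1 * D) + T1 * D =
        (2 + T) * S2 v0 x + ((3 + T * n ^ 2) * T1) * D := by ring
    linarith

/-- `StmtH1` from the pointwise bound -/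
theorem stmtH1_of (hPA : PtAll) : StmtH1 := by
  intro n ψ V c C M hN hM w v hw hv hlim hcau
  have hVc : Continuous V := hN.toReg.cont
  have hZ : 0 < ∫ x, Real.exp (-V x) := hN.toReg.Z_pos
  set Z := ∫ x, Real.exp (-V x) with hZd
  obtain ⟨T1, hT1, hPT⟩ := hPA n ψ V c C M hM
  obtain ⟨T, hT, hTL⟩ := Lop_pd hM
  obtain ⟨C2, hC2, hav⟩ := avR_L2 hVc (nice_lip hN)
  have hS := cauchy_S2 hVc hZ hv hcau
  -- the limit in unnormalised form
  have hlim' : Tendsto (fun i => ∫ x, (gg ψ w (v i) x) ^ 2 * Real.exp (-V x)) atTop (𝓝 0) := by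
    have h1 := hlim.mul_const Z
    rw [zero_mul] at h1
    refine h1.congr (fun i => ?_)
    unfold Ex
    rw [div_mul_cancel₀ _ hZ.ne']
    rfl
  -- uniform bound
  obtain ⟨N1, hN1⟩ := hS 1 one_pos
  set B0 : ℝ := 2 * (∫ x, (S2 (v N1) x) ^ 2 * Real.exp (-V x)) + 2 with hB0
  have hBd : ∀ i ≥ N1, ∫ x, (S2 (v i) x) ^ 2 * Real.exp (-V x) ≤ B0 := by
    intro i hi
    have h1 := hN1 i hi N1 le_rfl
    have i1 := integrable_cs hVc (S2_cont (hv N1)) (S2_supp (hv N1))
    have hd := test_sub (hv i) (hv N1)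
    have i2 := integrable_cs hVc (S2_cont hd) (S2_supp hd)
    have h2 : ∫ x, (S2 (v i) x) ^ 2 * Real.exp (-V x) ≤
        ∫ x, (2 * ((S2 (v N1) x) ^ 2 * Real.exp (-V x)) +
          2 * ((S2 (fun y => v i y - v N1 y) x) ^ 2 * Real.exp (-V x))) := by
      refine integral_mono_of_nonneg (Eventually.of_forall (fun x => ?_))
        ((i1.const_mul 2).add (i2.const_mul 2)) (Eventually.of_forall (fun x => ?_))
      · exact mul_nonneg (sq_nonneg _) (Real.exp_pos _).le
      · show (S2 (v i) x) ^ 2 * Real.exp (-V x) ≤ 2 * ((S2 (v N1) x) ^ 2 * Real.exp (-V x)) +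
          2 * ((S2 (fun y => v i y - v N1 y) x) ^ 2 * Real.exp (-V x))
        have k1 := S2_sub_le (hv i) (hv N1) x
        have k2 := S2_nonneg (v i) x
        have k3 : (S2 (v i) x) ^ 2 ≤ 2 * (S2 (v N1) x) ^ 2 + 2 * (S2 (fun y => v i y - v N1 y) x) ^ 2 := by
          have k4 := pow_le_pow_left₀ k2 k1 2
          nlinarith [sq_nonneg (S2 (v N1) x - S2 (fun y => v i y - v N1 y) x)]
        have k5 := mul_le_mul_of_nonneg_right k3 (Real.exp_pos (-V x)).le
        linarith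
    rw [integral_add (i1.const_mul 2) (i2.const_mul 2), integral_const_mul, integral_const_mul] at h2
    linarith
  -- the bound `B`
  refine ⟨(∑ b : Fin n, (5 : ℝ) * ((2 + T) ^ 2 * B0 + ((3 + T * n ^ 2) * T1) ^ 2 * (C2 * 1) + 1 + 1
    + ∫ x, (pd b w x) ^ 2 * Real.exp (-V x))) / Z, fun δ hδ => ?_⟩
  -- the small numbers
  set η : ℝ := min 1 (δ * Z / (9 * ((n : ℝ) + 1))) with hη
  have hη0 : 0 < η := lt_min one_pos (by positivity)
  have hη1 : η ≤ 1 := min_le_left _ _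
  have hη2 : 9 * (n : ℝ) * η ≤ δ * Z := by
    have h1 : η ≤ δ * Z / (9 * ((n : ℝ) + 1)) := min_le_right _ _
    rw [le_div_iff₀ (by positivity)] at h1
    nlinarith
  set εS : ℝ := η / (1 + T1 ^ 2 * C2) with hεS
  have hden : 0 < 1 + T1 ^ 2 * C2 := by positivity
  have hεS0 : 0 < εS := by positivity
  have hεS1 : εS ≤ η := by
    rw [hεS, div_le_iff₀ hden]
    nlinarith [mul_pos (pow_pos hT1 2) hC2]
  have hεS2 : T1 ^ 2 * (C2 * εS) ≤ η := by
    have h1 : (1 + T1 ^ 2 * C2) * εS = η := by rw [hεS]; field_simp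
    nlinarith
  -- the index `i0`
  obtain ⟨N2, hN2⟩ := hS εS hεS0
  set i0 := max N1 N2 with hi0
  have hi01 : N1 ≤ i0 := le_max_left _ _
  have hi02 : N2 ≤ i0 := le_max_right _ _
  -- the radius
  obtain ⟨gc0, gs0, K0, gK0⟩ := gg_cont hM hw (hv i0)
  obtain ⟨r, hr⟩ := gs0.isCompact.isBounded.subset_closedBall (0 : E n)
  set R : ℝ := max (r + 2) 2 with hR
  have hR2 : 2 ≤ R := le_max_right _ _
  have hRr : r + 2 ≤ R := le_max_left _ _
  have hsup : ∀ x, R - 1 ≤ ‖x‖ → gg ψ w (v i0) x = 0 := by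
    intro x hx
    by_contra hcon
    have h1 : x ∈ tsupport (gg ψ w (v i0)) := subset_tsupport _ hcon
    have h2 := hr h1
    rw [mem_closedBall_zero_iff] at h2
    linarith
  obtain ⟨χ, hχ, hPt⟩ := hPT R hR2
  -- the scale `m`
  obtain ⟨m0, hm0⟩ := hav R
  have hleb : ∀ᶠ m in atTop, ∀ b : Fin n,
      ∫ x, (pd b (gg ψ w (v i0)) x - mo m (pd b (gg ψ w (v i0))) x) ^ 2 * Real.exp (-V x) ≤ η := by
    rw [eventually_all]
    intro b
    exact ((leb hVc gK0 gs0 b).2.eventually (ge_mem_nhds hη0))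
  obtain ⟨m, hm1, hm2⟩ := (hleb.and (eventually_ge_atTop m0)).exists
  -- the index `j`
  have hj : ∀ᶠ j in atTop, (T1 * (dl m)⁻¹) ^ 2 * (C2 * ∫ x, (gg ψ w (v j) x) ^ 2 * Real.exp (-V x)) ≤ η := by
    have h1 := (hlim'.const_mul C2).const_mul ((T1 * (dl m)⁻¹) ^ 2)
    rw [mul_zero, mul_zero] at h1
    exact h1.eventually (ge_mem_nhds hη0)
  obtain ⟨j, hj1, hj2⟩ := (hj.and (eventually_ge_atTop i0)).exists
  obtain ⟨q1, q2, q3⟩ := pt_est hM hT hT1 hTL hχ hPt m (hv i0) (hv j) hw hsup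
  have hF := (test_FF (m := m) hχ (hv i0) (hv j)).1
  -- the pieces
  have hdt : Test (fun y => v j y - v i0 y) := test_sub (hv j) (hv i0)
  have hdS : ∫ x, (S2 (fun y => v j y - v i0 y) x) ^ 2 * Real.exp (-V x) ≤ εS :=
    hN2 j (hi02.trans hj2) i0 hi02
  obtain ⟨gcj, gsj, -, -⟩ := gg_cont hM hw (hv j)
  have pA : ∀ b, Integrable (fun x => (pd b (gg ψ w (v i0)) x - mo m (pd b (gg ψ w (v i0))) x) ^ 2
      * Real.exp (-V x)) := fun b => (leb hVc gK0 gs0 b).1 m
  have pG := hm0 m hm2 (gg ψ w (v j)) gcj gsj (T1 * (dl m)⁻¹)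
  have pS := hm0 m hm2 (S2 (fun y => v j y - v i0 y)) (S2_cont hdt) (S2_supp hdt)
  have pS1 := pS T1
  have pS2 := pS ((3 + T * n ^ 2) * T1)
  have hS1 : ∫ x, (T1 * avR m R (S2 (fun y => v j y - v i0 y)) x) ^ 2 * Real.exp (-V x) ≤ η := by
    refine pS1.2.trans (le_trans ?_ hεS2)
    exact mul_le_mul_of_nonneg_left (mul_le_mul_of_nonneg_left hdS hC2.le) (sq_nonneg _)
  have hS2 : ∫ x, (((3 + T * n ^ 2) * T1) * avR m R (S2 (fun y => v j y - v i0 y)) x) ^ 2
      * Real.exp (-V x) ≤ ((3 + T * n ^ 2) * T1) ^ 2 * (C2 * 1) := by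
    refine pS2.2.trans ?_
    refine mul_le_mul_of_nonneg_left (mul_le_mul_of_nonneg_left ?_ hC2.le) (sq_nonneg _)
    linarith
  refine ⟨FF m χ (v i0) (v j), i0, hF, ?_, ?_, ?_⟩
  · unfold Ex
    rw [div_le_iff₀ hZ]
    have key := key_sum V (ι := Fin 3)
      (fun b k => ![fun x => pd b (gg ψ w (v i0)) x - mo m (pd b (gg ψ w (v i0))) x,
        fun x => T1 * (dl m)⁻¹ * avR m R (gg ψ w (v j)) x,
        fun x => T1 * avR m R (S2 (fun y => v j y - v i0 y)) x] k)
      (fun _ _ => η)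
      (by
        intro b k
        fin_cases k
        · exact ⟨pA b, hm1 b⟩
        · exact ⟨pG.1, pG.2.trans hj1⟩
        · exact ⟨pS1.1, hS1⟩)
      (fun b => pd b (gg ψ w (FF m χ (v i0) (v j))))
      (by
        filter_upwards [q1] with x hx b
        have := hx b
        simpa [Fin.sum_univ_three] using this)
    refine le_trans (le_of_eq ?_) (key.trans ?_)
    · rfl
    · simp only [Finset.sum_const, Finset.card_univ, Fintype.card_fin, nsmul_eq_mul]
      push_cast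
      linarith
  · intro i hi
    unfold Ex
    rw [div_le_iff₀ hZ]
    have hdi : Test (fun y => v i0 y - v i y) := test_sub (hv i0) (hv i)
    have key := key_sum V (ι := Fin 2)
      (fun _ k => ![fun x => S2 (fun y => v i0 y - v i y) x,
        fun x => T1 * avR m R (S2 (fun y => v j y - v i0 y)) x] k)
      (fun _ _ => η)
      (by
        intro b k
        fin_cases k
        · exact ⟨integrable_cs hVc (S2_cont hdi) (S2_supp hdi),
            (hN2 i0 hi02 i (hi02.trans hi)).trans hεS1⟩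
        · exact ⟨pS1.1, hS1⟩)
      (fun b x => pd b (FF m χ (v i0) (v j)) x - pd b (v i) x)
      (by
        refine Eventually.of_forall (fun x b => ?_)
        have := q2 (v i) (hv i) x b
        simpa [Fin.sum_univ_two] using this)
    refine key.trans ?_
    simp only [Finset.sum_const, Finset.card_univ, Fintype.card_fin, nsmul_eq_mul]
    push_cast
    have hn : (0 : ℝ) ≤ n := Nat.cast_nonneg n
    nlinarith [mul_nonneg hn hη0.le]
  · unfold Ex
    rw [div_le_div_iff_of_pos_right hZ]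
    have key := key_sum V (ι := Fin 5)
      (fun b k => ![fun x => (2 + T) * S2 (v i0) x,
        fun x => ((3 + T * n ^ 2) * T1) * avR m R (S2 (fun y => v j y - v i0 y)) x,
        fun x => pd b (gg ψ w (v i0)) x - mo m (pd b (gg ψ w (v i0))) x,
        fun x => T1 * (dl m)⁻¹ * avR m R (gg ψ w (v j)) x,
        fun x => pd b w x] k)
      (fun b k => ![(2 + T) ^ 2 * B0, ((3 + T * n ^ 2) * T1) ^ 2 * (C2 * 1), 1, 1,
        ∫ x, (pd b w x) ^ 2 * Real.exp (-V x)] k)
      (by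
        intro b k
        fin_cases k
        · have i1 := integrable_cs hVc (S2_cont (hv i0)) (S2_supp (hv i0))
          have e : (fun x => ((2 + T) * S2 (v i0) x) ^ 2 * Real.exp (-V x)) =
              fun x => (2 + T) ^ 2 * ((S2 (v i0) x) ^ 2 * Real.exp (-V x)) := by
            funext x; ring
          show Integrable (fun x => ((2 + T) * S2 (v i0) x) ^ 2 * Real.exp (-V x)) ∧
            ∫ x, ((2 + T) * S2 (v i0) x) ^ 2 * Real.exp (-V x) ≤ (2 + T) ^ 2 * B0
          rw [e, integral_const_mul]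
          exact ⟨i1.const_mul _, mul_le_mul_of_nonneg_left (hBd i0 hi01) (sq_nonneg _)⟩
        · exact ⟨pS2.1, hS2⟩
        · exact ⟨pA b, (hm1 b).trans hη1⟩
        · exact ⟨pG.1, (pG.2.trans hj1).trans hη1⟩
        · exact ⟨integrable_cs hVc (pd_test hw b).1.continuous (pd_test hw b).2, le_rfl⟩)
      (fun b => Lop ψ (pd b (FF m χ (v i0) (v j))))
      (by
        filter_upwards [q3] with x hx b
        have := hx b
        simpa [Fin.sum_univ_five] using this)
    refine key.trans (le_of_eq ?_)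
    refine Finset.sum_congr rfl (fun b _ => ?_)
    simp [Fin.sum_univ_five]

end Vale.Agent.P227.M.LIN.H1T
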