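import Vale.Agent.P227.M.LIN.Iface

/-! # P227, block LIN, LIN-3: abstract Hilbert space part, exact interface `StmtHilb` -/

open Filter Topology

namespace Vale.Agent.P227.M.LIN.H119

variable {W H : Type*} [AddCommGroup W] [Module ℝ W] [NormedAddCommGroup H]
  [InnerProductSpace ℝ H]

/-- the operator `J - A` -/
def T (J A : W →ₗ[ℝ] H) : W →ₗ[ℝ] H := J - A

theorem T_apply (J A : W →ₗ[ℝ] H) (f : W) : T J A f = J f - A f := rfl

/-- the resolvent -/
noncomputable def R [CompleteSpace H] (J A : W →ₗ[ℝ] H) : H →L[ℝ] H :=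
  J.extendOfNorm (T J A)

variable {J A : W →ₗ[ℝ] H}

theorem norm_le (hneg : ∀ f, inner ℝ (A f) (J f) ≤ 0) (f : W) : ‖J f‖ ≤ 1 * ‖T J A f‖ := by
  rw [one_mul]
  have h1 : ‖J f‖ ^ 2 ≤ ‖T J A f‖ ^ 2 := by
    rw [T_apply, norm_sub_sq_real, real_inner_comm]
    have := hneg f
    nlinarith [sq_nonneg ‖A f‖]
  exact (pow_le_pow_iff_left₀ (norm_nonneg _) (norm_nonneg _) two_ne_zero).1 h1

variable [CompleteSpace H] (hneg : ∀ f, inner ℝ (A f) (J f) ≤ 0)
  (hd : DenseRange (fun f => J f - A f))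

omit [CompleteSpace H] in
include hd in
theorem exists_seq (h : H) : ∃ v : ℕ → W, Tendsto (fun i => J (v i) - A (v i)) atTop (𝓝 h) := by
  obtain ⟨u, hu, hlim⟩ := mem_closure_iff_seq_limit.1 (hd h)
  choose v hv using hu
  refine ⟨v, ?_⟩
  have : (fun i => J (v i) - A (v i)) = u := by
    funext i
    exact hv i
  rw [this]
  exact hlim

include hneg hd

theorem R_T (f : W) : R J A (J f - A f) = J f := by
  have := LinearMap.extendOfNorm_eq (f := J) (e := T J A) hd ⟨1, norm_le hneg⟩ f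
  simpa [R, T_apply] using this

theorem tendsto_R {h : H} {v : ℕ → W}
    (hv : Tendsto (fun i => J (v i) - A (v i)) atTop (𝓝 h)) :
    Tendsto (fun i => J (v i)) atTop (𝓝 (R J A h)) ∧
      Tendsto (fun i => A (v i)) atTop (𝓝 (R J A h - h)) := by
  have h1 : Tendsto (fun i => J (v i)) atTop (𝓝 (R J A h)) := by
    have := ((R J A).continuous.tendsto h).comp hv
    refine this.congr fun i => ?_
    simp only [Function.comp]
    exact R_T hneg hd (v i)
  refine ⟨h1, ?_⟩
  have := h1.sub hv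
  refine this.congr fun i => ?_
  abel

variable (hsym : ∀ f g, inner ℝ (A f) (J g) = inner ℝ (J f) (A g))
include hsym

theorem R_symm (x y : H) : inner ℝ (R J A x) y = inner ℝ x (R J A y) := by
  obtain ⟨v, hv⟩ := exists_seq hd x
  obtain ⟨w, hw⟩ := exists_seq hd y
  obtain ⟨hv1, hv2⟩ := tendsto_R hneg hd hv
  obtain ⟨hw1, hw2⟩ := tendsto_R hneg hd hw
  have h1 := hv1.inner (𝕜 := ℝ) hw
  have h2 := hv.inner (𝕜 := ℝ) hw1
  refine tendsto_nhds_unique h1 (h2.congr fun i => ?_)
  rw [inner_sub_left, inner_sub_right, hsym]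

omit hneg hd hsym in
/-- `2R² - 3R + 1` -/
noncomputable def B (J A : W →ₗ[ℝ] H) : H →L[ℝ] H :=
  (2 : ℝ) • (R J A ∘L R J A) - (3 : ℝ) • R J A + ContinuousLinearMap.id ℝ H

omit hneg hd hsym in
theorem B_apply (z : H) : B J A z = (2 : ℝ) • R J A (R J A z) - (3 : ℝ) • R J A z + z := rfl

theorem B_symm (x y : H) : inner ℝ (B J A x) y = inner ℝ x (B J A y) := by
  simp only [B_apply, inner_add_left, inner_sub_left, inner_add_right, inner_sub_right,
    real_inner_smul_left, real_inner_smul_right]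
  rw [R_symm hneg hd hsym (R J A x) y, R_symm hneg hd hsym x (R J A y), R_symm hneg hd hsym x y]

omit hsym in
theorem ker_B {r : H}
    (hK0 : ∀ (h : H) (f : ℕ → W), Tendsto (fun m => J (f m)) atTop (𝓝 h) →
      Tendsto (fun m => A (f m)) atTop (𝓝 0) → inner ℝ r h = 0)
    (hK1 : ∀ (h : H) (f : ℕ → W), Tendsto (fun m => J (f m)) atTop (𝓝 h) →
      Tendsto (fun m => A (f m)) atTop (𝓝 (-h)) → inner ℝ r h = 0)
    {h : H} (hh : B J A h = 0) : inner ℝ r h = 0 := by
  set k : H := (2 : ℝ) • R J A h - h with hk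
  set l : H := R J A h - h with hl
  have h1 : R J A k = k := by
    have : R J A k - k = B J A h := by
      rw [B_apply, hk, map_sub, map_smul]
      module
    rw [hh] at this
    exact sub_eq_zero.1 this
  have h2 : (2 : ℝ) • R J A l = l := by
    have : (2 : ℝ) • R J A l - l = B J A h := by
      rw [B_apply, hl, map_sub]
      module
    rw [hh] at this
    exact sub_eq_zero.1 this
  have hk0 : inner ℝ r k = 0 := by
    obtain ⟨v, hv⟩ := exists_seq hd k
    obtain ⟨hv1, hv2⟩ := tendsto_R hneg hd hv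
    rw [h1] at hv1
    rw [h1, sub_self] at hv2
    exact hK0 k v hv1 hv2
  have hl0 : inner ℝ r l = 0 := by
    obtain ⟨v, hv⟩ := exists_seq hd l
    obtain ⟨hv1, hv2⟩ := tendsto_R hneg hd hv
    have h3 : R J A l - l = - R J A l := by
      nth_rewrite 2 [← h2]
      module
    rw [h3] at hv2
    have := hK1 _ v hv1 hv2
    rw [← h2, real_inner_smul_right, this, mul_zero]
  have h4 : h = k - (2 : ℝ) • l := by
    rw [hk, hl]
    module
  rw [h4, inner_sub_right, real_inner_smul_right, hk0, hl0]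
  ring

theorem mem_closure {r : H}
    (hK0 : ∀ (h : H) (f : ℕ → W), Tendsto (fun m => J (f m)) atTop (𝓝 h) →
      Tendsto (fun m => A (f m)) atTop (𝓝 0) → inner ℝ r h = 0)
    (hK1 : ∀ (h : H) (f : ℕ → W), Tendsto (fun m => J (f m)) atTop (𝓝 h) →
      Tendsto (fun m => A (f m)) atTop (𝓝 (-h)) → inner ℝ r h = 0) :
    r ∈ closure (Set.range (B J A)) := by
  have h1 : r ∈ (LinearMap.range (B J A).toLinearMap)ᗮᗮ := by
    rw [Submodule.mem_orthogonal']
    intro h hh
    refine ker_B hneg hd hK0 hK1 ?_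
    have h2 : ∀ x : H, inner ℝ (B J A h) x = 0 := by
      intro x
      rw [B_symm hneg hd hsym]
      exact (Submodule.mem_orthogonal' _ _).1 hh (B J A x) (LinearMap.mem_range_self _ _)
    exact inner_self_eq_zero.1 (h2 (B J A h))
  rw [Submodule.orthogonal_orthogonal_eq_closure] at h1
  have h4 : Set.range (B J A) = ((LinearMap.range (B J A).toLinearMap : Submodule ℝ H) : Set H) := by
    ext x
    simp
  rw [h4]
  exact h1

end Vale.Agent.P227.M.LIN.H119

namespace Vale.Agent.P227.M.LIN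

open H119 in
theorem stmtHilb119 : StmtHilb := by
  intro W H _ _ _ _ _ J A hsym hneg hd r hK0 hK1 ε hε
  have hr := mem_closure hneg hd hsym hK0 hK1
  obtain ⟨_, ⟨z, rfl⟩, hz⟩ := Metric.mem_closure_iff.1 hr (ε / 4) (by positivity)
  obtain ⟨u, hu⟩ := exists_seq hd z
  have hBu : Tendsto (fun i => B J A (J (u i) - A (u i))) atTop (𝓝 (B J A z)) :=
    ((B J A).continuous.tendsto z).comp hu
  obtain ⟨i0, hi0⟩ := (Metric.tendsto_atTop.1 hBu (ε / 4) (by positivity))
  set w : W := u i0 with hw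
  have hw1 : dist (B J A (J w - A w)) (B J A z) < ε / 4 := hi0 i0 le_rfl
  obtain ⟨v, hv⟩ := exists_seq hd (J w)
  obtain ⟨hv1, hv2⟩ := tendsto_R hneg hd hv
  have hlim : Tendsto (fun i => r + A (w - (2 : ℝ) • v i)) atTop
      (𝓝 (r + A w - (2 : ℝ) • (R J A (J w) - J w))) := by
    have h1 : Tendsto (fun i => r + A w - (2 : ℝ) • A (v i)) atTop
        (𝓝 (r + A w - (2 : ℝ) • (R J A (J w) - J w))) :=
      tendsto_const_nhds.sub (hv2.const_smul (2 : ℝ))
    refine h1.congr fun i => ?_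
    rw [map_sub, map_smul]
    abel
  have hB : B J A (J w - A w) = -(A w - (2 : ℝ) • (R J A (J w) - J w)) := by
    rw [B_apply, R_T hneg hd w]
    module
  have hsmall : ‖r + A w - (2 : ℝ) • (R J A (J w) - J w)‖ < ε := by
    have h1 : r + A w - (2 : ℝ) • (R J A (J w) - J w) = r - B J A (J w - A w) := by
      rw [hB]
      abel
    rw [h1, ← dist_eq_norm]
    calc dist r (B J A (J w - A w)) ≤ dist r (B J A z) + dist (B J A z) (B J A (J w - A w)) :=
          dist_triangle _ _ _
      _ < ε / 4 + ε / 4 := by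
          rw [dist_comm (B J A z)]
          exact add_lt_add hz hw1
      _ < ε := by linarith
  obtain ⟨N, hN⟩ := eventually_atTop.1 (hlim.norm.eventually_lt_const hsmall)
  refine ⟨w, fun i => v (i + N), ?_, fun i => (hN (i + N) (Nat.le_add_left _ _)).le⟩
  exact hv.comp (tendsto_add_atTop_nat N)

end Vale.Agent.P227.M.LIN
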