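import Vale.Agent.P227.M.Bas

/-! P227, block LIN: matrix facts for `τ` (helper671). -/

open MeasureTheory Filter
open scoped Topology

namespace Vale.Agent.P227.M.LIN.X671

variable {n : ℕ}

/-- quadratic form on plain vectors -/
def qd (T : Matrix (Fin n) (Fin n) ℝ) (p : Fin n → ℝ) : ℝ := ∑ i, ∑ j, T i j * p i * p j

theorem qd_eq (T : Matrix (Fin n) (Fin n) ℝ) (p : Fin n → ℝ) : qd T p = p ⬝ᵥ (T.mulVec p) := by
  unfold qd dotProduct Matrix.mulVec dotProduct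
  refine Finset.sum_congr rfl fun i _ => ?_
  rw [Finset.mul_sum]
  exact Finset.sum_congr rfl fun j _ => by ring

theorem qf_eq_qd (T : Matrix (Fin n) (Fin n) ℝ) (v : E n) : qf T v = qd T (fun i => v i) := rfl

theorem det_ne_zero_of_lower {A : Matrix (Fin n) (Fin n) ℝ} {c : ℝ} (hc : 0 < c)
    (h : ∀ p : Fin n → ℝ, c * ∑ i, p i ^ 2 ≤ qd A p) : A.det ≠ 0 := by
  intro h0
  obtain ⟨v, hv, hv0⟩ := Matrix.exists_mulVec_eq_zero_iff.2 h0
  have h1 := h v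
  rw [qd_eq, hv0, dotProduct_zero] at h1
  have h2 : ∑ i, v i ^ 2 ≤ 0 := by
    by_contra hh
    push Not at hh
    have := mul_pos hc hh
    linarith
  have h3 : ∑ i, v i ^ 2 = 0 := le_antisymm h2 (Finset.sum_nonneg fun i _ => sq_nonneg _)
  apply hv
  ext i
  have := (Finset.sum_eq_zero_iff_of_nonneg (fun i _ => sq_nonneg (v i))).1 h3 i (Finset.mem_univ i)
  exact pow_eq_zero_iff (two_ne_zero) |>.1 this

theorem dot_self_sq (p : Fin n → ℝ) : p ⬝ᵥ p = ∑ i, p i ^ 2 := by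
  unfold dotProduct
  exact Finset.sum_congr rfl fun i _ => by ring

theorem symm_dot {A : Matrix (Fin n) (Fin n) ℝ} (hs : A.IsSymm) (p q : Fin n → ℝ) :
    p ⬝ᵥ A.mulVec q = q ⬝ᵥ A.mulVec p := by
  rw [Matrix.dotProduct_mulVec, ← Matrix.mulVec_transpose, hs.eq, dotProduct_comm]

/-- lower bound of the inverse -/
theorem inv_lower {A : Matrix (Fin n) (Fin n) ℝ} (hs : A.IsSymm) {c C : ℝ} (hc : 0 < c)
    (hcC : 0 < C)
    (h : ∀ p : Fin n → ℝ, c * ∑ i, p i ^ 2 ≤ qd A p)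
    (h' : ∀ p : Fin n → ℝ, qd A p ≤ C * ∑ i, p i ^ 2) (p : Fin n → ℝ) :
    C⁻¹ * ∑ i, p i ^ 2 ≤ qd A⁻¹ p := by
  have hdet := det_ne_zero_of_lower hc h
  have hAu : IsUnit A.det := isUnit_iff_ne_zero.2 hdet
  set w : Fin n → ℝ := A⁻¹.mulVec p with hw
  have hAw : A.mulVec w = p := by
    rw [hw, Matrix.mulVec_mulVec, Matrix.mul_nonsing_inv _ hAu, Matrix.one_mulVec]
  have h1 : 0 ≤ qd A (w - C⁻¹ • p) :=
    le_trans (mul_nonneg hc.le (Finset.sum_nonneg fun i _ => sq_nonneg _)) (h _)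
  have e1 : qd A⁻¹ p = w ⬝ᵥ p := by
    rw [qd_eq, dotProduct_comm]
  have e2 : qd A (w - C⁻¹ • p) = w ⬝ᵥ p - 2 * C⁻¹ * (p ⬝ᵥ p) + C⁻¹ ^ 2 * qd A p := by
    rw [qd_eq, Matrix.mulVec_sub, Matrix.mulVec_smul, hAw, sub_dotProduct, dotProduct_sub,
      dotProduct_sub, smul_dotProduct, smul_dotProduct, dotProduct_smul, dotProduct_smul, qd_eq,
      symm_dot hs w p, hAw]
    simp only [smul_eq_mul]
    ring
  have h2 := h' p
  rw [e2] at h1
  rw [dot_self_sq] at h1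
  rw [e1]
  have h3 : C⁻¹ ^ 2 * qd A p ≤ C⁻¹ ^ 2 * (C * ∑ i, p i ^ 2) :=
    mul_le_mul_of_nonneg_left h2 (by positivity)
  have h4 : C⁻¹ ^ 2 * (C * ∑ i, p i ^ 2) = C⁻¹ * ∑ i, p i ^ 2 := by
    field_simp
  nlinarith

theorem inv_isSymm {A : Matrix (Fin n) (Fin n) ℝ} (hs : A.IsSymm) : (A⁻¹).IsSymm := by
  unfold Matrix.IsSymm
  rw [Matrix.transpose_nonsing_inv, hs.eq]

/-- `α² |H|² ≤ tr (THTH)` -/
theorem trace_lower {T H : Matrix (Fin n) (Fin n) ℝ} (hT : T.IsSymm) (hH : H.IsSymm) {α : ℝ}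
    (hα : 0 ≤ α) (h : ∀ p : Fin n → ℝ, α * ∑ i, p i ^ 2 ≤ qd T p) :
    α ^ 2 * ∑ a, ∑ b, H a b ^ 2 ≤ (T * H * T * H).trace := by
  have hpsd : T.PosSemidef := by
    refine Matrix.PosSemidef.of_dotProduct_mulVec_nonneg ?_ fun x => ?_
    · unfold Matrix.IsHermitian
      rw [Matrix.conjTranspose_eq_transpose_of_trivial, hT.eq]
    · have h1 := h x
      rw [qd_eq] at h1
      have h2 : (0 : ℝ) ≤ α * ∑ i, x i ^ 2 :=
        mul_nonneg hα (Finset.sum_nonneg fun i _ => sq_nonneg _)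
      simpa using h2.trans h1
  obtain ⟨m, v, hv⟩ := Matrix.posSemidef_iff_eq_sum_vecMulVec.1 hpsd
  have key : ∀ P : Matrix (Fin n) (Fin n) ℝ, (T * P).trace = ∑ k, v k ⬝ᵥ P.mulVec (v k) := by
    intro P
    rw [hv, Finset.sum_mul, Matrix.trace_sum]
    refine Finset.sum_congr rfl fun k _ => ?_
    rw [Matrix.vecMulVec_mul, Matrix.trace_vecMulVec, star_trivial, dotProduct_comm,
      ← Matrix.dotProduct_mulVec]
  have e1 : (T * H * T * H).trace = ∑ k, qd T (H.mulVec (v k)) := by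
    rw [show T * H * T * H = T * (H * T * H) by simp only [Matrix.mul_assoc], key]
    refine Finset.sum_congr rfl fun k _ => ?_
    rw [qd_eq, ← Matrix.mulVec_mulVec, ← Matrix.mulVec_mulVec, Matrix.dotProduct_mulVec,
      ← Matrix.mulVec_transpose, hH.eq]
  have e2 : ∑ k, ∑ i, (H.mulVec (v k)) i ^ 2 = (T * (H * H)).trace := by
    rw [key]
    refine Finset.sum_congr rfl fun k _ => ?_
    rw [← dot_self_sq, ← Matrix.mulVec_mulVec]
    conv_rhs => rw [Matrix.dotProduct_mulVec, ← Matrix.mulVec_transpose, hH.eq]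
  have e3 : (T * (H * H)).trace = ∑ a, qd T (fun i => H i a) := by
    rw [Matrix.trace_mul_comm, Matrix.mul_assoc, Matrix.trace_mul_comm]
    rw [Matrix.trace]
    refine Finset.sum_congr rfl fun a _ => ?_
    rw [Matrix.diag_apply, Matrix.mul_apply, qd]
    simp only [Matrix.mul_apply, Finset.sum_mul]
    rw [Finset.sum_comm]
    refine Finset.sum_congr rfl fun i _ => Finset.sum_congr rfl fun j _ => ?_
    rw [hH.apply i a]
    ring
  have h1 : α * ∑ k, ∑ i, (H.mulVec (v k)) i ^ 2 ≤ (T * H * T * H).trace := by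
    rw [e1, Finset.mul_sum]
    exact Finset.sum_le_sum fun k _ => h _
  have h2 : α * ∑ a, ∑ i, H i a ^ 2 ≤ (T * (H * H)).trace := by
    rw [e3, Finset.mul_sum]
    exact Finset.sum_le_sum fun k _ => h _
  rw [e2] at h1
  rw [Finset.sum_comm] at h2
  calc α ^ 2 * ∑ a, ∑ b, H a b ^ 2 = α * (α * ∑ a, ∑ b, H a b ^ 2) := by ring
    _ ≤ α * (T * (H * H)).trace := mul_le_mul_of_nonneg_left h2 hα
    _ ≤ _ := h1

end Vale.Agent.P227.M.LIN.X671
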