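import Vale.Agent.P227.M.LIN.Iface
import Vale.Agent.P227.M.LIN.MatX671
import Vale.Agent.P227.M.LIN.AE
import Vale.Agent.P227.M.BasEx
import Vale.Agent.P227.M.BasMM

/-! # P227, block LIN: a priori estimate for the continuity method (hedge of `StmtESA`).

`L0 V f = Δ f - ⟨∇V, ∇f⟩`, `Ls s f = (1-s) L0 V f + s Lop ψ f`. -/

open MeasureTheory Filter Topology
open scoped NNReal

namespace Vale.Agent.P227.M.LIN.Apri

variable {n : ℕ} {ψ V : E n → ℝ} {c C M : ℝ}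

/-- flat operator -/
noncomputable def L0 (V f : E n → ℝ) (x : E n) : ℝ :=
  (∑ i, hess f x i i) - ∑ i, pd i V x * pd i f x

/-- the path -/
noncomputable def Ls (ψ V : E n → ℝ) (s : ℝ) (f : E n → ℝ) (x : E n) : ℝ :=
  (1 - s) * L0 V f x + s * Lop ψ f x

theorem test_lipschitz {f : E n → ℝ} (hf : Test f) : ∃ K : ℝ≥0, LipschitzWith K f := by
  have h1 : ContDiff ℝ 1 f := hf.1.of_le (by norm_cast)
  obtain ⟨K, hK⟩ := h1.lipschitzWith_of_hasCompactSupport hf.2 (by norm_num)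
  exact ⟨K, hK⟩

theorem test_L0 (hV : ContDiff ℝ (⊤ : ℕ∞) V) {f : E n → ℝ} (hf : Test f) : Test (L0 V f) := by
  unfold L0
  exact (Test.sum _ fun i _ => hf.hess i i).sub
    (Test.sum _ fun i _ => (hf.pd i).smooth_mul (contDiff_pd_top hV i))

/-- integration by parts in one direction, one Lipschitz factor -/
theorem ibp1 (hV : ContDiff ℝ (⊤ : ℕ∞) V) {u : E n → ℝ} (hu : Test u) {g : E n → ℝ} {K : ℝ≥0}
    (hg : LipschitzWith K g) (a : Fin n) :
    ∫ x, pd a g x * u x * Real.exp (-V x) =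
      ∫ x, g x * (pd a V x * u x - pd a u x) * Real.exp (-V x) := by
  have hk : Test (fun x => Real.exp (-V x) * u x) := hu.smooth_mul (Real.contDiff_exp.comp hV.neg)
  obtain ⟨D, hD⟩ := test_lipschitz hk
  have key := hg.integral_lineDeriv_mul_eq hD hk.2 (ei a) (μ := volume)
  have h1 : ∀ᵐ x : E n, lineDeriv ℝ g x (ei a) * (Real.exp (-V x) * u x) =
      pd a g x * u x * Real.exp (-V x) := by
    filter_upwards [hg.ae_differentiableAt (μ := volume)] with x hx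
    rw [hx.lineDeriv_eq_fderiv]
    unfold pd
    ring
  have h2 : ∀ x : E n, lineDeriv ℝ (fun x => Real.exp (-V x) * u x) x (-(ei a)) * g x =
      g x * (pd a V x * u x - pd a u x) * Real.exp (-V x) := by
    intro x
    have hdV : Differentiable ℝ V := hV.differentiable (by norm_num)
    have hd : HasFDerivAt (fun x => Real.exp (-V x) * u x)
        (Real.exp (-V x) • fderiv ℝ u x + u x • (Real.exp (-V x) • -fderiv ℝ V x)) x :=
      ((hdV x).hasFDerivAt.neg.exp).mul (hu.diff x).hasFDerivAt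
    rw [hd.differentiableAt.lineDeriv_eq_fderiv, hd.fderiv]
    simp only [map_neg, _root_.add_apply, _root_.smul_apply, _root_.neg_apply, smul_eq_mul]
    unfold pd
    ring
  rw [← integral_congr_ae h1, key]
  exact integral_congr_ae (Eventually.of_forall h2)


theorem bdd_pd {g : E n → ℝ} {K : ℝ≥0} (hg : LipschitzWith K g) (a : Fin n) (x : E n) :
    |pd a g x| ≤ K :=
  (abs_pd_le_norm g x a).trans (norm_fderiv_le_of_lipschitz ℝ hg)

theorem meas_pd (g : E n → ℝ) (a : Fin n) : Measurable (pd a g) :=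
  measurable_fderiv_apply_const ℝ g (ei a)

theorem int_test (hV : Continuous V) {u : E n → ℝ} (hu : Test u) :
    Integrable (fun x => u x * Real.exp (-V x)) := by
  refine Continuous.integrable_of_hasCompactSupport
    (hu.cont.mul (Real.continuous_exp.comp hV.neg)) ?_
  exact hu.2.mul_right

theorem int_bdd_test (hV : Continuous V) {u : E n → ℝ} (hu : Test u) {p : E n → ℝ}
    (hp : Measurable p) {B : ℝ} (hB : ∀ x, |p x| ≤ B) :
    Integrable (fun x => p x * u x * Real.exp (-V x)) := by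
  have h := (int_test hV hu).bdd_mul (c := B) hp.aestronglyMeasurable
    (Eventually.of_forall fun x => by simpa using hB x)
  simpa [mul_assoc] using h

/-- flat integration by parts -/
theorem ibp0 (hV : ContDiff ℝ (⊤ : ℕ∞) V) {u : E n → ℝ} (hu : Test u) {g : E n → ℝ} {K : ℝ≥0}
    (hg : LipschitzWith K g) :
    Ex V (fun x => -(L0 V u x) * g x) = Ex V (fun x => ∑ a, pd a g x * pd a u x) := by
  unfold Ex
  congr 1
  have h1 : ∀ x, (∑ a, pd a g x * pd a u x) * Real.exp (-V x) =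
      ∑ a, pd a g x * pd a u x * Real.exp (-V x) := fun x => Finset.sum_mul _ _ _
  simp_rw [h1]
  rw [integral_finsetSum _ fun a _ => int_bdd_test hV.continuous (hu.pd a) (meas_pd g a)
    (bdd_pd hg a)]
  simp_rw [fun a => ibp1 hV (hu.pd a) hg a]
  rw [← integral_finsetSum]
  · refine integral_congr_ae (Eventually.of_forall fun x => ?_)
    simp only [L0, hess]
    rw [← Finset.sum_mul, ← Finset.mul_sum, Finset.sum_sub_distrib]
    ring
  · intro a _
    have h2 : Test (fun x => pd a V x * pd a u x - pd a (pd a u) x) :=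
      ((hu.pd a).smooth_mul (contDiff_pd_top hV a)).sub ((hu.pd a).pd a)
    have h3 : Integrable (fun x => g x * ((pd a V x * pd a u x - pd a (pd a u) x) * Real.exp (-V x))) := by
      refine Continuous.integrable_of_hasCompactSupport ?_ ?_
      · exact hg.continuous.mul (h2.cont.mul (Real.continuous_exp.comp hV.continuous.neg))
      · exact HasCompactSupport.mul_left (HasCompactSupport.mul_right h2.2)
    refine h3.congr (Eventually.of_forall fun x => ?_)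
    simp only
    ring

theorem pd_L0 (hV : ContDiff ℝ (⊤ : ℕ∞) V) {f : E n → ℝ} (hf : Test f) (b : Fin n) (x : E n) :
    pd b (L0 V f) x = L0 V (pd b f) x - ∑ a, hess V x b a * pd a f x := by
  have hd : ∀ i, Differentiable ℝ (pd i f) := fun i => (hf.pd i).diff
  have hdV : ∀ i, Differentiable ℝ (pd i V) := fun i =>
    (contDiff_pd_top hV i).differentiable (by norm_num)
  have hh : ∀ i j, Differentiable ℝ (fun x => hess f x i j) := fun i j => (hf.hess i j).diff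
  unfold L0
  rw [pd_sub (f := fun x => ∑ i, hess f x i i) (g := fun x => ∑ i, pd i V x * pd i f x)
    (Differentiable.fun_sum fun i _ => hh i i)
    (Differentiable.fun_sum fun i _ => (hdV i).mul (hd i))]
  rw [pd_sum (f := fun i x => hess f x i i) _ fun i _ => hh i i,
    pd_sum (f := fun i x => pd i V x * pd i f x) _ fun i _ => (hdV i).mul (hd i)]
  have e1 : ∀ i, pd b (fun x => hess f x i i) x = hess (pd b f) x i i := by
    intro i
    have a1 : ∀ y, hess f y i i = pd i (pd i f) y := fun y => rfl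
    have a2 : (fun y => hess f y i i) = pd i (pd i f) := rfl
    rw [a2]
    have s1 : pd b (pd i (pd i f)) x = pd i (pd b (pd i f)) x :=
      hess_symm (hf.pd i).C2 x b i
    have s2 : pd b (pd i f) = pd i (pd b f) := funext fun y => hess_symm hf.C2 y b i
    rw [s1, s2]
    rfl
  have e2 : ∀ i, pd b (fun x => pd i V x * pd i f x) x =
      hess V x b i * pd i f x + pd i V x * pd i (pd b f) x := by
    intro i
    rw [pd_mul (hdV i) (hd i)]
    have s2 : pd b (pd i f) x = pd i (pd b f) x := hess_symm hf.C2 x b i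
    rw [s2]
    rfl
  simp_rw [e1, e2]
  rw [Finset.sum_add_distrib]
  ring


/-- squared gradient -/
noncomputable def G1 (f : E n → ℝ) (x : E n) : ℝ := ∑ a, (pd a f x) ^ 2

/-- squared Hessian -/
noncomputable def G2 (f : E n → ℝ) (x : E n) : ℝ := ∑ a, ∑ b, (hess f x a b) ^ 2

theorem gr_G1 {f : E n → ℝ} (hf : Test f) : Gr (G1 f) := Gr.sum _ fun a _ => (hf.gr_pd a).pow 2

theorem gr_G2 {f : E n → ℝ} (hf : Test f) : Gr (G2 f) :=
  Gr.sum _ fun a _ => Gr.sum _ fun b _ => (hf.gr_hess a b).pow 2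

theorem G1_nonneg (f : E n → ℝ) (x : E n) : 0 ≤ G1 f x := Finset.sum_nonneg fun _ _ => sq_nonneg _

theorem G2_nonneg (f : E n → ℝ) (x : E n) : 0 ≤ G2 f x :=
  Finset.sum_nonneg fun _ _ => Finset.sum_nonneg fun _ _ => sq_nonneg _

theorem exists_a0 (h : MM ψ V c C M) :
    ∃ a0 : ℝ, 0 < a0 ∧ a0 ≤ 1 ∧ ∀ x v, a0 * ‖v‖ ^ 2 ≤ qf (tau ψ x) v := by
  rcases Nat.eq_zero_or_pos n with hn | hn
  · subst hn
    refine ⟨1, one_pos, le_rfl, fun x v => ?_⟩
    have : v = 0 := Subsingleton.elim _ _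
    subst this
    simp [qf]
  · have hC : 0 < C := by
      have h1 := h.lower 0 (ei ⟨0, hn⟩)
      have h2 := h.upper 0 (ei ⟨0, hn⟩)
      rw [norm_ei] at h1 h2
      have := h.c_pos
      linarith
    refine ⟨min 1 C⁻¹, lt_min one_pos (inv_pos.2 hC), min_le_left _ _, fun x v => ?_⟩
    exact (mul_le_mul_of_nonneg_right (min_le_right _ _) (sq_nonneg _)).trans (h.le_qf_tau x v)

theorem exists_ktau (h : MM ψ V c C M) : ∃ K : ℝ, 0 ≤ K ∧ ∀ a b d x,
    |pd a (fun z => tau ψ z b d) x| ≤ K := by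
  obtain ⟨K, hK⟩ := AE.tau_lip h
  exact ⟨K, K.2, fun a b d x => bdd_pd (hK b d) a x⟩

theorem lip_fld (h : MM ψ V c C M) {f : E n → ℝ} (hf : Test f) (b : Fin n) :
    ∃ K : ℝ≥0, LipschitzWith K (fld ψ f b) := by
  obtain ⟨K, hK⟩ := AE.tau_lip h
  have h1 : ∀ d : Fin n, ∃ Kd : ℝ≥0, LipschitzWith Kd (fun x => tau ψ x b d * pd d f x) := by
    intro d
    obtain ⟨K2, hK2⟩ := test_lipschitz (hf.pd d)
    obtain ⟨B, hB⟩ := (hf.pd d).bdd
    have hB0 : 0 ≤ B := (abs_nonneg _).trans (hB 0)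
    have hc := h.c_pos
    refine ⟨Real.toNNReal (c⁻¹ * K2 + B * K), LipschitzWith.of_dist_le_mul fun x y => ?_⟩
    rw [Real.coe_toNNReal _ (by positivity), Real.dist_eq]
    have e : tau ψ x b d * pd d f x - tau ψ y b d * pd d f y =
        tau ψ x b d * (pd d f x - pd d f y) + pd d f y * (tau ψ x b d - tau ψ y b d) := by ring
    rw [e]
    have b1 : |pd d f x - pd d f y| ≤ K2 * dist x y := by
      have := hK2.dist_le_mul x y
      rwa [Real.dist_eq] at this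
    have b2 : |tau ψ x b d - tau ψ y b d| ≤ K * dist x y := by
      have := (hK b d).dist_le_mul x y
      rwa [Real.dist_eq] at this
    calc _ ≤ |tau ψ x b d * (pd d f x - pd d f y)| + |pd d f y * (tau ψ x b d - tau ψ y b d)| :=
          abs_add_le _ _
      _ ≤ c⁻¹ * (K2 * dist x y) + B * (K * dist x y) := by
          rw [abs_mul, abs_mul]
          exact add_le_add (mul_le_mul (h.abs_tau_le x b d) b1 (abs_nonneg _) (by positivity))
            (mul_le_mul (hB y) b2 (abs_nonneg _) hB0)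
      _ = _ := by ring
  choose Kd hKd using h1
  refine ⟨∑ d, Kd d, ?_⟩
  have h2 : fld ψ f b = fun x => ∑ d, tau ψ x b d * pd d f x := rfl
  rw [h2]
  refine LipschitzWith.of_dist_le_mul fun x y => ?_
  rw [Real.dist_eq, ← Finset.sum_sub_distrib, NNReal.coe_sum, Finset.sum_mul]
  refine (Finset.abs_sum_le_sum_abs _ _).trans (Finset.sum_le_sum fun d _ => ?_)
  have := (hKd d).dist_le_mul x y
  rwa [Real.dist_eq] at this

/-- pointwise lower bound of the third order cross term -/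
theorem cross_pt {a0 K : ℝ} (ha0 : 0 < a0) (T : Matrix (Fin n) (Fin n) ℝ)
    (hT : ∀ v : E n, a0 * ‖v‖ ^ 2 ≤ qf T v) (N : Matrix (Fin n) (Fin n) ℝ)
    (p : Fin n → Fin n → Fin n → ℝ) (hp : ∀ a b d, |p a b d| ≤ K) (g : Fin n → ℝ) :
    a0 / 2 * (∑ a, ∑ b, (N a b) ^ 2) - (n : ℝ) ^ 3 * K ^ 2 / (2 * a0) * (∑ d, g d ^ 2) ≤
      ∑ b, ∑ a, (∑ d, (p a b d * g d + T b d * N a d)) * N a b := by
  have h1 : a0 * (∑ a, ∑ b, (N a b) ^ 2) ≤ ∑ b, ∑ a, (∑ d, T b d * N a d) * N a b := by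
    rw [Finset.sum_comm (γ := Fin n) (f := fun b a => (∑ d, T b d * N a d) * N a b), Finset.mul_sum]
    refine Finset.sum_le_sum fun a _ => ?_
    have h2 := hT (WithLp.toLp 2 (fun b => N a b))
    rw [norm_sq_eq_sum] at h2
    refine h2.trans (le_of_eq ?_)
    unfold qf
    refine Finset.sum_congr rfl fun b _ => ?_
    rw [Finset.sum_mul]
    refine Finset.sum_congr rfl fun d _ => ?_
    show T b d * N a b * N a d = T b d * N a d * N a b
    ring
  have h3 : ∀ b a, -(a0 / 2 * (N a b) ^ 2 + (∑ d, p a b d * g d) ^ 2 / (2 * a0)) ≤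
      (∑ d, p a b d * g d) * N a b := by
    intro b a
    set q := ∑ d, p a b d * g d
    have h4 : 0 ≤ (a0 * N a b + q) ^ 2 / (2 * a0) := by positivity
    have h5 : (a0 * N a b + q) ^ 2 / (2 * a0) = a0 / 2 * (N a b) ^ 2 + q ^ 2 / (2 * a0) + q * N a b := by
      field_simp
      ring
    linarith
  have h6 : ∀ b a : Fin n, (∑ d, p a b d * g d) ^ 2 ≤ n * K ^ 2 * ∑ d, g d ^ 2 := by
    intro b a
    have h7 := Finset.sum_mul_sq_le_sq_mul_sq Finset.univ (fun d => p a b d) g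
    refine h7.trans (mul_le_mul_of_nonneg_right ?_ (Finset.sum_nonneg fun _ _ => sq_nonneg _))
    calc ∑ d, p a b d ^ 2 ≤ ∑ _d : Fin n, K ^ 2 := Finset.sum_le_sum fun d _ => by
          rw [← sq_abs]
          exact pow_le_pow_left₀ (abs_nonneg _) (hp a b d) 2
      _ = n * K ^ 2 := by simp
  have e1 : ∑ b, ∑ a, (∑ d, (p a b d * g d + T b d * N a d)) * N a b =
      (∑ b, ∑ a, (∑ d, p a b d * g d) * N a b) + ∑ b, ∑ a, (∑ d, T b d * N a d) * N a b := by
    simp only [Finset.sum_add_distrib, add_mul]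
  rw [e1]
  have h8 : -(a0 / 2 * (∑ a, ∑ b, (N a b) ^ 2) + (n : ℝ) ^ 3 * K ^ 2 / (2 * a0) * (∑ d, g d ^ 2)) ≤
      ∑ b, ∑ a, (∑ d, p a b d * g d) * N a b := by
    calc _ ≤ ∑ b, ∑ a, -(a0 / 2 * (N a b) ^ 2 + (n * K ^ 2 * ∑ d, g d ^ 2) / (2 * a0)) := by
          simp only [Finset.sum_neg_distrib, Finset.sum_add_distrib, Finset.sum_const,
            Finset.card_univ, Fintype.card_fin, nsmul_eq_mul]
          rw [Finset.sum_comm (γ := Fin n) (f := fun b a => a0 / 2 * N a b ^ 2)]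
          simp only [← Finset.mul_sum]
          apply le_of_eq
          ring
      _ ≤ _ := by
          refine Finset.sum_le_sum fun b _ => Finset.sum_le_sum fun a _ => ?_
          refine le_trans ?_ (h3 b a)
          have := h6 b a
          have h9 : (∑ d, p a b d * g d) ^ 2 / (2 * a0) ≤ (n * K ^ 2 * ∑ d, g d ^ 2) / (2 * a0) :=
            div_le_div_of_nonneg_right this (by positivity)
          linarith
  linarith


theorem Ex_mono_ae (h : Reg V c C) {f g : E n → ℝ} (hf : Integrable (fun x => f x * Real.exp (-V x)))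
    (hg : Integrable (fun x => g x * Real.exp (-V x))) (hfg : ∀ᵐ x, f x ≤ g x) :
    Ex V f ≤ Ex V g := by
  unfold Ex
  refine div_le_div_of_nonneg_right (integral_mono_ae hf hg ?_) h.Z_pos.le
  filter_upwards [hfg] with x hx
  exact mul_le_mul_of_nonneg_right hx (Real.exp_pos _).le

theorem fld_sq_le (h : MM ψ V c C M) (f : E n → ℝ) (x : E n) (b : Fin n) :
    (fld ψ f b x) ^ 2 ≤ n * c⁻¹ ^ 2 * G1 f x := by
  unfold fld G1
  refine (Finset.sum_mul_sq_le_sq_mul_sq Finset.univ (fun d => tau ψ x b d)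
    (fun d => pd d f x)).trans (mul_le_mul_of_nonneg_right ?_ (Finset.sum_nonneg fun _ _ => sq_nonneg _))
  calc ∑ d, tau ψ x b d ^ 2 ≤ ∑ _d : Fin n, c⁻¹ ^ 2 := Finset.sum_le_sum fun d _ => by
        rw [← sq_abs]
        exact pow_le_pow_left₀ (abs_nonneg _) (h.abs_tau_le x b d) 2
    _ = n * c⁻¹ ^ 2 := by simp

theorem hessv_sq_le {B : ℝ} (hB : ∀ x i j, |hess V x i j| ≤ B) (f : E n → ℝ) (x : E n) (b : Fin n) :
    (∑ a, hess V x b a * pd a f x) ^ 2 ≤ n * B ^ 2 * G1 f x := by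
  unfold G1
  refine (Finset.sum_mul_sq_le_sq_mul_sq Finset.univ (fun d => hess V x b d)
    (fun d => pd d f x)).trans (mul_le_mul_of_nonneg_right ?_ (Finset.sum_nonneg fun _ _ => sq_nonneg _))
  calc ∑ d, hess V x b d ^ 2 ≤ ∑ _d : Fin n, B ^ 2 := Finset.sum_le_sum fun d _ => by
        rw [← sq_abs]
        exact pow_le_pow_left₀ (abs_nonneg _) (hB x b d) 2
    _ = n * B ^ 2 := by simp

theorem pd_fld {f : E n → ℝ} (hf : Test f) {x : E n} (hx : AE.Good ψ x)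
    (a b : Fin n) : pd a (fld ψ f b) x =
      ∑ d, (pd a (fun z => tau ψ z b d) x * pd d f x + tau ψ x b d * hess f x a d) := by
  have h1 : fld ψ f b = fun z => ∑ d, (fun z => tau ψ z b d * pd d f z) z := rfl
  rw [h1, AE.pd_sum]
  · refine Finset.sum_congr rfl fun d _ => ?_
    rw [AE.pd_mul (hx.2 b d) ((hf.pd d).diff x)]
    rfl
  · intro d _
    exact (hx.2 b d).mul ((hf.pd d).diff x)

theorem cross_lower (hIBP : StmtIBP) (hV : Nice V c C) (h : MM ψ V c C M) :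
    ∃ a1 K : ℝ, 0 < a1 ∧ 0 ≤ K ∧ ∀ F : E n → ℝ, Test F →
      a1 * Ex V (G2 F) - K * Ex V (G1 F) ≤ Ex V (fun x => L0 V F x * Lop ψ F x) := by
  obtain ⟨a0, ha0, -, hT⟩ := exists_a0 h
  obtain ⟨Kt, hKt0, hKt⟩ := exists_ktau h
  obtain ⟨BH, hBH⟩ := hV.toReg.abs_hess
  have hR := hV.toReg
  have hVs := hV.smooth
  set K1 : ℝ := (n : ℝ) ^ 3 * Kt ^ 2 / (2 * a0) with hK1
  set K2 : ℝ := n * ((n * BH ^ 2 + n * c⁻¹ ^ 2) / 2) with hK2
  have hK10 : 0 ≤ K1 := by positivity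
  have hK20 : 0 ≤ K2 := by positivity
  refine ⟨a0 / 2, K1 + K2, by positivity, by positivity, fun F hF => ?_⟩
  have hL0 : Test (L0 V F) := test_L0 hVs hF
  have grL : ∀ b, Gr (L0 V (pd b F)) := fun b => (test_L0 hVs (hF.pd b)).gr
  have grf : ∀ b, Gr (fld ψ F b) := fun b => h.gr_fld hF b
  have grH : ∀ b, Gr (fun x => ∑ a, hess V x b a * pd a F x) := fun b =>
    Gr.sum _ fun a _ => (hR.gr_hess b a).mul (hF.gr_pd a)
  -- step 1
  have s1 := hIBP n ψ V c C M hV h F (L0 V F) hF hL0.1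
  have s2 : Ex V (fun x => ∑ b, pd b (L0 V F) x * fld ψ F b x) =
      Ex V (fun x => (∑ b, L0 V (pd b F) x * fld ψ F b x)
        - ∑ b, (∑ a, hess V x b a * pd a F x) * fld ψ F b x) := by
    refine Ex_congr V fun x => ?_
    rw [← Finset.sum_sub_distrib]
    refine Finset.sum_congr rfl fun b _ => ?_
    rw [pd_L0 hVs hF]
    ring
  have g1 : Gr (fun x => ∑ b, L0 V (pd b F) x * fld ψ F b x) :=
    Gr.sum _ fun b _ => (grL b).mul (grf b)
  have g2 : Gr (fun x => ∑ b, (∑ a, hess V x b a * pd a F x) * fld ψ F b x) :=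
    Gr.sum _ fun b _ => (grH b).mul (grf b)
  rw [s2, Ex_sub hR g1 g2] at s1
  have s3 : Ex V (fun x => -(Lop ψ F x) * L0 V F x) = -Ex V (fun x => L0 V F x * Lop ψ F x) := by
    rw [← Ex_neg]
    exact Ex_congr V fun x => by ring
  rw [s3] at s1
  -- step 3
  have s4 : Ex V (fun x => ∑ b, L0 V (pd b F) x * fld ψ F b x) =
      -∑ b, Ex V (fun x => ∑ a, pd a (fld ψ F b) x * pd a (pd b F) x) := by
    rw [Ex_sum hR _ fun b _ => (grL b).mul (grf b), ← Finset.sum_neg_distrib]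
    refine Finset.sum_congr rfl fun b _ => ?_
    obtain ⟨Kb, hKb⟩ := lip_fld h hF b
    rw [← ibp0 hVs (hF.pd b) hKb, ← Ex_neg]
    exact Ex_congr V fun x => by ring
  -- the third order term
  have hint : ∀ b a, Integrable (fun x => pd a (fld ψ F b) x * pd a (pd b F) x * Real.exp (-V x)) := by
    intro b a
    obtain ⟨Kb, hKb⟩ := lip_fld h hF b
    exact int_bdd_test hVs.continuous ((hF.pd b).pd a) (meas_pd _ a) (bdd_pd hKb a)
  have s5 : ∑ b, Ex V (fun x => ∑ a, pd a (fld ψ F b) x * pd a (pd b F) x) =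
      Ex V (fun x => ∑ b, ∑ a, pd a (fld ψ F b) x * pd a (pd b F) x) := by
    unfold Ex
    rw [← Finset.sum_div]
    congr 1
    rw [← integral_finsetSum]
    · refine integral_congr_ae (Eventually.of_forall fun x => ?_)
      simp only [Finset.sum_mul]
    · intro b _
      simp only [Finset.sum_mul]
      exact integrable_finsetSum _ fun a _ => hint b a
  have s6 : Ex V (fun x => a0 / 2 * G2 F x - K1 * G1 F x) ≤
      Ex V (fun x => ∑ b, ∑ a, pd a (fld ψ F b) x * pd a (pd b F) x) := by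
    refine Ex_mono_ae hR (hR.integrable_gr (((gr_G2 hF).const_mul _).sub ((gr_G1 hF).const_mul _))) ?_ ?_
    · simp only [Finset.sum_mul]
      exact integrable_finsetSum _ fun b _ => integrable_finsetSum _ fun a _ => hint b a
    · filter_upwards [AE.ae_good h] with x hx
      have h1 := cross_pt (n := n) ha0 (tau ψ x) (hT x) (hess F x)
        (fun a b d => pd a (fun z => tau ψ z b d) x) (fun a b d => hKt a b d x) (fun d => pd d F x)
      refine h1.trans (le_of_eq ?_)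
      refine Finset.sum_congr rfl fun b _ => Finset.sum_congr rfl fun a _ => ?_
      rw [pd_fld hF hx]
      rfl
  have s7 : Ex V (fun x => a0 / 2 * G2 F x - K1 * G1 F x) =
      a0 / 2 * Ex V (G2 F) - K1 * Ex V (G1 F) := by
    rw [Ex_sub hR ((gr_G2 hF).const_mul _) ((gr_G1 hF).const_mul _), Ex_const_mul, Ex_const_mul]
  -- the second order term
  have s8 : -(K2 * Ex V (G1 F)) ≤ Ex V (fun x => ∑ b, (∑ a, hess V x b a * pd a F x) * fld ψ F b x) := by
    rw [← Ex_const_mul, ← Ex_neg]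
    refine Ex_mono hR ((gr_G1 hF).const_mul K2).neg g2 fun x => ?_
    have h1 : ∀ b, -((n * BH ^ 2 + n * c⁻¹ ^ 2) / 2 * G1 F x) ≤
        (∑ a, hess V x b a * pd a F x) * fld ψ F b x := by
      intro b
      have e1 := hessv_sq_le hBH F x b
      have e2 := fld_sq_le h F x b
      nlinarith [sq_nonneg ((∑ a, hess V x b a * pd a F x) + fld ψ F b x)]
    calc -(K2 * G1 F x) = ∑ _b : Fin n, -((n * BH ^ 2 + n * c⁻¹ ^ 2) / 2 * G1 F x) := by
          rw [Finset.sum_const, Finset.card_univ, Fintype.card_fin, nsmul_eq_mul, hK2]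
          ring
      _ ≤ _ := Finset.sum_le_sum fun b _ => h1 b
  rw [s4, s5] at s1
  rw [s7] at s6
  nlinarith


theorem flat_sq (hV : Reg V c C) {F : E n → ℝ} (hF : Test F) :
    Ex V (fun x => (L0 V F x) ^ 2) = Ex V (G2 F)
      + Ex V (fun x => ∑ a, (∑ b, hess V x a b * pd b F x) * pd a F x) := by
  have hVs := hV.smooth
  have hL0 : Test (L0 V F) := test_L0 hVs hF
  obtain ⟨K, hK⟩ := test_lipschitz hL0
  have s1 := ibp0 hVs hF hK
  have grL : ∀ b, Gr (L0 V (pd b F)) := fun b => (test_L0 hVs (hF.pd b)).gr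
  have grH : ∀ b, Gr (fun x => ∑ a, hess V x b a * pd a F x) := fun b =>
    Gr.sum _ fun a _ => (hV.gr_hess b a).mul (hF.gr_pd a)
  have g1 : Gr (fun x => ∑ a, L0 V (pd a F) x * pd a F x) :=
    Gr.sum _ fun b _ => (grL b).mul (hF.gr_pd b)
  have g2 : Gr (fun x => ∑ a, (∑ b, hess V x a b * pd b F x) * pd a F x) :=
    Gr.sum _ fun b _ => (grH b).mul (hF.gr_pd b)
  have s2 : Ex V (fun x => ∑ a, pd a (L0 V F) x * pd a F x) =
      Ex V (fun x => ∑ a, L0 V (pd a F) x * pd a F x)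
        - Ex V (fun x => ∑ a, (∑ b, hess V x a b * pd b F x) * pd a F x) := by
    rw [← Ex_sub hV g1 g2]
    refine Ex_congr V fun x => ?_
    rw [← Finset.sum_sub_distrib]
    refine Finset.sum_congr rfl fun b _ => ?_
    rw [pd_L0 hVs hF]
    ring
  have s3 : Ex V (fun x => ∑ a, L0 V (pd a F) x * pd a F x) = -Ex V (G2 F) := by
    rw [Ex_sum hV _ fun b _ => (grL b).mul (hF.gr_pd b)]
    have e1 : Ex V (G2 F) = ∑ b, Ex V (fun x => ∑ a, hess F x a b ^ 2) := by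
      rw [← Ex_sum hV _ fun b _ => Gr.sum _ fun a _ => (hF.gr_hess a b).pow 2]
      exact Ex_congr V fun x => Finset.sum_comm
    rw [e1, ← Finset.sum_neg_distrib]
    refine Finset.sum_congr rfl fun b _ => ?_
    obtain ⟨Kb, hKb⟩ := test_lipschitz (hF.pd b)
    have e2 := ibp0 hVs (hF.pd b) hKb
    have e3 : Ex V (fun x => ∑ a, pd a (pd b F) x * pd a (pd b F) x) =
        Ex V (fun x => ∑ a, hess F x a b ^ 2) := Ex_congr V fun x =>
      Finset.sum_congr rfl fun a _ => (sq _).symm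
    rw [← e3, ← e2, ← Ex_neg]
    exact Ex_congr V fun x => by ring
  have s4 : Ex V (fun x => (L0 V F x) ^ 2) = -Ex V (fun x => -(L0 V F x) * L0 V F x) := by
    rw [← Ex_neg]
    exact Ex_congr V fun x => by ring
  rw [s4, s1, s2, s3]
  ring

theorem grad_vec (F : E n → ℝ) (x : E n) :
    ‖(WithLp.toLp 2 (fun a => pd a F x) : E n)‖ ^ 2 = G1 F x := by
  rw [norm_sq_eq_sum]
  rfl

theorem qf_grad (A : Matrix (Fin n) (Fin n) ℝ) (F : E n → ℝ) (x : E n) :
    qf A (WithLp.toLp 2 (fun a => pd a F x)) = ∑ a, (∑ b, A a b * pd b F x) * pd a F x := by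
  unfold qf
  refine Finset.sum_congr rfl fun a _ => ?_
  rw [Finset.sum_mul]
  refine Finset.sum_congr rfl fun b _ => ?_
  show A a b * pd a F x * pd b F x = _
  ring

theorem flat_lower (hV : Reg V c C) {F : E n → ℝ} (hF : Test F) :
    Ex V (G2 F) ≤ Ex V (fun x => (L0 V F x) ^ 2) := by
  rw [flat_sq hV hF]
  have : 0 ≤ Ex V (fun x => ∑ a, (∑ b, hess V x a b * pd b F x) * pd a F x) := by
    refine Ex_nonneg V fun x => ?_
    rw [← qf_grad]
    exact (mul_nonneg hV.c_pos.le (sq_nonneg _)).trans (hV.lower x _)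
  linarith

theorem flat_upper (hV : Reg V c C) {F : E n → ℝ} (hF : Test F) :
    Ex V (fun x => (L0 V F x) ^ 2) ≤ Ex V (G2 F) + |C| * Ex V (G1 F) := by
  rw [flat_sq hV hF, ← Ex_const_mul]
  have : Ex V (fun x => ∑ a, (∑ b, hess V x a b * pd b F x) * pd a F x) ≤
      Ex V (fun x => |C| * G1 F x) := by
    refine Ex_mono hV (Gr.sum _ fun b _ => (Gr.sum _ fun a _ => (hV.gr_hess b a).mul
      (hF.gr_pd a)).mul (hF.gr_pd b)) ((gr_G1 hF).const_mul _) fun x => ?_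
    rw [← qf_grad, ← grad_vec]
    exact (hV.upper x _).trans (mul_le_mul_of_nonneg_right (le_abs_self _) (sq_nonneg _))
  linarith

theorem G1_eq_term (ψ F : E n → ℝ) (x : E n) :
    ∑ b, pd b F x * fld ψ F b x = qf (tau ψ x) (WithLp.toLp 2 (fun a => pd a F x)) := by
  rw [qf_grad]
  refine Finset.sum_congr rfl fun b _ => ?_
  rw [mul_comm]
  rfl

theorem boch_lower (hBoch : StmtBoch) (hV : Nice V c C) (h : MM ψ V c C M) {a0 : ℝ} (ha0 : 0 < a0)
    (hT : ∀ x v, a0 * ‖v‖ ^ 2 ≤ qf (tau ψ x) v) {F : E n → ℝ} (hF : Test F) :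
    a0 ^ 2 * Ex V (G2 F) ≤ Ex V (fun x => (Lop ψ F x) ^ 2) := by
  rw [hBoch n ψ V c C M hV h F hF]
  have g1 : Gr (fun x => (tau ψ x * hess F x * tau ψ x * hess F x).trace) := by
    simp only [Matrix.trace, Matrix.diag_apply, Matrix.mul_apply]
    refine Gr.sum _ fun a _ => Gr.sum _ fun b _ => Gr.mul (Gr.sum _ fun d _ => Gr.mul
      (Gr.sum _ fun e _ => ?_) (h.gr_tau _ _)) (hF.gr_hess _ _)
    exact (h.gr_tau _ _).mul (hF.gr_hess _ _)
  have h1 : a0 ^ 2 * Ex V (G2 F) ≤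
      Ex V (fun x => (tau ψ x * hess F x * tau ψ x * hess F x).trace) := by
    rw [← Ex_const_mul]
    refine Ex_mono hV.toReg ((gr_G2 hF).const_mul _) g1 fun x => ?_
    refine X671.trace_lower ?_ (hess_isSymm hF.C2 x) ha0.le fun p => ?_
    · exact h.tau_transpose x
    · have := hT x (WithLp.toLp 2 p)
      rw [norm_sq_eq_sum] at this
      exact this
  have h2 : 0 ≤ Ex V (fun x => ∑ b, pd b F x * fld ψ F b x) := by
    refine Ex_nonneg V fun x => ?_
    rw [G1_eq_term]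
    exact h.qf_tau_nonneg x _
  linarith

theorem trace_upper {T N : Matrix (Fin n) (Fin n) ℝ} {t : ℝ} (hT : ∀ i j, |T i j| ≤ t) :
    (T * N * T * N).trace ≤ (n : ℝ) ^ 2 * t ^ 2 * ∑ a, ∑ b, N a b ^ 2 := by
  set X := T * N with hX
  have e0 : T * N * T * N = X * X := by rw [hX]; simp only [Matrix.mul_assoc]
  have h1 : (X * X).trace ≤ ∑ a, ∑ b, X a b ^ 2 := by
    have h2 : (X * X).trace ≤ ∑ a, ∑ b, (X a b ^ 2 + X b a ^ 2) / 2 := by
      rw [Matrix.trace]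
      refine Finset.sum_le_sum fun a _ => ?_
      rw [Matrix.diag_apply, Matrix.mul_apply]
      refine Finset.sum_le_sum fun b _ => ?_
      nlinarith [sq_nonneg (X a b - X b a)]
    refine h2.trans (le_of_eq ?_)
    have h3 : ∑ a, ∑ b, X b a ^ 2 = ∑ a, ∑ b, X a b ^ 2 := Finset.sum_comm
    have h4 : ∑ a, ∑ b, (X a b ^ 2 + X b a ^ 2) / 2 =
        (∑ a, ∑ b, X a b ^ 2 + ∑ a, ∑ b, X b a ^ 2) / 2 := by
      simp only [← Finset.sum_div, Finset.sum_add_distrib]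
    rw [h4, h3]
    ring
  have h5 : ∀ a b, X a b ^ 2 ≤ n * t ^ 2 * ∑ d, N d b ^ 2 := by
    intro a b
    rw [hX, Matrix.mul_apply]
    refine (Finset.sum_mul_sq_le_sq_mul_sq Finset.univ (fun d => T a d)
      (fun d => N d b)).trans (mul_le_mul_of_nonneg_right ?_ (Finset.sum_nonneg fun _ _ => sq_nonneg _))
    calc ∑ d, T a d ^ 2 ≤ ∑ _d : Fin n, t ^ 2 := Finset.sum_le_sum fun d _ => by
          rw [← sq_abs]
          exact pow_le_pow_left₀ (abs_nonneg _) (hT a d) 2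
      _ = n * t ^ 2 := by simp
  rw [e0]
  refine h1.trans ?_
  calc ∑ a, ∑ b, X a b ^ 2 ≤ ∑ _a : Fin n, ∑ b, n * t ^ 2 * ∑ d, N d b ^ 2 :=
        Finset.sum_le_sum fun a _ => Finset.sum_le_sum fun b _ => h5 a b
    _ = _ := by
        rw [Finset.sum_const, Finset.card_univ, Fintype.card_fin, nsmul_eq_mul, ← Finset.mul_sum,
          Finset.sum_comm]
        ring

theorem boch_upper (hBoch : StmtBoch) (hV : Nice V c C) (h : MM ψ V c C M) {F : E n → ℝ}
    (hF : Test F) :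
    Ex V (fun x => (Lop ψ F x) ^ 2) ≤ (n : ℝ) ^ 2 * c⁻¹ ^ 2 * Ex V (G2 F) + c⁻¹ * Ex V (G1 F) := by
  rw [hBoch n ψ V c C M hV h F hF]
  have g1 : Gr (fun x => (tau ψ x * hess F x * tau ψ x * hess F x).trace) := by
    simp only [Matrix.trace, Matrix.diag_apply, Matrix.mul_apply]
    refine Gr.sum _ fun a _ => Gr.sum _ fun b _ => Gr.mul (Gr.sum _ fun d _ => Gr.mul
      (Gr.sum _ fun e _ => ?_) (h.gr_tau _ _)) (hF.gr_hess _ _)
    exact (h.gr_tau _ _).mul (hF.gr_hess _ _)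
  have g2 : Gr (fun x => ∑ b, pd b F x * fld ψ F b x) :=
    Gr.sum _ fun b _ => (hF.gr_pd b).mul (h.gr_fld hF b)
  have h1 := Ex_mono hV.toReg g1 ((gr_G2 hF).const_mul ((n : ℝ) ^ 2 * c⁻¹ ^ 2)) fun x =>
    trace_upper (T := tau ψ x) (N := hess F x) (h.abs_tau_le x)
  have h2 := Ex_mono hV.toReg g2 ((gr_G1 hF).const_mul c⁻¹) fun x => by
    rw [G1_eq_term, ← grad_vec]
    exact h.qf_tau_le x _
  rw [Ex_const_mul] at h1 h2
  linarith


theorem exp1 (hR : Reg V c C) {F L0F LF : E n → ℝ} (hF : Gr F) (grL0 : Gr L0F) (grL : Gr LF)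
    (lam s : ℝ) :
    Ex V (fun x => (lam * F x - ((1 - s) * L0F x + s * LF x)) ^ 2) =
      lam ^ 2 * Ex V (fun x => (F x) ^ 2) + (-(2 * lam * (1 - s))) * Ex V (fun x => F x * L0F x)
        + (-(2 * lam * s)) * Ex V (fun x => F x * LF x)
        + (1 - s) ^ 2 * Ex V (fun x => (L0F x) ^ 2) + 2 * s * (1 - s) * Ex V (fun x => L0F x * LF x)
        + s ^ 2 * Ex V (fun x => (LF x) ^ 2) := by
  have g0 := (hF.pow 2).const_mul (lam ^ 2)
  have g1 := (hF.mul grL0).const_mul (-(2 * lam * (1 - s)))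
  have g2 := (hF.mul grL).const_mul (-(2 * lam * s))
  have g3 := (grL0.pow 2).const_mul ((1 - s) ^ 2)
  have g4 := (grL0.mul grL).const_mul (2 * s * (1 - s))
  have g5 := (grL.pow 2).const_mul (s ^ 2)
  rw [← Ex_const_mul, ← Ex_const_mul, ← Ex_const_mul, ← Ex_const_mul,
    ← Ex_const_mul, ← Ex_const_mul, ← Ex_add hR g0 g1, ← Ex_add hR (g0.add g1) g2,
    ← Ex_add hR ((g0.add g1).add g2) g3, ← Ex_add hR (((g0.add g1).add g2).add g3) g4,
    ← Ex_add hR ((((g0.add g1).add g2).add g3).add g4) g5]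
  refine Ex_congr V fun x => ?_
  ring

theorem exp2 (hR : Reg V c C) {L0F LF : E n → ℝ} (grL0 : Gr L0F) (grL : Gr LF) (s : ℝ) :
    Ex V (fun x => ((1 - s) * L0F x + s * LF x) ^ 2) =
      (1 - s) ^ 2 * Ex V (fun x => (L0F x) ^ 2) + 2 * s * (1 - s) * Ex V (fun x => L0F x * LF x)
        + s ^ 2 * Ex V (fun x => (LF x) ^ 2) := by
  have g3 := (grL0.pow 2).const_mul ((1 - s) ^ 2)
  have g4 := (grL0.mul grL).const_mul (2 * s * (1 - s))
  have g5 := (grL.pow 2).const_mul (s ^ 2)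
  rw [← Ex_const_mul, ← Ex_const_mul, ← Ex_const_mul, ← Ex_add hR g3 g4,
    ← Ex_add hR (g3.add g4) g5]
  refine Ex_congr V fun x => ?_
  ring

theorem alg1 {a0 lam s S1 Q : ℝ} (ha01 : a0 ≤ 1) (hlam : 1 ≤ lam)
    (hs0 : 0 ≤ s) (hs1 : s ≤ 1) (hS1n : 0 ≤ S1) (hQe : Q ≤ -(a0 * S1)) :
    2 * lam * (a0 * S1) ≤ (-(2 * lam * (1 - s))) * (-S1) + (-(2 * lam * s)) * Q := by
  have hs1' : 0 ≤ 1 - s := by linarith
  have e1 : a0 * S1 ≤ S1 := by nlinarith
  have e2 : (1 - s) * (a0 * S1) + s * (a0 * S1) ≤ (1 - s) * S1 + s * (-Q) := by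
    refine add_le_add (mul_le_mul_of_nonneg_left e1 hs1') (mul_le_mul_of_nonneg_left ?_ hs0)
    linarith
  have e3 := mul_le_mul_of_nonneg_left e2 (by linarith : (0 : ℝ) ≤ 2 * lam)
  calc 2 * lam * (a0 * S1) = 2 * lam * ((1 - s) * (a0 * S1) + s * (a0 * S1)) := by ring
    _ ≤ _ := e3
    _ = _ := by ring

theorem alg2 {a0 s : ℝ} : min (a0 ^ 2) 1 / 2 ≤ (1 - s) ^ 2 + s ^ 2 * a0 ^ 2 := by
  have m1 : min (a0 ^ 2) 1 ≤ a0 ^ 2 := min_le_left _ _
  have m2 : min (a0 ^ 2) 1 ≤ 1 := min_le_right _ _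
  have m3 : 0 ≤ min (a0 ^ 2) 1 := le_min (by positivity) zero_le_one
  set m := min (a0 ^ 2) 1
  have w2 : (1 : ℝ) / 2 ≤ (1 - s) ^ 2 + s ^ 2 := by nlinarith [sq_nonneg (2 * s - 1)]
  have w3 : (1 - s) ^ 2 * m ≤ (1 - s) ^ 2 * 1 := mul_le_mul_of_nonneg_left m2 (sq_nonneg _)
  have w4 : s ^ 2 * m ≤ s ^ 2 * a0 ^ 2 := mul_le_mul_of_nonneg_left m1 (sq_nonneg _)
  have w5 : 1 / 2 * m ≤ ((1 - s) ^ 2 + s ^ 2) * m := mul_le_mul_of_nonneg_right w2 m3
  have w6 : ((1 - s) ^ 2 + s ^ 2) * m = (1 - s) ^ 2 * m + s ^ 2 * m := by ring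
  linarith

theorem alg3 {a1 K1 s S1 S2 B : ℝ} (ha1 : 0 < a1) (hK1 : 0 ≤ K1) (hs0 : 0 ≤ s) (hs1 : s ≤ 1)
    (hS1n : 0 ≤ S1) (hS2n : 0 ≤ S2) (hBl : a1 * S2 - K1 * S1 ≤ B) :
    -(2 * K1 * S1) ≤ 2 * s * (1 - s) * B := by
  have hs1' : 0 ≤ 1 - s := by linarith
  have w0 : 0 ≤ 2 * s * (1 - s) := by positivity
  have w1 : 2 * s * (1 - s) ≤ 2 := by nlinarith
  have e4 : 2 * s * (1 - s) * (a1 * S2 - K1 * S1) ≤ 2 * s * (1 - s) * B :=
    mul_le_mul_of_nonneg_left hBl w0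
  have e5 : 0 ≤ 2 * s * (1 - s) * (a1 * S2) := by positivity
  have e6 : 2 * s * (1 - s) * (K1 * S1) ≤ 2 * (K1 * S1) :=
    mul_le_mul_of_nonneg_right w1 (by positivity)
  have e7 : 2 * s * (1 - s) * (a1 * S2 - K1 * S1) =
      2 * s * (1 - s) * (a1 * S2) - 2 * s * (1 - s) * (K1 * S1) := by ring
  linarith

theorem alg4 {a0 a1 K1 s S1 S2 A B D : ℝ}
    (ha1 : 0 < a1) (hK1 : 0 ≤ K1)
    (hs0 : 0 ≤ s) (hs1 : s ≤ 1) (hS1n : 0 ≤ S1) (hS2n : 0 ≤ S2)
    (hAl : S2 ≤ A) (hDl : a0 ^ 2 * S2 ≤ D) (hBl : a1 * S2 - K1 * S1 ≤ B) :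
    min (a0 ^ 2) 1 / 2 * S2 - 2 * K1 * S1 ≤ (1 - s) ^ 2 * A + 2 * s * (1 - s) * B + s ^ 2 * D := by
  have e1 : (1 - s) ^ 2 * S2 ≤ (1 - s) ^ 2 * A := mul_le_mul_of_nonneg_left hAl (sq_nonneg _)
  have e2 : s ^ 2 * (a0 ^ 2 * S2) ≤ s ^ 2 * D := mul_le_mul_of_nonneg_left hDl (sq_nonneg _)
  have e3 := alg3 ha1 hK1 hs0 hs1 hS1n hS2n hBl
  have e8 := mul_le_mul_of_nonneg_right (alg2 (a0 := a0) (s := s)) hS2n
  have e9 : ((1 - s) ^ 2 + s ^ 2 * a0 ^ 2) * S2 = (1 - s) ^ 2 * S2 + s ^ 2 * (a0 ^ 2 * S2) := by ring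
  linarith

theorem alg {a0 K1 κ lam S0 S1 S2 X Y T2 : ℝ} (ha0 : 0 < a0)
    (hK1 : 0 ≤ K1) (hκ0 : 0 < κ) (hlam : 1 ≤ lam)
    (hS0n : 0 ≤ S0) (hS1n : 0 ≤ S1)
    (hX : 2 * lam * (a0 * S1) ≤ X) (hY : κ * S2 - 2 * K1 * S1 ≤ Y)
    (hexp : T2 = lam ^ 2 * S0 + X + Y) (hY0 : 0 ≤ Y) :
    S0 + S1 + S2 ≤ (1 + 1 / (2 * a0) + (1 + 2 * K1 / (2 * a0)) / κ) * T2 := by
  have hlam0 : 0 ≤ lam := by linarith
  have b0 : S0 ≤ T2 := by
    have w : S0 ≤ lam ^ 2 * S0 := le_mul_of_one_le_left hS0n (one_le_pow₀ hlam)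
    have w2 : 0 ≤ 2 * lam * (a0 * S1) := by positivity
    linarith
  have b1 : 2 * a0 * S1 ≤ T2 := by
    have w : 1 * (2 * (a0 * S1)) ≤ lam * (2 * (a0 * S1)) :=
      mul_le_mul_of_nonneg_right hlam (by positivity)
    have w2 : 0 ≤ lam ^ 2 * S0 := by positivity
    linarith
  have b1' : S1 ≤ 1 / (2 * a0) * T2 := by
    rw [div_mul_eq_mul_div, one_mul, le_div_iff₀ (by positivity)]
    linarith
  have b2 : κ * S2 ≤ (1 + 2 * K1 / (2 * a0)) * T2 := by
    have w2 : 0 ≤ lam ^ 2 * S0 := by positivity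
    have w3 : 0 ≤ 2 * lam * (a0 * S1) := by positivity
    have w4 : 2 * K1 * S1 ≤ 2 * K1 * (1 / (2 * a0) * T2) :=
      mul_le_mul_of_nonneg_left b1' (by positivity)
    have w5 : 2 * K1 * (1 / (2 * a0) * T2) = 2 * K1 / (2 * a0) * T2 := by ring
    linarith
  have b2' : S2 ≤ (1 + 2 * K1 / (2 * a0)) / κ * T2 := by
    rw [div_mul_eq_mul_div, le_div_iff₀ hκ0]
    linarith
  calc S0 + S1 + S2 ≤ T2 + 1 / (2 * a0) * T2 + (1 + 2 * K1 / (2 * a0)) / κ * T2 := by linarith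
    _ = _ := by ring

/-- **a priori estimate** for `T_s = lam - L_s` -/
theorem apri (hIBP : StmtIBP) (hBoch : StmtBoch) (hV : Nice V c C) (h : MM ψ V c C M) {lam : ℝ}
    (hlam : 1 ≤ lam) :
    ∃ K : ℝ, 0 ≤ K ∧ ∀ s : ℝ, 0 ≤ s → s ≤ 1 → ∀ F : E n → ℝ, Test F →
      Ex V (fun x => (F x) ^ 2) + Ex V (G1 F) + Ex V (G2 F)
        ≤ K * Ex V (fun x => (lam * F x - Ls ψ V s F x) ^ 2) := by
  obtain ⟨a0, ha0, ha01, hT⟩ := exists_a0 h
  obtain ⟨a1, K1, ha1, hK1, hcr⟩ := cross_lower hIBP hV h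
  have hR := hV.toReg
  have hκ0 : 0 < min (a0 ^ 2) 1 / 2 := by
    have : 0 < min (a0 ^ 2) 1 := lt_min (by positivity) one_pos
    positivity
  refine ⟨1 + 1 / (2 * a0) + (1 + 2 * K1 / (2 * a0)) / (min (a0 ^ 2) 1 / 2), by positivity,
    fun s hs0 hs1 F hF => ?_⟩
  have grL0 : Gr (L0 V F) := (test_L0 hV.smooth hF).gr
  have grL : Gr (Lop ψ F) := h.gr_Lop hF
  have hPe : Ex V (fun x => F x * L0 V F x) = -Ex V (G1 F) := by
    obtain ⟨K, hK⟩ := test_lipschitz hF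
    have e1 := ibp0 hV.smooth hF hK
    have e2 : Ex V (fun x => ∑ a, pd a F x * pd a F x) = Ex V (G1 F) := Ex_congr V fun x =>
      Finset.sum_congr rfl fun a _ => (sq _).symm
    rw [e2] at e1
    rw [← e1, ← Ex_neg]
    exact Ex_congr V fun x => by ring
  have hQe : Ex V (fun x => F x * Lop ψ F x) ≤ -(a0 * Ex V (G1 F)) := by
    have e1 := hIBP n ψ V c C M hV h F F hF hF.1
    have e2 : Ex V (fun x => F x * Lop ψ F x) = -Ex V (fun x => ∑ b, pd b F x * fld ψ F b x) := by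
      rw [← e1, ← Ex_neg]
      exact Ex_congr V fun x => by ring
    have e3 : a0 * Ex V (G1 F) ≤ Ex V (fun x => ∑ b, pd b F x * fld ψ F b x) := by
      rw [← Ex_const_mul]
      refine Ex_mono hR ((gr_G1 hF).const_mul _)
        (Gr.sum _ fun b _ => (hF.gr_pd b).mul (h.gr_fld hF b)) fun x => ?_
      rw [G1_eq_term, ← grad_vec]
      exact hT x _
    linarith
  have hexp := exp1 hR hF.gr grL0 grL lam s
  have hLs0 : 0 ≤ Ex V (fun x => ((1 - s) * L0 V F x + s * Lop ψ F x) ^ 2) :=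
    Ex_nonneg V fun x => sq_nonneg _
  rw [exp2 hR grL0 grL s] at hLs0
  have hS1n : 0 ≤ Ex V (G1 F) := Ex_nonneg V fun x => G1_nonneg F x
  have hS2n : 0 ≤ Ex V (G2 F) := Ex_nonneg V fun x => G2_nonneg F x
  rw [hPe] at hexp
  refine alg ha0 hK1 hκ0 hlam (Ex_nonneg V fun x => sq_nonneg _) hS1n
    (alg1 ha01 hlam hs0 hs1 hS1n hQe)
    (alg4 ha1 hK1 hs0 hs1 hS1n hS2n (flat_lower hR hF) (boch_lower hBoch hV h ha0 hT hF)
      (hcr F hF)) ?_ hLs0
  unfold Ls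
  rw [hexp]
  ring

/-- **the form needed for the Neumann series** -/
theorem apri_diff (hIBP : StmtIBP) (hBoch : StmtBoch) (hV : Nice V c C) (h : MM ψ V c C M) {lam : ℝ}
    (hlam : 1 ≤ lam) :
    ∃ K : ℝ, 0 ≤ K ∧ ∀ s : ℝ, 0 ≤ s → s ≤ 1 → ∀ F : E n → ℝ, Test F →
      Ex V (fun x => (Lop ψ F x - L0 V F x) ^ 2)
        ≤ K * Ex V (fun x => (lam * F x - Ls ψ V s F x) ^ 2) := by
  obtain ⟨K, hK, hap⟩ := apri hIBP hBoch hV h hlam
  have hc := h.c_pos
  set K2 : ℝ := 2 * ((n : ℝ) ^ 2 * c⁻¹ ^ 2 + c⁻¹ + 1 + |C|) with hK2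
  have hK20 : 0 ≤ K2 := by positivity
  refine ⟨K2 * K, by positivity, fun s hs0 hs1 F hF => ?_⟩
  have hR := hV.toReg
  have grL0 : Gr (L0 V F) := (test_L0 hV.smooth hF).gr
  have grL : Gr (Lop ψ F) := h.gr_Lop hF
  have h1 := hap s hs0 hs1 F hF
  have h2 := boch_upper hBoch hV h hF
  have h3 := flat_upper hR hF
  have hS1n : 0 ≤ Ex V (G1 F) := Ex_nonneg V fun x => G1_nonneg F x
  have hS2n : 0 ≤ Ex V (G2 F) := Ex_nonneg V fun x => G2_nonneg F x
  have hS0n : 0 ≤ Ex V (fun x => (F x) ^ 2) := Ex_nonneg V fun x => sq_nonneg _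
  have h4 : Ex V (fun x => (Lop ψ F x - L0 V F x) ^ 2) ≤
      2 * Ex V (fun x => (Lop ψ F x) ^ 2) + 2 * Ex V (fun x => (L0 V F x) ^ 2) := by
    rw [← Ex_const_mul, ← Ex_const_mul, ← Ex_add hR ((grL.pow 2).const_mul 2)
      ((grL0.pow 2).const_mul 2)]
    refine Ex_mono hR ((grL.sub grL0).pow 2) (((grL.pow 2).const_mul 2).add
      ((grL0.pow 2).const_mul 2)) fun x => ?_
    nlinarith [sq_nonneg (Lop ψ F x + L0 V F x)]
  have h5 : Ex V (fun x => (Lop ψ F x - L0 V F x) ^ 2) ≤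
      K2 * (Ex V (fun x => (F x) ^ 2) + Ex V (G1 F) + Ex V (G2 F)) := by
    have w1 : 0 ≤ (n : ℝ) ^ 2 * c⁻¹ ^ 2 := by positivity
    have w2 : 0 ≤ c⁻¹ := by positivity
    have w3 := abs_nonneg C
    rw [hK2]
    nlinarith [mul_nonneg w1 hS1n, mul_nonneg w2 hS2n, mul_nonneg w3 hS2n, mul_nonneg w1 hS0n,
      mul_nonneg w2 hS0n, mul_nonneg w3 hS0n, mul_nonneg w1 hS2n, mul_nonneg w2 hS1n,
      mul_nonneg w3 hS1n]
  calc _ ≤ _ := h5
    _ ≤ K2 * (K * _) := mul_le_mul_of_nonneg_left h1 hK20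
    _ = _ := by ring

end Vale.Agent.P227.M.LIN.Apri
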