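import Vale.Agent.P227.M.Defs

/-! P227/M/LIN, helper47: mollification operator `T k d f x = ∫ k ζ f (x - d ζ)` (hedge of H1APPR). -/

open MeasureTheory Filter Topology

namespace Vale.Agent.P227.M.H47

variable {n : ℕ}

structure Mol (ρ : E n → ℝ) : Prop where
  smooth : ContDiff ℝ (⊤ : ℕ∞) ρ
  cpt : HasCompactSupport ρ
  supp : ∀ x, 1 ≤ ‖x‖ → ρ x = 0
  nonneg : ∀ x, 0 ≤ ρ x
  int : ∫ x, ρ x = 1

lemma exists_mol : ∃ ρ : E n → ℝ, Mol ρ := by
  let f : ContDiffBump (0 : E n) := ⟨1/2, 1, by norm_num, by norm_num⟩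
  refine ⟨f.normed volume, f.contDiff_normed, f.hasCompactSupport_normed, ?_, fun x => f.nonneg_normed x, f.integral_normed⟩
  intro x hx
  have : x ∉ Function.support (f.normed volume) := by
    rw [f.support_normed_eq]
    simpa [f] using hx
  simpa using this

noncomputable def T (k : E n → ℝ) (d : ℝ) (f : E n → ℝ) (x : E n) : ℝ := ∫ ζ, k ζ * f (x - d • ζ)

lemma integ {k h : E n → ℝ} (hk : Continuous k) (hkc : HasCompactSupport k) (hh : Continuous h) :
    Integrable (fun ζ => k ζ * h ζ) :=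
  (hk.mul hh).integrable_of_hasCompactSupport hkc.mul_right

lemma integT {k f : E n → ℝ} (hk : Continuous k) (hkc : HasCompactSupport k) (hf : Continuous f)
    (d : ℝ) (x : E n) : Integrable (fun ζ => k ζ * f (x - d • ζ)) :=
  integ hk hkc (hf.comp (by fun_prop))

lemma pd_cont {f : E n → ℝ} (hf : ContDiff ℝ 1 f) (a : Fin n) : Continuous (pd a f) := by
  have := hf.continuous_fderiv (by norm_num)
  unfold pd
  fun_prop

lemma pd_cpt {f : E n → ℝ} (hf : HasCompactSupport f) (a : Fin n) : HasCompactSupport (pd a f) := by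
  have := hf.fderiv_apply (𝕜 := ℝ) (ei a)
  exact this

lemma pd_smooth {f : E n → ℝ} (hf : ContDiff ℝ (⊤ : ℕ∞) f) (a : Fin n) :
    ContDiff ℝ (⊤ : ℕ∞) (pd a f) := by
  have h := hf.fderiv_right (m := (⊤ : ℕ∞)) (by norm_cast)
  exact h.clm_apply contDiff_const

lemma Test.pd {f : E n → ℝ} (hf : Test f) (a : Fin n) : Test (pd a f) :=
  ⟨pd_smooth hf.1 a, pd_cpt hf.2 a⟩

lemma bdd_of_cpt {f : E n → ℝ} (hf : Continuous f) (hc : HasCompactSupport f) :
    ∃ C, 0 ≤ C ∧ ∀ x, |f x| ≤ C := by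
  obtain ⟨C, hC⟩ := hc.exists_bound_of_continuous hf
  exact ⟨C, (norm_nonneg _).trans (hC 0), hC⟩

lemma T_hasFDerivAt {k f : E n → ℝ} (hk : Continuous k) (hkc : HasCompactSupport k)
    (hf : ContDiff ℝ 1 f) (hfc : HasCompactSupport f) (d : ℝ) (x : E n) :
    HasFDerivAt (T k d f) (∫ ζ, k ζ • fderiv ℝ f (x - d • ζ)) x := by
  have hfd := hf.continuous_fderiv (by norm_num)
  obtain ⟨C, hC⟩ := (hfc.fderiv (𝕜 := ℝ)).exists_bound_of_continuous hfd
  refine hasFDerivAt_integral_of_dominated_of_fderiv_le (F := fun x ζ => k ζ * f (x - d • ζ))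
    (F' := fun x ζ => k ζ • fderiv ℝ f (x - d • ζ)) (bound := fun ζ => |k ζ| * C)
    (s := Set.univ) (x₀ := x) Filter.univ_mem ?_ ?_ ?_ ?_ ?_ ?_
  · exact Filter.Eventually.of_forall fun y => (integT hk hkc hf.continuous d y).aestronglyMeasurable
  · exact integT hk hkc hf.continuous d x
  · have : Continuous fun ζ => k ζ • fderiv ℝ f (x - d • ζ) := by
      have : Continuous fun ζ : E n => fderiv ℝ f (x - d • ζ) := hfd.comp (by fun_prop)
      fun_prop
    exact this.aestronglyMeasurable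
  · refine Filter.Eventually.of_forall fun ζ y _ => ?_
    rw [norm_smul]
    exact mul_le_mul_of_nonneg_left (hC _) (norm_nonneg _)
  · exact ((hk.integrable_of_hasCompactSupport hkc).abs).mul_const C
  · refine Filter.Eventually.of_forall fun ζ y _ => ?_
    have h1 : HasFDerivAt f (fderiv ℝ f (y - d • ζ)) (y - d • ζ) :=
      (hf.differentiable (by norm_num) _).hasFDerivAt
    have h2 : HasFDerivAt (fun y : E n => f (y - d • ζ)) (fderiv ℝ f (y - d • ζ)) y := by
      have h3 : HasFDerivAt (fun y : E n => y - d • ζ) (ContinuousLinearMap.id ℝ (E n)) y :=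
        (hasFDerivAt_id y).sub_const (d • ζ)
      have := h1.comp y h3
      rwa [ContinuousLinearMap.comp_id] at this
    exact h2.const_mul (k ζ)

lemma T_pd {k f : E n → ℝ} (hk : Continuous k) (hkc : HasCompactSupport k)
    (hf : ContDiff ℝ 1 f) (hfc : HasCompactSupport f) (d : ℝ) (a : Fin n) :
    pd a (T k d f) = T k d (pd a f) := by
  funext x
  have h := (T_hasFDerivAt hk hkc hf hfc d x).fderiv
  show fderiv ℝ (T k d f) x (ei a) = _
  rw [h, ContinuousLinearMap.integral_apply]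
  · rfl
  · have hfd := hf.continuous_fderiv (by norm_num)
    have h2 : Continuous fun ζ : E n => fderiv ℝ f (x - d • ζ) := hfd.comp (by fun_prop)
    exact (hk.smul h2).integrable_of_hasCompactSupport hkc.smul_right

lemma T_continuous {k f : E n → ℝ} (hk : Continuous k) (hkc : HasCompactSupport k)
    (hf : Continuous f) (hfc : HasCompactSupport f) (d : ℝ) : Continuous (T k d f) := by
  obtain ⟨C, hC0, hC⟩ := bdd_of_cpt hf hfc
  refine continuous_of_dominated (bound := fun ζ => |k ζ| * C) ?_ ?_ ?_ ?_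
  · intro x; exact (integT hk hkc hf d x).aestronglyMeasurable
  · intro x; refine Filter.Eventually.of_forall fun ζ => ?_
    rw [norm_mul]; exact mul_le_mul_of_nonneg_left (hC _) (norm_nonneg _)
  · exact ((hk.integrable_of_hasCompactSupport hkc).abs).mul_const C
  · refine Filter.Eventually.of_forall fun ζ => ?_
    fun_prop

lemma T_cpt {k f : E n → ℝ} (hkc : HasCompactSupport k)
    (hfc : HasCompactSupport f) (d : ℝ) : HasCompactSupport (T k d f) := by
  have hK : IsCompact ((fun p : E n × E n => p.1 + d • p.2) '' (tsupport f ×ˢ tsupport k)) :=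
    (hfc.isCompact.prod hkc.isCompact).image (by fun_prop)
  refine HasCompactSupport.intro hK ?_
  intro x hx
  have : ∀ ζ, k ζ * f (x - d • ζ) = 0 := by
    intro ζ
    by_cases h1 : ζ ∈ tsupport k
    · by_cases h2 : x - d • ζ ∈ tsupport f
      · exact absurd ⟨(x - d • ζ, ζ), ⟨h2, h1⟩, by simp⟩ hx
      · rw [image_eq_zero_of_notMem_tsupport h2, mul_zero]
    · rw [image_eq_zero_of_notMem_tsupport h1, zero_mul]
  unfold T
  simp [this]

lemma fderiv_eq_sum {g : E n → ℝ} (x : E n) :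
    fderiv ℝ g x = ∑ a, pd a g x • (EuclideanSpace.proj a : E n →L[ℝ] ℝ) := by
  ext v
  have hv : v = ∑ a, v a • ei a := by
    ext i
    simp [ei, Finset.sum_apply, Pi.single_apply]
  conv_lhs => rw [hv]
  simp [map_sum, pd, mul_comm]

lemma T_contDiff {k : E n → ℝ} (hk : Continuous k) (hkc : HasCompactSupport k) (d : ℝ) (m : ℕ) :
    ∀ f : E n → ℝ, Test f → ContDiff ℝ m (T k d f) := by
  induction m with
  | zero => intro f hf; exact contDiff_zero.2 (T_continuous hk hkc hf.1.continuous hf.2 d)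
  | succ m ih =>
    intro f hf
    have h1 : ContDiff ℝ 1 f := hf.1.of_le (by exact_mod_cast le_top)
    rw [show ((m + 1 : ℕ) : WithTop ℕ∞) = (m : WithTop ℕ∞) + 1 by push_cast; rfl,
      contDiff_succ_iff_fderiv]
    refine ⟨fun x => (T_hasFDerivAt hk hkc h1 hf.2 d x).differentiableAt, by simp, ?_⟩
    have : fderiv ℝ (T k d f) = fun x => ∑ a, T k d (pd a f) x • (EuclideanSpace.proj a : E n →L[ℝ] ℝ) := by
      funext x
      rw [fderiv_eq_sum]
      simp_rw [T_pd hk hkc h1 hf.2]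
    rw [this]
    refine ContDiff.sum fun a _ => ?_
    exact (ih _ (Test.pd hf a)).smul contDiff_const

lemma T_test {k f : E n → ℝ} (hk : Continuous k) (hkc : HasCompactSupport k) (hf : Test f) (d : ℝ) :
    Test (T k d f) := by
  refine ⟨?_, T_cpt hkc hf.2 d⟩
  rw [contDiff_infty]
  intro m
  exact T_contDiff hk hkc d m f hf

/-- integration by parts: move the derivative to the kernel -/
lemma T_ibp {k f : E n → ℝ} (hk : ContDiff ℝ 1 k) (hkc : HasCompactSupport k)
    (hf : ContDiff ℝ 1 f) (d : ℝ) (e : Fin n) (x : E n) :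
    d * T k d (pd e f) x = T (pd e k) d f x := by
  have hg : ∀ ζ : E n, HasFDerivAt (fun ζ : E n => f (x - d • ζ))
      ((fderiv ℝ f (x - d • ζ)).comp (-(d • ContinuousLinearMap.id ℝ (E n)))) ζ := by
    intro ζ
    have h1 : HasFDerivAt f (fderiv ℝ f (x - d • ζ)) (x - d • ζ) :=
      (hf.differentiable (by norm_num) _).hasFDerivAt
    have h2 : HasFDerivAt (fun ζ : E n => x - d • ζ) (-(d • ContinuousLinearMap.id ℝ (E n))) ζ := by
      exact ((hasFDerivAt_id (𝕜 := ℝ) ζ).const_smul d).const_sub x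
    exact h1.comp ζ h2
  have hgv : ∀ ζ : E n, fderiv ℝ (fun ζ : E n => f (x - d • ζ)) ζ (ei e) = - (d * pd e f (x - d • ζ)) := by
    intro ζ
    rw [(hg ζ).fderiv]
    simp [pd]
  have hk' : ∀ ζ, fderiv ℝ k ζ (ei e) = pd e k ζ := fun ζ => rfl
  have hkcont : Continuous (pd e k) := pd_cont hk e
  have hkcc : HasCompactSupport (pd e k) := pd_cpt hkc e
  have hfe : Continuous (pd e f) := pd_cont hf e
  have key := integral_mul_fderiv_eq_neg_fderiv_mul_of_integrable (μ := (volume : Measure (E n)))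
    (f := k) (g := fun ζ : E n => f (x - d • ζ)) (v := ei e) ?_ ?_ ?_ ?_ ?_
  · simp only [hgv, hk'] at key
    have h3 : ∫ ζ, k ζ * -(d * pd e f (x - d • ζ)) = -(d * T k d (pd e f) x) := by
      unfold T
      rw [← integral_const_mul, ← integral_neg]
      congr 1; funext ζ; ring
    rw [h3] at key
    unfold T at key ⊢
    linarith
  · simp only [hk']
    exact integT hkcont hkcc hf.continuous d x
  · simp only [hgv]
    have := (integT hk.continuous hkc hfe d x).const_mul (-d)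
    refine this.congr (Filter.Eventually.of_forall fun ζ => ?_)
    simp only; ring
  · exact integT hk.continuous hkc hf.continuous d x
  · intro ζ _; exact hk.differentiable (by norm_num) ζ
  · intro ζ _; exact (hg ζ).differentiableAt

/-- `∫ (∂_e k) ℓ = - ℓ(e) ∫ k` -/
lemma int_pd_mul_linear {k : E n → ℝ} (hk : ContDiff ℝ 1 k) (hkc : HasCompactSupport k)
    (ℓ : E n →L[ℝ] ℝ) (e : Fin n) :
    ∫ ζ, pd e k ζ * ℓ ζ = - (ℓ (ei e) * ∫ ζ, k ζ) := by
  have key := integral_mul_fderiv_eq_neg_fderiv_mul_of_integrable (μ := (volume : Measure (E n)))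
    (f := k) (g := ℓ) (v := ei e) ?_ ?_ ?_ ?_ ?_
  · have h1 : ∀ ζ, fderiv ℝ ℓ ζ (ei e) = ℓ (ei e) := by intro ζ; simp
    simp only [h1] at key
    rw [integral_mul_const] at key
    have : ∫ ζ, pd e k ζ * ℓ ζ = ∫ ζ, fderiv ℝ k ζ (ei e) * ℓ ζ := rfl
    rw [this]; linarith
  · exact integ (pd_cont hk e) (pd_cpt hkc e) ℓ.continuous
  · simp only [ContinuousLinearMap.fderiv]
    exact integ hk.continuous hkc continuous_const
  · exact integ hk.continuous hkc ℓ.continuous
  · intro ζ _; exact hk.differentiable (by norm_num) ζ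
  · intro ζ _; exact ℓ.differentiableAt

/-- `∫ T Q d h = (∫ Q) (∫ h)` -/
lemma int_T {Q h : E n → ℝ} (hQ : Continuous Q) (hQc : HasCompactSupport Q)
    (hh : Continuous h) (hhc : HasCompactSupport h) (d : ℝ) :
    ∫ x, T Q d h x = (∫ ζ, Q ζ) * ∫ x, h x := by
  have hint : Integrable (Function.uncurry fun (x ζ : E n) => Q ζ * h (x - d • ζ))
      ((volume : Measure (E n)).prod volume) := by
    refine Continuous.integrable_of_hasCompactSupport ?_ ?_
    · unfold Function.uncurry; fun_prop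
    · have hK : IsCompact ((fun p : E n × E n => (p.1 + d • p.2, p.2)) '' (tsupport h ×ˢ tsupport Q)) :=
        (hhc.isCompact.prod hQc.isCompact).image (by fun_prop)
      refine HasCompactSupport.intro hK ?_
      rintro ⟨x, ζ⟩ hx
      show Q ζ * h (x - d • ζ) = 0
      by_cases h1 : ζ ∈ tsupport Q
      · by_cases h2 : x - d • ζ ∈ tsupport h
        · exact absurd ⟨(x - d • ζ, ζ), ⟨h2, h1⟩, by simp⟩ hx
        · rw [image_eq_zero_of_notMem_tsupport h2, mul_zero]
      · rw [image_eq_zero_of_notMem_tsupport h1, zero_mul]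
  unfold T
  rw [integral_integral_swap hint]
  have : ∀ ζ : E n, ∫ x, Q ζ * h (x - d • ζ) = Q ζ * ∫ x, h x := by
    intro ζ
    rw [integral_const_mul, integral_sub_right_eq_self]
  simp_rw [this]
  rw [integral_mul_const]

lemma cs_int {Q g : E n → ℝ} (hQ : Continuous Q) (hQc : HasCompactSupport Q) (hQ0 : ∀ x, 0 ≤ Q x)
    (hg : Continuous g) :
    (∫ ζ, Q ζ * g ζ) ^ 2 ≤ (∫ ζ, Q ζ) * ∫ ζ, Q ζ * g ζ ^ 2 := by
  have h0 : ∀ t : ℝ, 0 ≤ (∫ ζ, Q ζ) * (t * t) + (-2 * ∫ ζ, Q ζ * g ζ) * t + ∫ ζ, Q ζ * g ζ ^ 2 := by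
    intro t
    have h1 : 0 ≤ ∫ ζ, Q ζ * (g ζ - t) ^ 2 := integral_nonneg fun ζ => mul_nonneg (hQ0 ζ) (sq_nonneg _)
    have h2 : ∫ ζ, Q ζ * (g ζ - t) ^ 2 = ∫ ζ, (Q ζ * (t * t) + (-2 * t) * (Q ζ * g ζ) + Q ζ * g ζ ^ 2) := by
      congr 1; funext ζ; ring
    rw [h2, integral_add, integral_add, integral_mul_const, integral_const_mul] at h1
    · linarith
    · exact (hQ.integrable_of_hasCompactSupport hQc).mul_const _
    · exact (integ hQ hQc hg).const_mul _
    · exact ((hQ.integrable_of_hasCompactSupport hQc).mul_const _).add ((integ hQ hQc hg).const_mul _)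
    · exact integ hQ hQc (hg.pow 2)
  have h := discrim_le_zero h0
  unfold discrim at h
  nlinarith

lemma T_nonneg {k f : E n → ℝ} (hk : ∀ x, 0 ≤ k x) (hf : ∀ x, 0 ≤ f x) (d : ℝ) (x : E n) :
    0 ≤ T k d f x := integral_nonneg fun ζ => mul_nonneg (hk ζ) (hf _)

/-- weighted `L²` bound -/
lemma brickA {Q f V : E n → ℝ} (hQ : Continuous Q) (hQc : HasCompactSupport Q) (hQ0 : ∀ x, 0 ≤ Q x)
    (hQs : ∀ x, 1 ≤ ‖x‖ → Q x = 0)
    (hf : Continuous f) (hfc : HasCompactSupport f) (hV : Continuous V)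
    (s : Set (E n)) (hs : MeasurableSet s) (d : ℝ)
    (hdV : ∀ x ∈ s, ∀ ζ : E n, ‖ζ‖ ≤ 1 → Real.exp (-V x) ≤ 2 * Real.exp (-V (x - d • ζ))) :
    ∫ x in s, (T Q d (fun z => |f z|) x) ^ 2 * Real.exp (-V x) ≤
      2 * (∫ ζ, Q ζ) ^ 2 * ∫ x, f x ^ 2 * Real.exp (-V x) := by
  set K := ∫ ζ, Q ζ with hK
  have hK0 : 0 ≤ K := integral_nonneg hQ0
  set h : E n → ℝ := fun x => f x ^ 2 * Real.exp (-V x) with hh
  have hhc : Continuous h := by fun_prop
  have hhcc : HasCompactSupport h := by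
    have : HasCompactSupport (fun x => f x ^ 2) := by
      have h5 := hfc.mul_left (f := f) (f' := f)
      have h6 : (fun x => f x ^ 2) = f * f := by funext x; simp [pow_two]
      rw [h6]; exact h5
    exact this.mul_right
  have hpt : ∀ x ∈ s, (T Q d (fun z => |f z|) x) ^ 2 * Real.exp (-V x) ≤ 2 * K * T Q d h x := by
    intro x hx
    have h1 : (T Q d (fun z => |f z|) x) ^ 2 ≤ K * ∫ ζ, Q ζ * f (x - d • ζ) ^ 2 := by
      have := cs_int hQ hQc hQ0 (g := fun ζ => |f (x - d • ζ)|) (by fun_prop)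
      simpa [T, sq_abs] using this
    have h2 : (∫ ζ, Q ζ * f (x - d • ζ) ^ 2) * Real.exp (-V x) ≤ 2 * T Q d h x := by
      unfold T
      rw [← integral_mul_const, ← integral_const_mul]
      refine integral_mono ?_ ?_ ?_
      · exact (integT hQ hQc (f := fun z => f z ^ 2) (by fun_prop) d x).mul_const _
      · exact (integT hQ hQc hhc d x).const_mul _
      · intro ζ
        show Q ζ * f (x - d • ζ) ^ 2 * Real.exp (-V x) ≤ 2 * (Q ζ * (f (x - d • ζ) ^ 2 * Real.exp (-V (x - d • ζ))))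
        by_cases hζ : ‖ζ‖ ≤ 1
        · have h3 := hdV x hx ζ hζ
          have h4 : 0 ≤ Q ζ * f (x - d • ζ) ^ 2 := mul_nonneg (hQ0 ζ) (sq_nonneg _)
          nlinarith
        · rw [hQs ζ (le_of_lt (not_le.1 hζ))]; simp
    calc (T Q d (fun z => |f z|) x) ^ 2 * Real.exp (-V x)
        ≤ K * (∫ ζ, Q ζ * f (x - d • ζ) ^ 2) * Real.exp (-V x) :=
          mul_le_mul_of_nonneg_right h1 (Real.exp_pos _).le
      _ = K * ((∫ ζ, Q ζ * f (x - d • ζ) ^ 2) * Real.exp (-V x)) := by ring
      _ ≤ K * (2 * T Q d h x) := mul_le_mul_of_nonneg_left h2 hK0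
      _ = 2 * K * T Q d h x := by ring
  have hTh : Integrable (T Q d h) :=
    (T_continuous hQ hQc hhc hhcc d).integrable_of_hasCompactSupport (T_cpt hQc hhcc d)
  have hThn : ∀ x, 0 ≤ T Q d h x := fun x =>
    T_nonneg hQ0 (fun z => mul_nonneg (sq_nonneg _) (Real.exp_pos _).le) d x
  calc ∫ x in s, (T Q d (fun z => |f z|) x) ^ 2 * Real.exp (-V x)
      ≤ ∫ x in s, 2 * K * T Q d h x := by
        refine integral_mono_of_nonneg ?_ ?_ ?_
        · exact Filter.Eventually.of_forall fun x => mul_nonneg (sq_nonneg _) (Real.exp_pos _).le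
        · exact (hTh.const_mul _).integrableOn
        · exact (ae_restrict_iff' hs).2 (Filter.Eventually.of_forall hpt)
    _ ≤ ∫ x, 2 * K * T Q d h x := by
        refine setIntegral_le_integral (hTh.const_mul _) ?_
        exact Filter.Eventually.of_forall fun x => mul_nonneg (mul_nonneg (by norm_num) hK0) (hThn x)
    _ = 2 * K ^ 2 * ∫ x, f x ^ 2 * Real.exp (-V x) := by
        rw [integral_const_mul, int_T hQ hQc hhc hhcc]; ring

/-- limits of the mollification -/
lemma T_tendsto {k f : E n → ℝ} (hk : Continuous k) (hkc : HasCompactSupport k)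
    (hf : Continuous f) (hfc : HasCompactSupport f) (x : E n) :
    Tendsto (fun d : ℝ => T k d f x) (𝓝[>] 0) (𝓝 ((∫ ζ, k ζ) * f x)) := by
  obtain ⟨C, hC0, hC⟩ := bdd_of_cpt hf hfc
  rw [← integral_mul_const]
  refine tendsto_integral_filter_of_dominated_convergence (fun ζ => |k ζ| * C) ?_ ?_ ?_ ?_
  · exact Filter.Eventually.of_forall fun d => (integT hk hkc hf d x).aestronglyMeasurable
  · refine Filter.Eventually.of_forall fun d => Filter.Eventually.of_forall fun ζ => ?_
    rw [norm_mul]; exact mul_le_mul_of_nonneg_left (hC _) (norm_nonneg _)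
  · exact ((hk.integrable_of_hasCompactSupport hkc).abs).mul_const C
  · refine Filter.Eventually.of_forall fun ζ => ?_
    have h1 : Tendsto (fun d : ℝ => k ζ * f (x - d • ζ)) (𝓝 0) (𝓝 (k ζ * f (x - (0:ℝ) • ζ))) := by
      have : Continuous fun d : ℝ => k ζ * f (x - d • ζ) := by fun_prop
      exact this.tendsto 0
    simp only [zero_smul, sub_zero] at h1
    exact h1.mono_left nhdsWithin_le_nhds

/-- the commutator `t(x) T f (x) - T (t f) (x)` -/
lemma comm_eq {k f t : E n → ℝ} (hk : Continuous k) (hkc : HasCompactSupport k)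
    (hf : Continuous f) (ht : Continuous t) (d : ℝ) (x : E n) :
    t x * T k d f x - T k d (fun z => t z * f z) x =
      ∫ ζ, k ζ * ((t x - t (x - d • ζ)) * f (x - d • ζ)) := by
  unfold T
  rw [← integral_const_mul, ← integral_sub]
  · congr 1; funext ζ; ring
  · exact (integT hk hkc hf d x).const_mul _
  · exact integT hk hkc (f := fun z => t z * f z) (by fun_prop) d x

lemma comm_bound {k Q f t : E n → ℝ} (hk : Continuous k) (hkc : HasCompactSupport k)
    (hks : ∀ x, 1 ≤ ‖x‖ → k x = 0) (hQ : Continuous Q) (hQc : HasCompactSupport Q)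
    (hkQ : ∀ x, |k x| ≤ Q x)
    (hf : Continuous f) (ht : Continuous t) {M : ℝ} (hM : 0 ≤ M)
    (htl : ∀ x y, |t x - t y| ≤ M * ‖x - y‖) {d : ℝ} (hd : 0 ≤ d) (x : E n) :
    |t x * T k d f x - T k d (fun z => t z * f z) x| ≤ M * d * T Q d (fun z => |f z|) x := by
  rw [comm_eq hk hkc hf ht]
  unfold T
  rw [← integral_const_mul]
  rw [← Real.norm_eq_abs]
  refine (norm_integral_le_of_norm_le (g := fun ζ => M * d * (Q ζ * |f (x - d • ζ)|)) ?_ ?_)
  · exact (integT hQ hQc (f := fun z => |f z|) (by fun_prop) d x).const_mul _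
  · refine Filter.Eventually.of_forall fun ζ => ?_
    rw [norm_mul, norm_mul]
    simp only [Real.norm_eq_abs]
    by_cases hζ : ‖ζ‖ ≤ 1
    · have h1 : |t x - t (x - d • ζ)| ≤ M * d := by
        refine (htl _ _).trans ?_
        have : ‖x - (x - d • ζ)‖ = d * ‖ζ‖ := by
          rw [sub_sub_cancel, norm_smul, Real.norm_eq_abs, abs_of_nonneg hd]
        rw [this]
        have : d * ‖ζ‖ ≤ d := by nlinarith
        exact mul_le_mul_of_nonneg_left this hM
      have h2 := hkQ ζ
      calc |k ζ| * (|t x - t (x - d • ζ)| * |f (x - d • ζ)|)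
          ≤ Q ζ * ((M * d) * |f (x - d • ζ)|) := by
            refine mul_le_mul h2 (mul_le_mul_of_nonneg_right h1 (abs_nonneg _)) (by positivity)
              ((abs_nonneg _).trans h2)
        _ = M * d * (Q ζ * |f (x - d • ζ)|) := by ring
    · rw [hks ζ (le_of_lt (not_le.1 hζ))]
      have h2 : 0 ≤ Q ζ := (abs_nonneg _).trans (hkQ ζ)
      simp only [abs_zero, zero_mul]
      positivity

lemma T_abs_le {k Q f : E n → ℝ} (hQ : Continuous Q) (hQc : HasCompactSupport Q)
    (hkQ : ∀ x, |k x| ≤ Q x) (hf : Continuous f) (d : ℝ) (x : E n) :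
    |T k d f x| ≤ T Q d (fun z => |f z|) x := by
  unfold T
  rw [← Real.norm_eq_abs]
  refine (norm_integral_le_of_norm_le (g := fun ζ => (Q ζ * |f (x - d • ζ)|)) ?_ ?_)
  · exact (integT hQ hQc (f := fun z => |f z|) (by fun_prop) d x)
  · refine Filter.Eventually.of_forall fun ζ => ?_
    rw [norm_mul]
    exact mul_le_mul_of_nonneg_right (hkQ ζ) (norm_nonneg _)

/-- limit of the scaled commutator at a point of differentiability -/
lemma comm_tendsto {k f t : E n → ℝ} (hk : Continuous k) (hkc : HasCompactSupport k)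
    (hks : ∀ x, 1 ≤ ‖x‖ → k x = 0)
    (hf : Continuous f) (hfc : HasCompactSupport f) (ht : Continuous t) {M : ℝ} (hM : 0 ≤ M)
    (htl : ∀ x y, |t x - t y| ≤ M * ‖x - y‖) {x : E n} (hx : DifferentiableAt ℝ t x) :
    Tendsto (fun d : ℝ => d⁻¹ * (t x * T k d f x - T k d (fun z => t z * f z) x)) (𝓝[>] 0)
      (𝓝 ((∫ ζ, k ζ * fderiv ℝ t x ζ) * f x)) := by
  obtain ⟨C, hC0, hC⟩ := bdd_of_cpt hf hfc
  have h1 : ∀ d : ℝ, d⁻¹ * (t x * T k d f x - T k d (fun z => t z * f z) x) =
      ∫ ζ, k ζ * ((d⁻¹ * (t x - t (x - d • ζ))) * f (x - d • ζ)) := by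
    intro d
    rw [comm_eq hk hkc hf ht, ← integral_const_mul]
    congr 1; funext ζ; ring
  simp_rw [h1]
  rw [← integral_mul_const]
  refine tendsto_integral_filter_of_dominated_convergence (fun ζ => |k ζ| * (M * C)) ?_ ?_ ?_ ?_
  · refine Filter.Eventually.of_forall fun d => ?_
    exact (integ hk hkc (h := fun ζ => (d⁻¹ * (t x - t (x - d • ζ))) * f (x - d • ζ)) (by fun_prop)).aestronglyMeasurable
  · filter_upwards [self_mem_nhdsWithin] with d hd
    have hd' : (0:ℝ) < d := hd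
    refine Filter.Eventually.of_forall fun ζ => ?_
    rw [norm_mul, norm_mul]
    simp only [Real.norm_eq_abs]
    by_cases hζ : ‖ζ‖ ≤ 1
    · refine mul_le_mul_of_nonneg_left ?_ (abs_nonneg _)
      refine mul_le_mul ?_ (hC _) (abs_nonneg _) hM
      rw [abs_mul, abs_of_pos (inv_pos.2 hd')]
      have h2 : |t x - t (x - d • ζ)| ≤ M * d := by
        refine (htl _ _).trans ?_
        have : ‖x - (x - d • ζ)‖ = d * ‖ζ‖ := by
          rw [sub_sub_cancel, norm_smul, Real.norm_eq_abs, abs_of_pos hd']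
        rw [this]
        have : d * ‖ζ‖ ≤ d := by nlinarith
        exact mul_le_mul_of_nonneg_left this hM
      calc d⁻¹ * |t x - t (x - d • ζ)| ≤ d⁻¹ * (M * d) :=
            mul_le_mul_of_nonneg_left h2 (inv_pos.2 hd').le
        _ = M := by field_simp
    · rw [hks ζ (le_of_lt (not_le.1 hζ))]; simp
  · exact ((hk.integrable_of_hasCompactSupport hkc).abs).mul_const _
  · refine Filter.Eventually.of_forall fun ζ => ?_
    have h2 : Tendsto (fun d : ℝ => f (x - d • ζ)) (𝓝[>] 0) (𝓝 (f x)) := by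
      have : Continuous fun d : ℝ => f (x - d • ζ) := by fun_prop
      have h := this.tendsto 0
      simp only [zero_smul, sub_zero] at h
      exact h.mono_left nhdsWithin_le_nhds
    have h3 : Tendsto (fun d : ℝ => d⁻¹ * (t x - t (x - d • ζ))) (𝓝[>] 0) (𝓝 (fderiv ℝ t x ζ)) := by
      have hl := (hx.hasFDerivAt.hasLineDerivAt (-ζ))
      have hs := hl.tendsto_slope_zero
      have hs' := hs.mono_left (nhdsGT_le_nhdsNE 0)
      have := hs'.neg
      simp only [map_neg, neg_neg] at this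
      refine this.congr fun d => ?_
      simp only [smul_eq_mul, zero_smul, add_zero, zero_add, smul_neg, ← sub_eq_add_neg]
      ring
    have h4 := (h3.mul h2).const_mul (k ζ)
    rw [mul_assoc]
    exact h4

end Vale.Agent.P227.M.H47
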