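import Mathlib

/-!
# P227, block LIN: the abstract Hilbert space part

`H` is (even) `L²(μ)`, `D` the even test functions, `i` the inclusion, `L` the operator.
No resolvent operator is constructed; everything is stated with sequences of test functions.
-/

namespace Vale.Agent.P227.M.LIN.Abs710

open Filter Topology

section

variable {H : Type*} [NormedAddCommGroup H] [InnerProductSpace ℝ H]
variable {D : Type*} [AddCommGroup D] [Module ℝ D]

/-- The hypotheses: `L` symmetric and nonpositive on `D`, `(i - L) D` has trivial orthogonal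
complement (essential self-adjointness), `one` is in the closure of the domain with `L one = 0`,
the kernels of `L` and `L + 1` (on the closure of the domain) are `ℝ one` and `0`. -/
structure AbsData (i L : D →ₗ[ℝ] H) (one : H) : Prop where
  sym : ∀ u w, inner ℝ (L u) (i w) = inner ℝ (i u) (L w)
  neg : ∀ u, inner ℝ (L u) (i u) ≤ 0
  esa : ∀ h : H, (∀ u, inner ℝ h (i u - L u) = 0) → h = 0
  k0 : ∃ c : ℕ → D, Tendsto (fun j => i (c j)) atTop (𝓝 one) ∧
    Tendsto (fun j => L (c j)) atTop (𝓝 0)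
  k1 : ∀ (u : ℕ → D) (h : H), Tendsto (fun j => i (u j)) atTop (𝓝 h) →
    Tendsto (fun j => L (u j)) atTop (𝓝 0) → ∃ r : ℝ, h = r • one
  k2 : ∀ (u : ℕ → D) (h : H), Tendsto (fun j => i (u j)) atTop (𝓝 h) →
    Tendsto (fun j => L (u j)) atTop (𝓝 (-h)) → h = 0

/-- `Res h p`: `p = (1 - L)⁻¹ h`, by sequences. -/
def Res (i L : D →ₗ[ℝ] H) (h p : H) : Prop :=
  ∃ u : ℕ → D, Tendsto (fun j => i (u j) - L (u j)) atTop (𝓝 h) ∧
    Tendsto (fun j => i (u j)) atTop (𝓝 p)

variable {i L : D →ₗ[ℝ] H} {one : H}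

theorem AbsData.norm_le (hd : AbsData i L one) (u : D) : ‖i u‖ ≤ ‖i u - L u‖ := by
  have h1 : ‖i u‖ ^ 2 ≤ ‖i u - L u‖ * ‖i u‖ := by
    have h2 : inner ℝ (i u - L u) (i u) ≤ ‖i u - L u‖ * ‖i u‖ := real_inner_le_norm _ _
    have h3 : inner ℝ (i u - L u) (i u) = ‖i u‖ ^ 2 - inner ℝ (L u) (i u) := by
      rw [inner_sub_left, real_inner_self_eq_norm_sq]
    have h4 := hd.neg u
    linarith
  rcases (norm_nonneg (i u)).eq_or_lt with h0 | h0
  · rw [← h0]; exact norm_nonneg _
  · have : ‖i u‖ * ‖i u‖ ≤ ‖i u - L u‖ * ‖i u‖ := by nlinarith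
    exact le_of_mul_le_mul_right this h0

theorem Res.add {h p h' p' : H} (a : Res i L h p) (b : Res i L h' p') :
    Res i L (h + h') (p + p') := by
  obtain ⟨u, hu1, hu2⟩ := a
  obtain ⟨v, hv1, hv2⟩ := b
  refine ⟨fun j => u j + v j, ?_, ?_⟩
  · have := hu1.add hv1
    refine this.congr (fun j => ?_)
    simp only [map_add]; abel
  · have := hu2.add hv2
    refine this.congr (fun j => ?_)
    simp only [map_add]

theorem Res.smul {h p : H} (c : ℝ) (a : Res i L h p) : Res i L (c • h) (c • p) := by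
  obtain ⟨u, hu1, hu2⟩ := a
  refine ⟨fun j => c • u j, ?_, ?_⟩
  · have := hu1.const_smul c
    refine this.congr (fun j => ?_)
    simp only [map_smul, smul_sub]
  · have := hu2.const_smul c
    refine this.congr (fun j => ?_)
    simp only [map_smul]

theorem Res.of (w : D) : Res i L (i w - L w) (i w) :=
  ⟨fun _ => w, tendsto_const_nhds, tendsto_const_nhds⟩

theorem AbsData.res_symm (hd : AbsData i L one) {h p h' p' : H} (a : Res i L h p)
    (b : Res i L h' p') : inner ℝ h p' = inner ℝ p h' := by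
  obtain ⟨u, hu1, hu2⟩ := a
  obtain ⟨v, hv1, hv2⟩ := b
  have h1 : Tendsto (fun j => inner ℝ (i (u j) - L (u j)) (i (v j))) atTop
      (𝓝 (inner ℝ h p')) := hu1.inner hv2
  have h2 : Tendsto (fun j => inner ℝ (i (u j)) (i (v j) - L (v j))) atTop
      (𝓝 (inner ℝ p h')) := hu2.inner hv1
  refine tendsto_nhds_unique h1 (h2.congr (fun j => ?_))
  rw [inner_sub_left, inner_sub_right, hd.sym]

theorem AbsData.res_unique (hd : AbsData i L one) {h p p' : H} (a : Res i L h p)
    (b : Res i L h p') : p = p' := by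
  have : p - p' = 0 := by
    refine hd.esa _ (fun w => ?_)
    have h1 := hd.res_symm a (Res.of w)
    have h2 := hd.res_symm b (Res.of w)
    rw [inner_sub_left, ← h1, ← h2, sub_self]
  exact sub_eq_zero.mp this

theorem AbsData.res_one (hd : AbsData i L one) : Res i L one one := by
  obtain ⟨c, hc1, hc2⟩ := hd.k0
  refine ⟨c, ?_, hc1⟩
  simpa using hc1.sub hc2

theorem AbsData.res_fix (hd : AbsData i L one) {m : H} (a : Res i L m m) :
    ∃ r : ℝ, m = r • one := by
  obtain ⟨u, hu1, hu2⟩ := a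
  refine hd.k1 u m hu2 ?_
  have := hu2.sub hu1
  simpa using this

theorem AbsData.res_half (hd : AbsData i L one) {h p : H} (a : Res i L h p)
    (hp : h = (2 : ℝ) • p) : h = 0 := by
  obtain ⟨u, hu1, hu2⟩ := a
  have h0 : p = 0 := by
    refine hd.k2 u p hu2 ?_
    have := hu2.sub hu1
    have e : p - h = -p := by rw [hp, two_smul]; abel
    rw [e] at this
    refine this.congr (fun j => ?_)
    abel
  rw [hp, h0, smul_zero]

end

section

variable {H : Type*} [NormedAddCommGroup H] [InnerProductSpace ℝ H] [CompleteSpace H]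
variable {D : Type*} [AddCommGroup D] [Module ℝ D]
variable {i L : D →ₗ[ℝ] H} {one : H}

omit [CompleteSpace H] in
theorem exists_seq_of_mem_closure {S : Submodule ℝ H} {x : H} (hx : x ∈ S.topologicalClosure) :
    ∃ g : ℕ → H, (∀ j, g j ∈ S) ∧ Tendsto g atTop (𝓝 x) := by
  have hx' : x ∈ closure (S : Set H) := by
    rw [← Submodule.topologicalClosure_coe]; exact hx
  exact mem_closure_iff_seq_limit.mp hx'

theorem AbsData.exists_seq (hd : AbsData i L one) (h : H) :
    ∃ u : ℕ → D, Tendsto (fun j => i (u j) - L (u j)) atTop (𝓝 h) := by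
  have hS : (LinearMap.range (i - L)).topologicalClosure = ⊤ := by
    rw [Submodule.topologicalClosure_eq_top_iff, Submodule.eq_bot_iff]
    intro x hx
    refine hd.esa x (fun u => ?_)
    rw [Submodule.mem_orthogonal] at hx
    have := hx (i u - L u) ⟨u, by simp⟩
    rw [real_inner_comm]; exact this
  obtain ⟨g, hg1, hg2⟩ := exists_seq_of_mem_closure (x := h) (S := LinearMap.range (i - L))
    (by rw [hS]; trivial)
  choose u hu using hg1
  refine ⟨u, hg2.congr (fun j => ?_)⟩
  rw [← hu j]; simp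

/-- convergence of `(i - L) u_j` implies convergence of `i u_j` -/
theorem AbsData.tendsto_of (hd : AbsData i L one) {h : H} {u : ℕ → D}
    (hu : Tendsto (fun j => i (u j) - L (u j)) atTop (𝓝 h)) :
    ∃ p, Tendsto (fun j => i (u j)) atTop (𝓝 p) := by
  have hc : CauchySeq (fun j => i (u j) - L (u j)) := hu.cauchySeq
  refine cauchySeq_tendsto_of_complete ?_
  rw [Metric.cauchySeq_iff'] at hc ⊢
  intro ε hε
  obtain ⟨N, hN⟩ := hc ε hε
  refine ⟨N, fun n hn => ?_⟩
  have := hN n hn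
  rw [dist_eq_norm] at this ⊢
  have e1 : i (u n) - i (u N) = i (u n - u N) := by simp
  have e2 : i (u n) - L (u n) - (i (u N) - L (u N)) = i (u n - u N) - L (u n - u N) := by
    simp only [map_sub]; abel
  rw [e1]; rw [e2] at this
  exact (hd.norm_le _).trans_lt this

theorem AbsData.exists_res (hd : AbsData i L one) (h : H) : ∃ p, Res i L h p := by
  obtain ⟨u, hu⟩ := hd.exists_seq h
  obtain ⟨p, hp⟩ := hd.tendsto_of hu
  exact ⟨p, u, hu, hp⟩

theorem AbsData.res_char (hd : AbsData i L one) {h p : H}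
    (hp : ∀ w, inner ℝ p (i w - L w) = inner ℝ h (i w)) : Res i L h p := by
  obtain ⟨q, hq⟩ := hd.exists_res h
  have : p - q = 0 := by
    refine hd.esa _ (fun w => ?_)
    have h1 := hd.res_symm hq (Res.of w)
    rw [inner_sub_left, hp w, ← h1, sub_self]
  rw [sub_eq_zero.mp this]; exact hq

/-- the values `L (L+1) F`, `F = (1-L)⁻¹ w` -/
def rng (i L : D →ₗ[ℝ] H) : Submodule ℝ H where
  carrier := {g | ∃ w p, Res i L (i w) p ∧ g = (2 : ℝ) • (p - i w) - L w}
  add_mem' := by
    rintro a b ⟨w, p, h1, rfl⟩ ⟨w', p', h1', rfl⟩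
    refine ⟨w + w', p + p', ?_, ?_⟩
    · rw [map_add]; exact h1.add h1'
    · simp only [map_add, smul_sub, smul_add]; abel
  zero_mem' := by
    refine ⟨0, 0, ?_, by simp⟩
    exact ⟨fun _ => 0, by simp, by simp⟩
  smul_mem' := by
    rintro c a ⟨w, p, h1, rfl⟩
    refine ⟨c • w, c • p, ?_, ?_⟩
    · rw [map_smul]; exact h1.smul c
    · simp only [map_smul, smul_sub, smul_comm c (2 : ℝ)]

theorem AbsData.rng_orth (hd : AbsData i L one) {h : H} (hh : h ∈ (rng i L)ᗮ) :
    ∃ r : ℝ, h = r • one := by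
  rw [Submodule.mem_orthogonal] at hh
  obtain ⟨p, hp⟩ := hd.exists_res h
  obtain ⟨p2, hp2⟩ := hd.exists_res p
  have h1 : Res i L ((3 : ℝ) • h - (2 : ℝ) • p) h := by
    refine hd.res_char (fun w => ?_)
    obtain ⟨q, hq⟩ := hd.exists_res (i w)
    have e1 := hh _ ⟨w, q, hq, rfl⟩
    have e2 : inner ℝ h q = inner ℝ p (i w) := hd.res_symm hp hq
    rw [real_inner_comm] at e1
    simp only [inner_sub_left, inner_sub_right, inner_smul_left, inner_smul_right,
      RCLike.conj_to_real] at e1 ⊢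
    rw [e2] at e1
    linarith
  have h2 : Res i L ((3 : ℝ) • h - (2 : ℝ) • p) ((3 : ℝ) • p - (2 : ℝ) • p2) := by
    have := (hp.smul 3).add (hp2.smul (-2))
    simpa [sub_eq_add_neg, neg_smul] using this
  have h3 : h = (3 : ℝ) • p - (2 : ℝ) • p2 := hd.res_unique h1 h2
  have e2 : p - (2 : ℝ) • p2 = h - (2 : ℝ) • p := by
    calc p - (2 : ℝ) • p2 = ((3 : ℝ) • p - (2 : ℝ) • p2) - (2 : ℝ) • p := by module
      _ = h - (2 : ℝ) • p := by rw [← h3]
  have h4 : Res i L (h - (2 : ℝ) • p) (h - (2 : ℝ) • p) := by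
    have := hp.add (hp2.smul (-2))
    have e3 : h + (-2 : ℝ) • p = h - (2 : ℝ) • p := by module
    have e4 : p + (-2 : ℝ) • p2 = h - (2 : ℝ) • p := by rw [← e2]; module
    rwa [e3, e4] at this
  obtain ⟨r, hr⟩ := hd.res_fix h4
  have h5 : h + (h - (2 : ℝ) • p) = 0 := by
    refine hd.res_half (hp.add h4) ?_
    module
  refine ⟨-r, ?_⟩
  rw [neg_smul, ← hr]
  exact eq_neg_of_add_eq_zero_left h5

/-- **LIN, abstract form.**  For `f ⟂ one` and `ε > 0` there are `w : D` and a sequence `v j : D`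
with `(1 - L) v j → w` (so `v j → F = (1 - L)⁻¹ w`) and `‖f + L (w - 2 v j)‖ < ε` eventually. -/
theorem lin_abs (hd : AbsData i L one) (f : H) (hf : inner ℝ f one = 0) (ε : ℝ) (hε : 0 < ε) :
    ∃ (w : D) (v : ℕ → D) (p : H), Tendsto (fun j => i (v j) - L (v j)) atTop (𝓝 (i w)) ∧
      Tendsto (fun j => i (v j)) atTop (𝓝 p) ∧
      ‖f - ((2 : ℝ) • (p - i w) - L w)‖ < ε ∧
      ∀ᶠ j in atTop, ‖f + L (w - (2 : ℝ) • v j)‖ < ε := by
  have hmem : f ∈ (rng i L).topologicalClosure := by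
    rw [← Submodule.orthogonal_orthogonal_eq_closure, Submodule.mem_orthogonal]
    intro h hh
    obtain ⟨r, rfl⟩ := hd.rng_orth hh
    rw [inner_smul_left, real_inner_comm, hf, mul_zero]
  obtain ⟨g, hg1, hg2⟩ := exists_seq_of_mem_closure hmem
  rw [Metric.tendsto_atTop] at hg2
  obtain ⟨N, hN⟩ := hg2 ε hε
  obtain ⟨w, p, ⟨v, hv1, hv2⟩, hg⟩ := hg1 N
  have hlt : ‖f - ((2 : ℝ) • (p - i w) - L w)‖ < ε := by
    have := hN N le_rfl
    rw [hg, dist_comm, dist_eq_norm] at this
    exact this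
  refine ⟨w, v, p, hv1, hv2, hlt, ?_⟩
  have hL : Tendsto (fun j => L (v j)) atTop (𝓝 (p - i w)) := by
    have := hv2.sub hv1
    refine this.congr (fun j => ?_)
    abel
  have hT : Tendsto (fun j => ‖f + L (w - (2 : ℝ) • v j)‖) atTop
      (𝓝 ‖f - ((2 : ℝ) • (p - i w) - L w)‖) := by
    have h1 : Tendsto (fun j => f - ((2 : ℝ) • L (v j) - L w)) atTop
        (𝓝 (f - ((2 : ℝ) • (p - i w) - L w))) :=
      tendsto_const_nhds.sub ((hL.const_smul (2 : ℝ)).sub tendsto_const_nhds)
    refine (h1.norm).congr (fun j => ?_)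
    congr 1
    rw [map_sub, map_smul]
    abel
  exact hT.eventually (gt_mem_nhds hlt)

end

end Vale.Agent.P227.M.LIN.Abs710
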