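import Vale.Agent.P227.M.LIN.MollB

/-!
P227/M/LIN: uniqueness in `L²(e^{-V})` for `lam - Δ + ∇V·∇`, tested on `C_c^∞`.
-/

namespace Vale.Agent.P227.M.LIN

open MeasureTheory Filter Topology Function Set Metric
open scoped ENNReal NNReal Convolution ContDiff

variable {E : Type*} [NormedAddCommGroup E] [InnerProductSpace ℝ E] [FiniteDimensional ℝ E]
  [MeasurableSpace E] [BorelSpace E]

/-- directional derivative. -/
noncomputable def D (v : E) (f : E → ℝ) : E → ℝ := fun x => fderiv ℝ f x v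

omit [FiniteDimensional ℝ E] [MeasurableSpace E] [BorelSpace E] in
theorem D_apply (v : E) (f : E → ℝ) (x : E) : D v f x = fderiv ℝ f x v := rfl

omit [FiniteDimensional ℝ E] [MeasurableSpace E] [BorelSpace E] in
theorem contDiff_D {f : E → ℝ} (hf : ContDiff ℝ ∞ f) (v : E) : ContDiff ℝ ∞ (D v f) :=
  (hf.fderiv_right (m := ∞) (by simp)).clm_apply contDiff_const

omit [FiniteDimensional ℝ E] [MeasurableSpace E] [BorelSpace E] in
theorem hcs_D {f : E → ℝ} (h1 : HasCompactSupport f) (v : E) : HasCompactSupport (D v f) := by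
  refine (h1.fderiv ℝ).comp_left (g := fun L : E →L[ℝ] ℝ => L v) ?_
  simp

omit [FiniteDimensional ℝ E] [MeasurableSpace E] [BorelSpace E] in
theorem D_mul {f g : E → ℝ} (hf : ContDiff ℝ ∞ f) (hg : ContDiff ℝ ∞ g) (v : E) :
    D v (fun x => f x * g x) = fun x => f x * D v g x + D v f x * g x := by
  funext x
  have h1 := ((hf.differentiable (by simp)) x).hasFDerivAt.mul
    ((hg.differentiable (by simp)) x).hasFDerivAt
  have h2 : fderiv ℝ (fun x => f x * g x) x = _ := h1.fderiv
  rw [D_apply, h2]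
  simp only [add_apply, smul_apply, smul_eq_mul, D_apply]
  ring

omit [FiniteDimensional ℝ E] [MeasurableSpace E] [BorelSpace E] in
theorem D_exp {V : E → ℝ} (hV : ContDiff ℝ ∞ V) (v : E) :
    D v (fun x => Real.exp (V x / 2)) = fun x => Real.exp (V x / 2) * (D v V x / 2) := by
  funext x
  have h1 := (((hV.differentiable (by simp)) x).hasFDerivAt.const_mul (1 / 2 : ℝ)).exp
  have h2 : (fun x => Real.exp (V x / 2)) = fun x => Real.exp (1 / 2 * V x) := by
    funext x
    congr 1
    ring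
  rw [D_apply, h2, h1.fderiv]
  simp only [smul_apply, smul_eq_mul, D_apply]
  rw [show (1 / 2 : ℝ) * V x = V x / 2 by ring]
  ring

omit [FiniteDimensional ℝ E] [MeasurableSpace E] [BorelSpace E] in
theorem contDiff_exp {V : E → ℝ} (hV : ContDiff ℝ ∞ V) :
    ContDiff ℝ ∞ (fun x => Real.exp (V x / 2)) := (hV.div_const 2).exp

omit [FiniteDimensional ℝ E] [MeasurableSpace E] [BorelSpace E] in
theorem D_exp_mul {V g : E → ℝ} (hV : ContDiff ℝ ∞ V) (hg : ContDiff ℝ ∞ g) (v : E) :
    D v (fun x => Real.exp (V x / 2) * g x) =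
      fun x => Real.exp (V x / 2) * (D v g x + D v V x / 2 * g x) := by
  rw [D_mul (contDiff_exp hV) hg, D_exp hV]
  funext x
  ring

omit [FiniteDimensional ℝ E] [MeasurableSpace E] [BorelSpace E] in
theorem D_add {f g : E → ℝ} (hf : ContDiff ℝ ∞ f) (hg : ContDiff ℝ ∞ g) (v : E) :
    D v (fun x => f x + g x) = fun x => D v f x + D v g x := by
  funext x
  have h1 := ((hf.differentiable (by simp)) x).hasFDerivAt.add
    ((hg.differentiable (by simp)) x).hasFDerivAt
  have h2 : fderiv ℝ (fun x => f x + g x) x = _ := h1.fderiv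
  rw [D_apply, h2]
  rfl

omit [FiniteDimensional ℝ E] [MeasurableSpace E] [BorelSpace E] in
theorem D_div_const {f : E → ℝ} (hf : ContDiff ℝ ∞ f) (c : ℝ) (v : E) :
    D v (fun x => f x / c) = fun x => D v f x / c := by
  funext x
  have h1 := ((hf.differentiable (by simp)) x).hasFDerivAt.const_mul (c⁻¹)
  have h2 : (fun x => f x / c) = fun x => c⁻¹ * f x := by
    funext x
    rw [div_eq_inv_mul]
  rw [D_apply, h2, h1.fderiv, div_eq_inv_mul]
  rfl

omit [FiniteDimensional ℝ E] [MeasurableSpace E] [BorelSpace E] in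
/-- the second derivative of `e^{V/2} g`. -/
theorem DD_exp_mul {V g : E → ℝ} (hV : ContDiff ℝ ∞ V) (hg : ContDiff ℝ ∞ g) (v : E) (x : E) :
    D v (D v (fun x => Real.exp (V x / 2) * g x)) x =
      Real.exp (V x / 2) * (D v (D v g) x + D v V x * D v g x + D v (D v V) x / 2 * g x +
        D v V x ^ 2 / 4 * g x) := by
  have hVv := contDiff_D hV v
  have hgv := contDiff_D hg v
  have h1 : ContDiff ℝ ∞ (fun x => D v V x / 2) := hVv.div_const 2
  have h2 : ContDiff ℝ ∞ (fun x => D v V x / 2 * g x) := h1.mul hg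
  rw [D_exp_mul hV hg, D_exp_mul hV (hgv.add h2), D_add hgv h2, D_mul h1 hg, D_div_const hVv]
  ring

/-- the potential of the Schrödinger operator. -/
noncomputable def pot {ι : Type*} [Fintype ι] (b : ι → E) (V : E → ℝ) (lam : ℝ) (x : E) : ℝ :=
  lam + ∑ i, D (b i) V x ^ 2 / 4 - ∑ i, D (b i) (D (b i) V) x / 2

omit [FiniteDimensional ℝ E] [MeasurableSpace E] [BorelSpace E] in
theorem continuous_pot {ι : Type*} [Fintype ι] (b : ι → E) {V : E → ℝ} (hV : ContDiff ℝ ∞ V)
    (lam : ℝ) : Continuous (pot b V lam) := by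
  have h1 : ∀ i, Continuous (D (b i) V) := fun i => (contDiff_D hV _).continuous
  have h2 : ∀ i, Continuous (D (b i) (D (b i) V)) :=
    fun i => (contDiff_D (contDiff_D hV _) _).continuous
  unfold pot
  fun_prop

omit [FiniteDimensional ℝ E] [MeasurableSpace E] [BorelSpace E] in
theorem one_le_pot {ι : Type*} [Fintype ι] (b : ι → E) {V : E → ℝ} {lam : ℝ}
    (hlam : ∀ x, ∑ i, D (b i) (D (b i) V) x ≤ 2 * (lam - 1)) (x : E) : 1 ≤ pot b V lam x := by
  have h1 : 0 ≤ ∑ i, D (b i) V x ^ 2 / 4 := Finset.sum_nonneg fun i _ => by positivity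
  have h2 := hlam x
  unfold pot
  rw [← Finset.sum_div _ _ (2 : ℝ)]
  linarith

/-- step 1: the Schrödinger form of the orthogonality. -/
theorem schrodinger {ι : Type*} [Fintype ι] (b : ι → E) {V : E → ℝ} (hV : ContDiff ℝ ∞ V)
    {lam : ℝ} {h : E → ℝ}
    (hort : ∀ G : E → ℝ, ContDiff ℝ ∞ G → HasCompactSupport G →
      ∫ x, h x * (lam * G x - ∑ i, D (b i) (D (b i) G) x + ∑ i, D (b i) V x * D (b i) G x) *
        Real.exp (-V x) = 0)
    (g : E → ℝ) (hg : ContDiff ℝ ∞ g) (hgc : HasCompactSupport g) :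
    ∫ x, (h x * Real.exp (-V x / 2)) * (pot b V lam x * g x - ∑ i, D (b i) (D (b i) g) x) = 0 := by
  rw [← hort (fun x => Real.exp (V x / 2) * g x) ((contDiff_exp hV).mul hg) hgc.mul_left]
  refine integral_congr_ae (Eventually.of_forall fun x => ?_)
  simp only
  have h1 : ∀ i, D (b i) (D (b i) (fun x => Real.exp (V x / 2) * g x)) x =
      Real.exp (V x / 2) * (D (b i) (D (b i) g) x + D (b i) V x * D (b i) g x +
        D (b i) (D (b i) V) x / 2 * g x + D (b i) V x ^ 2 / 4 * g x) :=
    fun i => DD_exp_mul hV hg (b i) x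
  have h2 : ∀ i, D (b i) (fun x => Real.exp (V x / 2) * g x) x =
      Real.exp (V x / 2) * (D (b i) g x + D (b i) V x / 2 * g x) :=
    fun i => by rw [D_exp_mul hV hg]
  simp only [h1, h2]
  have h3 : Real.exp (-V x) = Real.exp (-V x / 2) * Real.exp (-V x / 2) := by
    rw [← Real.exp_add]
    congr 1
    ring
  have h4 : Real.exp (V x / 2) * Real.exp (-V x / 2) = 1 := by
    rw [← Real.exp_add, show V x / 2 + -V x / 2 = 0 by ring, Real.exp_zero]
  rw [h3, pot]
  set A := ∑ i, D (b i) V x ^ 2 / 4 with hA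
  set B := ∑ i, D (b i) (D (b i) V) x / 2 with hB
  set C := ∑ i, D (b i) (D (b i) g) x with hC
  have h5 : ∑ i, Real.exp (V x / 2) * (D (b i) (D (b i) g) x + D (b i) V x * D (b i) g x +
        D (b i) (D (b i) V) x / 2 * g x + D (b i) V x ^ 2 / 4 * g x) =
      Real.exp (V x / 2) * (C + ∑ i, D (b i) V x * D (b i) g x + B * g x + A * g x) := by
    rw [← Finset.mul_sum, Finset.sum_add_distrib, Finset.sum_add_distrib,
      Finset.sum_add_distrib, ← Finset.sum_mul, ← Finset.sum_mul]
  have h6 : ∑ i, D (b i) V x * (Real.exp (V x / 2) * (D (b i) g x + D (b i) V x / 2 * g x)) =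
      Real.exp (V x / 2) * (∑ i, D (b i) V x * D (b i) g x + 2 * A * g x) := by
    rw [hA, mul_assoc 2, Finset.sum_mul, Finset.mul_sum, ← Finset.sum_add_distrib,
      Finset.mul_sum]
    refine Finset.sum_congr rfl fun i _ => ?_
    ring
  rw [h5, h6]
  linear_combination (h x * Real.exp (-V x / 2) * (lam * g x - C - B * g x - A * g x +
    2 * A * g x)) * (1 - 1) * h4 + (-(h x * Real.exp (-V x / 2) * (lam * g x - C - B * g x +
      A * g x))) * h4

theorem integrable_kernel {κ : E → ℝ} (h1 : HasCompactSupport κ) (h2 : Continuous κ) {f : E → ℝ}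
    (hf : LocallyIntegrable f volume) (x : E) : Integrable (fun t => κ (x - t) * f t) volume :=
  (h1.convolutionExists_left (ContinuousLinearMap.mul ℝ ℝ) h2 hf x).integrable_swap

theorem D_cv {κ : E → ℝ} (h1 : HasCompactSupport κ) (h2 : ContDiff ℝ ∞ κ) {f : E → ℝ}
    (hf : LocallyIntegrable f volume) (v : E) : D v (cv κ f) = cv (D v κ) f :=
  fderiv_cv h1 h2 hf v

omit [FiniteDimensional ℝ E] [MeasurableSpace E] [BorelSpace E] in
theorem D_refl {κ : E → ℝ} (h2 : ContDiff ℝ ∞ κ) (x v : E) :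
    D v (fun t => κ (x - t)) = fun t => -D v κ (x - t) := by
  funext t
  have h3 : HasFDerivAt (fun t => κ (x - t))
      ((fderiv ℝ κ (x - t)).comp (-ContinuousLinearMap.id ℝ E)) t := by
    have h4 : HasFDerivAt (fun t : E => x - t) (-ContinuousLinearMap.id ℝ E) t :=
      (hasFDerivAt_id t).const_sub x
    exact ((h2.differentiable (by simp)) (x - t)).hasFDerivAt.comp t h4
  rw [D_apply, h3.fderiv]
  simp [D_apply]

omit [FiniteDimensional ℝ E] [MeasurableSpace E] [BorelSpace E] in
theorem D_neg {κ : E → ℝ} (v : E) : D v (fun t => -κ t) = fun t => -D v κ t := by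
  funext t
  rw [D_apply, fderiv_fun_neg]
  rfl

omit [FiniteDimensional ℝ E] [MeasurableSpace E] [BorelSpace E] in
theorem DD_refl {κ : E → ℝ} (h2 : ContDiff ℝ ∞ κ) (x v : E) (t : E) :
    D v (D v (fun t => κ (x - t))) t = D v (D v κ) (x - t) := by
  rw [D_refl h2, D_neg, D_refl (contDiff_D h2 v)]
  simp

/-- step 2: the equation of a mollification. -/
theorem mol_eq {ι : Type*} [Fintype ι] (b : ι → E) {Q ψ : E → ℝ}
    (hψ : LocallyIntegrable ψ volume)
    (heq : ∀ g : E → ℝ, ContDiff ℝ ∞ g → HasCompactSupport g →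
      ∫ x, ψ x * (Q x * g x - ∑ i, D (b i) (D (b i) g) x) = 0)
    (hQψ : LocallyIntegrable (fun x => Q x * ψ x) volume)
    {κ : E → ℝ} (h1 : HasCompactSupport κ) (h2 : ContDiff ℝ ∞ κ) (x : E) :
    ∑ i, D (b i) (D (b i) (cv κ ψ)) x = cv κ (fun t => Q t * ψ t) x := by
  have h3 := heq (fun t => κ (x - t)) (h2.comp (contDiff_const.sub contDiff_id))
    (h1.comp_homeomorph (Homeomorph.subLeft x))
  have h4 : ∀ i, D (b i) (D (b i) (cv κ ψ)) x = ∫ t, D (b i) (D (b i) κ) (x - t) * ψ t := by
    intro i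
    rw [D_cv h1 h2 hψ, D_cv (hcs_D h1 _) (contDiff_D h2 _) hψ, cv_apply]
  have hi : ∀ i, Integrable (fun t => D (b i) (D (b i) κ) (x - t) * ψ t) volume := fun i =>
    integrable_kernel (hcs_D (hcs_D h1 _) _) (contDiff_D (contDiff_D h2 _) _).continuous hψ x
  have hk := integrable_kernel h1 h2.continuous hQψ x
  simp only [h4]
  rw [cv_apply, ← integral_finsetSum _ fun i _ => hi i, ← sub_eq_zero, ← integral_sub
    (integrable_finsetSum _ fun i _ => hi i) hk, ← neg_eq_zero, ← integral_neg, ← h3]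
  refine integral_congr_ae (Eventually.of_forall fun t => ?_)
  simp only
  have h5 : ∀ i, D (b i) (D (b i) (fun t => κ (x - t))) t = D (b i) (D (b i) κ) (x - t) :=
    fun i => DD_refl h2 x (b i) t
  simp only [h5]
  rw [mul_sub, Finset.mul_sum, neg_sub]
  congr 1
  · ring
  · exact Finset.sum_congr rfl fun i _ => mul_comm _ _

/-- step 3: the energyB inequality. -/
theorem energyB {ι : Type*} [Fintype ι] (b : ι → E) {χ m : E → ℝ} (hχ : ContDiff ℝ ∞ χ)
    (hχc : HasCompactSupport χ) (hm : ContDiff ℝ ∞ m) :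
    ∫ x, χ x ^ 2 * (m x * ∑ i, D (b i) (D (b i) m) x) ≤
      ∫ x, (∑ i, D (b i) χ x ^ 2) * (m x * m x) := by
  have hDχ : ∀ i, ContDiff ℝ ∞ (D (b i) χ) := fun i => contDiff_D hχ _
  have hDm : ∀ i, ContDiff ℝ ∞ (D (b i) m) := fun i => contDiff_D hm _
  have hDDm : ∀ i, ContDiff ℝ ∞ (D (b i) (D (b i) m)) := fun i => contDiff_D (hDm i) _
  have hχ2 : ContDiff ℝ ∞ (fun x => χ x ^ 2 * m x) := (hχ.pow 2).mul hm
  have hc2 : HasCompactSupport (fun x => χ x ^ 2) := by
    have : (fun x => χ x ^ 2) = fun x => χ x * χ x := by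
      funext x
      ring
    rw [this]
    exact hχc.mul_left
  have hD2 : ∀ i x, D (b i) (fun x => χ x ^ 2 * m x) x =
      χ x ^ 2 * D (b i) m x + 2 * χ x * D (b i) χ x * m x := by
    intro i x
    have h0 : (fun x => χ x ^ 2) = fun x => χ x * χ x := by
      funext x
      ring
    rw [D_mul (hχ.pow 2) hm, h0, D_mul hχ hχ]
    ring
  -- integrability of continuous compactly supported functions
  have hint : ∀ f : E → ℝ, Continuous f → HasCompactSupport f → Integrable f volume :=
    fun f h1 h2 => h1.integrable_of_hasCompactSupport h2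
  have key : ∀ i, ∫ x, χ x ^ 2 * m x * D (b i) (D (b i) m) x ≤
      ∫ x, D (b i) χ x ^ 2 * (m x * m x) := by
    intro i
    have c0 := hχ.continuous
    have c1 := (hDχ i).continuous
    have c2 := (hDm i).continuous
    have c3 := (hDDm i).continuous
    have c4 := hm.continuous
    have hcc : HasCompactSupport (fun x => χ x ^ 2 * m x) := hc2.mul_right
    have hibp : ∫ x, χ x ^ 2 * m x * D (b i) (D (b i) m) x =
        -∫ x, D (b i) (fun x => χ x ^ 2 * m x) x * D (b i) m x := by
      refine integral_mul_fderiv_eq_neg_fderiv_mul_of_integrable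
        (f := fun x => χ x ^ 2 * m x) (g := D (b i) m) ?_ ?_ ?_ ?_ ?_
      · exact hint _ ((contDiff_D hχ2 (b i)).continuous.mul c2) ((hcs_D hcc _).mul_right)
      · exact hint _ (hχ2.continuous.mul c3) hcc.mul_right
      · exact hint _ (hχ2.continuous.mul c2) hcc.mul_right
      · exact fun x _ => (hχ2.differentiable (by simp)) x
      · exact fun x _ => ((hDm i).differentiable (by simp)) x
    rw [hibp, ← integral_neg]
    have hcD : HasCompactSupport (D (b i) χ) := hcs_D hχc _
    refine integral_mono ?_ ?_ fun x => ?_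
    · refine (hint _ ((contDiff_D hχ2 (b i)).continuous.mul c2) ((hcs_D hcc _).mul_right)).neg
    · refine hint _ (by fun_prop) ?_
      have : (fun x => D (b i) χ x ^ 2 * (m x * m x)) =
          fun x => D (b i) χ x * (D (b i) χ x * (m x * m x)) := by
        funext x
        ring
      rw [this]
      exact hcD.mul_right
    · simp only [hD2]
      nlinarith [sq_nonneg (χ x * D (b i) m x + D (b i) χ x * m x)]
  have c0 := hχ.continuous
  have c4 := hm.continuous
  have e1 : ∀ x, χ x ^ 2 * (m x * ∑ i, D (b i) (D (b i) m) x) =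
      ∑ i, χ x ^ 2 * m x * D (b i) (D (b i) m) x := fun x => by
    rw [← Finset.mul_sum, mul_assoc]
  have e2 : ∀ x, (∑ i, D (b i) χ x ^ 2) * (m x * m x) =
      ∑ i, D (b i) χ x ^ 2 * (m x * m x) := fun x => by rw [Finset.sum_mul]
  simp only [e1, e2]
  rw [integral_finsetSum, integral_finsetSum]
  · exact Finset.sum_le_sum fun i _ => key i
  · intro i _
    have c1 := (hDχ i).continuous
    refine hint _ (by fun_prop) ?_
    have : (fun x => D (b i) χ x ^ 2 * (m x * m x)) =
        fun x => D (b i) χ x * (D (b i) χ x * (m x * m x)) := by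
      funext x
      ring
    rw [this]
    exact (hcs_D hχc (b i)).mul_right
  · intro i _
    have c3 := (hDDm i).continuous
    refine hint _ (by fun_prop) ?_
    exact (hc2.mul_right (f' := m)).mul_right

/-- products of `L²`-convergent sequences against a bounded weight. -/
theorem tendsto_int_mul {ζ : E → ℝ} (hζ : Continuous ζ) {B : ℝ} (hB : ∀ x, |ζ x| ≤ B)
    {a c : ℕ → E → ℝ} {a0 c0 : E → ℝ} (ha : ∀ k, MemLp (a k) 2 (volume : Measure E))
    (hc : ∀ k, MemLp (c k) 2 (volume : Measure E)) (ha0 : MemLp a0 2 (volume : Measure E))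
    (hc0 : MemLp c0 2 (volume : Measure E))
    (hat : Tendsto (fun k => eLpNorm (fun x => a k x - a0 x) 2 volume) atTop (𝓝 0))
    (hct : Tendsto (fun k => eLpNorm (fun x => c k x - c0 x) 2 volume) atTop (𝓝 0)) :
    Tendsto (fun k => ∫ x, ζ x * (a k x * c k x)) atTop (𝓝 (∫ x, ζ x * (a0 x * c0 x))) := by
  have hmul : ∀ {f : E → ℝ}, MemLp f 2 (volume : Measure E) →
      MemLp (fun x => ζ x * f x) 2 (volume : Measure E) := by
    intro f hf
    refine MemLp.of_le_mul hf (hζ.aestronglyMeasurable.mul hf.1) (c := B)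
      (Eventually.of_forall fun x => ?_)
    rw [norm_mul, Real.norm_eq_abs, Real.norm_eq_abs]
    exact mul_le_mul_of_nonneg_right (hB x) (abs_nonneg _)
  have h1 : Tendsto (fun k => (hmul (ha k)).toLp _) atTop (𝓝 ((hmul ha0).toLp _)) := by
    rw [Lp.tendsto_Lp_iff_tendsto_eLpNorm'']
    have hle : ∀ k, eLpNorm ((fun x => ζ x * a k x) - fun x => ζ x * a0 x) 2 volume ≤
        ENNReal.ofReal B * eLpNorm (fun x => a k x - a0 x) 2 volume := by
      intro k
      refine eLpNorm_le_mul_eLpNorm_of_ae_le_mul (Eventually.of_forall fun x => ?_) 2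
      rw [Pi.sub_apply, ← mul_sub, norm_mul, Real.norm_eq_abs, Real.norm_eq_abs]
      exact mul_le_mul_of_nonneg_right (hB x) (abs_nonneg _)
    have h0 : Tendsto (fun k => ENNReal.ofReal B * eLpNorm (fun x => a k x - a0 x) 2 volume)
        atTop (𝓝 0) := by
      have := ENNReal.Tendsto.const_mul hat (Or.inr (ENNReal.ofReal_ne_top (r := B)))
      rwa [mul_zero] at this
    exact tendsto_of_tendsto_of_tendsto_of_le_of_le tendsto_const_nhds h0 (fun _ => bot_le) hle
  have h2 : Tendsto (fun k => (hc k).toLp _) atTop (𝓝 (hc0.toLp _)) := by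
    rw [Lp.tendsto_Lp_iff_tendsto_eLpNorm'']
    exact hct
  have h3 := h1.inner h2 (𝕜 := ℝ)
  have hin : ∀ {f g : E → ℝ} (hf : MemLp f 2 (volume : Measure E))
      (hg : MemLp g 2 (volume : Measure E)),
      inner ℝ ((hmul hf).toLp _) (hg.toLp _) = ∫ x, ζ x * (f x * g x) := by
    intro f g hf hg
    rw [L2.inner_def]
    refine integral_congr_ae ?_
    filter_upwards [(hmul hf).coeFn_toLp, hg.coeFn_toLp] with x h4 h5
    rw [h4, h5]
    simp only [RCLike.inner_apply, conj_trivial]
    ring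
  rw [hin ha0 hc0] at h3
  exact h3.congr fun k => hin (ha k) (hc k)

omit [InnerProductSpace ℝ E] [FiniteDimensional ℝ E] [MeasurableSpace E] [BorelSpace E] in
/-- a continuous function of compact support is bounded. -/
theorem exists_bound {f : E → ℝ} (hf : Continuous f) (hc : HasCompactSupport f) :
    ∃ B, 0 ≤ B ∧ ∀ x, |f x| ≤ B := by
  obtain ⟨B, hB⟩ := hf.bounded_above_of_compact_support hc
  exact ⟨B, (norm_nonneg _).trans (hB 0), hB⟩

/-- step 4: the energyB inequality for `ψ`. -/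
theorem energy_lim {ι : Type*} [Fintype ι] (b : ι → E) {Q ψ : E → ℝ} (hQ : Continuous Q)
    (hψ : MemLp ψ 2 (volume : Measure E))
    (heq : ∀ g : E → ℝ, ContDiff ℝ ∞ g → HasCompactSupport g →
      ∫ x, ψ x * (Q x * g x - ∑ i, D (b i) (D (b i) g) x) = 0)
    {χ : E → ℝ} (hχ : ContDiff ℝ ∞ χ) (hχc : HasCompactSupport χ) :
    ∫ x, χ x ^ 2 * (ψ x * (Q x * ψ x)) ≤ ∫ x, (∑ i, D (b i) χ x ^ 2) * (ψ x * ψ x) := by
  have hli := locallyIntegrable_of_memLp hψ
  have hQψ : LocallyIntegrable (fun x => Q x * ψ x) volume := by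
    have h0 := hli.smul_continuous hQ
    refine h0.congr (Eventually.of_forall fun x => ?_)
    simp only [smul_eq_mul]
    ring
  -- truncation of `Q ψ`
  let K : Set E := cthickening 1 (tsupport χ)
  have hK : IsCompact K := IsCompact.cthickening hχc
  let φ : E → ℝ := K.indicator (fun x => Q x * ψ x)
  have hφ : MemLp φ 2 (volume : Measure E) := by
    obtain ⟨B, hB⟩ := hK.exists_bound_of_continuousOn hQ.continuousOn
    refine MemLp.of_le_mul hψ ((hQψ.aestronglyMeasurable).indicator hK.measurableSet)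
      (c := max B 0) (Eventually.of_forall fun x => ?_)
    by_cases hx : x ∈ K
    · have h1 : φ x = Q x * ψ x := indicator_of_mem hx _
      rw [h1, norm_mul]
      exact mul_le_mul_of_nonneg_right ((hB x hx).trans (le_max_left _ _)) (norm_nonneg _)
    · have h1 : φ x = 0 := indicator_of_notMem hx _
      rw [h1, norm_zero]
      exact mul_nonneg (le_max_right _ _) (norm_nonneg _)
  have hρc : ∀ k, HasCompactSupport ((bump E k).normed (volume : Measure E)) :=
    fun k => (bump E k).hasCompactSupport_normed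
  have hρs : ∀ k, ContDiff ℝ ∞ ((bump E k).normed (volume : Measure E)) :=
    fun k => (bump E k).contDiff_normed
  have hin : ∀ k x, χ x ^ 2 * (mol (bump E k) ψ x *
      ∑ i, D (b i) (D (b i) (mol (bump E k) ψ)) x) =
      χ x ^ 2 * (mol (bump E k) ψ x * mol (bump E k) φ x) := by
    intro k x
    by_cases hx : x ∈ tsupport χ
    · have h1 := mol_eq b hli heq hQψ (hρc k) (hρs k) x
      rw [mol_eq_cv, mol_eq_cv, h1]
      congr 2
      rw [cv_apply, cv_apply]
      refine integral_congr_ae (Eventually.of_forall fun t => ?_)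
      simp only
      by_cases ht : t ∈ K
      · have h2 : φ t = Q t * ψ t := indicator_of_mem ht _
        rw [h2]
      · have h2 : (bump E k).normed (volume : Measure E) (x - t) = 0 := by
          by_contra hne
          have h3 : x - t ∈ support ((bump E k).normed (volume : Measure E)) := hne
          rw [(bump E k).support_normed_eq, mem_ball, dist_zero_right] at h3
          refine ht (mem_cthickening_of_dist_le t x 1 _ hx ?_)
          rw [dist_comm, dist_eq_norm]
          exact (h3.le.trans (bump_rOut_le k))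
        rw [h2, zero_mul, zero_mul]
    · rw [image_eq_zero_of_notMem_tsupport hx]
      ring
  have hc0 := hχ.continuous
  have hcc : HasCompactSupport (fun x => χ x ^ 2) := by
    have : (fun x => χ x ^ 2) = fun x => χ x * χ x := by
      funext x
      ring
    rw [this]
    exact hχc.mul_left
  obtain ⟨B1, -, hB1⟩ := exists_bound (by fun_prop : Continuous fun x => χ x ^ 2) hcc
  have hDc : Continuous (fun x => ∑ i, D (b i) χ x ^ 2) :=
    continuous_finsetSum _ fun i _ => ((contDiff_D hχ (b i)).continuous.pow 2)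
  have hDb : ∃ B, ∀ x, |∑ i, D (b i) χ x ^ 2| ≤ B := by
    have h1 : ∀ i, ∃ B, 0 ≤ B ∧ ∀ x, |D (b i) χ x| ≤ B := fun i =>
      exists_bound (contDiff_D hχ _).continuous (hcs_D hχc _)
    choose B hB0 hB using h1
    refine ⟨∑ i, B i ^ 2, fun x => (Finset.abs_sum_le_sum_abs _ _).trans
      (Finset.sum_le_sum fun i _ => ?_)⟩
    rw [abs_pow]
    exact pow_le_pow_left₀ (abs_nonneg _) (hB i x) 2
  obtain ⟨B2, hB2⟩ := hDb
  have l1 := tendsto_int_mul (by fun_prop : Continuous fun x => χ x ^ 2) hB1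
    (fun k => memLp_mol k hψ) (fun k => memLp_mol k hφ) hψ hφ (tendsto_mol hψ) (tendsto_mol hφ)
  have l2 := tendsto_int_mul hDc hB2
    (fun k => memLp_mol k hψ) (fun k => memLp_mol k hψ) hψ hψ (tendsto_mol hψ) (tendsto_mol hψ)
  have hlim : ∫ x, χ x ^ 2 * (ψ x * (Q x * ψ x)) = ∫ x, χ x ^ 2 * (ψ x * φ x) := by
    refine integral_congr_ae (Eventually.of_forall fun x => ?_)
    simp only
    by_cases hx : x ∈ tsupport χ
    · have h2 : φ x = Q x * ψ x := indicator_of_mem (self_subset_cthickening _ hx) _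
      rw [h2]
    · rw [image_eq_zero_of_notMem_tsupport hx]
      ring
  rw [hlim]
  refine le_of_tendsto_of_tendsto' l1 l2 fun k => ?_
  have h3 := energyB b hχ hχc (contDiff_mol (bump E k) hli)
  simp only [hin k] at h3
  exact h3

/-- step 5: uniqueness. -/
theorem ae_zero_of_eq {ι : Type*} [Fintype ι] (b : ι → E) {Q ψ : E → ℝ} (hQ : Continuous Q)
    (hQ1 : ∀ x, 1 ≤ Q x) (hψ : MemLp ψ 2 (volume : Measure E))
    (heq : ∀ g : E → ℝ, ContDiff ℝ ∞ g → HasCompactSupport g →
      ∫ x, ψ x * (Q x * g x - ∑ i, D (b i) (D (b i) g) x) = 0) :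
    ψ =ᵐ[volume] 0 := by
  have hψ2 : Integrable (fun x => ψ x * ψ x) volume := by
    have := hψ.integrable_sq
    refine this.congr (Eventually.of_forall fun x => ?_)
    simp only
    ring
  -- cut-off functions
  let φ1 : ContDiffBump (0 : E) := ⟨1, 2, one_pos, one_lt_two⟩
  have hφ1 : ContDiff ℝ ∞ (φ1 : E → ℝ) := φ1.contDiff
  have hφ1c : HasCompactSupport (φ1 : E → ℝ) := φ1.hasCompactSupport
  have hb1 : ∀ i, ∃ B, 0 ≤ B ∧ ∀ x, |D (b i) (φ1 : E → ℝ) x| ≤ B := fun i =>
    exists_bound (contDiff_D hφ1 _).continuous (hcs_D hφ1c _)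
  choose B hB0 hB using hb1
  let χ : ℕ → E → ℝ := fun k x => φ1 (((k : ℝ) + 1)⁻¹ • x)
  have hpos : ∀ k : ℕ, (0 : ℝ) < (k : ℝ) + 1 := fun k => by positivity
  have hχ : ∀ k, ContDiff ℝ ∞ (χ k) := fun k => hφ1.comp (contDiff_const_smul _)
  have hχc : ∀ k, HasCompactSupport (χ k) := fun k =>
    hφ1c.comp_smul (inv_ne_zero (hpos k).ne')
  have hD : ∀ k i x, D (b i) (χ k) x = ((k : ℝ) + 1)⁻¹ * D (b i) (φ1 : E → ℝ) (((k : ℝ) + 1)⁻¹ • x) := by
    intro k i x
    have h1 : HasFDerivAt (fun x : E => ((k : ℝ) + 1)⁻¹ • x)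
        (((k : ℝ) + 1)⁻¹ • ContinuousLinearMap.id ℝ E) x :=
      (hasFDerivAt_id x).const_smul _
    have h2 := ((hφ1.differentiable (by simp)) (((k : ℝ) + 1)⁻¹ • x)).hasFDerivAt.comp x h1
    have h3 : fderiv ℝ (χ k) x = _ := h2.fderiv
    rw [D_apply, h3]
    simp [D_apply]
  have hχ1 : ∀ k x, |χ k x| ≤ 1 := fun k x => by
    rw [abs_of_nonneg φ1.nonneg]
    exact φ1.le_one
  have key : ∀ k, ∫ x, χ k x ^ 2 * (ψ x * ψ x) ≤
      (((k : ℝ) + 1)⁻¹ ^ 2 * ∑ i, B i ^ 2) * ∫ x, ψ x * ψ x := by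
    intro k
    have h1 := energy_lim b hQ hψ heq (hχ k) (hχc k)
    have hc0 : Continuous fun x => χ k x ^ 2 := ((hχ k).continuous.pow 2)
    have hcc : HasCompactSupport (fun x => χ k x ^ 2) := by
      have : (fun x => χ k x ^ 2) = fun x => χ k x * χ k x := by
        funext x
        ring
      rw [this]
      exact (hχc k).mul_left
    have i1 : Integrable (fun x => χ k x ^ 2 * (ψ x * (Q x * ψ x))) volume := by
      have h2 := (hψ2.locallyIntegrable).integrable_smul_left_of_hasCompactSupport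
        (hc0.mul hQ) (hcc.mul_right (f' := Q))
      refine h2.congr (Eventually.of_forall fun x => ?_)
      simp only [smul_eq_mul, Pi.mul_apply]
      ring
    have i2 : Integrable (fun x => χ k x ^ 2 * (ψ x * ψ x)) volume := by
      have h2 := (hψ2.locallyIntegrable).integrable_smul_left_of_hasCompactSupport hc0 hcc
      exact h2
    have h3 : ∫ x, χ k x ^ 2 * (ψ x * ψ x) ≤ ∫ x, χ k x ^ 2 * (ψ x * (Q x * ψ x)) := by
      refine integral_mono i2 i1 fun x => ?_
      simp only
      have h4 : ψ x * ψ x ≤ ψ x * (Q x * ψ x) := by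
        nlinarith [mul_self_nonneg (ψ x), hQ1 x, mul_nonneg (sub_nonneg.2 (hQ1 x))
          (mul_self_nonneg (ψ x))]
      exact mul_le_mul_of_nonneg_left h4 (sq_nonneg _)
    refine h3.trans (h1.trans ?_)
    rw [← integral_const_mul]
    refine integral_mono_of_nonneg (Eventually.of_forall fun x => ?_) (hψ2.const_mul _)
      (Eventually.of_forall fun x => ?_)
    · exact mul_nonneg (Finset.sum_nonneg fun i _ => sq_nonneg _) (mul_self_nonneg _)
    · simp only
      refine mul_le_mul_of_nonneg_right ?_ (mul_self_nonneg _)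
      rw [Finset.mul_sum]
      refine Finset.sum_le_sum fun i _ => ?_
      rw [hD, mul_pow]
      refine mul_le_mul_of_nonneg_left ?_ (sq_nonneg _)
      exact sq_le_sq' (neg_le_of_abs_le (hB i _)) (le_of_abs_le (hB i _))
  have lim1 : Tendsto (fun k => ∫ x, χ k x ^ 2 * (ψ x * ψ x)) atTop (𝓝 (∫ x, ψ x * ψ x)) := by
    refine tendsto_integral_of_dominated_convergence (fun x => ψ x * ψ x)
      (fun k => (((hχ k).continuous.pow 2).aestronglyMeasurable).mul hψ2.1) hψ2
      (fun k => Eventually.of_forall fun x => ?_) (Eventually.of_forall fun x => ?_)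
    · rw [Real.norm_eq_abs, abs_mul, abs_mul_self, abs_pow]
      have := pow_le_one₀ (abs_nonneg _) (hχ1 k x) (n := 2)
      nlinarith [mul_self_nonneg (ψ x)]
    · have h1 : ∀ᶠ k : ℕ in atTop, χ k x = 1 := by
        filter_upwards [eventually_ge_atTop ⌈‖x‖⌉₊] with k hk
        refine φ1.one_of_mem_closedBall ?_
        rw [mem_closedBall, dist_zero_right, norm_smul, norm_inv, Real.norm_eq_abs,
          abs_of_pos (hpos k)]
        change _ ≤ (1 : ℝ)
        rw [inv_mul_le_one₀ (hpos k)]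
        exact (Nat.le_ceil _).trans ((Nat.cast_le.2 hk).trans (by linarith))
      refine (tendsto_congr' ?_).2 tendsto_const_nhds
      filter_upwards [h1] with k hk
      rw [hk, one_pow, one_mul]
  have lim2 : Tendsto (fun k : ℕ => (((k : ℝ) + 1)⁻¹ ^ 2 * ∑ i, B i ^ 2) * ∫ x, ψ x * ψ x) atTop
      (𝓝 0) := by
    have h1 : Tendsto (fun k : ℕ => ((k : ℝ) + 1)⁻¹) atTop (𝓝 0) := by
      have := tendsto_one_div_add_atTop_nhds_zero_nat (𝕜 := ℝ)
      simpa using this
    have h2 := ((h1.pow 2).mul_const (∑ i, B i ^ 2)).mul_const (∫ x, ψ x * ψ x)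
    simpa using h2
  have h0 : ∫ x, ψ x * ψ x ≤ 0 := le_of_tendsto_of_tendsto' lim1 lim2 key
  have h1 : ∫ x, ψ x * ψ x = 0 := le_antisymm h0 (integral_nonneg fun x => mul_self_nonneg _)
  have h2 := (integral_eq_zero_iff_of_nonneg (fun x => mul_self_nonneg _) hψ2).1 h1
  filter_upwards [h2] with x hx
  exact mul_self_eq_zero.1 hx

/-- **the base case.** -/
theorem base_unique {ι : Type*} [Fintype ι] (b : ι → E) {V : E → ℝ} (hV : ContDiff ℝ ∞ V)
    {lam : ℝ} (hlam : ∀ x, ∑ i, D (b i) (D (b i) V) x ≤ 2 * (lam - 1)) {h : E → ℝ}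
    (hh : MemLp (fun x => h x * Real.exp (-V x / 2)) 2 (volume : Measure E))
    (hort : ∀ G : E → ℝ, ContDiff ℝ ∞ G → HasCompactSupport G →
      ∫ x, h x * (lam * G x - ∑ i, D (b i) (D (b i) G) x + ∑ i, D (b i) V x * D (b i) G x) *
        Real.exp (-V x) = 0) : h =ᵐ[volume] 0 := by
  have h1 := ae_zero_of_eq b (continuous_pot b hV lam) (one_le_pot b hlam) hh
    (schrodinger b hV hort)
  filter_upwards [h1] with x hx
  exact (mul_eq_zero.1 hx).resolve_right (Real.exp_pos _).ne'

end Vale.Agent.P227.M.LIN
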