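import Vale.Agent.P227.M.LIN.Base
import Vale.Agent.P227.M.LIN.Iface
import Vale.Agent.P227.M.LIN.AffStmt
import Vale.Agent.P227.M.BasMM

/-!
P227/M/LIN: `StmtESA` by the method of continuity (778's plan), from the a priori bound `Apri`.
-/

set_option linter.all false

open MeasureTheory Filter
open scoped Topology ENNReal

namespace Vale.Agent.P227.M.LIN.Co

open Vale.Agent.P227.M Vale.Agent.P227.M.LIN

variable {n : ℕ}

section hilb

variable {H W : Type*} [NormedAddCommGroup H] [InnerProductSpace ℝ H] [CompleteSpace H]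
  [AddCommGroup W] [Module ℝ W]

theorem denseRange_of_sep (A : W →ₗ[ℝ] H) (h : ∀ x : H, (∀ f, inner ℝ x (A f) = 0) → x = 0) :
    DenseRange A := by
  have h1 : (LinearMap.range A)ᗮ = ⊥ := by
    rw [Submodule.eq_bot_iff]
    intro x hx
    refine h x fun f => ?_
    rw [real_inner_comm]
    exact (Submodule.mem_orthogonal _ _).1 hx (A f) (LinearMap.mem_range_self A f)
  have h2 := (Submodule.topologicalClosure_eq_top_iff).2 h1
  rw [DenseRange, dense_iff_closure_eq]
  have h3 := congrArg (fun S : Submodule ℝ H => (S : Set H)) h2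
  rw [Submodule.topologicalClosure_coe, Submodule.top_coe] at h3
  rwa [LinearMap.coe_range] at h3

theorem sep_of_denseRange (A : W →ₗ[ℝ] H) (hA : DenseRange A) (x : H)
    (h : ∀ f, inner ℝ x (A f) = 0) : x = 0 := by
  have h1 : ∀ y : H, inner ℝ x y = 0 := by
    intro y
    exact hA.induction_on (p := fun y => inner ℝ x y = 0) y
      (isClosed_eq (continuous_const.inner continuous_id) continuous_const) h
  exact inner_self_eq_zero.1 (h1 x)

/-- **Neumann**: a small relative perturbation of an operator with dense range. -/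
theorem neumann (A B : W →ₗ[ℝ] H) {θ : ℝ} (hθ : θ < 1)
    (hAB : ∀ f, ‖B f - A f‖ ≤ θ * ‖A f‖) (hA : DenseRange A) : DenseRange B := by
  refine denseRange_of_sep B fun x hx => ?_
  have h1 : ∀ y : H, |inner ℝ x y| ≤ θ * ‖y‖ * ‖x‖ := by
    intro y
    refine hA.induction_on (p := fun y => |inner ℝ x y| ≤ θ * ‖y‖ * ‖x‖) y
      (isClosed_le ((continuous_const.inner continuous_id).abs) (by fun_prop)) fun f => ?_
    have h2 : inner ℝ x (A f) = - inner ℝ x (B f - A f) := by
      rw [inner_sub_right, hx f]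
      ring
    rw [h2, abs_neg]
    refine (abs_real_inner_le_norm _ _).trans ?_
    calc ‖x‖ * ‖B f - A f‖ ≤ ‖x‖ * (θ * ‖A f‖) :=
          mul_le_mul_of_nonneg_left (hAB f) (norm_nonneg _)
      _ = θ * ‖A f‖ * ‖x‖ := by ring
  have h2 := h1 x
  rw [real_inner_self_eq_norm_sq, abs_of_nonneg (sq_nonneg _)] at h2
  by_contra hne
  have h3 : 0 < ‖x‖ := norm_pos_iff.2 hne
  have h4 : 0 < (1 - θ) * ‖x‖ ^ 2 := by
    have : 0 < 1 - θ := by linarith
    positivity
  nlinarith

end hilb

/-- continuous functions of compact support. -/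
def CC (n : ℕ) : Submodule ℝ (E n → ℝ) where
  carrier := {u | Continuous u ∧ HasCompactSupport u}
  add_mem' := fun ha hb => ⟨ha.1.add hb.1, ha.2.add hb.2⟩
  zero_mem' := ⟨continuous_const, HasCompactSupport.zero⟩
  smul_mem' := fun c _ ha => ⟨ha.1.const_smul c, ha.2.smul_left⟩

/-- test functions as a submodule. -/
def TT (n : ℕ) : Submodule ℝ (E n → ℝ) where
  carrier := {u | Test u}
  add_mem' := fun ha hb => ⟨ha.1.add hb.1, ha.2.add hb.2⟩
  zero_mem' := ⟨contDiff_const, HasCompactSupport.zero⟩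
  smul_mem' := fun c _ ha => ⟨ha.1.const_smul c, ha.2.smul_left⟩

theorem memLp_cc {V : E n → ℝ} (hV : Continuous V) {u : E n → ℝ} (hu : u ∈ CC n) :
    MemLp (fun x => u x * Real.exp (-V x / 2)) 2 (volume : Measure (E n)) :=
  Continuous.memLp_of_hasCompactSupport
    (hu.1.mul (Real.continuous_exp.comp (hV.neg.div_const 2))) hu.2.mul_right

/-- `u ↦ u e^{-V/2}` -/
noncomputable def emb {V : E n → ℝ} (hV : Continuous V) :
    CC n →ₗ[ℝ] Lp ℝ 2 (volume : Measure (E n)) where
  toFun u := (memLp_cc hV u.2).toLp _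
  map_add' u v := by
    rw [← MemLp.toLp_add]
    congr 1
    funext x
    simp [add_mul]
  map_smul' c u := by
    rw [RingHom.id_apply, ← MemLp.toLp_const_smul]
    congr 1
    funext x
    simp [mul_assoc]

theorem inner_emb {V : E n → ℝ} (hV : Continuous V) (u v : CC n) :
    inner ℝ (emb hV u) (emb hV v) = ∫ x, u.1 x * v.1 x * Real.exp (-V x) := by
  rw [L2.inner_def]
  refine integral_congr_ae ?_
  filter_upwards [(memLp_cc hV u.2).coeFn_toLp, (memLp_cc hV v.2).coeFn_toLp] with x h1 h2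
  have h3 : (emb hV u : E n → ℝ) x = u.1 x * Real.exp (-V x / 2) := h1
  have h4 : (emb hV v : E n → ℝ) x = v.1 x * Real.exp (-V x / 2) := h2
  rw [h3, h4]
  simp only [RCLike.inner_apply, conj_trivial]
  have h5 : Real.exp (-V x) = Real.exp (-V x / 2) * Real.exp (-V x / 2) := by
    rw [← Real.exp_add]
    congr 1
    ring
  rw [h5]
  ring

theorem norm_sq_emb {V : E n → ℝ} (hV : Continuous V) (u : CC n) :
    ‖emb hV u‖ ^ 2 = ∫ x, u.1 x ^ 2 * Real.exp (-V x) := by
  rw [← real_inner_self_eq_norm_sq, inner_emb]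
  refine integral_congr_ae (Eventually.of_forall fun x => ?_)
  simp only
  ring

/-- the flat operator `Δ - ∇V·∇`. -/
noncomputable def L0 (V f : E n → ℝ) (x : E n) : ℝ :=
  (∑ i, hess f x i i) - ∑ i, pd i V x * pd i f x

/-- the interpolating operators. -/
noncomputable def Ls (ψ V : E n → ℝ) (s : ℝ) (f : E n → ℝ) (x : E n) : ℝ :=
  (1 - s) * L0 V f x + s * Lop ψ f x

theorem pd_add {f g : E n → ℝ} (hf : Differentiable ℝ f) (hg : Differentiable ℝ g) (i : Fin n) :
    pd i (f + g) = pd i f + pd i g := by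
  funext x
  have := ((hf x).hasFDerivAt.add (hg x).hasFDerivAt).fderiv
  simp only [pd, Pi.add_apply]
  rw [this]
  rfl

theorem pd_smul (c : ℝ) {f : E n → ℝ} (hf : Differentiable ℝ f) (i : Fin n) :
    pd i (c • f) = c • pd i f := by
  funext x
  have := ((hf x).hasFDerivAt.const_smul c).fderiv
  simp only [pd, Pi.smul_apply]
  rw [this]
  rfl

theorem test_diff {f : E n → ℝ} (hf : Test f) : Differentiable ℝ f :=
  hf.1.differentiable (by simp)

theorem pd_diff {f : E n → ℝ} (hf : Test f) (i : Fin n) : Differentiable ℝ (pd i f) :=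
  (contDiff_pd_top hf.1 i).differentiable (by simp)

theorem hess_add {f g : E n → ℝ} (hf : Test f) (hg : Test g) (x : E n) (i j : Fin n) :
    hess (f + g) x i j = hess f x i j + hess g x i j := by
  unfold hess
  rw [pd_add (test_diff hf) (test_diff hg), pd_add (pd_diff hf j) (pd_diff hg j)]
  rfl

theorem hess_smul (c : ℝ) {f : E n → ℝ} (hf : Test f) (x : E n) (i j : Fin n) :
    hess (c • f) x i j = c * hess f x i j := by
  unfold hess
  rw [pd_smul c (test_diff hf), pd_smul c (pd_diff hf j)]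
  rfl

theorem L0_add (V : E n → ℝ) {f g : E n → ℝ} (hf : Test f) (hg : Test g) (x : E n) :
    L0 V (f + g) x = L0 V f x + L0 V g x := by
  unfold L0
  simp only [hess_add hf hg, pd_add (test_diff hf) (test_diff hg), Pi.add_apply, mul_add,
    Finset.sum_add_distrib]
  ring

theorem L0_smul (V : E n → ℝ) (c : ℝ) {f : E n → ℝ} (hf : Test f) (x : E n) :
    L0 V (c • f) x = c * L0 V f x := by
  unfold L0
  simp only [hess_smul c hf, pd_smul c (test_diff hf), Pi.smul_apply, smul_eq_mul, mul_sub,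
    Finset.mul_sum]
  congr 1
  exact Finset.sum_congr rfl fun i _ => by ring

theorem Lop_add' (ψ : E n → ℝ) {f g : E n → ℝ} (hf : Test f) (hg : Test g) (x : E n) :
    Lop ψ (f + g) x = Lop ψ f x + Lop ψ g x := by
  unfold Lop
  simp only [hess_add hf hg, pd_add (test_diff hf) (test_diff hg), Pi.add_apply, mul_add,
    Finset.sum_add_distrib]
  ring

theorem Lop_smul' (ψ : E n → ℝ) (c : ℝ) {f : E n → ℝ} (hf : Test f) (x : E n) :
    Lop ψ (c • f) x = c * Lop ψ f x := by
  unfold Lop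
  simp only [hess_smul c hf, pd_smul c (test_diff hf), Pi.smul_apply, smul_eq_mul, mul_sub,
    Finset.mul_sum]
  congr 1
  · exact Finset.sum_congr rfl fun i _ => Finset.sum_congr rfl fun j _ => by ring
  · exact Finset.sum_congr rfl fun i _ => by ring

theorem L0_cc {V : E n → ℝ} (hV : ContDiff ℝ (⊤ : ℕ∞) V) {f : E n → ℝ} (hf : Test f) :
    L0 V f ∈ CC n := by
  refine ⟨?_, ?_⟩
  · unfold L0
    refine Continuous.sub (continuous_finsetSum _ fun i _ =>
      (continuous_hess (hf.1.of_le (by norm_cast)) i i)) (continuous_finsetSum _ fun i _ => ?_)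
    exact (contDiff_pd_top hV i).continuous.mul (contDiff_pd_top hf.1 i).continuous
  · have h1 : HasCompactSupport (fun x => ∑ i, hess f x i i) :=
      hasCompactSupport_sum _ fun i _ => hasCompactSupport_hess hf.2 i i
    have h2 : HasCompactSupport (fun x => ∑ i, pd i V x * pd i f x) :=
      hasCompactSupport_sum _ fun i _ => (hasCompactSupport_pd hf.2 i).mul_left
    exact h1.sub h2

theorem Lop_cc {ψ V : E n → ℝ} {c C M : ℝ} (hM : MM ψ V c C M) {f : E n → ℝ} (hf : Test f) :
    Lop ψ f ∈ CC n :=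
  ⟨hM.continuous_Lop (hf.1.of_le (by norm_cast)), hasCompactSupport_Lop ψ hf.2⟩

theorem TT_le : TT n ≤ CC n := fun _ hf => ⟨hf.1.continuous, hf.2⟩

/-- `f ↦ L0 f` -/
noncomputable def l0T {V : E n → ℝ} (hV : ContDiff ℝ (⊤ : ℕ∞) V) : TT n →ₗ[ℝ] CC n where
  toFun f := ⟨L0 V f, L0_cc hV f.2⟩
  map_add' f g := Subtype.ext (funext fun x => L0_add V f.2 g.2 x)
  map_smul' a f := Subtype.ext (funext fun x => L0_smul V a f.2 x)

/-- `f ↦ L f` -/
noncomputable def lT {ψ V : E n → ℝ} {c C M : ℝ} (hM : MM ψ V c C M) : TT n →ₗ[ℝ] CC n where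
  toFun f := ⟨Lop ψ f, Lop_cc hM f.2⟩
  map_add' f g := Subtype.ext (funext fun x => Lop_add' ψ f.2 g.2 x)
  map_smul' a f := Subtype.ext (funext fun x => Lop_smul' ψ a f.2 x)

/-- `lam - L_s` on test functions, with values in `CC n`. -/
noncomputable def opC {ψ V : E n → ℝ} {c C M : ℝ} (hV : ContDiff ℝ (⊤ : ℕ∞) V)
    (hM : MM ψ V c C M) (lam s : ℝ) : TT n →ₗ[ℝ] CC n :=
  lam • Submodule.inclusion TT_le - ((1 - s) • l0T hV + s • lT hM)

theorem opC_apply {ψ V : E n → ℝ} {c C M : ℝ} (hV : ContDiff ℝ (⊤ : ℕ∞) V)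
    (hM : MM ψ V c C M) (lam s : ℝ) (f : TT n) (x : E n) :
    (opC hV hM lam s f : E n → ℝ) x = lam * f.1 x - Ls ψ V s f.1 x := rfl

/-- `lam - L_s` on test functions, with values in `L²`. -/
noncomputable def opA {ψ V : E n → ℝ} {c C M : ℝ} (hV : ContDiff ℝ (⊤ : ℕ∞) V)
    (hM : MM ψ V c C M) (lam s : ℝ) : TT n →ₗ[ℝ] Lp ℝ 2 (volume : Measure (E n)) :=
  emb hV.continuous ∘ₗ opC hV hM lam s

theorem norm_sq_opA {ψ V : E n → ℝ} {c C M : ℝ} (hV : ContDiff ℝ (⊤ : ℕ∞) V)
    (hM : MM ψ V c C M) (lam s : ℝ) (f : TT n) :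
    ‖opA hV hM lam s f‖ ^ 2 = ∫ x, (lam * f.1 x - Ls ψ V s f.1 x) ^ 2 * Real.exp (-V x) :=
  norm_sq_emb hV.continuous _

theorem inner_lp_emb {V : E n → ℝ} (hV : Continuous V) (g : Lp ℝ 2 (volume : Measure (E n)))
    (u : CC n) : inner ℝ g (emb hV u) = ∫ x, g x * (u.1 x * Real.exp (-V x / 2)) := by
  rw [L2.inner_def]
  refine integral_congr_ae ?_
  filter_upwards [(memLp_cc hV u.2).coeFn_toLp] with x h2
  have h4 : (emb hV u : E n → ℝ) x = u.1 x * Real.exp (-V x / 2) := h2
  rw [h4]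
  simp only [RCLike.inner_apply, conj_trivial]
  ring

/-- **base case** -/
theorem base {ψ V : E n → ℝ} {c C M : ℝ} (hV : Nice V c C) (hM : MM ψ V c C M) {lam : ℝ}
    (hlam : n * C ≤ 2 * (lam - 1)) : DenseRange (opA hV.smooth hM lam 0) := by
  refine denseRange_of_sep _ fun g hg => ?_
  have hcont : Continuous V := hV.smooth.continuous
  have key : (fun x => g x * Real.exp (V x / 2)) =ᵐ[volume] (0 : E n → ℝ) := by
    refine base_unique (b := fun i : Fin n => (ei i : E n)) hV.smooth (lam := lam) ?_ ?_ ?_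
    · intro x
      refine le_trans ?_ hlam
      calc ∑ i, D (ei i) (D (ei i) V) x ≤ ∑ _i : Fin n, C := by
            refine Finset.sum_le_sum fun i _ => ?_
            have h1 := hV.upper x (ei i)
            rw [qf_single, norm_ei] at h1
            have h2 : D (ei i) (D (ei i) V) x = hess V x i i := rfl
            rw [h2]
            linarith
        _ = n * C := by simp
    · refine (Lp.memLp g).congr_norm ?_ ?_
      · refine (Lp.aestronglyMeasurable g).mul ?_ |>.mul ?_
        · exact (Real.continuous_exp.comp (hcont.div_const 2)).aestronglyMeasurable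
        · exact (Real.continuous_exp.comp (hcont.neg.div_const 2)).aestronglyMeasurable
      · refine Eventually.of_forall fun x => ?_
        have h5 : Real.exp (V x / 2) * Real.exp (-V x / 2) = 1 := by
          rw [← Real.exp_add]
          simp [neg_div]
        rw [mul_assoc, h5, mul_one]
    · intro G hG1 hG2
      have h1 := hg ⟨G, hG1, hG2⟩
      rw [opA, LinearMap.comp_apply, inner_lp_emb] at h1
      rw [← h1]
      refine integral_congr_ae (Eventually.of_forall fun x => ?_)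
      simp only
      rw [opC_apply]
      have h5 : Real.exp (V x / 2) * Real.exp (-V x) = Real.exp (-V x / 2) := by
        rw [← Real.exp_add]
        congr 1
        ring
      have h6 : Ls ψ V 0 G x = ∑ i, D (ei i) (D (ei i) G) x - ∑ i, D (ei i) V x * D (ei i) G x := by
        unfold Ls L0
        rw [sub_zero, one_mul, zero_mul, add_zero]
        rfl
      rw [h6]
      rw [← h5]
      ring
  rw [Lp.eq_zero_iff_ae_eq_zero]
  filter_upwards [key] with x hx
  exact (mul_eq_zero.1 hx).resolve_right (Real.exp_pos _).ne'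

/-- the a priori bound. -/
def StmtApri : Prop := ∀ (n : ℕ) (ψ V : E n → ℝ) (c C M : ℝ), Nice V c C → MM ψ V c C M →
  ∀ lam : ℝ, 1 ≤ lam → ∃ K : ℝ, 0 ≤ K ∧ ∀ s : ℝ, 0 ≤ s → s ≤ 1 → ∀ F : E n → ℝ, Test F →
    ∫ x, (Lop ψ F x - L0 V F x) ^ 2 * Real.exp (-V x) ≤
      K * ∫ x, (lam * F x - Ls ψ V s F x) ^ 2 * Real.exp (-V x)

theorem opA_sub {ψ V : E n → ℝ} {c C M : ℝ} (hV : ContDiff ℝ (⊤ : ℕ∞) V)
    (hM : MM ψ V c C M) (lam s t : ℝ) (f : TT n) :
    opA hV hM lam t f - opA hV hM lam s f =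
      (-(t - s)) • emb hV.continuous (lT hM f - l0T hV f) := by
  unfold opA
  rw [LinearMap.comp_apply, LinearMap.comp_apply, ← map_sub, ← map_smul]
  congr 1
  apply Subtype.ext
  funext x
  simp only [opC, LinearMap.sub_apply, LinearMap.add_apply, LinearMap.smul_apply,
    Submodule.coe_sub, Submodule.coe_add, Submodule.coe_smul, Pi.sub_apply, Pi.add_apply,
    Pi.smul_apply, smul_eq_mul]
  ring

theorem step {ψ V : E n → ℝ} {c C M : ℝ} (hV : ContDiff ℝ (⊤ : ℕ∞) V)
    (hM : MM ψ V c C M) {lam K s t : ℝ} (hK : 0 ≤ K)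
    (hb : ∀ F : E n → ℝ, Test F →
      ∫ x, (Lop ψ F x - L0 V F x) ^ 2 * Real.exp (-V x) ≤
      K * ∫ x, (lam * F x - Ls ψ V s F x) ^ 2 * Real.exp (-V x))
    (hst : |t - s| * Real.sqrt K < 1) (hd : DenseRange (opA hV hM lam s)) :
    DenseRange (opA hV hM lam t) := by
  refine neumann (opA hV hM lam s) (opA hV hM lam t) hst (fun f => ?_) hd
  rw [opA_sub, norm_smul, norm_neg, Real.norm_eq_abs, mul_assoc]
  refine mul_le_mul_of_nonneg_left ?_ (abs_nonneg _)
  refine abs_le_of_sq_le_sq' ?_ (by positivity) |>.2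
  rw [mul_pow, Real.sq_sqrt hK, norm_sq_emb, norm_sq_opA]
  exact hb f.1 f.2

theorem chain {ψ V : E n → ℝ} {c C M : ℝ} (hV : ContDiff ℝ (⊤ : ℕ∞) V)
    (hM : MM ψ V c C M) {lam K : ℝ} (hK : 0 ≤ K)
    (hb : ∀ s : ℝ, 0 ≤ s → s ≤ 1 → ∀ F : E n → ℝ, Test F →
      ∫ x, (Lop ψ F x - L0 V F x) ^ 2 * Real.exp (-V x) ≤
      K * ∫ x, (lam * F x - Ls ψ V s F x) ^ 2 * Real.exp (-V x))
    (hd : DenseRange (opA hV hM lam 0)) : DenseRange (opA hV hM lam 1) := by
  obtain ⟨N, hN⟩ := exists_nat_gt (Real.sqrt K)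
  have hN0 : (0 : ℝ) < N := (Real.sqrt_nonneg K).trans_lt hN
  have h1 : ∀ k : ℕ, k ≤ N → DenseRange (opA hV hM lam ((k : ℝ) / N)) := by
    intro k
    induction k with
    | zero => intro _; simpa using hd
    | succ k ih =>
      intro hk
      have hk' : (k : ℝ) ≤ N := by exact_mod_cast (Nat.le_of_succ_le hk)
      refine step hV hM hK (hb ((k : ℝ) / N) (by positivity) (by
        rw [div_le_one hN0]; exact hk')) ?_ (ih (Nat.le_of_succ_le hk))
      have h2 : ((k + 1 : ℕ) : ℝ) / N - (k : ℝ) / N = 1 / N := by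
        push_cast
        ring
      rw [h2, abs_of_pos (by positivity), one_div, inv_mul_lt_iff₀ hN0]
      linarith
  have h2 := h1 N le_rfl
  rwa [div_self hN0.ne'] at h2

theorem inner_lop {ψ V : E n → ℝ} {c C M : ℝ} (hIBP : StmtIBP) (hV : Nice V c C)
    (hM : MM ψ V c C M) (f : TT n) :
    inner ℝ (emb hV.smooth.continuous (lT hM f))
      (emb hV.smooth.continuous (Submodule.inclusion TT_le f)) ≤ 0 := by
  rw [inner_emb]
  have h1 := hIBP n ψ V c C M hV hM f.1 f.1 f.2 f.2.1
  have hZ := hV.toReg.Z_pos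
  have h2 : Ex V (fun x => ∑ b, pd b f.1 x * fld ψ f.1 b x) ≥ 0 := by
    unfold Ex
    refine div_nonneg (integral_nonneg fun x => ?_) hZ.le
    refine mul_nonneg ?_ (Real.exp_pos _).le
    have h3 := hM.qf_tau_nonneg x (WithLp.toLp 2 (fun i => pd i f.1 x))
    have h4 : (∑ b, pd b f.1 x * fld ψ f.1 b x) =
        qf (tau ψ x) (WithLp.toLp 2 (fun i => pd i f.1 x)) := by
      unfold qf fld
      refine Finset.sum_congr rfl fun i _ => ?_
      rw [Finset.mul_sum]
      refine Finset.sum_congr rfl fun j _ => ?_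
      simp only
      ring
    show 0 ≤ ∑ b, pd b f.1 x * fld ψ f.1 b x
    rw [h4]
    exact h3
  rw [← h1] at h2
  unfold Ex at h2
  have h5 : 0 ≤ ∫ x, -(Lop ψ f.1 x) * f.1 x * Real.exp (-V x) := by
    by_contra hneg
    have := div_neg_of_neg_of_pos (not_le.1 hneg) hZ
    linarith
  have h6 : ∫ x, -(Lop ψ f.1 x) * f.1 x * Real.exp (-V x) =
      -∫ x, Lop ψ f.1 x * f.1 x * Real.exp (-V x) := by
    rw [← integral_neg]
    refine integral_congr_ae (Eventually.of_forall fun x => ?_)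
    simp only
    ring
  rw [h6] at h5
  have h7 : ∫ x, (lT hM f : E n → ℝ) x * (Submodule.inclusion TT_le f : CC n).1 x *
      Real.exp (-V x) = ∫ x, Lop ψ f.1 x * f.1 x * Real.exp (-V x) := rfl
  rw [h7]
  linarith

theorem toOne {ψ V : E n → ℝ} {c C M : ℝ} (hIBP : StmtIBP) (hV : Nice V c C)
    (hM : MM ψ V c C M) {lam : ℝ} (hlam : 1 ≤ lam)
    (hd : DenseRange (opA hV.smooth hM lam 1)) : DenseRange (opA hV.smooth hM 1 1) := by
  have hl0 : 0 < lam := by linarith
  refine neumann (opA hV.smooth hM lam 1) (opA hV.smooth hM 1 1) (θ := (lam - 1) / lam)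
    (by rw [div_lt_one hl0]; linarith) (fun f => ?_) hd
  set J : Lp ℝ 2 (volume : Measure (E n)) :=
    emb hV.smooth.continuous (Submodule.inclusion TT_le f) with hJ
  set Lf : Lp ℝ 2 (volume : Measure (E n)) := emb hV.smooth.continuous (lT hM f) with hL
  have h0 : inner ℝ Lf J ≤ 0 := inner_lop hIBP hV hM f
  have hA : ∀ μ : ℝ, opA hV.smooth hM μ 1 f = μ • J - Lf := by
    intro μ
    rw [hJ, hL, ← map_smul, ← map_sub]
    unfold opA
    rw [LinearMap.comp_apply]
    congr 1
    apply Subtype.ext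
    funext x
    simp only [opC, LinearMap.sub_apply, LinearMap.add_apply, LinearMap.smul_apply,
      Submodule.coe_sub, Submodule.coe_add, Submodule.coe_smul, Pi.sub_apply, Pi.add_apply,
      Pi.smul_apply, smul_eq_mul]
    ring
  have h1 : opA hV.smooth hM 1 1 f - opA hV.smooth hM lam 1 f = (-(lam - 1)) • J := by
    rw [hA, hA]
    module
  have h2 : lam * ‖J‖ ≤ ‖opA hV.smooth hM lam 1 f‖ := by
    rw [hA]
    have h3 : lam * ‖J‖ ^ 2 ≤ ‖lam • J - Lf‖ * ‖J‖ := by
      refine le_trans ?_ (real_inner_le_norm _ _)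
      rw [inner_sub_left, real_inner_smul_left, real_inner_self_eq_norm_sq]
      linarith
    rcases (norm_nonneg J).eq_or_lt with h4 | h4
    · rw [← h4, mul_zero]
      exact norm_nonneg _
    · nlinarith
  rw [h1, norm_smul, norm_neg, Real.norm_eq_abs, abs_of_nonneg (by linarith)]
  have h5 : ‖J‖ ≤ ‖opA hV.smooth hM lam 1 f‖ / lam := by
    rw [le_div_iff₀ hl0]
    linarith
  calc (lam - 1) * ‖J‖ ≤ (lam - 1) * (‖opA hV.smooth hM lam 1 f‖ / lam) :=
        mul_le_mul_of_nonneg_left h5 (by linarith)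
    _ = (lam - 1) / lam * ‖opA hV.smooth hM lam 1 f‖ := by ring

/-- **essential self-adjointness from the a priori bound**. -/
theorem stmtESA_of_apri (hIBP : StmtIBP) (hap : StmtApri) : StmtESA := by
  intro n ψ V c C M hV hM h hh hort
  have hcont : Continuous V := hV.smooth.continuous
  set lam : ℝ := 1 + n * |C| / 2 with hlam
  have hl1 : 1 ≤ lam := by
    have : (0 : ℝ) ≤ n * |C| / 2 := by positivity
    linarith
  have hl2 : (n : ℝ) * C ≤ 2 * (lam - 1) := by
    have : (n : ℝ) * C ≤ n * |C| := mul_le_mul_of_nonneg_left (le_abs_self C) (by positivity)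
    rw [hlam]
    linarith
  obtain ⟨K, hK, hb⟩ := hap n ψ V c C M hV hM lam hl1
  have hd : DenseRange (opA hV.smooth hM 1 1) :=
    toOne hIBP hV hM hl1 (chain hV.smooth hM hK hb (base hV hM hl2))
  have hae : AEStronglyMeasurable h volume := aesm_of_memLp hcont hh
  have hsq : Integrable (fun x => h x ^ 2 * Real.exp (-V x)) := int_sq_of_memLp hcont hh
  have hmeas : AEStronglyMeasurable (fun x => h x * Real.exp (-V x / 2)) volume :=
    hae.mul (Real.continuous_exp.comp (hcont.neg.div_const 2)).aestronglyMeasurable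
  have hm : MemLp (fun x => h x * Real.exp (-V x / 2)) 2 (volume : Measure (E n)) := by
    rw [memLp_two_iff_integrable_sq hmeas]
    refine hsq.congr (Eventually.of_forall fun x => ?_)
    simp only
    have h5 : Real.exp (-V x) = Real.exp (-V x / 2) * Real.exp (-V x / 2) := by
      rw [← Real.exp_add]
      congr 1
      ring
    rw [h5]
    ring
  have h0 : hm.toLp _ = 0 := by
    refine sep_of_denseRange _ hd _ fun f => ?_
    rw [opA, LinearMap.comp_apply, inner_lp_emb, ← hort f.1 f.2]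
    refine integral_congr_ae ?_
    filter_upwards [hm.coeFn_toLp] with x hx
    rw [hx, opC_apply]
    unfold Ls
    have h5 : Real.exp (-V x) = Real.exp (-V x / 2) * Real.exp (-V x / 2) := by
      rw [← Real.exp_add]
      congr 1
      ring
    rw [h5]
    ring
  rw [Lp.eq_zero_iff_ae_eq_zero] at h0
  filter_upwards [h0, hm.coeFn_toLp] with x hx1 hx2
  rw [hx2] at hx1
  exact (mul_eq_zero.1 hx1).resolve_right (Real.exp_pos _).ne'

end Vale.Agent.P227.M.LIN.Co
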