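import Mathlib

/-!
# P227, block LIN: the abstract density lemma

`H` real Hilbert space, `ι : 𝓕 → H` a linear map from a space of functions, `G` the graph of the
resolvent `R = (lam - L)⁻¹` (pairs `(g, F)` with `lam F - L F = g`).  If `R` is symmetric, has gap
`1` and gap `1 + c`, then the functions `L (L+1) R² g = lam (lam+1) R² g - (2 lam+1) R g + g` are
dense.
-/

namespace Vale.Agent.P227.M.LIN

open scoped RealInnerProductSpace
open Filter Topology

variable {H : Type*} [NormedAddCommGroup H] [InnerProductSpace ℝ H]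
variable {X : Type*} [AddCommGroup X] [Module ℝ X]

/-- bound of the resolvent -/
theorem res_bound (ι : X →ₗ[ℝ] H) (G : Submodule ℝ (X × X)) (lam : ℝ) (hlam : 0 < lam)
    (hgap : ∀ p ∈ G, ‖ι p.2‖ ^ 2 ≤ ⟪ι p.1, ι p.2⟫ - lam * ‖ι p.2‖ ^ 2)
    (p : X × X) (hp : p ∈ G) : ‖ι p.2‖ ≤ ‖ι p.1‖ := by
  have h1 := hgap p hp
  have h2 := real_inner_le_norm (ι p.1) (ι p.2)
  have h3 := norm_nonneg (ι p.2)
  have h4 := norm_nonneg (ι p.1)
  by_contra hcon
  push Not at hcon
  have h5 : ‖ι p.1‖ * ‖ι p.2‖ < ‖ι p.2‖ * ‖ι p.2‖ := by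
    apply mul_lt_mul_of_pos_right hcon
    linarith
  nlinarith

/-- if `ι gₙ` is Cauchy then the images of the resolvents converge -/
theorem res_tendsto [CompleteSpace H] (ι : X →ₗ[ℝ] H) (G : Submodule ℝ (X × X)) (lam : ℝ) (hlam : 0 < lam)
    (hgap : ∀ p ∈ G, ‖ι p.2‖ ^ 2 ≤ ⟪ι p.1, ι p.2⟫ - lam * ‖ι p.2‖ ^ 2)
    (g F : ℕ → X) (hG : ∀ n, (g n, F n) ∈ G) (h : H)
    (hg : Tendsto (fun n => ι (g n)) atTop (𝓝 h)) :
    ∃ y : H, Tendsto (fun n => ι (F n)) atTop (𝓝 y) := by
  apply cauchySeq_tendsto_of_complete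
  have hc : CauchySeq fun n => ι (g n) := hg.cauchySeq
  rw [Metric.cauchySeq_iff] at hc ⊢
  intro ε hε
  obtain ⟨N, hN⟩ := hc ε hε
  refine ⟨N, fun m hm n hn => lt_of_le_of_lt ?_ (hN m hm n hn)⟩
  have h1 := res_bound ι G lam hlam hgap ((g m, F m) - (g n, F n)) (G.sub_mem (hG m) (hG n))
  simp only [Prod.snd_sub, Prod.fst_sub, map_sub] at h1
  rw [dist_eq_norm, dist_eq_norm]
  exact h1

/-- **the abstract density lemma** -/
theorem dense_poly [CompleteSpace H] (ι : X →ₗ[ℝ] H) (G : Submodule ℝ (X × X)) (D : Submodule ℝ X)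
    (lam c : ℝ) (hlam : 0 < lam) (hc : 0 < c)
    (hD : ∀ g ∈ D, ∃ F1 F2, (g, F1) ∈ G ∧ (F1, F2) ∈ G)
    (hsym : ∀ p ∈ G, ∀ q ∈ G, ⟪ι p.1, ι q.2⟫ = ⟪ι p.2, ι q.1⟫)
    (hgap : ∀ p ∈ G, ‖ι p.2‖ ^ 2 ≤ ⟪ι p.1, ι p.2⟫ - lam * ‖ι p.2‖ ^ 2)
    (hgap2 : ∀ p ∈ G, (1 + c) * (⟪ι p.1, ι p.2⟫ - lam * ‖ι p.2‖ ^ 2)
      ≤ ‖lam • ι p.2 - ι p.1‖ ^ 2)
    (hGK : ∀ p ∈ G, ι p.2 ∈ closure (ι '' (D : Set X)))
    (f : H) (hf : f ∈ closure (ι '' (D : Set X))) (ε : ℝ) (hε : 0 < ε) :
    ∃ g ∈ D, ∃ F1 F2, (g, F1) ∈ G ∧ (F1, F2) ∈ G ∧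
      ‖(lam * (lam + 1)) • ι F2 - (2 * lam + 1) • ι F1 + ι g - f‖ < ε := by
  -- the submodule of the values
  let W : Submodule ℝ H :=
    { carrier := {w | ∃ g ∈ D, ∃ F1 F2, (g, F1) ∈ G ∧ (F1, F2) ∈ G ∧
        w = (lam * (lam + 1)) • ι F2 - (2 * lam + 1) • ι F1 + ι g}
      add_mem' := by
        rintro a b ⟨g, hg, F1, F2, h1, h2, rfl⟩ ⟨g', hg', F1', F2', h1', h2', rfl⟩
        refine ⟨g + g', D.add_mem hg hg', F1 + F1', F2 + F2', ?_, ?_, ?_⟩
        · exact G.add_mem h1 h1'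
        · exact G.add_mem h2 h2'
        · simp only [map_add, smul_add]
          abel
      zero_mem' := by
        refine ⟨0, D.zero_mem, 0, 0, G.zero_mem, G.zero_mem, by simp⟩
      smul_mem' := by
        rintro r a ⟨g, hg, F1, F2, h1, h2, rfl⟩
        refine ⟨r • g, D.smul_mem r hg, r • F1, r • F2, ?_, ?_, ?_⟩
        · exact G.smul_mem r h1
        · exact G.smul_mem r h2
        · simp only [map_smul, smul_add, smul_sub, smul_smul, mul_comm] }
  let K : Submodule ℝ H := (D.map ι).topologicalClosure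
  have hKc : (K : Set H) = closure (ι '' (D : Set X)) := by
    simp [K, Submodule.topologicalClosure_coe, Submodule.map_coe]
  have hWK : W ≤ K := by
    rintro a ⟨g, hg, F1, F2, h1, h2, rfl⟩
    have e1 : ι F1 ∈ K := by
      rw [← SetLike.mem_coe, hKc]; exact hGK _ h1
    have e2 : ι F2 ∈ K := by
      rw [← SetLike.mem_coe, hKc]; exact hGK _ h2
    have e3 : ι g ∈ K := by
      rw [← SetLike.mem_coe, hKc]; exact subset_closure ⟨g, hg, rfl⟩
    exact K.add_mem (K.sub_mem (K.smul_mem _ e2) (K.smul_mem _ e1)) e3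
  have hWcK : W.topologicalClosure ≤ K :=
    Submodule.topologicalClosure_minimal _ hWK (Submodule.isClosed_topologicalClosure _)
  -- projection
  have hfW : f ∈ W.topologicalClosure := by
    have : CompleteSpace W.topologicalClosure :=
      (Submodule.isClosed_topologicalClosure W).completeSpace_coe
    obtain ⟨f1, hf1, h0, hh0, hsum⟩ :=
      W.topologicalClosure.exists_add_mem_mem_orthogonal f
    have hfK : f ∈ K := by rw [← SetLike.mem_coe, hKc]; exact hf
    have h0K : h0 ∈ K := by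
      have : h0 = f - f1 := by rw [hsum]; abel
      rw [this]
      exact K.sub_mem hfK (hWcK hf1)
    have horth : ∀ w ∈ W, ⟪h0, w⟫ = 0 := by
      intro w hw
      have := (Submodule.mem_orthogonal' _ _).1 hh0 w (W.le_topologicalClosure hw)
      exact this
    -- the sequences
    have h0cl : h0 ∈ closure (ι '' (D : Set X)) := by rw [← hKc]; exact h0K
    obtain ⟨s, hs, hst⟩ := mem_closure_iff_seq_limit.1 h0cl
    choose g hgD hgs using hs
    have hgt : Tendsto (fun n => ι (g n)) atTop (𝓝 h0) := by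
      simpa only [hgs] using hst
    choose F1 F2 hF1 hF2 using fun n => hD (g n) (hgD n)
    obtain ⟨y, hy⟩ := res_tendsto ι G lam hlam hgap g F1 hF1 h0 hgt
    obtain ⟨z, hz⟩ := res_tendsto ι G lam hlam hgap F1 F2 hF2 y hy
    have hKcl : IsClosed (K : Set H) := Submodule.isClosed_topologicalClosure _
    have hyK : y ∈ K := by
      apply hKcl.mem_of_tendsto hy
      filter_upwards with n
      rw [hKc]
      exact hGK _ (hF1 n)
    have hzK : z ∈ K := by
      apply hKcl.mem_of_tendsto hz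
      filter_upwards with n
      rw [hKc]
      exact hGK _ (hF2 n)
    -- p(R) h0 = 0
    have hp : (lam * (lam + 1)) • z - (2 * lam + 1) • y + h0 = 0 := by
      set e := (lam * (lam + 1)) • z - (2 * lam + 1) • y + h0 with he
      have heK : e ∈ K := K.add_mem (K.sub_mem (K.smul_mem _ hzK) (K.smul_mem _ hyK)) h0K
      have hort : ∀ a ∈ D, ⟪e, ι a⟫ = 0 := by
        intro a ha
        obtain ⟨A1, A2, hA1, hA2⟩ := hD a ha
        have w0 := horth _ (show (lam * (lam + 1)) • ι A2 - (2 * lam + 1) • ι A1 + ι a ∈ W from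
          ⟨a, ha, A1, A2, hA1, hA2, rfl⟩)
        have t1 : ⟪h0, ι A1⟫ = ⟪y, ι a⟫ := by
          have l1 : Tendsto (fun n => ⟪ι (g n), ι A1⟫) atTop (𝓝 ⟪h0, ι A1⟫) :=
            hgt.inner tendsto_const_nhds
          have l2 : Tendsto (fun n => ⟪ι (F1 n), ι a⟫) atTop (𝓝 ⟪y, ι a⟫) :=
            hy.inner tendsto_const_nhds
          have : (fun n => ⟪ι (g n), ι A1⟫) = fun n => ⟪ι (F1 n), ι a⟫ := by
            funext n
            exact hsym _ (hF1 n) _ hA1
          rw [this] at l1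
          exact tendsto_nhds_unique l1 l2
        have t2 : ⟪h0, ι A2⟫ = ⟪z, ι a⟫ := by
          have l1 : Tendsto (fun n => ⟪ι (g n), ι A2⟫) atTop (𝓝 ⟪h0, ι A2⟫) :=
            hgt.inner tendsto_const_nhds
          have l2 : Tendsto (fun n => ⟪ι (F2 n), ι a⟫) atTop (𝓝 ⟪z, ι a⟫) :=
            hz.inner tendsto_const_nhds
          have : (fun n => ⟪ι (g n), ι A2⟫) = fun n => ⟪ι (F2 n), ι a⟫ := by
            funext n
            have u1 := hsym _ (hF1 n) _ hA2
            have u2 := hsym _ (hF2 n) _ hA1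
            simp only at u1 u2
            rw [u1, u2]
          rw [this] at l1
          exact tendsto_nhds_unique l1 l2
        rw [he, inner_add_left, inner_sub_left, real_inner_smul_left, real_inner_smul_left]
        rw [inner_add_right, inner_sub_right, real_inner_smul_right, real_inner_smul_right,
          t1, t2] at w0
        exact w0
      have hort2 : ∀ a ∈ closure (ι '' (D : Set X)), ⟪e, a⟫ = 0 := by
        intro a ha
        obtain ⟨s', hs', hst'⟩ := mem_closure_iff_seq_limit.1 ha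
        have l1 : Tendsto (fun n => ⟪e, s' n⟫) atTop (𝓝 ⟪e, a⟫) := tendsto_const_nhds.inner hst'
        have : (fun n => ⟪e, s' n⟫) = fun _ => (0 : ℝ) := by
          funext n
          obtain ⟨a', ha', haa⟩ := hs' n
          rw [← haa]
          exact hort a' ha'
        rw [this] at l1
        exact tendsto_nhds_unique l1 tendsto_const_nhds
      have := hort2 e (by rw [← hKc]; exact heK)
      exact inner_self_eq_zero.1 this
    -- h1 = 0
    have hgapL : ∀ (a b : ℕ → X) (u v : H), (∀ n, (a n, b n) ∈ G) →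
        Tendsto (fun n => ι (a n)) atTop (𝓝 u) → Tendsto (fun n => ι (b n)) atTop (𝓝 v) →
        ‖v‖ ^ 2 ≤ ⟪u, v⟫ - lam * ‖v‖ ^ 2 ∧
        (1 + c) * (⟪u, v⟫ - lam * ‖v‖ ^ 2) ≤ ‖lam • v - u‖ ^ 2 := by
      intro a b u v hab hu hv
      have n1 : Tendsto (fun n => ‖ι (b n)‖ ^ 2) atTop (𝓝 (‖v‖ ^ 2)) := hv.norm.pow 2
      have n2 : Tendsto (fun n => ⟪ι (a n), ι (b n)⟫) atTop (𝓝 ⟪u, v⟫) := hu.inner hv
      have n3 : Tendsto (fun n => ‖lam • ι (b n) - ι (a n)‖ ^ 2) atTop (𝓝 (‖lam • v - u‖ ^ 2)) :=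
        ((hv.const_smul lam).sub hu).norm.pow 2
      constructor
      · exact le_of_tendsto_of_tendsto' n1 (n2.sub (n1.const_mul lam))
          (fun n => hgap _ (hab n))
      · exact le_of_tendsto_of_tendsto' ((n2.sub (n1.const_mul lam)).const_mul (1 + c)) n3
          (fun n => hgap2 _ (hab n))
    have hR1 : (lam + 1) • z - y = 0 := by
      have q1 := (hgapL (fun n => (lam + 1) • F1 n - g n) (fun n => (lam + 1) • F2 n - F1 n)
        ((lam + 1) • y - h0) ((lam + 1) • z - y)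
        (fun n => G.sub_mem (G.smul_mem (lam + 1) (hF2 n)) (hF1 n))
        (by simpa only [map_sub, map_smul] using (hy.const_smul (lam + 1)).sub hgt)
        (by simpa only [map_sub, map_smul] using (hz.const_smul (lam + 1)).sub hy)).1
      have q2 : (lam + 1) • y - h0 = lam • ((lam + 1) • z - y) := by
        have : lam • ((lam + 1) • z - y) - ((lam + 1) • y - h0) = 0 := by
          rw [← hp]
          module
        exact (sub_eq_zero.1 this).symm
      rw [q2, real_inner_smul_left, real_inner_self_eq_norm_sq] at q1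
      have : ‖(lam + 1) • z - y‖ ^ 2 ≤ 0 := by linarith
      have := pow_eq_zero_iff (two_ne_zero) |>.1 (le_antisymm this (sq_nonneg _))
      exact norm_eq_zero.1 this
    have hh1 : h0 = (lam + 1) • y := by
      have : lam • ((lam + 1) • z - y) - ((lam + 1) • y - h0) = 0 := by
        rw [← hp]
        module
      rw [hR1, smul_zero, zero_sub, neg_eq_zero, sub_eq_zero] at this
      exact this.symm
    have hy0 : y = 0 := by
      have q := (hgapL g F1 h0 y hF1 hgt hy).2
      rw [hh1, real_inner_smul_left, real_inner_self_eq_norm_sq] at q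
      have e1 : lam • y - (lam + 1) • y = -y := by module
      rw [e1, norm_neg] at q
      have : ‖y‖ ^ 2 ≤ 0 := by nlinarith [sq_nonneg ‖y‖]
      have := pow_eq_zero_iff (two_ne_zero) |>.1 (le_antisymm this (sq_nonneg _))
      exact norm_eq_zero.1 this
    have : h0 = 0 := by rw [hh1, hy0, smul_zero]
    rw [hsum, this, add_zero]
    exact hf1
  have hfW' : f ∈ closure (W : Set H) := by
    rw [← Submodule.topologicalClosure_coe]; exact hfW
  obtain ⟨w, hw, hwd⟩ := Metric.mem_closure_iff.1 hfW' ε hε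
  obtain ⟨g, hg, F1, F2, h1, h2, rfl⟩ := hw
  refine ⟨g, hg, F1, F2, h1, h2, ?_⟩
  rw [dist_eq_norm, norm_sub_rev] at hwd
  exact hwd

end Vale.Agent.P227.M.LIN
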