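import Vale.Agent.P227.M.LIN.Moll

/-! # Standard mollifiers `stdM ε`, swap, integration by parts, `L²` sequences -/

open MeasureTheory Filter Topology
open scoped ContDiff

namespace Vale.Agent.P227.Moll

variable {E : Type*} [NormedAddCommGroup E] [InnerProductSpace ℝ E] [FiniteDimensional ℝ E]
  [MeasurableSpace E] [BorelSpace E]

/-- derivative of a mollification of a `C¹` function -/
lemma fderiv_mo' {G : Type*} [NormedAddCommGroup G] [NormedSpace ℝ G] {ρ : E → ℝ}
    (hρ : LocallyIntegrable ρ volume) {g : E → G}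
    (hg : ContDiff ℝ 1 g) (hc : HasCompactSupport g) (x e : E) :
    fderiv ℝ (mo ρ g) x e = mo ρ (fun y => fderiv ℝ g y e) x := by
  have h1 := hc.hasFDerivAt_convolution_right
    ((ContinuousLinearMap.lsmul ℝ ℝ : ℝ →L[ℝ] G →L[ℝ] G)) hρ hg x
  have h2 := h1.fderiv
  rw [← mo_eq_conv'] at h2
  rw [h2, convolution_precompR_apply _ hρ (hc.fderiv ℝ) (hg.continuous_fderiv (by simp)),
    mo_eq_conv']

/-- moving an even mollifier to the other side -/
lemma mo_swap {ρ : E → ℝ} (hρ : Continuous ρ) (hc : HasCompactSupport ρ) (he : ∀ x, ρ (-x) = ρ x)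
    {p G : E → ℝ} (hp : Integrable p) (hG : Continuous G) (hGc : HasCompactSupport G) :
    ∫ x, p x * mo ρ G x = ∫ x, mo ρ p x * G x := by
  have hρi : Integrable ρ := hρ.integrable_of_hasCompactSupport hc
  have h1 := hp.convolution_integrand (ContinuousLinearMap.mul ℝ ℝ) hρi (μ := volume) (ν := volume)
  obtain ⟨B, hB⟩ := hGc.exists_bound_of_continuous hG
  have h2 : Integrable (fun z : E × E => (p z.2 * ρ (z.1 - z.2)) * G z.1)
      ((volume : Measure E).prod volume) := by
    refine Integrable.mul_bdd (c := B) h1 ?_ (Eventually.of_forall fun z => hB z.1)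
    exact (hG.comp continuous_fst).aestronglyMeasurable
  have h3 := integral_integral_swap (f := fun x y : E => (p y * ρ (x - y)) * G x) h2
  have e1 : ∫ x, ∫ y, (p y * ρ (x - y)) * G x = ∫ x, mo ρ p x * G x := by
    refine integral_congr_ae (Eventually.of_forall fun x => ?_)
    simp only [mo, smul_eq_mul]
    rw [integral_mul_const]
    congr 1
    refine integral_congr_ae (Eventually.of_forall fun y => ?_)
    simp only []
    ring
  have e2 : ∫ y, ∫ x, (p y * ρ (x - y)) * G x = ∫ y, p y * mo ρ G y := by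
    refine integral_congr_ae (Eventually.of_forall fun y => ?_)
    simp only [mo, smul_eq_mul]
    rw [← integral_const_mul]
    refine integral_congr_ae (Eventually.of_forall fun x => ?_)
    simp only []
    rw [show y - x = -(x - y) by abel, he]
    ring
  rw [← e1, ← e2, h3]

/-- integration by parts -/
lemma ibp {u g : E → ℝ} (hu : ContDiff ℝ 1 u) (hg : ContDiff ℝ 1 g) (hc : HasCompactSupport g)
    (e : E) : ∫ x, u x * fderiv ℝ g x e = - ∫ x, fderiv ℝ u x e * g x := by
  have hu' : Continuous (fun x => fderiv ℝ u x e) :=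
    (hu.continuous_fderiv (by simp)).clm_apply continuous_const
  have hg' : Continuous (fun x => fderiv ℝ g x e) :=
    (hg.continuous_fderiv (by simp)).clm_apply continuous_const
  have hc' : HasCompactSupport (fun x => fderiv ℝ g x e) :=
    (hc.fderiv ℝ).comp_left (g := fun L : E →L[ℝ] ℝ => L e) (by simp)
  refine integral_mul_fderiv_eq_neg_fderiv_mul_of_integrable ?_ ?_ ?_
    (fun x _ => hu.differentiable (by simp) x) (fun x _ => hg.differentiable (by simp) x)
  · exact (hu'.mul hg.continuous).integrable_of_hasCompactSupport hc.mul_left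
  · exact (hu.continuous.mul hg').integrable_of_hasCompactSupport hc'.mul_left
  · exact (hu.continuous.mul hg.continuous).integrable_of_hasCompactSupport hc.mul_left

section std

variable (E)

/-- the reference bump -/
noncomputable def bmp : ContDiffBump (0 : E) := ⟨1 / 2, 1, by norm_num, by norm_num⟩

/-- the reference mollifier -/
noncomputable def eta : E → ℝ := (bmp E).normed volume

variable {E}

/-- the standard mollifier of radius `ε` -/
noncomputable def stdM (ε : ℝ) (x : E) : ℝ := ε⁻¹ ^ (Module.finrank ℝ E) * eta E (ε⁻¹ • x)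

lemma eta_contDiff : ContDiff ℝ ∞ (eta E) := (bmp E).contDiff_normed

lemma eta_hcs : HasCompactSupport (eta E) := (bmp E).hasCompactSupport_normed

lemma eta_nonneg (x : E) : 0 ≤ eta E x := (bmp E).nonneg_normed x

lemma eta_zero {x : E} (h : 1 ≤ ‖x‖) : eta E x = 0 := by
  have h1 : x ∉ Function.support (eta E) := by
    unfold eta
    rw [(bmp E).support_normed_eq]
    simpa [bmp] using h
  simpa using h1

lemma eta_int : ∫ x, eta E x = 1 := (bmp E).integral_normed

lemma eta_neg (x : E) : eta E (-x) = eta E x := (bmp E).normed_neg x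

lemma stdM_even (ε : ℝ) (x : E) : stdM ε (-x) = stdM ε x := by
  unfold stdM
  rw [smul_neg, eta_neg]

lemma stdM_isMol {ε : ℝ} (hε : 0 < ε) : IsMol ε (stdM ε : E → ℝ) where
  contDiff := contDiff_const.mul (eta_contDiff.comp (contDiff_const_smul _))
  hcs := by
    have h1 : HasCompactSupport (fun x : E => eta E (ε⁻¹ • x)) :=
      eta_hcs.comp_homeomorph (Homeomorph.smulOfNeZero ε⁻¹ (inv_ne_zero hε.ne'))
    exact h1.mul_left
  nonneg x := mul_nonneg (by positivity) (eta_nonneg _)
  supp x hx := by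
    unfold stdM
    rw [eta_zero, mul_zero]
    rw [norm_smul, norm_inv, Real.norm_of_nonneg hε.le, inv_mul_eq_div, le_div_iff₀ hε]
    linarith
  one := by
    unfold stdM
    rw [integral_const_mul, Measure.integral_comp_smul_of_nonneg _ _ _ (hR := by positivity), eta_int]
    rw [smul_eq_mul, mul_one]
    exact mul_inv_cancel₀ (by positivity)

/-- the kernel `‖D η_ε‖ ‖z‖` -/
noncomputable def kerM (ε : ℝ) (z : E) : ℝ := ‖fderiv ℝ (stdM ε : E → ℝ) z‖ * ‖z‖

lemma kerM_eq {ε : ℝ} (hε : 0 < ε) (z : E) :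
    kerM ε z = ε⁻¹ ^ (Module.finrank ℝ E) * kerM 1 (ε⁻¹ • z) := by
  have h0 : (stdM 1 : E → ℝ) = eta E := by
    funext x; simp [stdM]
  have h1 : fderiv ℝ (stdM ε : E → ℝ) z =
      (ε⁻¹ ^ (Module.finrank ℝ E)) • (ε⁻¹ • fderiv ℝ (eta E) (ε⁻¹ • z)) := by
    have h2 : HasFDerivAt (fun x : E => ε⁻¹ • x) (ε⁻¹ • ContinuousLinearMap.id ℝ E) z :=
      (hasFDerivAt_id z).const_smul ε⁻¹
    have h3 : HasFDerivAt (eta E) (fderiv ℝ (eta E) (ε⁻¹ • z)) (ε⁻¹ • z) :=
      ((eta_contDiff.differentiable (by simp)) _).hasFDerivAt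
    have h4 := (h3.comp z h2).const_mul (ε⁻¹ ^ (Module.finrank ℝ E))
    have h5 : fderiv ℝ (stdM ε : E → ℝ) z = _ := h4.fderiv
    rw [h5]
    ext v
    simp
  unfold kerM
  rw [h1, h0, norm_smul, norm_smul, norm_smul]
  rw [Real.norm_of_nonneg (show (0 : ℝ) ≤ ε⁻¹ ^ (Module.finrank ℝ E) by positivity),
    Real.norm_of_nonneg (show (0 : ℝ) ≤ ε⁻¹ by positivity)]
  ring

lemma kerM_cont {ε : ℝ} (hε : 0 < ε) : Continuous (kerM ε : E → ℝ) :=
  (((stdM_isMol hε).contDiff.continuous_fderiv (by simp)).norm).mul continuous_norm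

lemma kerM_hcs {ε : ℝ} (hε : 0 < ε) : HasCompactSupport (kerM ε : E → ℝ) := by
  have h1 : HasCompactSupport (fderiv ℝ (stdM ε : E → ℝ)) := (stdM_isMol hε).hcs.fderiv ℝ
  refine HasCompactSupport.mono' h1 (fun z hz => subset_tsupport _ ?_)
  intro h0
  apply hz
  unfold kerM
  rw [h0, norm_zero, zero_mul]

lemma kerM_nonneg (ε : ℝ) (z : E) : 0 ≤ kerM ε z := by unfold kerM; positivity

lemma kerM_int {ε : ℝ} (hε : 0 < ε) : ∫ z : E, kerM ε z = ∫ z : E, kerM 1 z := by
  simp only [kerM_eq hε]
  rw [integral_const_mul, Measure.integral_comp_smul_of_nonneg _ _ _ (hR := by positivity)]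
  rw [smul_eq_mul, ← mul_assoc, mul_inv_cancel₀ (by positivity), one_mul]

end std

/-- `L²` convergence -/
structure L2t (f : ℕ → E → ℝ) (g : E → ℝ) : Prop where
  mem : ∀ n, MemLp (f n) 2 (volume : Measure E)
  mem' : MemLp g 2 (volume : Measure E)
  lim : Tendsto (fun n => nsq (fun x => f n x - g x)) atTop (𝓝 0)

lemma norm_toLp {f : E → ℝ} (hf : MemLp f 2 (volume : Measure E)) :
    ‖hf.toLp f‖ ^ 2 = nsq f := by
  rw [← real_inner_self_eq_norm_sq, MeasureTheory.L2.inner_def]
  refine integral_congr_ae ?_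
  filter_upwards [hf.coeFn_toLp] with x hx
  rw [hx, real_inner_self_eq_norm_sq]

namespace L2t

variable {f f' : ℕ → E → ℝ} {g g' : E → ℝ}

lemma lim_toLp (h : L2t f g) :
    Tendsto (fun n => (h.mem n).toLp (f n)) atTop (𝓝 (h.mem'.toLp g)) := by
  rw [tendsto_iff_norm_sub_tendsto_zero]
  have h1 : ∀ n, ‖(h.mem n).toLp (f n) - h.mem'.toLp g‖ =
      Real.sqrt (nsq (fun x => f n x - g x)) := by
    intro n
    rw [← MemLp.toLp_sub, ← Real.sqrt_sq (norm_nonneg (MemLp.toLp _ _)), norm_toLp]
    rfl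
  simp only [h1]
  have := (Real.continuous_sqrt.tendsto 0).comp h.lim
  rw [Real.sqrt_zero] at this
  exact this

lemma lim_mul (h : L2t f g) (h' : L2t f' g') :
    Tendsto (fun n => ∫ x, f n x * f' n x) atTop (𝓝 (∫ x, g x * g' x)) := by
  have h1 : ∀ {a b : E → ℝ} (ha : MemLp a 2 (volume : Measure E))
      (hb : MemLp b 2 (volume : Measure E)),
      ∫ x, a x * b x = inner ℝ (ha.toLp a) (hb.toLp b) := by
    intro a b ha hb
    rw [MeasureTheory.L2.inner_def]
    refine integral_congr_ae ?_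
    filter_upwards [ha.coeFn_toLp, hb.coeFn_toLp] with x hx hy
    rw [hx, hy]
    simp [mul_comm]
  have h2 := h.lim_toLp.inner h'.lim_toLp (𝕜 := ℝ)
  rw [h1 h.mem' h'.mem']
  refine h2.congr fun n => ?_
  rw [← h1]

/-- multiplication by a bounded function -/
lemma bmul (h : L2t f g) {w : E → ℝ} (hw : AEStronglyMeasurable w (volume : Measure E)) {B : ℝ}
    (hB : ∀ x, |w x| ≤ B) : L2t (fun n x => w x * f n x) (fun x => w x * g x) := by
  have hm : ∀ {a : E → ℝ}, MemLp a 2 (volume : Measure E) →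
      MemLp (fun x => w x * a x) 2 (volume : Measure E) := by
    intro a ha
    refine MemLp.of_le_mul (c := B) ha (hw.mul ha.1) (Eventually.of_forall fun x => ?_)
    rw [norm_mul]
    exact mul_le_mul_of_nonneg_right (hB x) (norm_nonneg _)
  refine ⟨fun n => hm (h.mem n), hm h.mem', ?_⟩
  have h1 : ∀ n, nsq (fun x => w x * f n x - w x * g x) ≤ B ^ 2 * nsq (fun x => f n x - g x) := by
    intro n
    have i1 := memLp_norm_sq_int ((h.mem n).sub h.mem')
    rw [nsq, nsq, ← integral_const_mul]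
    refine integral_mono_of_nonneg (Eventually.of_forall fun x => by positivity)
      (i1.const_mul _) (Eventually.of_forall fun x => ?_)
    have h2 : ‖w x * f n x - w x * g x‖ ≤ B * ‖f n x - g x‖ := by
      rw [← mul_sub, norm_mul]
      exact mul_le_mul_of_nonneg_right (hB x) (norm_nonneg _)
    have := pow_le_pow_left₀ (norm_nonneg _) h2 2
    simpa [mul_pow] using this
  refine squeeze_zero (fun n => nsq_nonneg _) h1 ?_
  simpa using h.lim.const_mul (B ^ 2)

lemma add (h : L2t f g) (h' : L2t f' g') :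
    L2t (fun n x => f n x + f' n x) (fun x => g x + g' x) := by
  refine ⟨fun n => (h.mem n).add (h'.mem n), h.mem'.add h'.mem', ?_⟩
  have h1 : ∀ n, nsq (fun x => f n x + f' n x - (g x + g' x)) ≤
      2 * nsq (fun x => f n x - g x) + 2 * nsq (fun x => f' n x - g' x) := by
    intro n
    have := nsq_add_le ((h.mem n).sub h.mem') ((h'.mem n).sub h'.mem')
    refine le_trans (le_of_eq ?_) this
    congr 1
    funext x
    simp only [Pi.sub_apply]
    ring
  refine squeeze_zero (fun n => nsq_nonneg _) h1 ?_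
  simpa using (h.lim.const_mul 2).add (h'.lim.const_mul 2)

lemma const {g : E → ℝ} (hg : MemLp g 2 (volume : Measure E)) : L2t (fun _ => g) g :=
  ⟨fun _ => hg, hg, by simp [nsq]⟩

lemma neg (h : L2t f g) : L2t (fun n x => - f n x) (fun x => - g x) := by
  have := h.bmul (w := fun _ => (-1 : ℝ)) aestronglyMeasurable_const (B := 1) (by simp)
  simpa using this

lemma sub (h : L2t f g) (h' : L2t f' g') :
    L2t (fun n x => f n x - f' n x) (fun x => g x - g' x) := by
  have := h.add h'.neg
  simpa [sub_eq_add_neg] using this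

lemma sum {ι : Type*} {s : Finset ι} {f : ι → ℕ → E → ℝ} {g : ι → E → ℝ}
    (h : ∀ i ∈ s, L2t (f i) (g i)) :
    L2t (fun n x => ∑ i ∈ s, f i n x) (fun x => ∑ i ∈ s, g i x) := by
  classical
  induction s using Finset.induction_on with
  | empty => simpa using L2t.const (MemLp.zero' (p := 2) (μ := (volume : Measure E)) (ε := ℝ))
  | insert a s ha ih =>
    simp only [Finset.sum_insert ha]
    exact (h a (Finset.mem_insert_self _ _)).add
      (ih fun i hi => h i (Finset.mem_insert_of_mem hi))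

end L2t

/-- the mollifier sequence -/
noncomputable def seqM (k : ℕ) : E → ℝ := stdM (1 / ((k : ℝ) + 1))

lemma seqM_isMol (k : ℕ) : IsMol (1 / ((k : ℝ) + 1)) (seqM k : E → ℝ) := stdM_isMol (by positivity)

/-- mollification converges -/
lemma L2t.moll {f : E → ℝ} (hf : MemLp f 2 (volume : Measure E)) :
    L2t (fun k => mo (seqM k) f) f := by
  refine ⟨fun k => (nsq_mo_le (seqM_isMol k) hf).1, hf, ?_⟩
  rw [Metric.tendsto_atTop]
  intro δ hδ
  obtain ⟨ε₀, hε₀, h⟩ := mo_approx hf (show 0 < δ / 2 by positivity)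
  obtain ⟨N, hN⟩ := exists_nat_one_div_lt hε₀
  refine ⟨N, fun k hk => ?_⟩
  have h1 : 1 / ((k : ℝ) + 1) ≤ ε₀ := by
    refine le_trans ?_ hN.le
    gcongr
  have h2 := h _ h1 (seqM k) (seqM_isMol k)
  rw [Real.dist_eq, sub_zero, abs_of_nonneg (nsq_nonneg _)]
  linarith

end Vale.Agent.P227.Moll
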