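import Vale.Agent.P227.M.Defs
import Vale.Agent.P227.M.LIN.Moll2

/-! # Essential self-adjointness, part 1: the commutator `err` and its `L²` convergence -/

open MeasureTheory Filter Topology
open scoped ContDiff

namespace Vale.Agent.P227.M.LIN.E456

open Vale.Agent.P227.M Vale.Agent.P227.Moll

variable {n : ℕ}

/-- coefficient data: `r = e^{-V}`, `A = e^{-V} τ` -/
structure Dat (r : E n → ℝ) (A : E n → Fin n → Fin n → ℝ) : Prop where
  rcont : Continuous r
  acont : ∀ i j, Continuous (fun x => A x i j)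
  symm : ∀ x i j, A x i j = A x j i
  lip : ∀ R : ℝ, ∃ K : ℝ, 0 ≤ K ∧ ∀ x ∈ Metric.closedBall (0 : E n) R,
    ∀ y ∈ Metric.closedBall (0 : E n) R, ∀ i j, |A x i j - A y i j| ≤ K * ‖x - y‖
  div : ∀ f : E n → ℝ, Test f → ∀ j, ∫ x, ∑ i, A x i j * pd i f x = ∫ x, f x * (r x * x j)

lemma norm_ei (i : Fin n) : ‖(ei i : E n)‖ = 1 := by simp [ei]

lemma cont_coord (j : Fin n) : Continuous (fun x : E n => x j) := by fun_prop

lemma loc_mul {u w : E n → ℝ} (hu : LocallyIntegrable u volume) (hw : Continuous w) :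
    LocallyIntegrable (fun x => u x * w x) volume := LocallyIntegrable.mul_continuous hw hu

/-- `L²` function vanishing outside a ball times a continuous function -/
lemma memLp_mul {u w : E n → ℝ} (hu : MemLp u 2 (volume : Measure (E n))) {R : ℝ}
    (h0 : ∀ x, x ∉ Metric.closedBall (0 : E n) R → u x = 0) (hw : Continuous w) :
    MemLp (fun x => u x * w x) 2 (volume : Measure (E n)) := by
  obtain ⟨B, hB⟩ := (isCompact_closedBall (0 : E n) R).exists_bound_of_continuousOn hw.continuousOn
  refine MemLp.of_le_mul (c := B) hu (hu.1.mul hw.aestronglyMeasurable)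
    (Eventually.of_forall fun x => ?_)
  by_cases hx : x ∈ Metric.closedBall (0 : E n) R
  · rw [norm_mul, mul_comm]
    exact mul_le_mul_of_nonneg_right (hB x hx) (norm_nonneg _)
  · rw [h0 x hx]; simp

lemma integrable_of_ball {u : E n → ℝ} (hu : MemLp u 2 (volume : Measure (E n))) {R : ℝ}
    (h0 : ∀ x, x ∉ Metric.closedBall (0 : E n) R → u x = 0) : Integrable u := by
  have h1 : IntegrableOn u (Metric.closedBall (0 : E n) R) volume :=
    (locInt hu).integrableOn_isCompact (isCompact_closedBall _ _)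
  exact (integrableOn_iff_integrable_of_support_subset (fun x hx => by
    by_contra hc; exact hx (h0 x hc))).1 h1

/-- the commutator -/
noncomputable def err (r : E n → ℝ) (A : E n → Fin n → Fin n → ℝ) (η u : E n → ℝ) (j : Fin n)
    (x : E n) : ℝ :=
  (∑ i, (pd i (mo η (fun y => u y * A y i j)) x - A x i j * pd i (mo η u) x))
    + mo η (fun y => u y * (r y * y j)) x

variable {r : E n → ℝ} {A : E n → Fin n → Fin n → ℝ}

lemma err_sub (D : Dat r A) {ε : ℝ} {η : E n → ℝ} (hη : IsMol ε η) {u v : E n → ℝ}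
    (hu : LocallyIntegrable u volume) (hv : LocallyIntegrable v volume) (j : Fin n) (x : E n) :
    err r A η (fun y => u y - v y) j x = err r A η u j x - err r A η v j x := by
  have hw : ∀ (w : E n → ℝ), Continuous w → ∀ (ρ : E n → ℝ), Continuous ρ → HasCompactSupport ρ →
      mo ρ (fun y => (u y - v y) * w y) x = mo ρ (fun y => u y * w y) x
        - mo ρ (fun y => v y * w y) x := by
    intro w hw ρ hρ hρc
    rw [← mo_sub hρ hρc (loc_mul hu hw) (loc_mul hv hw)]
    congr 1
    funext y
    ring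
  have hs : ∀ i : Fin n, Continuous (fun z => fderiv ℝ η z (ei i)) := fun i =>
    (hη.contDiff.continuous_fderiv (by simp)).clm_apply continuous_const
  have hsc : ∀ i : Fin n, HasCompactSupport (fun z => fderiv ℝ η z (ei i)) := fun i =>
    (hη.hcs.fderiv ℝ).comp_left (g := fun L : E n →L[ℝ] ℝ => L (ei i)) (by simp)
  have hrc : Continuous (fun y : E n => r y * y j) := D.rcont.mul (cont_coord j)
  have huv : LocallyIntegrable (fun y => u y - v y) volume := hu.sub hv
  unfold err pd
  rw [hw _ hrc η hη.contDiff.continuous hη.hcs]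
  have h1 : ∀ i, fderiv ℝ (mo η fun y => (u y - v y) * A y i j) x (ei i) =
      fderiv ℝ (mo η fun y => u y * A y i j) x (ei i)
        - fderiv ℝ (mo η fun y => v y * A y i j) x (ei i) := by
    intro i
    rw [fderiv_mo hη.contDiff hη.hcs (loc_mul huv (D.acont i j)),
      fderiv_mo hη.contDiff hη.hcs (loc_mul hu (D.acont i j)),
      fderiv_mo hη.contDiff hη.hcs (loc_mul hv (D.acont i j)),
      hw _ (D.acont i j) _ (hs i) (hsc i)]
  have h2 : ∀ i, fderiv ℝ (mo η fun y => u y - v y) x (ei i) =
      fderiv ℝ (mo η u) x (ei i) - fderiv ℝ (mo η v) x (ei i) := by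
    intro i
    rw [fderiv_mo hη.contDiff hη.hcs huv, fderiv_mo hη.contDiff hη.hcs hu,
      fderiv_mo hη.contDiff hη.hcs hv, mo_sub (hs i) (hsc i) hu hv]
  simp only [h1, h2]
  have h3 : (∑ i, (fderiv ℝ (mo η fun y => u y * A y i j) x (ei i)
        - fderiv ℝ (mo η fun y => v y * A y i j) x (ei i)
        - A x i j * (fderiv ℝ (mo η u) x (ei i) - fderiv ℝ (mo η v) x (ei i)))) =
      (∑ i, (fderiv ℝ (mo η fun y => u y * A y i j) x (ei i) - A x i j * fderiv ℝ (mo η u) x (ei i)))
      - ∑ i, (fderiv ℝ (mo η fun y => v y * A y i j) x (ei i)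
          - A x i j * fderiv ℝ (mo η v) x (ei i)) := by
    rw [← Finset.sum_sub_distrib]
    refine Finset.sum_congr rfl fun i _ => ?_
    ring
  rw [h3]
  ring

lemma err_cont (D : Dat r A) {ε : ℝ} {η : E n → ℝ} (hη : IsMol ε η) {u : E n → ℝ}
    (hu : LocallyIntegrable u volume) (j : Fin n) : Continuous (err r A η u j) := by
  have hrc : Continuous (fun y : E n => r y * y j) := D.rcont.mul (cont_coord j)
  have h1 : ∀ w : E n → ℝ, LocallyIntegrable w volume → ∀ i, Continuous (pd i (mo η w)) := by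
    intro w hw i
    exact ((contDiff_mo hη.contDiff hη.hcs hw).continuous_fderiv (by simp)).clm_apply
      continuous_const
  unfold err
  refine Continuous.add (continuous_finsetSum _ fun i _ => ?_) ?_
  · exact (h1 _ (loc_mul hu (D.acont i j)) i).sub ((D.acont i j).mul (h1 _ hu i))
  · exact (contDiff_mo hη.contDiff hη.hcs (loc_mul hu hrc)).continuous

lemma fderiv_mol_zero {ε : ℝ} {η : E n → ℝ} (hη : IsMol ε η) {z : E n} (hz : ε ≤ ‖z‖) :
    fderiv ℝ η z = 0 := by
  refine IsLocalMin.fderiv_eq_zero ?_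
  refine Eventually.of_forall fun y => ?_
  rw [hη.supp z hz]
  exact hη.nonneg y

/-- pointwise bound of the commutator -/
lemma err_bound (D : Dat r A) {R ε : ℝ} (hε : 0 < ε) (hε1 : ε ≤ 1) {K S : ℝ} (hK : 0 ≤ K)
    (hS : 0 ≤ S)
    (hlip : ∀ x ∈ Metric.closedBall (0 : E n) (R + 1), ∀ y ∈ Metric.closedBall (0 : E n) (R + 1),
      ∀ i j, |A x i j - A y i j| ≤ K * ‖x - y‖)
    (hr : ∀ y ∈ Metric.closedBall (0 : E n) (R + 1), ∀ j, |r y * y j| ≤ S)
    {u : E n → ℝ} (hu : LocallyIntegrable u volume) (j : Fin n) {x : E n}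
    (hx : x ∈ Metric.closedBall (0 : E n) R) :
    |err r A (stdM ε) u j x| ≤
      mo (fun z => n * K * kerM ε z + S * stdM ε z) (fun y => ‖u y‖) x := by
  have hη : IsMol ε (stdM ε : E n → ℝ) := stdM_isMol hε
  have hxR : ‖x‖ ≤ R := by simpa using hx
  have hx1 : x ∈ Metric.closedBall (0 : E n) (R + 1) := by
    simp only [Metric.mem_closedBall, dist_zero_right]; linarith
  have hy1 : ∀ y : E n, ‖x - y‖ < ε → y ∈ Metric.closedBall (0 : E n) (R + 1) := by
    intro y hy
    simp only [Metric.mem_closedBall, dist_zero_right]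
    have := norm_sub_norm_le y x
    rw [norm_sub_rev] at this
    linarith
  have hs : ∀ i : Fin n, Continuous (fun z => fderiv ℝ (stdM ε : E n → ℝ) z (ei i)) := fun i =>
    (hη.contDiff.continuous_fderiv (by simp)).clm_apply continuous_const
  have hsc : ∀ i : Fin n, HasCompactSupport (fun z => fderiv ℝ (stdM ε : E n → ℝ) z (ei i)) :=
    fun i => (hη.hcs.fderiv ℝ).comp_left (g := fun L : E n →L[ℝ] ℝ => L (ei i)) (by simp)
  have hrc : Continuous (fun y : E n => r y * y j) := D.rcont.mul (cont_coord j)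
  have hun : LocallyIntegrable (fun y => ‖u y‖) volume := fun z => (hu z).norm
  have ik : Integrable (fun y => kerM ε (x - y) • ‖u y‖) :=
    integrable_mo (kerM_cont hε) (kerM_hcs hε) hun x
  have is : Integrable (fun y => stdM ε (x - y) • ‖u y‖) :=
    integrable_mo hη.contDiff.continuous hη.hcs hun x
  have hterm : ∀ i : Fin n, |pd i (mo (stdM ε) (fun y => u y * A y i j)) x
      - A x i j * pd i (mo (stdM ε) u) x| ≤ K * mo (kerM ε) (fun y => ‖u y‖) x := by
    intro i
    unfold pd
    rw [fderiv_mo hη.contDiff hη.hcs (loc_mul hu (D.acont i j)),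
      fderiv_mo hη.contDiff hη.hcs hu]
    have i1 := integrable_mo (hs i) (hsc i) (loc_mul hu (D.acont i j)) x
    have i2 := integrable_mo (hs i) (hsc i) hu x
    have e1 : mo (fun z => fderiv ℝ (stdM ε : E n → ℝ) z (ei i)) (fun y => u y * A y i j) x
        - A x i j * mo (fun z => fderiv ℝ (stdM ε : E n → ℝ) z (ei i)) u x =
        ∫ y, fderiv ℝ (stdM ε : E n → ℝ) (x - y) (ei i) * (A y i j - A x i j) * u y := by
      unfold mo
      rw [← integral_const_mul, ← integral_sub i1 (i2.const_mul _)]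
      refine integral_congr_ae (Eventually.of_forall fun y => ?_)
      simp only [smul_eq_mul]
      ring
    rw [e1]
    unfold mo
    rw [← integral_const_mul]
    rw [← Real.norm_eq_abs]
    refine norm_integral_le_of_norm_le (ik.const_mul K) (Eventually.of_forall fun y => ?_)
    simp only [smul_eq_mul, norm_mul, Real.norm_eq_abs]
    by_cases hxy : ‖x - y‖ < ε
    · have h1 := hlip y (hy1 y hxy) x hx1 i j
      have h2 : |fderiv ℝ (stdM ε : E n → ℝ) (x - y) (ei i)| ≤
          ‖fderiv ℝ (stdM ε : E n → ℝ) (x - y)‖ := by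
        have := (fderiv ℝ (stdM ε : E n → ℝ) (x - y)).le_opNorm (ei i)
        rwa [norm_ei, mul_one] at this
      rw [norm_sub_rev] at h1
      calc _ ≤ ‖fderiv ℝ (stdM ε : E n → ℝ) (x - y)‖ * (K * ‖x - y‖) * |u y| := by
            refine mul_le_mul_of_nonneg_right ?_ (abs_nonneg _)
            exact mul_le_mul h2 h1 (abs_nonneg _) (norm_nonneg _)
        _ = _ := by unfold kerM; ring
    · rw [fderiv_mol_zero hη (not_lt.1 hxy)]
      simp only [_root_.zero_apply, abs_zero, zero_mul]
      have := kerM_nonneg ε (x - y)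
      positivity
  have hlast : |mo (stdM ε) (fun y => u y * (r y * y j)) x| ≤
      S * mo (stdM ε) (fun y => ‖u y‖) x := by
    unfold mo
    rw [← integral_const_mul]
    rw [← Real.norm_eq_abs]
    refine norm_integral_le_of_norm_le (is.const_mul S) (Eventually.of_forall fun y => ?_)
    simp only [smul_eq_mul, norm_mul, Real.norm_eq_abs]
    by_cases hxy : ‖x - y‖ < ε
    · have h1 := hr y (hy1 y hxy) j
      rw [abs_mul] at h1
      rw [abs_of_nonneg (hη.nonneg _)]
      have h2 := hη.nonneg (x - y)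
      calc stdM ε (x - y) * (|u y| * (|r y| * |y j|)) ≤ stdM ε (x - y) * (|u y| * S) := by
            gcongr
        _ = _ := by ring
    · rw [hη.supp _ (not_lt.1 hxy)]
      simp
  have e2 : mo (fun z => n * K * kerM ε z + S * stdM ε z) (fun y => ‖u y‖) x =
      n * (K * mo (kerM ε) (fun y => ‖u y‖) x) + S * mo (stdM ε) (fun y => ‖u y‖) x := by
    unfold mo
    rw [← integral_const_mul, ← integral_const_mul, ← integral_const_mul,
      ← integral_add ((ik.const_mul _).const_mul _) (is.const_mul _)]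
    refine integral_congr_ae (Eventually.of_forall fun y => ?_)
    simp only [smul_eq_mul]
    ring
  rw [e2]
  unfold err
  refine (abs_add_le _ _).trans (add_le_add ?_ hlast)
  refine (Finset.abs_sum_le_sum_abs _ _).trans ?_
  refine (Finset.sum_le_sum fun i _ => hterm i).trans ?_
  simp

/-- `L²` bound of the commutator -/
lemma err_nsq (D : Dat r A) (R : ℝ) : ∃ Cb : ℝ, 0 ≤ Cb ∧ ∀ ε : ℝ, 0 < ε → ε ≤ 1 →
    ∀ u : E n → ℝ, MemLp u 2 (volume : Measure (E n)) → ∀ j,
      MemLp ((Metric.closedBall (0 : E n) R).indicator (err r A (stdM ε) u j)) 2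
        (volume : Measure (E n)) ∧
      nsq ((Metric.closedBall (0 : E n) R).indicator (err r A (stdM ε) u j)) ≤ Cb * nsq u := by
  obtain ⟨K, hK, hlip⟩ := D.lip (R + 1)
  have hS : ∃ S : ℝ, 0 ≤ S ∧ ∀ y ∈ Metric.closedBall (0 : E n) (R + 1), ∀ j, |r y * y j| ≤ S := by
    have h1 : ∀ j : Fin n, ∃ S : ℝ, ∀ y ∈ Metric.closedBall (0 : E n) (R + 1), ‖r y * y j‖ ≤ S :=
      fun j => (isCompact_closedBall (0 : E n) (R + 1)).exists_bound_of_continuousOn
        (D.rcont.mul (cont_coord j)).continuousOn
    choose S hS using h1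
    refine ⟨∑ j, |S j|, Finset.sum_nonneg fun j _ => abs_nonneg _, fun y hy j => ?_⟩
    refine (hS j y hy).trans ((le_abs_self _).trans ?_)
    exact Finset.single_le_sum (f := fun j => |S j|) (fun j _ => abs_nonneg _) (Finset.mem_univ j)
  obtain ⟨S, hS0, hr⟩ := hS
  set D1 : ℝ := ∫ z : E n, kerM 1 z with hD1
  have hD1' : 0 ≤ D1 := integral_nonneg fun z => kerM_nonneg 1 z
  refine ⟨(n * K * D1 + S) ^ 2, by positivity, fun ε hε hε1 u hu j => ?_⟩
  have hη : IsMol ε (stdM ε : E n → ℝ) := stdM_isMol hε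
  have hκ : Continuous (fun z : E n => n * K * kerM ε z + S * stdM ε z) :=
    (continuous_const.mul (kerM_cont hε)).add (continuous_const.mul hη.contDiff.continuous)
  have hκc : HasCompactSupport (fun z : E n => n * K * kerM ε z + S * stdM ε z) :=
    ((kerM_hcs hε).mul_left).add (hη.hcs.mul_left)
  have hκ0 : ∀ z : E n, 0 ≤ n * K * kerM ε z + S * stdM ε z := fun z => by
    have h1 := kerM_nonneg ε z
    have h2 := hη.nonneg z
    positivity
  have hm : AEStronglyMeasurable
      ((Metric.closedBall (0 : E n) R).indicator (err r A (stdM ε) u j)) volume :=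
    ((err_cont D hη (locInt hu) j).aestronglyMeasurable).indicator
      Metric.isClosed_closedBall.measurableSet
  have hmass : ∫ z : E n, (n * K * kerM ε z + S * stdM ε z) = n * K * D1 + S := by
    rw [integral_add (((kerM_cont hε).integrable_of_hasCompactSupport (kerM_hcs hε)).const_mul _)
      ((hη.contDiff.continuous.integrable_of_hasCompactSupport hη.hcs).const_mul _),
      integral_const_mul, integral_const_mul, hη.one, kerM_int hε, mul_one]
  have h := nsq_le_mo hκ hκc hκ0 hu (w := (Metric.closedBall (0 : E n) R).indicator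
    (err r A (stdM ε) u j)) hm ?_
  · rw [hmass] at h
    exact h
  · intro x
    by_cases hx : x ∈ Metric.closedBall (0 : E n) R
    · rw [Set.indicator_of_mem hx]
      exact err_bound D hε hε1 hK hS0 hlip hr (locInt hu) j hx
    · rw [Set.indicator_of_notMem hx, norm_zero]
      unfold mo
      exact integral_nonneg fun y => smul_nonneg (hκ0 _) (norm_nonneg _)

end Vale.Agent.P227.M.LIN.E456
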