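import Vale.Agent.P227.M.LIN.ESA1

/-! # Essential self-adjointness, part 2: convergence of the commutator -/

open MeasureTheory Filter Topology
open scoped ContDiff

namespace Vale.Agent.P227.M.LIN.E456

open Vale.Agent.P227.M Vale.Agent.P227.Moll

variable {n : ℕ} {r : E n → ℝ} {A : E n → Fin n → Fin n → ℝ}

lemma test_pd {g : E n → ℝ} (hg : Test g) (i : Fin n) : Test (pd i g) := by
  constructor
  · exact ContDiff.clm_apply (hg.1.fderiv_right (m := (⊤ : ℕ∞)) (by simp)) contDiff_const
  · exact (hg.2.fderiv ℝ).comp_left (g := fun L : E n →L[ℝ] ℝ => L (ei i)) (by simp)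

lemma test_loc {g : E n → ℝ} (hg : Test g) : LocallyIntegrable g volume :=
  hg.1.continuous.locallyIntegrable

lemma test_memLp {g : E n → ℝ} (hg : Test g) : MemLp g 2 (volume : Measure (E n)) :=
  hg.1.continuous.memLp_of_hasCompactSupport hg.2

lemma test_zero {g : E n → ℝ} (hg : Test g) : ∃ R : ℝ, ∀ x, x ∉ Metric.closedBall (0 : E n) R → g x = 0 := by
  obtain ⟨R, hR⟩ := hg.2.isCompact.isBounded.subset_closedBall (0 : E n)
  exact ⟨R, fun x hx => by
    by_contra h
    exact hx (hR (subset_tsupport _ h))⟩

/-- the commutator on smooth functions -/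
lemma err_smooth (D : Dat r A) {ε : ℝ} {η : E n → ℝ} (hη : IsMol ε η) {g : E n → ℝ} (hg : Test g)
    (j : Fin n) (x : E n) :
    err r A η g j x =
      ∑ i, (mo η (fun y => A y i j * pd i g y) x - A x i j * mo η (pd i g) x) := by
  have hf : Test (fun y => η (x - y) * g y) := by
    constructor
    · exact (hη.contDiff.comp (contDiff_const.sub contDiff_id)).mul hg.1
    · exact hg.2.mul_left
  have hs : ∀ i : Fin n, Continuous (fun z => fderiv ℝ η z (ei i)) := fun i =>
    (hη.contDiff.continuous_fderiv (by simp)).clm_apply continuous_const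
  have hsc : ∀ i : Fin n, HasCompactSupport (fun z => fderiv ℝ η z (ei i)) := fun i =>
    (hη.hcs.fderiv ℝ).comp_left (g := fun L : E n →L[ℝ] ℝ => L (ei i)) (by simp)
  have hd : ∀ i y, pd i (fun y => η (x - y) * g y) y =
      η (x - y) * pd i g y - fderiv ℝ η (x - y) (ei i) * g y := by
    intro i y
    have h1 : HasFDerivAt (fun y => η (x - y)) (-(fderiv ℝ η (x - y))) y := by
      have h2 : HasFDerivAt (fun y : E n => x - y) (-(ContinuousLinearMap.id ℝ (E n))) y :=
        (hasFDerivAt_id y).const_sub x
      have h3 := ((hη.contDiff.differentiable (by simp)) (x - y)).hasFDerivAt.comp y h2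
      refine h3.congr_fderiv ?_
      ext v; simp
    have h4 : HasFDerivAt g (fderiv ℝ g y) y :=
      ((hg.1.differentiable (by simp)) y).hasFDerivAt
    have h5 := (h1.mul h4).fderiv
    unfold pd
    have h6 : fderiv ℝ (fun y => η (x - y) * g y) y = _ := h5
    rw [h6]
    simp
    ring
  have hl : ∀ i, LocallyIntegrable (fun y => g y * A y i j) volume := fun i =>
    loc_mul (test_loc hg) (D.acont i j)
  have hl2 : ∀ i, LocallyIntegrable (fun y => A y i j * pd i g y) volume := fun i =>
    ((D.acont i j).mul (test_pd hg i).1.continuous).locallyIntegrable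
  have i1 : ∀ i, Integrable (fun y => fderiv ℝ η (x - y) (ei i) • (g y * A y i j)) := fun i =>
    integrable_mo (hs i) (hsc i) (hl i) x
  have i2 : ∀ i, Integrable (fun y => η (x - y) • (A y i j * pd i g y)) := fun i =>
    integrable_mo hη.contDiff.continuous hη.hcs (hl2 i) x
  have key : mo η (fun y => g y * (r y * y j)) x =
      ∑ i, (mo η (fun y => A y i j * pd i g y) x
        - mo (fun z => fderiv ℝ η z (ei i)) (fun y => g y * A y i j) x) := by
    have e1 := D.div _ hf j
    have e2 : mo η (fun y => g y * (r y * y j)) x = ∫ y, (η (x - y) * g y) * (r y * y j) := by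
      unfold mo
      refine integral_congr_ae (Eventually.of_forall fun y => ?_)
      simp only [smul_eq_mul]; ring
    rw [e2, ← e1]
    have e3 : ∀ i, mo η (fun y => A y i j * pd i g y) x
        - mo (fun z => fderiv ℝ η z (ei i)) (fun y => g y * A y i j) x =
        ∫ y, (η (x - y) • (A y i j * pd i g y) - fderiv ℝ η (x - y) (ei i) • (g y * A y i j)) := by
      intro i
      unfold mo
      rw [← integral_sub (i2 i) (i1 i)]
    simp only [e3]
    rw [← integral_finsetSum Finset.univ (f := fun i y => η (x - y) • (A y i j * pd i g y)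
      - fderiv ℝ η (x - y) (ei i) • (g y * A y i j)) (fun i _ => (i2 i).sub (i1 i))]
    refine integral_congr_ae (Eventually.of_forall fun y => ?_)
    simp only [hd, smul_eq_mul]
    refine Finset.sum_congr rfl fun i _ => ?_
    ring
  unfold err
  rw [key, ← Finset.sum_add_distrib]
  refine Finset.sum_congr rfl fun i _ => ?_
  have e4 : pd i (mo η fun y => g y * A y i j) x =
      mo (fun z => fderiv ℝ η z (ei i)) (fun y => g y * A y i j) x := by
    unfold pd
    rw [fderiv_mo hη.contDiff hη.hcs (hl i)]
  have e5 : pd i (mo η g) x = mo η (pd i g) x := by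
    unfold pd
    rw [fderiv_mo' hη.contDiff.continuous.locallyIntegrable (hg.1.of_le (by simp)) hg.2]
  rw [e4, e5]
  ring

/-- convergence on smooth functions -/
lemma err_lim_smooth (D : Dat r A) (R : ℝ) {g : E n → ℝ} (hg : Test g) (j : Fin n) :
    L2t (fun k => (Metric.closedBall (0 : E n) R).indicator (err r A (seqM k) g j)) (fun _ => 0) := by
  have hB : MeasurableSet (Metric.closedBall (0 : E n) R) := Metric.isClosed_closedBall.measurableSet
  have h1 : ∀ i ∈ (Finset.univ : Finset (Fin n)), L2t (fun k x =>
      (Metric.closedBall (0 : E n) R).indicator (fun _ => (1 : ℝ)) x *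
        mo (seqM k) (fun y => A y i j * pd i g y) x -
      (Metric.closedBall (0 : E n) R).indicator (fun x => A x i j) x * mo (seqM k) (pd i g) x)
      (fun _ => 0) := by
    intro i _
    have m1 : MemLp (fun y => A y i j * pd i g y) 2 (volume : Measure (E n)) :=
      ((D.acont i j).mul (test_pd hg i).1.continuous).memLp_of_hasCompactSupport
        (test_pd hg i).2.mul_left
    have h2 := (L2t.moll m1).bmul (w := (Metric.closedBall (0 : E n) R).indicator (fun _ => (1 : ℝ)))
      (aestronglyMeasurable_const.indicator hB) (B := 1) (fun x => by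
        by_cases hx : x ∈ Metric.closedBall (0 : E n) R
        · rw [Set.indicator_of_mem hx]; simp
        · rw [Set.indicator_of_notMem hx]; simp)
    obtain ⟨S, hS⟩ := (isCompact_closedBall (0 : E n) R).exists_bound_of_continuousOn
      (D.acont i j).continuousOn
    have h3 := (L2t.moll (test_memLp (test_pd hg i))).bmul
      (w := (Metric.closedBall (0 : E n) R).indicator (fun x => A x i j))
      ((D.acont i j).aestronglyMeasurable.indicator hB) (B := |S|) (fun x => by
        by_cases hx : x ∈ Metric.closedBall (0 : E n) R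
        · rw [Set.indicator_of_mem hx]; exact (hS x hx).trans (le_abs_self S)
        · rw [Set.indicator_of_notMem hx]; simp)
    have h4 := h2.sub h3
    have e : (fun x => (Metric.closedBall (0 : E n) R).indicator (fun _ => (1 : ℝ)) x *
        (A x i j * pd i g x) - (Metric.closedBall (0 : E n) R).indicator (fun x => A x i j) x *
          pd i g x) = fun _ => (0 : ℝ) := by
      funext x
      by_cases hx : x ∈ Metric.closedBall (0 : E n) R
      · rw [Set.indicator_of_mem hx, Set.indicator_of_mem hx]; ring
      · rw [Set.indicator_of_notMem hx, Set.indicator_of_notMem hx]; ring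
    rw [e] at h4
    exact h4
  have h5 := L2t.sum h1
  have e1 : (fun (k : ℕ) (x : E n) => ∑ i, ((Metric.closedBall (0 : E n) R).indicator
      (fun _ => (1 : ℝ)) x * mo (seqM k) (fun y => A y i j * pd i g y) x -
      (Metric.closedBall (0 : E n) R).indicator (fun x => A x i j) x * mo (seqM k) (pd i g) x)) =
      fun k => (Metric.closedBall (0 : E n) R).indicator (err r A (seqM k) g j) := by
    funext k x
    by_cases hx : x ∈ Metric.closedBall (0 : E n) R
    · simp only [Set.indicator_of_mem hx]
      rw [err_smooth D (seqM_isMol k) hg]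
      refine Finset.sum_congr rfl fun i _ => ?_
      ring
    · simp only [Set.indicator_of_notMem hx]
      simp
  rw [e1] at h5
  simpa using h5

/-- a mollified compactly supported `L²` function is a test function -/
lemma test_mo {ε : ℝ} {η : E n → ℝ} (hη : IsMol ε η) {f : E n → ℝ} (hf : LocallyIntegrable f volume)
    (hc : HasCompactSupport f) : Test (mo η f) := by
  refine ⟨contDiff_mo hη.contDiff hη.hcs hf, ?_⟩
  rw [mo_eq_conv]
  exact hc.convolution _ hη.hcs

/-- convergence of the commutator on compactly supported `L²` functions -/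
lemma err_lim (D : Dat r A) (R : ℝ) {f : E n → ℝ} (hf : MemLp f 2 (volume : Measure (E n)))
    {R' : ℝ} (h0 : ∀ x, x ∉ Metric.closedBall (0 : E n) R' → f x = 0) (j : Fin n) :
    L2t (fun k => (Metric.closedBall (0 : E n) R).indicator (err r A (seqM k) f j)) (fun _ => 0) := by
  obtain ⟨Cb, hCb, hb⟩ := err_nsq D R
  have hk1 : ∀ k : ℕ, 1 / ((k : ℝ) + 1) ≤ 1 := by
    intro k
    rw [div_le_one (by positivity)]
    have := Nat.cast_nonneg (α := ℝ) k
    linarith
  have hk0 : ∀ k : ℕ, 0 < 1 / ((k : ℝ) + 1) := fun k => by positivity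
  have hmem : ∀ k, MemLp ((Metric.closedBall (0 : E n) R).indicator (err r A (seqM k) f j)) 2
      (volume : Measure (E n)) := fun k => (hb _ (hk0 k) (hk1 k) f hf j).1
  refine ⟨hmem, MemLp.zero', ?_⟩
  rw [Metric.tendsto_atTop]
  intro δ hδ
  have hmoll := (L2t.moll hf).lim
  rw [Metric.tendsto_atTop] at hmoll
  obtain ⟨m, hm⟩ := hmoll (δ / (4 * (Cb + 1))) (by positivity)
  have hm' := hm m le_rfl
  rw [Real.dist_eq, sub_zero, abs_of_nonneg (nsq_nonneg _)] at hm'
  have hfc : HasCompactSupport f := HasCompactSupport.intro (isCompact_closedBall 0 R') h0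
  have hg : Test (mo (seqM m) f) := test_mo (seqM_isMol m) (locInt hf) hfc
  have hs := (err_lim_smooth D R hg j).lim
  rw [Metric.tendsto_atTop] at hs
  obtain ⟨N, hN⟩ := hs (δ / 4) (by positivity)
  refine ⟨N, fun k hk => ?_⟩
  have h1 := hN k hk
  rw [Real.dist_eq, sub_zero, abs_of_nonneg (nsq_nonneg _)] at h1 ⊢
  simp only [sub_zero] at h1 ⊢
  have hgm := test_memLp hg
  have hd : MemLp (fun y => f y - mo (seqM m) f y) 2 (volume : Measure (E n)) := hf.sub hgm
  have h2 := hb _ (hk0 k) (hk1 k) _ hd j
  have h3 := nsq_add_le h2.1 (hb _ (hk0 k) (hk1 k) _ hgm j).1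
  have e : (fun x => (Metric.closedBall (0 : E n) R).indicator
        (err r A (stdM (1 / ((k : ℝ) + 1))) (fun y => f y - mo (seqM m) f y) j) x
      + (Metric.closedBall (0 : E n) R).indicator
        (err r A (stdM (1 / ((k : ℝ) + 1))) (mo (seqM m) f) j) x) =
      fun x => (Metric.closedBall (0 : E n) R).indicator (err r A (seqM k) f j) x := by
    funext x
    by_cases hx : x ∈ Metric.closedBall (0 : E n) R
    · simp only [Set.indicator_of_mem hx]
      rw [err_sub D (stdM_isMol (hk0 k)) (locInt hf) (locInt hgm)]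
      unfold seqM
      ring
    · simp only [Set.indicator_of_notMem hx]
      simp
  rw [e] at h3
  have h4 : nsq (fun y => f y - mo (seqM m) f y) = nsq (fun y => mo (seqM m) f y - f y) := by
    unfold nsq
    refine integral_congr_ae (Eventually.of_forall fun x => ?_)
    simp only [norm_sub_rev]
  have h5 : Cb * nsq (fun y => f y - mo (seqM m) f y) ≤ δ / 4 := by
    rw [h4]
    have h6 : nsq (fun y => mo (seqM m) f y - f y) ≤ δ / (4 * (Cb + 1)) := hm'.le
    calc Cb * nsq (fun y => mo (seqM m) f y - f y) ≤ (Cb + 1) * (δ / (4 * (Cb + 1))) :=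
          mul_le_mul (by linarith) h6 (nsq_nonneg _) (by linarith)
      _ = δ / 4 := by field_simp
  have h7 : nsq (Set.indicator (Metric.closedBall (0 : E n) R)
      (err r A (stdM (1 / ((k : ℝ) + 1))) (mo (seqM m) f) j)) < δ / 4 := h1
  have h8 := h2.2
  linarith

end Vale.Agent.P227.M.LIN.E456
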