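import Vale.Agent.P227.M.LIN.Iface
import Vale.Agent.P227.M.LIN.Moll2
import Vale.Agent.P227.M.LIN.H1Cut
import Vale.Agent.P227.M.ID.Core294
import Vale.Agent.P227.M.ID.Reg169
import Vale.Agent.P227.M.Bas

/-! # P227/M/LIN: essential self-adjointness (helper221), part a: the weak identity and the error terms -/

open MeasureTheory Filter
open scoped Topology ContDiff

namespace Vale.Agent.P227.M.ESA221

open Vale.Agent.P227.Moll

variable {n : ℕ}

/-- the data used in the proof -/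
structure Dat (V : E n → ℝ) (τ : E n → Matrix (Fin n) (Fin n) ℝ) (K T a : ℝ) : Prop where
  V_smooth : ContDiff ℝ ∞ V
  lip : ∀ i j x y, |τ x i j - τ y i j| ≤ K * ‖x - y‖
  bd : ∀ i j x, |τ x i j| ≤ T
  a_pos : 0 < a
  ell : ∀ (x : E n) (v : Fin n → ℝ), a * ∑ i, v i ^ 2 ≤ ∑ i, ∑ j, τ x i j * v i * v j
  core : ∀ (f : E n → ℝ), Test f → ∀ j, ∫ x, (∑ i, τ x j i * pd i f x) * Real.exp (-V x)
    = ∫ x, (x j * f x) * Real.exp (-V x)
  symm : ∀ x i j, τ x i j = τ x j i

variable {V : E n → ℝ} {τ : E n → Matrix (Fin n) (Fin n) ℝ} {K T a : ℝ}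

lemma Dat.cont (d : Dat V τ K T a) (i j : Fin n) : Continuous (fun x => τ x i j) := by
  have hK : ∀ x y, dist (τ x i j) (τ y i j) ≤ |K| * dist x y := by
    intro x y
    rw [Real.dist_eq, dist_eq_norm]
    exact (d.lip i j x y).trans (mul_le_mul_of_nonneg_right (le_abs_self K) (norm_nonneg _))
  exact (LipschitzWith.of_dist_le_mul (K := ⟨|K|, abs_nonneg K⟩) hK).continuous

/-- partial derivatives of a mollification, kernel side -/
lemma pd_mo_ker {ρ : E n → ℝ} (hρ : ContDiff ℝ ∞ ρ) (hc : HasCompactSupport ρ) {f : E n → ℝ}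
    (hf : LocallyIntegrable f volume) (i : Fin n) (x : E n) :
    pd i (mo ρ f) x = mo (pd i ρ) f x := fderiv_mo hρ hc hf x (ei i)

/-- partial derivatives of a mollification, function side -/
lemma pd_mo_fun {ρ : E n → ℝ} (hρ : LocallyIntegrable ρ volume) {g : E n → ℝ} (hg : Test g) (i : Fin n) (x : E n) :
    pd i (mo ρ g) x = mo ρ (pd i g) x :=
  fderiv_mo' hρ (hg.1.of_le (by simp)) hg.2 x (ei i)

lemma test_pd {g : E n → ℝ} (hg : Test g) (i : Fin n) : Test (pd i g) := by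
  refine ⟨contDiff_pd_top hg.1 i, ?_⟩
  have := hg.2.fderiv_apply (𝕜 := ℝ) (ei i)
  exact this

lemma test_mo {ρ : E n → ℝ} (hρ : ContDiff ℝ ∞ ρ) (hc : HasCompactSupport ρ) {g : E n → ℝ} (hg : Test g) :
    Test (mo ρ g) := by
  refine ⟨contDiff_mo hρ hc hg.1.continuous.locallyIntegrable, ?_⟩
  rw [mo_eq_conv]
  exact hg.2.convolution _ hc

/-- the first order terms -/
noncomputable def Bt (τ : E n → Matrix (Fin n) (Fin n) ℝ) (G ρ : E n → ℝ) (j : Fin n) (x : E n) : ℝ :=
  (∑ i, mo (pd i ρ) (fun y => τ y i j * G y) x) + mo ρ (fun y => y j * G y) x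

/-- the weak identity -/
lemma M1 {G ρ ζ : E n → ℝ} (hρ : ContDiff ℝ ∞ ρ) (hc : HasCompactSupport ρ) (he : ∀ x, ρ (-x) = ρ x)
    (hG : Integrable G) (hτ : ∀ i j, Integrable (fun y => τ y i j * G y)) (hx : ∀ j, Integrable (fun y : E n => y j * G y))
    (hcτ : ∀ i j, Continuous (fun x => τ x i j))
    (hyp : ∀ f, Test f → ∫ x, G x * (f x - ((∑ i, ∑ j, τ x i j * hess f x i j) - ∑ i, x i * pd i f x)) = 0)
    (hζ : Test ζ) :
    ∫ x, (mo ρ G x * ζ x + ∑ j, Bt τ G ρ j x * pd j ζ x) = 0 := by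
  have hρl : LocallyIntegrable ρ volume := hρ.continuous.locallyIntegrable
  have hf := test_mo hρ hc hζ
  have h0 := hyp _ hf
  -- rewrite derivatives
  have e1 : ∀ i x, pd i (mo ρ ζ) x = mo ρ (pd i ζ) x := fun i x => pd_mo_fun hρl hζ i x
  have e2 : ∀ i j x, hess (mo ρ ζ) x i j = mo ρ (pd i (pd j ζ)) x := by
    intro i j x
    unfold hess
    have : pd j (mo ρ ζ) = mo ρ (pd j ζ) := funext fun x => e1 j x
    rw [this]
    exact pd_mo_fun hρl (test_pd hζ j) i x
  simp only [e1, e2] at h0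
  -- integrability of the pieces
  have iG : ∀ {p g : E n → ℝ}, Integrable p → Continuous g → HasCompactSupport g →
      Integrable (fun x => p x * g x) := by
    intro p g hp hg hgc
    have := hp.locallyIntegrable.integrable_smul_left_of_hasCompactSupport hg hgc
    refine this.congr (Eventually.of_forall fun x => ?_)
    simp only [smul_eq_mul]; ring
  have i1 : Integrable (fun x => G x * mo ρ ζ x) := iG hG hf.1.continuous hf.2
  have i2 : ∀ i j, Integrable (fun x => (τ x i j * G x) * mo ρ (pd i (pd j ζ)) x) := fun i j =>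
    have h := test_mo hρ hc (test_pd (test_pd hζ j) i)
    iG (hτ i j) h.1.continuous h.2
  have i3 : ∀ i, Integrable (fun x => (x i * G x) * mo ρ (pd i ζ) x) := fun i =>
    have h := test_mo hρ hc (test_pd hζ i)
    iG (hx i) h.1.continuous h.2
  have e3 : ∫ x, G x * (mo ρ ζ x - ((∑ i, ∑ j, τ x i j * mo ρ (pd i (pd j ζ)) x) - ∑ i, x i * mo ρ (pd i ζ) x))
      = (∫ x, G x * mo ρ ζ x) - (∑ i, ∑ j, ∫ x, (τ x i j * G x) * mo ρ (pd i (pd j ζ)) x)
        + ∑ i, ∫ x, (x i * G x) * mo ρ (pd i ζ) x := by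
    have k2 : Integrable (fun x => ∑ i, ∑ j, (τ x i j * G x) * mo ρ (pd i (pd j ζ)) x) :=
      integrable_finsetSum _ (fun i _ => integrable_finsetSum _ (fun j _ => i2 i j))
    have k3 : Integrable (fun x => ∑ i, (x i * G x) * mo ρ (pd i ζ) x) :=
      integrable_finsetSum _ (fun i _ => i3 i)
    have q2 : ∑ i, ∑ j, ∫ x, (τ x i j * G x) * mo ρ (pd i (pd j ζ)) x
        = ∫ x, ∑ i, ∑ j, (τ x i j * G x) * mo ρ (pd i (pd j ζ)) x := by
      rw [integral_finsetSum _ (fun i _ => integrable_finsetSum _ (fun j _ => i2 i j))]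
      exact Finset.sum_congr rfl fun i _ => (integral_finsetSum _ (fun j _ => i2 i j)).symm
    have q3 : ∑ i, ∫ x, (x i * G x) * mo ρ (pd i ζ) x = ∫ x, ∑ i, (x i * G x) * mo ρ (pd i ζ) x :=
      (integral_finsetSum _ (fun i _ => i3 i)).symm
    have q4 : (∫ x, G x * mo ρ ζ x) - (∫ x, ∑ i, ∑ j, (τ x i j * G x) * mo ρ (pd i (pd j ζ)) x)
        = ∫ x, (G x * mo ρ ζ x - ∑ i, ∑ j, (τ x i j * G x) * mo ρ (pd i (pd j ζ)) x) :=
      (integral_sub i1 k2).symm
    have q5 : (∫ x, (G x * mo ρ ζ x - ∑ i, ∑ j, (τ x i j * G x) * mo ρ (pd i (pd j ζ)) x))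
          + (∫ x, ∑ i, (x i * G x) * mo ρ (pd i ζ) x)
        = ∫ x, ((G x * mo ρ ζ x - ∑ i, ∑ j, (τ x i j * G x) * mo ρ (pd i (pd j ζ)) x)
          + ∑ i, (x i * G x) * mo ρ (pd i ζ) x) := (integral_add (i1.sub k2) k3).symm
    rw [q2, q3, q4, q5]
    refine integral_congr_ae (Eventually.of_forall fun x => ?_)
    simp only [Finset.mul_sum, mul_sub]
    have a1 : ∑ i, G x * (x i * mo ρ (pd i ζ) x) = ∑ i, x i * G x * mo ρ (pd i ζ) x :=
      Finset.sum_congr rfl fun i _ => by ring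
    have a2 : ∑ i, ∑ j, G x * (τ x i j * mo ρ (pd i (pd j ζ)) x)
        = ∑ i, ∑ j, τ x i j * G x * mo ρ (pd i (pd j ζ)) x :=
      Finset.sum_congr rfl fun i _ => Finset.sum_congr rfl fun j _ => by ring
    rw [a1, a2]
    ring
  rw [e3] at h0
  -- swap
  have s1 : ∫ x, G x * mo ρ ζ x = ∫ x, mo ρ G x * ζ x :=
    mo_swap hρ.continuous hc he hG hζ.1.continuous hζ.2
  have s2 : ∀ i j, ∫ x, (τ x i j * G x) * mo ρ (pd i (pd j ζ)) x
      = - ∫ x, mo (pd i ρ) (fun y => τ y i j * G y) x * pd j ζ x := by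
    intro i j
    have h1 := test_pd (test_pd hζ j) i
    rw [mo_swap hρ.continuous hc he (hτ i j) h1.1.continuous h1.2]
    have hl := (hτ i j).locallyIntegrable
    have h2 := ibp (u := mo ρ (fun y => τ y i j * G y)) (g := pd j ζ)
      ((contDiff_mo hρ hc hl).of_le (by simp)) ((test_pd hζ j).1.of_le (by simp)) (test_pd hζ j).2 (ei i)
    have h3 : ∀ x, fderiv ℝ (mo ρ (fun y => τ y i j * G y)) x (ei i)
        = mo (pd i ρ) (fun y => τ y i j * G y) x := fun x => pd_mo_ker hρ hc hl i x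
    simp only [h3] at h2
    exact h2
  have s3 : ∀ i, ∫ x, (x i * G x) * mo ρ (pd i ζ) x = ∫ x, mo ρ (fun y => y i * G y) x * pd i ζ x := by
    intro i
    have h1 := test_pd hζ i
    exact mo_swap hρ.continuous hc he (hx i) h1.1.continuous h1.2
  rw [s1] at h0
  simp only [s2, s3] at h0
  -- integrability of the target pieces
  have hpρ : ∀ i, Continuous (pd i ρ) ∧ HasCompactSupport (pd i ρ) := fun i =>
    ⟨(contDiff_pd_top hρ i).continuous, hc.fderiv_apply (𝕜 := ℝ) (ei i)⟩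
  have cc : ∀ {k p : E n → ℝ}, ContDiff ℝ ∞ k → HasCompactSupport k → Integrable p → Continuous (mo k p) :=
    fun hk hkc hp => (contDiff_mo hk hkc hp.locallyIntegrable).continuous
  have j1 : Integrable (fun x => mo ρ G x * ζ x) :=
    ((cc hρ hc hG).mul hζ.1.continuous).integrable_of_hasCompactSupport hζ.2.mul_left
  have j2 : ∀ i j, Integrable (fun x => mo (pd i ρ) (fun y => τ y i j * G y) x * pd j ζ x) := fun i j =>
    ((cc (contDiff_pd_top hρ i) (hpρ i).2 (hτ i j)).mul (test_pd hζ j).1.continuous).integrable_of_hasCompactSupport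
      (test_pd hζ j).2.mul_left
  have j3 : ∀ j, Integrable (fun x => mo ρ (fun y => y j * G y) x * pd j ζ x) := fun j =>
    ((cc hρ hc (hx j)).mul (test_pd hζ j).1.continuous).integrable_of_hasCompactSupport
      (test_pd hζ j).2.mul_left
  have j4 : ∀ j, Integrable (fun x => Bt τ G ρ j x * pd j ζ x) := by
    intro j
    have := (integrable_finsetSum Finset.univ (fun i _ => j2 i j)).add (j3 j)
    refine this.congr (Eventually.of_forall fun x => ?_)
    simp only [Pi.add_apply, Bt, add_mul, Finset.sum_mul]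
  rw [integral_add j1 (integrable_finsetSum _ fun j _ => j4 j), integral_finsetSum _ fun j _ => j4 j]
  have e4 : ∀ j, ∫ x, Bt τ G ρ j x * pd j ζ x
      = (∑ i, ∫ x, mo (pd i ρ) (fun y => τ y i j * G y) x * pd j ζ x)
        + ∫ x, mo ρ (fun y => y j * G y) x * pd j ζ x := by
    intro j
    rw [← integral_finsetSum _ (fun i _ => j2 i j),
      ← integral_add (integrable_finsetSum _ fun i _ => j2 i j) (j3 j)]
    refine integral_congr_ae (Eventually.of_forall fun x => ?_)
    simp only [Bt, add_mul, Finset.sum_mul]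
  simp only [e4, Finset.sum_add_distrib]
  rw [Finset.sum_comm]
  simp only [Finset.sum_neg_distrib] at h0
  linarith

end Vale.Agent.P227.M.ESA221
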