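import Vale.Agent.P227.M.LIN.ESA2

/-! # Essential self-adjointness, part 3: the tested equation -/

open MeasureTheory Filter Topology
open scoped ContDiff

namespace Vale.Agent.P227.M.LIN.E456

open Vale.Agent.P227.M Vale.Agent.P227.Moll

variable {n : ℕ} {r : E n → ℝ} {A : E n → Fin n → Fin n → ℝ}

lemma pd_mo {ρ : E n → ℝ} (hρ : LocallyIntegrable ρ volume) {g : E n → ℝ} (hg : Test g) (i : Fin n) :
    pd i (mo ρ g) = mo ρ (pd i g) := by
  funext x
  unfold pd
  rw [fderiv_mo' hρ (hg.1.of_le (by simp)) hg.2]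

lemma integrable_mul_test {p g : E n → ℝ} (hp : Integrable p) (hg : Continuous g)
    (hc : HasCompactSupport g) : Integrable (fun x => p x * g x) := by
  obtain ⟨B, hB⟩ := hc.exists_bound_of_continuous hg
  exact Integrable.mul_bdd (c := B) hp hg.aestronglyMeasurable (Eventually.of_forall hB)

lemma integrable_cont_test {p g : E n → ℝ} (hp : Continuous p) (hg : Continuous g)
    (hc : HasCompactSupport g) : Integrable (fun x => p x * g x) :=
  (hp.mul hg).integrable_of_hasCompactSupport hc.mul_left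

/-- the tested equation -/
lemma test_eq (D : Dat r A) {R ε : ℝ} (hε : 0 < ε) (hε1 : ε ≤ 1) {f : E n → ℝ}
    (hf : MemLp f 2 (volume : Measure (E n)))
    (h0 : ∀ x, x ∉ Metric.closedBall (0 : E n) (R + 2) → f x = 0)
    (heq : ∀ F : E n → ℝ, Test F → (∀ x, x ∉ Metric.closedBall (0 : E n) (R + 1) → F x = 0) →
      ∫ x, f x * (r x * F x - (∑ i, ∑ j, A x i j * pd i (pd j F) x) + ∑ j, r x * x j * pd j F x) = 0)
    {G : E n → ℝ} (hG : Test G) (hGR : ∀ x, x ∉ Metric.closedBall (0 : E n) R → G x = 0) :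
    ∫ x, (mo (stdM ε) (fun y => f y * r y) x * G x +
      ∑ j, (err r A (stdM ε) f j x + ∑ i, A x i j * pd i (mo (stdM ε) f) x) * pd j G x) = 0 := by
  have hη : IsMol ε (stdM ε : E n → ℝ) := stdM_isMol hε
  have hηl : LocallyIntegrable (stdM ε : E n → ℝ) volume := hη.contDiff.continuous.locallyIntegrable
  have hfl := locInt hf
  have hrc : ∀ j : Fin n, Continuous (fun y : E n => r y * y j) := fun j =>
    D.rcont.mul (cont_coord j)
  have ip : ∀ w : E n → ℝ, Continuous w → Integrable (fun y => f y * w y) := fun w hw =>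
    integrable_of_ball (memLp_mul hf h0 hw) (R := R + 2) (fun x hx => by rw [h0 x hx, zero_mul])
  have hF : Test (mo (stdM ε) G) := test_mo hη (test_loc hG) hG.2
  have hFR : ∀ x, x ∉ Metric.closedBall (0 : E n) (R + 1) → mo (stdM ε) G x = 0 := by
    intro x hx
    simp only [Metric.mem_closedBall, dist_zero_right, not_le] at hx
    unfold mo
    rw [← integral_zero (E n) ℝ]
    refine integral_congr_ae (Eventually.of_forall fun y => ?_)
    simp only []
    by_cases hy : y ∈ Metric.closedBall (0 : E n) R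
    · simp only [Metric.mem_closedBall, dist_zero_right] at hy
      rw [hη.supp (x - y), zero_smul]
      have := norm_sub_norm_le x y
      linarith
    · rw [hGR y hy, smul_zero]
  have e0 := heq _ hF hFR
  have hG1 : ∀ j, Test (pd j G) := fun j => test_pd hG j
  have hG2 : ∀ i j, Test (pd i (pd j G)) := fun i j => test_pd (hG1 j) i
  have ej : ∀ j, pd j (mo (stdM ε) G) = mo (stdM ε) (pd j G) := fun j => pd_mo hηl hG j
  have eij : ∀ i j, pd i (pd j (mo (stdM ε) G)) = mo (stdM ε) (pd i (pd j G)) := fun i j => by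
    rw [ej, pd_mo hηl (hG1 j)]
  have tmo : ∀ g : E n → ℝ, Test g → Test (mo (stdM ε) g) := fun g hg =>
    test_mo hη (test_loc hg) hg.2
  -- the integrals
  have J0 : Integrable (fun x => f x * r x * mo (stdM ε) G x) :=
    integrable_mul_test (ip r D.rcont) hF.1.continuous hF.2
  have J2 : ∀ i j, Integrable (fun x => f x * A x i j * mo (stdM ε) (pd i (pd j G)) x) := fun i j =>
    integrable_mul_test (ip _ (D.acont i j)) (tmo _ (hG2 i j)).1.continuous (tmo _ (hG2 i j)).2
  have J1 : ∀ j, Integrable (fun x => f x * (r x * x j) * mo (stdM ε) (pd j G) x) := fun j =>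
    integrable_mul_test (ip _ (hrc j)) (tmo _ (hG1 j)).1.continuous (tmo _ (hG1 j)).2
  have e1 : (∫ x, f x * r x * mo (stdM ε) G x)
      - (∑ i, ∑ j, ∫ x, f x * A x i j * mo (stdM ε) (pd i (pd j G)) x)
      + ∑ j, ∫ x, f x * (r x * x j) * mo (stdM ε) (pd j G) x = 0 := by
    rw [← e0]
    have s2 : (∑ i, ∑ j, ∫ x, f x * A x i j * mo (stdM ε) (pd i (pd j G)) x) =
        ∫ x, ∑ i, ∑ j, f x * A x i j * mo (stdM ε) (pd i (pd j G)) x := by
      rw [integral_finsetSum _ (fun i _ => integrable_finsetSum _ (fun j _ => J2 i j))]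
      refine Finset.sum_congr rfl fun i _ => ?_
      rw [integral_finsetSum _ (fun j _ => J2 i j)]
    have s1 : (∑ j, ∫ x, f x * (r x * x j) * mo (stdM ε) (pd j G) x) =
        ∫ x, ∑ j, f x * (r x * x j) * mo (stdM ε) (pd j G) x := by
      rw [integral_finsetSum _ (fun j _ => J1 j)]
    have I2 : Integrable (fun x => ∑ i, ∑ j, f x * A x i j * mo (stdM ε) (pd i (pd j G)) x) :=
      integrable_finsetSum _ (fun i _ => integrable_finsetSum _ (fun j _ => J2 i j))
    have I1 : Integrable (fun x => ∑ j, f x * (r x * x j) * mo (stdM ε) (pd j G) x) :=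
      integrable_finsetSum _ (fun j _ => J1 j)
    have J02 : Integrable (fun x => f x * r x * mo (stdM ε) G x -
        ∑ i, ∑ j, f x * A x i j * mo (stdM ε) (pd i (pd j G)) x) := J0.sub I2
    rw [s2, s1, ← integral_sub J0 I2, ← integral_add J02 I1]
    refine integral_congr_ae (Eventually.of_forall fun x => ?_)
    simp only [eij]
    simp only [ej]
    rw [mul_add, mul_sub, Finset.mul_sum, Finset.mul_sum]
    congr 1
    · congr 1
      · ring
      · refine Finset.sum_congr rfl fun i _ => ?_
        rw [Finset.mul_sum]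
        refine Finset.sum_congr rfl fun j _ => ?_
        ring
    · refine Finset.sum_congr rfl fun j _ => ?_
      ring
  have sw : ∀ w : E n → ℝ, Continuous w → ∀ g : E n → ℝ, Test g →
      ∫ x, f x * w x * mo (stdM ε) g x = ∫ x, mo (stdM ε) (fun y => f y * w y) x * g x :=
    fun w hw g hg => mo_swap hη.contDiff.continuous hη.hcs (stdM_even ε) (ip w hw) hg.1.continuous
      hg.2
  have hq : ∀ w : E n → ℝ, Continuous w → ContDiff ℝ ∞ (mo (stdM ε) (fun y => f y * w y)) :=
    fun w hw => contDiff_mo hη.contDiff hη.hcs (loc_mul hfl hw)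
  have hpdc : ∀ (u : E n → ℝ), ContDiff ℝ ∞ u → ∀ i, Continuous (pd i u) := fun u hu i =>
    (hu.continuous_fderiv (by simp)).clm_apply continuous_const
  have ib : ∀ i j, ∫ x, mo (stdM ε) (fun y => f y * A y i j) x * pd i (pd j G) x =
      - ∫ x, pd i (mo (stdM ε) (fun y => f y * A y i j)) x * pd j G x := fun i j =>
    ibp ((hq _ (D.acont i j)).of_le (by simp)) ((hG1 j).1.of_le (by simp)) (hG1 j).2 (ei i)
  have e2 : (∫ x, mo (stdM ε) (fun y => f y * r y) x * G x)
      + (∑ j, ∑ i, ∫ x, pd i (mo (stdM ε) (fun y => f y * A y i j)) x * pd j G x)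
      + ∑ j, ∫ x, mo (stdM ε) (fun y => f y * (r y * y j)) x * pd j G x = 0 := by
    rw [← e1, sw r D.rcont G hG]
    have s2 : (∑ i, ∑ j, ∫ x, f x * A x i j * mo (stdM ε) (pd i (pd j G)) x) =
        - ∑ j, ∑ i, ∫ x, pd i (mo (stdM ε) (fun y => f y * A y i j)) x * pd j G x := by
      rw [Finset.sum_comm, ← Finset.sum_neg_distrib]
      refine Finset.sum_congr rfl fun j _ => ?_
      rw [← Finset.sum_neg_distrib]
      refine Finset.sum_congr rfl fun i _ => ?_
      rw [sw _ (D.acont i j) _ (hG2 i j), ib]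
    have s1 : (∑ j, ∫ x, f x * (r x * x j) * mo (stdM ε) (pd j G) x) =
        ∑ j, ∫ x, mo (stdM ε) (fun y => f y * (r y * y j)) x * pd j G x :=
      Finset.sum_congr rfl fun j _ => sw _ (hrc j) _ (hG1 j)
    rw [s2, s1]
    ring
  -- put together
  have K0 : Integrable (fun x => mo (stdM ε) (fun y => f y * r y) x * G x) :=
    integrable_cont_test (hq r D.rcont).continuous hG.1.continuous hG.2
  have K2 : ∀ j i, Integrable
      (fun x => pd i (mo (stdM ε) (fun y => f y * A y i j)) x * pd j G x) := fun j i =>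
    integrable_cont_test (hpdc _ (hq _ (D.acont i j)) i) (hG1 j).1.continuous (hG1 j).2
  have K1 : ∀ j, Integrable
      (fun x => mo (stdM ε) (fun y => f y * (r y * y j)) x * pd j G x) := fun j =>
    integrable_cont_test (hq _ (hrc j)).continuous (hG1 j).1.continuous (hG1 j).2
  have s2 : (∑ j, ∑ i, ∫ x, pd i (mo (stdM ε) (fun y => f y * A y i j)) x * pd j G x) =
      ∫ x, ∑ j, ∑ i, pd i (mo (stdM ε) (fun y => f y * A y i j)) x * pd j G x := by
    rw [integral_finsetSum _ (fun j _ => integrable_finsetSum _ (fun i _ => K2 j i))]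
    refine Finset.sum_congr rfl fun j _ => ?_
    rw [integral_finsetSum _ (fun i _ => K2 j i)]
  have s1 : (∑ j, ∫ x, mo (stdM ε) (fun y => f y * (r y * y j)) x * pd j G x) =
      ∫ x, ∑ j, mo (stdM ε) (fun y => f y * (r y * y j)) x * pd j G x := by
    rw [integral_finsetSum _ (fun j _ => K1 j)]
  have I2 : Integrable (fun x => ∑ j, ∑ i,
      pd i (mo (stdM ε) (fun y => f y * A y i j)) x * pd j G x) :=
    integrable_finsetSum _ (fun j _ => integrable_finsetSum _ (fun i _ => K2 j i))
  have I1 : Integrable (fun x => ∑ j, mo (stdM ε) (fun y => f y * (r y * y j)) x * pd j G x) :=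
    integrable_finsetSum _ (fun j _ => K1 j)
  have K02 : Integrable (fun x => mo (stdM ε) (fun y => f y * r y) x * G x +
      ∑ j, ∑ i, pd i (mo (stdM ε) (fun y => f y * A y i j)) x * pd j G x) := K0.add I2
  rw [← e2, s2, s1, ← integral_add K0 I2, ← integral_add K02 I1]
  refine integral_congr_ae (Eventually.of_forall fun x => ?_)
  simp only []
  rw [add_assoc, ← Finset.sum_add_distrib]
  congr 1
  refine Finset.sum_congr rfl fun j _ => ?_
  unfold err
  rw [Finset.sum_sub_distrib, ← Finset.sum_mul]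
  ring

end Vale.Agent.P227.M.LIN.E456
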