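import Vale.Agent.P227.M.LIN.ESA3

/-! # Essential self-adjointness, part 4: the local inequality and the conclusion -/

open MeasureTheory Filter Topology
open scoped ContDiff

namespace Vale.Agent.P227.M.LIN.E456

open Vale.Agent.P227.M Vale.Agent.P227.Moll

variable {n : ℕ} {r : E n → ℝ} {A : E n → Fin n → Fin n → ℝ}

lemma esa_alg (a : Fin n → Fin n → ℝ) (hs : ∀ i j, a i j = a j i) {m : ℝ} (hm : 0 < m)
    (hlow : ∀ v : Fin n → ℝ, m * ∑ i, v i ^ 2 ≤ ∑ i, ∑ j, a i j * v i * v j)
    (e H z' : Fin n → ℝ) (z h : ℝ) (hz : |z| ≤ 1) :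
    -(1 / (4 * m)) * (∑ j, e j * e j) + (∑ j, e j * (z * z' j * h))
      - (∑ i, ∑ j, a i j * z' i * z' j) * h * h ≤
    ∑ j, (e j + ∑ i, a i j * H i) * (2 * z * z' j * h + z ^ 2 * H j) := by
  obtain ⟨Z, hZ⟩ : ∃ Z : Fin n → ℝ, ∀ j, Z j = z' j * h + z * H j := ⟨_, fun j => rfl⟩
  have s1 : ∑ j, ∑ i, a i j * (z' i * Z j) = ∑ j, ∑ i, a i j * (Z i * z' j) := by
    rw [Finset.sum_comm]
    refine Finset.sum_congr rfl fun i _ => Finset.sum_congr rfl fun j _ => ?_
    rw [hs]; ring
  have e1 : ∑ j, (e j + ∑ i, a i j * H i) * (2 * z * z' j * h + z ^ 2 * H j) =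
      (∑ j, e j * (z * Z j)) + (∑ j, e j * (z * z' j * h)) + (∑ j, ∑ i, a i j * (Z i * Z j))
      + h * (∑ j, ∑ i, a i j * (Z i * z' j)) - h * (∑ j, ∑ i, a i j * (z' i * Z j))
      - h * h * (∑ j, ∑ i, a i j * (z' i * z' j)) := by
    simp only [Finset.mul_sum, ← Finset.sum_add_distrib, ← Finset.sum_sub_distrib]
    refine Finset.sum_congr rfl fun j _ => ?_
    rw [add_mul, Finset.sum_mul]
    have e2 : ∑ i, a i j * H i * (2 * z * z' j * h + z ^ 2 * H j) =
        (∑ i, a i j * (Z i * Z j)) + (∑ i, h * (a i j * (Z i * z' j)))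
        - (∑ i, h * (a i j * (z' i * Z j))) - ∑ i, h * h * (a i j * (z' i * z' j)) := by
      simp only [← Finset.sum_add_distrib, ← Finset.sum_sub_distrib]
      refine Finset.sum_congr rfl fun i _ => ?_
      rw [hZ, hZ]; ring
    rw [e2, hZ j]
    ring
  have s2 : ∑ j, ∑ i, a i j * (Z i * Z j) = ∑ i, ∑ j, a i j * Z i * Z j := by
    rw [Finset.sum_comm]
    refine Finset.sum_congr rfl fun i _ => Finset.sum_congr rfl fun j _ => ?_
    ring
  have s3 : ∑ j, ∑ i, a i j * (z' i * z' j) = ∑ i, ∑ j, a i j * z' i * z' j := by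
    rw [Finset.sum_comm]
    refine Finset.sum_congr rfl fun i _ => Finset.sum_congr rfl fun j _ => ?_
    ring
  have h1 := hlow Z
  have h2 : -(1 / (4 * m)) * (∑ j, e j * e j) ≤ (∑ j, e j * (z * Z j)) + m * ∑ i, Z i ^ 2 := by
    rw [Finset.mul_sum, Finset.mul_sum, ← Finset.sum_add_distrib]
    refine Finset.sum_le_sum fun j _ => ?_
    have hz2 : z ^ 2 ≤ 1 := by
      have := sq_abs z
      nlinarith [abs_nonneg z]
    have h3 : 0 ≤ (2 * m * Z j + z * e j) ^ 2 := sq_nonneg _
    have h4 : z ^ 2 * e j ^ 2 ≤ 1 * e j ^ 2 := mul_le_mul_of_nonneg_right hz2 (sq_nonneg _)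
    have h5 : -(1 / (4 * m)) * (e j * e j) = (1 / (4 * m)) * (-(e j ^ 2)) := by ring
    have h6 : e j * (z * Z j) + m * Z j ^ 2 =
        (1 / (4 * m)) * ((2 * m * Z j + z * e j) ^ 2 - z ^ 2 * e j ^ 2) := by
      field_simp
      ring
    rw [h5, h6]
    refine mul_le_mul_of_nonneg_left ?_ (by positivity)
    nlinarith
  rw [e1, s1, s2, s3]
  nlinarith

lemma pd_zero_of_ball {g : E n → ℝ} {R : ℝ}
    (h0 : ∀ x, x ∉ Metric.closedBall (0 : E n) R → g x = 0) (i : Fin n) :
    ∀ x, x ∉ Metric.closedBall (0 : E n) R → pd i g x = 0 := by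
  intro x hx
  have ho : IsOpen (Metric.closedBall (0 : E n) R)ᶜ := Metric.isClosed_closedBall.isOpen_compl
  have h1 : g =ᶠ[𝓝 x] fun _ => (0 : ℝ) := by
    filter_upwards [ho.mem_nhds hx] with y hy
    exact h0 y hy
  unfold pd
  rw [h1.fderiv_eq]
  simp

/-- the local inequality -/
theorem local_ineq (D : Dat r A) {R m : ℝ} (hm : 0 < m)
    (hlow : ∀ x ∈ Metric.closedBall (0 : E n) R, ∀ v : Fin n → ℝ,
      m * ∑ i, v i ^ 2 ≤ ∑ i, ∑ j, A x i j * v i * v j)
    {f : E n → ℝ} (hf : MemLp f 2 (volume : Measure (E n)))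
    (h0 : ∀ x, x ∉ Metric.closedBall (0 : E n) (R + 2) → f x = 0)
    (heq : ∀ F : E n → ℝ, Test F → (∀ x, x ∉ Metric.closedBall (0 : E n) (R + 1) → F x = 0) →
      ∫ x, f x * (r x * F x - (∑ i, ∑ j, A x i j * pd i (pd j F) x) + ∑ j, r x * x j * pd j F x) = 0)
    {ζ : E n → ℝ} (hζ : Test ζ) (hζR : ∀ x, x ∉ Metric.closedBall (0 : E n) R → ζ x = 0)
    (hζ1 : ∀ x, |ζ x| ≤ 1) :
    ∫ x, (f x * r x) * (ζ x ^ 2 * f x) ≤
      ∫ x, ((∑ i, ∑ j, A x i j * pd i ζ x * pd j ζ x) * f x) * f x := by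
  have hk1 : ∀ k : ℕ, 1 / ((k : ℝ) + 1) ≤ 1 := by
    intro k
    rw [div_le_one (by positivity)]
    have := Nat.cast_nonneg (α := ℝ) k
    linarith
  have hk0 : ∀ k : ℕ, 0 < 1 / ((k : ℝ) + 1) := fun k => by positivity
  have hz' : ∀ j, Test (pd j ζ) := fun j => test_pd hζ j
  -- sequences
  have hp : MemLp (fun x => f x * r x) 2 (volume : Measure (E n)) := memLp_mul hf h0 D.rcont
  have L0 := L2t.moll hp
  have Lf := L2t.moll hf
  have bd : ∀ w : E n → ℝ, Continuous w → HasCompactSupport w → ∃ B : ℝ, ∀ x, |w x| ≤ B := by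
    intro w hw hc
    obtain ⟨B, hB⟩ := hc.exists_bound_of_continuous hw
    exact ⟨B, hB⟩
  have c2 : Continuous (fun x => ζ x ^ 2) := hζ.1.continuous.pow 2
  have cs2 : HasCompactSupport (fun x => ζ x ^ 2) := by
    have h1 : HasCompactSupport (fun x => ζ x * ζ x) := hζ.2.mul_left
    simpa only [sq] using h1
  obtain ⟨B2, hB2⟩ := bd _ c2 cs2
  have L2 := Lf.bmul c2.aestronglyMeasurable hB2
  have c3 : ∀ j, Continuous (fun x => ζ x * pd j ζ x) := fun j =>
    hζ.1.continuous.mul (hz' j).1.continuous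
  have cs3 : ∀ j, HasCompactSupport (fun x => ζ x * pd j ζ x) := fun j => (hz' j).2.mul_left
  have L3 : ∀ j, L2t (fun k x => (ζ x * pd j ζ x) * mo (seqM k) f x)
      (fun x => (ζ x * pd j ζ x) * f x) := fun j => by
    obtain ⟨B3, hB3⟩ := bd _ (c3 j) (cs3 j)
    exact Lf.bmul (c3 j).aestronglyMeasurable hB3
  have cq : Continuous (fun x => ∑ i, ∑ j, A x i j * pd i ζ x * pd j ζ x) :=
    continuous_finsetSum _ fun i _ => continuous_finsetSum _ fun j _ =>
      ((D.acont i j).mul (hz' i).1.continuous).mul (hz' j).1.continuous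
  have csq : HasCompactSupport (fun x => ∑ i, ∑ j, A x i j * pd i ζ x * pd j ζ x) := by
    refine HasCompactSupport.intro (isCompact_closedBall (0 : E n) R) fun x hx => ?_
    refine Finset.sum_eq_zero fun i _ => Finset.sum_eq_zero fun j _ => ?_
    rw [pd_zero_of_ball hζR j x hx, mul_zero]
  obtain ⟨Bq, hBq⟩ := bd _ cq csq
  have Lq := Lf.bmul cq.aestronglyMeasurable hBq
  have Le : ∀ j, L2t (fun k => (Metric.closedBall (0 : E n) R).indicator (err r A (seqM k) f j))
      (fun _ => 0) := fun j => err_lim D R hf h0 j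
  -- the limits
  have T0 := L0.lim_mul L2
  have T1 : Tendsto (fun k => ∑ j, ∫ x, (Metric.closedBall (0 : E n) R).indicator
      (err r A (seqM k) f j) x * (Metric.closedBall (0 : E n) R).indicator
      (err r A (seqM k) f j) x) atTop (𝓝 (∑ _j : Fin n, ∫ _x : E n, (0 : ℝ) * 0)) :=
    tendsto_finsetSum _ fun j _ => (Le j).lim_mul (Le j)
  have T2 : Tendsto (fun k => ∑ j, ∫ x, (Metric.closedBall (0 : E n) R).indicator
      (err r A (seqM k) f j) x * ((ζ x * pd j ζ x) * mo (seqM k) f x)) atTop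
      (𝓝 (∑ j : Fin n, ∫ x : E n, (0 : ℝ) * ((ζ x * pd j ζ x) * f x))) :=
    tendsto_finsetSum _ fun j _ => (Le j).lim_mul (L3 j)
  have T3 := Lq.lim_mul Lf
  have T : Tendsto (fun k => (∫ x, mo (seqM k) (fun x => f x * r x) x *
        (ζ x ^ 2 * mo (seqM k) f x))
      + -(1 / (4 * m)) * (∑ j, ∫ x, (Metric.closedBall (0 : E n) R).indicator
        (err r A (seqM k) f j) x * (Metric.closedBall (0 : E n) R).indicator
        (err r A (seqM k) f j) x)
      + (∑ j, ∫ x, (Metric.closedBall (0 : E n) R).indicator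
        (err r A (seqM k) f j) x * ((ζ x * pd j ζ x) * mo (seqM k) f x))
      - ∫ x, ((∑ i, ∑ j, A x i j * pd i ζ x * pd j ζ x) * mo (seqM k) f x) * mo (seqM k) f x)
      atTop (𝓝 ((∫ x, (f x * r x) * (ζ x ^ 2 * f x))
        + -(1 / (4 * m)) * (∑ _j : Fin n, ∫ _x : E n, (0 : ℝ) * 0)
        + (∑ j : Fin n, ∫ x : E n, (0 : ℝ) * ((ζ x * pd j ζ x) * f x))
        - ∫ x, ((∑ i, ∑ j, A x i j * pd i ζ x * pd j ζ x) * f x) * f x)) :=
    ((T0.add (T1.const_mul _)).add T2).sub T3
  have hle : ∀ k : ℕ, (∫ x, mo (seqM k) (fun x => f x * r x) x *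
        (ζ x ^ 2 * mo (seqM k) f x))
      + -(1 / (4 * m)) * (∑ j, ∫ x, (Metric.closedBall (0 : E n) R).indicator
        (err r A (seqM k) f j) x * (Metric.closedBall (0 : E n) R).indicator
        (err r A (seqM k) f j) x)
      + (∑ j, ∫ x, (Metric.closedBall (0 : E n) R).indicator
        (err r A (seqM k) f j) x * ((ζ x * pd j ζ x) * mo (seqM k) f x))
      - ∫ x, ((∑ i, ∑ j, A x i j * pd i ζ x * pd j ζ x) * mo (seqM k) f x) * mo (seqM k) f x
      ≤ 0 := by
    intro k
    have hη : IsMol (1 / ((k : ℝ) + 1)) (seqM k : E n → ℝ) := seqM_isMol k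
    have hh : ContDiff ℝ ∞ (mo (seqM k) f) := contDiff_mo hη.contDiff hη.hcs (locInt hf)
    have hG : Test (fun x => ζ x ^ 2 * mo (seqM k) f x) := ⟨(hζ.1.pow 2).mul hh, cs2.mul_right⟩
    have hGR : ∀ x, x ∉ Metric.closedBall (0 : E n) R → ζ x ^ 2 * mo (seqM k) f x = 0 := by
      intro x hx
      rw [hζR x hx]; ring
    have hE := test_eq D (hk0 k) (hk1 k) hf h0 heq hG hGR
    have hdG : ∀ j x, pd j (fun x => ζ x ^ 2 * mo (seqM k) f x) x =
        2 * ζ x * pd j ζ x * mo (seqM k) f x + ζ x ^ 2 * pd j (mo (seqM k) f) x := by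
      intro j x
      have a1 : HasFDerivAt ζ (fderiv ℝ ζ x) x := ((hζ.1.differentiable (by simp)) x).hasFDerivAt
      have a2 : HasFDerivAt (mo (seqM k) f) (fderiv ℝ (mo (seqM k) f) x) x :=
        ((hh.differentiable (by simp)) x).hasFDerivAt
      have a3 := ((a1.pow 2).mul a2).fderiv
      have a4 : fderiv ℝ (fun x => ζ x ^ 2 * mo (seqM k) f x) x = _ := a3
      unfold pd
      rw [a4]
      simp
      ring
    have m0 : MemLp (mo (seqM k) (fun x => f x * r x)) 2 (volume : Measure (E n)) := L0.mem k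
    have mf : MemLp (mo (seqM k) f) 2 (volume : Measure (E n)) := Lf.mem k
    have I0 : Integrable (fun x => mo (seqM k) (fun x => f x * r x) x *
        (ζ x ^ 2 * mo (seqM k) f x)) := m0.integrable_mul (L2.mem k)
    have I1 : ∀ j, Integrable (fun x => (Metric.closedBall (0 : E n) R).indicator
        (err r A (seqM k) f j) x * (Metric.closedBall (0 : E n) R).indicator
        (err r A (seqM k) f j) x) := fun j => ((Le j).mem k).integrable_mul ((Le j).mem k)
    have I2 : ∀ j, Integrable (fun x => (Metric.closedBall (0 : E n) R).indicator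
        (err r A (seqM k) f j) x * ((ζ x * pd j ζ x) * mo (seqM k) f x)) := fun j =>
      ((Le j).mem k).integrable_mul ((L3 j).mem k)
    have I3 : Integrable (fun x => ((∑ i, ∑ j, A x i j * pd i ζ x * pd j ζ x) *
        mo (seqM k) f x) * mo (seqM k) f x) := (Lq.mem k).integrable_mul mf
    have S1 : Integrable (fun x => -(1 / (4 * m)) * ∑ j, (Metric.closedBall (0 : E n) R).indicator
        (err r A (seqM k) f j) x * (Metric.closedBall (0 : E n) R).indicator
        (err r A (seqM k) f j) x) := (integrable_finsetSum _ fun j _ => I1 j).const_mul _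
    have S2 : Integrable (fun x => ∑ j, (Metric.closedBall (0 : E n) R).indicator
        (err r A (seqM k) f j) x * ((ζ x * pd j ζ x) * mo (seqM k) f x)) :=
      integrable_finsetSum _ fun j _ => I2 j
    have I01 : Integrable (fun x => mo (seqM k) (fun x => f x * r x) x *
        (ζ x ^ 2 * mo (seqM k) f x) + -(1 / (4 * m)) * ∑ j,
        (Metric.closedBall (0 : E n) R).indicator
        (err r A (seqM k) f j) x * (Metric.closedBall (0 : E n) R).indicator
        (err r A (seqM k) f j) x) := I0.add S1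
    have I012 : Integrable (fun x => mo (seqM k) (fun x => f x * r x) x *
        (ζ x ^ 2 * mo (seqM k) f x) + -(1 / (4 * m)) * (∑ j,
        (Metric.closedBall (0 : E n) R).indicator
        (err r A (seqM k) f j) x * (Metric.closedBall (0 : E n) R).indicator
        (err r A (seqM k) f j) x) + ∑ j, (Metric.closedBall (0 : E n) R).indicator
        (err r A (seqM k) f j) x * ((ζ x * pd j ζ x) * mo (seqM k) f x)) := I01.add S2
    rw [← integral_finsetSum _ (fun j _ => I1 j), ← integral_finsetSum _ (fun j _ => I2 j),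
      ← integral_const_mul, ← integral_add I0 S1, ← integral_add I01 S2, ← integral_sub I012 I3]
    rw [← hE]
    have hpc : Continuous (mo (seqM k) (fun x => f x * r x)) :=
      (contDiff_mo hη.contDiff hη.hcs (locInt hp)).continuous
    have hIG : Integrable (fun x => mo (stdM (1 / ((k : ℝ) + 1))) (fun y => f y * r y) x *
        (ζ x ^ 2 * mo (seqM k) f x) + ∑ j, (err r A (stdM (1 / ((k : ℝ) + 1))) f j x +
        ∑ i, A x i j * pd i (mo (stdM (1 / ((k : ℝ) + 1))) f) x) *
        pd j (fun x => ζ x ^ 2 * mo (seqM k) f x) x) := by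
      refine Integrable.add (integrable_cont_test hpc hG.1.continuous hG.2) ?_
      refine integrable_finsetSum _ fun j _ => ?_
      refine integrable_cont_test ?_ (test_pd hG j).1.continuous (test_pd hG j).2
      refine (err_cont D hη (locInt hf) j).add ?_
      refine continuous_finsetSum _ fun i _ => (D.acont i j).mul ?_
      exact (hh.continuous_fderiv (by simp)).clm_apply continuous_const
    refine integral_mono (I012.sub I3) hIG fun x => ?_
    simp only [hdG]
    by_cases hx : x ∈ Metric.closedBall (0 : E n) R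
    · simp only [Set.indicator_of_mem hx]
      have := esa_alg (A x) (D.symm x) hm (hlow x hx) (fun j => err r A (seqM k) f j x)
        (fun i => pd i (mo (seqM k) f) x) (fun i => pd i ζ x) (ζ x) (mo (seqM k) f x) (hζ1 x)
      simp only [seqM] at this ⊢
      linarith
    · simp only [Set.indicator_of_notMem hx, hζR x hx, pd_zero_of_ball hζR _ x hx]
      simp
  have hfin := le_of_tendsto T (Eventually.of_forall hle)
  simp only [mul_zero, zero_mul, integral_zero, Finset.sum_const_zero, add_zero] at hfin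
  linarith

end Vale.Agent.P227.M.LIN.E456
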