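import Vale.Agent.P227.M.LIN.ESA4

/-! # Essential self-adjointness, part 5: cut-offs and the abstract conclusion -/

open MeasureTheory Filter Topology
open scoped ContDiff

namespace Vale.Agent.P227.M.LIN.E456

open Vale.Agent.P227.M Vale.Agent.P227.Moll

variable {n : ℕ} {r : E n → ℝ} {A : E n → Fin n → Fin n → ℝ}

/-- the reference cut-off -/
noncomputable def chi0 (n : ℕ) : ContDiffBump (0 : E n) := ⟨1, 2, by norm_num, by norm_num⟩

/-- the cut-off at radius `R` -/
noncomputable def cutR (n : ℕ) (R : ℝ) (x : E n) : ℝ := chi0 n (R⁻¹ • x)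

lemma cutR_test {R : ℝ} (hR : 0 < R) : Test (cutR n R) := by
  refine ⟨(chi0 n).contDiff.comp (contDiff_const_smul _), ?_⟩
  exact (chi0 n).hasCompactSupport.comp_homeomorph (Homeomorph.smulOfNeZero R⁻¹ (inv_ne_zero hR.ne'))

lemma cutR_nonneg (R : ℝ) (x : E n) : 0 ≤ cutR n R x := (chi0 n).nonneg

lemma cutR_le_one (R : ℝ) (x : E n) : cutR n R x ≤ 1 := (chi0 n).le_one

lemma cutR_one {R : ℝ} (hR : 0 < R) {x : E n} (hx : ‖x‖ ≤ R) : cutR n R x = 1 := by
  refine (chi0 n).one_of_mem_closedBall ?_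
  simp only [Metric.mem_closedBall, dist_zero_right, norm_smul, norm_inv,
    Real.norm_of_nonneg hR.le, chi0]
  rw [inv_mul_eq_div, div_le_one hR]
  exact hx

lemma cutR_zero {R : ℝ} (hR : 0 < R) {x : E n} (hx : x ∉ Metric.closedBall (0 : E n) (2 * R)) :
    cutR n R x = 0 := by
  refine (chi0 n).zero_of_le_dist ?_
  simp only [Metric.mem_closedBall, dist_zero_right, not_le] at hx
  simp only [dist_zero_right, norm_smul, norm_inv, Real.norm_of_nonneg hR.le, chi0]
  rw [inv_mul_eq_div, le_div_iff₀ hR]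
  exact hx.le

lemma cutR_pd (n : ℕ) : ∃ L : ℝ, 0 ≤ L ∧ ∀ R : ℝ, 0 < R → ∀ x i, |pd i (cutR n R) x| ≤ L / R := by
  have hc : Continuous (fderiv ℝ (chi0 n : E n → ℝ)) :=
    (chi0 n).contDiff (n := 1).continuous_fderiv (by simp)
  obtain ⟨L, hL⟩ := ((chi0 n).hasCompactSupport.fderiv ℝ).exists_bound_of_continuous hc
  refine ⟨|L|, abs_nonneg _, fun R hR x i => ?_⟩
  have h2 : HasFDerivAt (fun x : E n => R⁻¹ • x) (R⁻¹ • ContinuousLinearMap.id ℝ (E n)) x :=
    (hasFDerivAt_id x).const_smul R⁻¹
  have h3 : HasFDerivAt (chi0 n : E n → ℝ) (fderiv ℝ (chi0 n : E n → ℝ) (R⁻¹ • x)) (R⁻¹ • x) :=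
    (((chi0 n).contDiff (n := 1)).differentiable (by simp) _).hasFDerivAt
  have h5 : fderiv ℝ (cutR n R) x = _ := (h3.comp x h2).fderiv
  unfold pd
  rw [h5]
  simp only [ContinuousLinearMap.comp_smul, ContinuousLinearMap.comp_id,
    _root_.smul_apply, smul_eq_mul, abs_mul, abs_inv, abs_of_pos hR]
  have h6 := (fderiv ℝ (chi0 n : E n → ℝ) (R⁻¹ • x)).le_opNorm (ei i)
  rw [norm_ei, mul_one] at h6
  rw [inv_mul_eq_div]
  have h7 : |fderiv ℝ (chi0 n : E n → ℝ) (R⁻¹ • x) (ei i)| ≤ |L| :=
    (h6.trans (hL _)).trans (le_abs_self L)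
  gcongr

/-- abstract essential self-adjointness -/
theorem esa_core (D : Dat r A) (rpos : ∀ x, 0 < r x) {c C : ℝ} (hc : 0 < c) (hC : 0 ≤ C)
    (hlow : ∀ x, ∀ v : Fin n → ℝ, c * r x * ∑ i, v i ^ 2 ≤ ∑ i, ∑ j, A x i j * v i * v j)
    (hup : ∀ x, ∀ v : Fin n → ℝ, ∑ i, ∑ j, A x i j * v i * v j ≤ C * r x * ∑ i, v i ^ 2)
    {h : E n → ℝ} (hm : AEStronglyMeasurable h volume) (hi : Integrable (fun x => h x ^ 2 * r x))
    (heq : ∀ F : E n → ℝ, Test F →
      ∫ x, h x * (r x * F x - (∑ i, ∑ j, A x i j * pd i (pd j F) x) + ∑ j, r x * x j * pd j F x) = 0) :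
    h =ᵐ[volume] 0 := by
  obtain ⟨L, hL0, hL⟩ := cutR_pd n
  set N : ℝ := ∫ x, h x ^ 2 * r x with hN
  -- the local estimate
  have key : ∀ R : ℝ, 0 < R →
      ∫ x, cutR n R x ^ 2 * (h x ^ 2 * r x) ≤ C * (n * (L / R) ^ 2) * N := by
    intro R hR
    set f : E n → ℝ := (Metric.closedBall (0 : E n) (2 * R + 2)).indicator h with hf
    have hB : MeasurableSet (Metric.closedBall (0 : E n) (2 * R + 2)) :=
      Metric.isClosed_closedBall.measurableSet
    have hfm : AEStronglyMeasurable f volume := hm.indicator hB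
    have f0 : ∀ x, x ∉ Metric.closedBall (0 : E n) (2 * R + 2) → f x = 0 := fun x hx =>
      Set.indicator_of_notMem hx _
    have f1 : ∀ x ∈ Metric.closedBall (0 : E n) (2 * R + 2), f x = h x := fun x hx =>
      Set.indicator_of_mem hx _
    have hne : (Metric.closedBall (0 : E n) (2 * R + 2)).Nonempty :=
      ⟨0, by simp only [Metric.mem_closedBall, dist_self]; positivity⟩
    obtain ⟨x0, hx0, hmin⟩ := (isCompact_closedBall (0 : E n) (2 * R + 2)).exists_isMinOn hne
      D.rcont.continuousOn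
    have hr0 := rpos x0
    have hfL : MemLp f 2 (volume : Measure (E n)) := by
      refine (memLp_two_iff_integrable_sq_norm hfm).mpr ?_
      refine (hi.const_mul (r x0)⁻¹).mono' (hfm.norm.pow 2) (Eventually.of_forall fun x => ?_)
      rw [Real.norm_of_nonneg (by positivity), Real.norm_eq_abs, sq_abs]
      by_cases hx : x ∈ Metric.closedBall (0 : E n) (2 * R + 2)
      · rw [f1 x hx]
        have h1 : r x0 ≤ r x := hmin hx
        rw [inv_mul_eq_div, le_div_iff₀ hr0]
        exact mul_le_mul_of_nonneg_left h1 (sq_nonneg _)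
      · rw [f0 x hx]
        have := rpos x
        have h9 : (0 : ℝ) ^ 2 = 0 := by norm_num
        rw [h9]
        positivity
    have hsub : Metric.closedBall (0 : E n) (2 * R) ⊆ Metric.closedBall (0 : E n) (2 * R + 2) :=
      Metric.closedBall_subset_closedBall (by linarith)
    have hsub1 : Metric.closedBall (0 : E n) (2 * R + 1) ⊆ Metric.closedBall (0 : E n) (2 * R + 2) :=
      Metric.closedBall_subset_closedBall (by linarith)
    have heq' : ∀ F : E n → ℝ, Test F →
        (∀ x, x ∉ Metric.closedBall (0 : E n) (2 * R + 1) → F x = 0) →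
        ∫ x, f x * (r x * F x - (∑ i, ∑ j, A x i j * pd i (pd j F) x)
          + ∑ j, r x * x j * pd j F x) = 0 := by
      intro F hF hF0
      rw [← heq F hF]
      refine integral_congr_ae (Eventually.of_forall fun x => ?_)
      by_cases hx : x ∈ Metric.closedBall (0 : E n) (2 * R + 2)
      · simp only [f1 x hx]
      · have hx1 : x ∉ Metric.closedBall (0 : E n) (2 * R + 1) := fun hc => hx (hsub1 hc)
        have p1 := fun j => pd_zero_of_ball hF0 j
        have p2 := fun i j => pd_zero_of_ball (p1 j) i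
        simp only [hF0 x hx1, p1 _ x hx1, p2 _ _ x hx1]
        simp
    have hloc := local_ineq D (R := 2 * R) (m := c * r x0) (by positivity) (fun x hx v => by
      refine le_trans ?_ (hlow x v)
      have h1 : r x0 ≤ r x := hmin (hsub hx)
      have h2 : 0 ≤ ∑ i, v i ^ 2 := Finset.sum_nonneg fun i _ => sq_nonneg _
      gcongr) hfL f0 heq' (ζ := cutR n R) (cutR_test hR) (fun x hx => cutR_zero hR hx)
      (fun x => by rw [abs_of_nonneg (cutR_nonneg R x)]; exact cutR_le_one R x)
    have e1 : ∫ x, (f x * r x) * (cutR n R x ^ 2 * f x) =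
        ∫ x, cutR n R x ^ 2 * (h x ^ 2 * r x) := by
      refine integral_congr_ae (Eventually.of_forall fun x => ?_)
      by_cases hx : x ∈ Metric.closedBall (0 : E n) (2 * R + 2)
      · simp only [f1 x hx]; ring
      · have hx1 : x ∉ Metric.closedBall (0 : E n) (2 * R) := fun hc => hx (hsub hc)
        simp only [cutR_zero hR hx1]; ring
    rw [e1] at hloc
    refine hloc.trans ?_
    have hpt : ∀ x, ((∑ i, ∑ j, A x i j * pd i (cutR n R) x * pd j (cutR n R) x) * f x) * f x ≤
        C * (n * (L / R) ^ 2) * (h x ^ 2 * r x) := by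
      intro x
      have hrx := rpos x
      have h1 := hup x (fun i => pd i (cutR n R) x)
      have h2 : ∑ i, (pd i (cutR n R) x) ^ 2 ≤ n * (L / R) ^ 2 := by
        calc ∑ i, (pd i (cutR n R) x) ^ 2 ≤ ∑ _i : Fin n, (L / R) ^ 2 := by
              refine Finset.sum_le_sum fun i _ => ?_
              rw [← sq_abs]
              exact pow_le_pow_left₀ (abs_nonneg _) (hL R hR x i) 2
          _ = n * (L / R) ^ 2 := by simp
      have h3 : C * r x * ∑ i, (pd i (cutR n R) x) ^ 2 ≤ C * r x * (n * (L / R) ^ 2) :=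
        mul_le_mul_of_nonneg_left h2 (by positivity)
      have h4 : f x ^ 2 ≤ h x ^ 2 := by
        by_cases hx : x ∈ Metric.closedBall (0 : E n) (2 * R + 2)
        · rw [f1 x hx]
        · rw [f0 x hx]
          have h9 : (0 : ℝ) ^ 2 = 0 := by norm_num
          rw [h9]
          positivity
      calc ((∑ i, ∑ j, A x i j * pd i (cutR n R) x * pd j (cutR n R) x) * f x) * f x
          = (∑ i, ∑ j, A x i j * pd i (cutR n R) x * pd j (cutR n R) x) * f x ^ 2 := by ring
        _ ≤ (C * r x * (n * (L / R) ^ 2)) * f x ^ 2 :=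
            mul_le_mul_of_nonneg_right (h1.trans h3) (sq_nonneg _)
        _ ≤ (C * r x * (n * (L / R) ^ 2)) * h x ^ 2 :=
            mul_le_mul_of_nonneg_left h4 (by positivity)
        _ = _ := by ring
    rw [hN, ← integral_const_mul]
    have hqm : AEStronglyMeasurable (fun x => ((∑ i, ∑ j, A x i j * pd i (cutR n R) x *
        pd j (cutR n R) x) * f x) * f x) volume := by
      have cq : Continuous (fun x => ∑ i, ∑ j, A x i j * pd i (cutR n R) x * pd j (cutR n R) x) :=
        continuous_finsetSum _ fun i _ => continuous_finsetSum _ fun j _ =>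
          ((D.acont i j).mul (test_pd (cutR_test hR) i).1.continuous).mul
            (test_pd (cutR_test hR) j).1.continuous
      exact (cq.aestronglyMeasurable.mul hfm).mul hfm
    refine integral_mono_of_nonneg ?_ (hi.const_mul _) (Eventually.of_forall hpt)
    refine Eventually.of_forall fun x => ?_
    have hrx := rpos x
    have h1 := hlow x (fun i => pd i (cutR n R) x)
    have h2 : 0 ≤ ∑ i, ∑ j, A x i j * pd i (cutR n R) x * pd j (cutR n R) x := by
      refine le_trans ?_ h1
      have : 0 ≤ ∑ i, (pd i (cutR n R) x) ^ 2 := Finset.sum_nonneg fun i _ => sq_nonneg _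
      positivity
    show 0 ≤ ((∑ i, ∑ j, A x i j * pd i (cutR n R) x * pd j (cutR n R) x) * f x) * f x
    rw [mul_assoc]
    exact mul_nonneg h2 (mul_self_nonneg _)
  -- the limit
  have T1 : Tendsto (fun k : ℕ => ∫ x, cutR n ((k : ℝ) + 1) x ^ 2 * (h x ^ 2 * r x)) atTop
      (𝓝 (∫ x, h x ^ 2 * r x)) := by
    refine tendsto_integral_of_dominated_convergence (fun x => h x ^ 2 * r x) ?_ hi ?_ ?_
    · intro k
      exact ((cutR_test (n := n) (show 0 < (k : ℝ) + 1 by positivity)).1.continuous.pow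
        2).aestronglyMeasurable.mul hi.1
    · intro k
      refine Eventually.of_forall fun x => ?_
      have hrx := rpos x
      have h1 := cutR_nonneg ((k : ℝ) + 1) x
      have h2 := cutR_le_one ((k : ℝ) + 1) x
      rw [Real.norm_of_nonneg (by positivity)]
      have h3 : cutR n ((k : ℝ) + 1) x ^ 2 ≤ 1 := pow_le_one₀ h1 h2
      have h4 : 0 ≤ h x ^ 2 * r x := by positivity
      nlinarith
    · refine Eventually.of_forall fun x => ?_
      refine tendsto_const_nhds.congr' ?_
      filter_upwards [eventually_ge_atTop ⌈‖x‖⌉₊] with k hk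
      have h1 : ‖x‖ ≤ (k : ℝ) + 1 := by
        have := Nat.le_of_ceil_le hk
        linarith
      rw [cutR_one (by positivity) h1]
      ring
  have T2 : Tendsto (fun k : ℕ => C * (n * (L / ((k : ℝ) + 1)) ^ 2) * N) atTop (𝓝 0) := by
    have h1 : Tendsto (fun k : ℕ => L / ((k : ℝ) + 1)) atTop (𝓝 0) :=
      tendsto_const_div_atTop_nhds_zero_nat L |>.comp (tendsto_add_atTop_nat 1) |>.congr
        fun k => by simp
    have h2 := (((h1.pow 2).const_mul (n : ℝ)).const_mul C).mul_const N
    simpa using h2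
  have hN0 : N ≤ 0 := le_of_tendsto_of_tendsto' T1 T2 fun k => key _ (by positivity)
  have hz : (fun x => h x ^ 2 * r x) =ᵐ[volume] 0 := by
    refine (integral_eq_zero_iff_of_nonneg_ae (Eventually.of_forall fun x => ?_) hi).1 ?_
    · have hrx := rpos x
      show 0 ≤ h x ^ 2 * r x
      positivity
    · refine le_antisymm hN0 (integral_nonneg fun x => ?_)
      have hrx := rpos x
      positivity
  filter_upwards [hz] with x hx
  have hrx := rpos x
  simp only [Pi.zero_apply, mul_eq_zero, ne_eq, OfNat.ofNat_ne_zero, not_false_eq_true,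
    pow_eq_zero_iff] at hx ⊢
  rcases hx with hx | hx
  · exact hx
  · exact absurd hx hrx.ne'

end Vale.Agent.P227.M.LIN.E456
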