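import Vale.Agent.P227.M.LIN.Iface
import Vale.Agent.P227.M.BasMM

/-! # Energy inequality for the mollified equation (sub-lemma of `StmtESA`) -/

open MeasureTheory Filter Topology
open scoped ContDiff

namespace Vale.Agent.P227.M.ESA52C

variable {n : ℕ}

/-- bilinear form of a matrix -/
noncomputable def bl (A : Matrix (Fin n) (Fin n) ℝ) (p y : Fin n → ℝ) : ℝ :=
  ∑ a, ∑ b, A a b * p a * y b

lemma pt_alg {κ c0 : ℝ} (hκ : 0 < κ) (A : Matrix (Fin n) (Fin n) ℝ) (p y e : Fin n → ℝ) (χ w G : ℝ)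
    (hG : 0 < G)
    (h1 : κ * ∑ b, p b ^ 2 ≤ bl A p p) (h2 : bl A y y ≤ c0 * ∑ b, y b ^ 2)
    (h3 : 0 ≤ χ ^ 2 * bl A p p + 4 * χ * w * bl A p y + 4 * w ^ 2 * bl A y y) :
    -(G * (2 * χ * w * bl A p y + χ ^ 2 * bl A p p)) + ∑ b, e b * (2 * χ * y b * w + χ ^ 2 * p b)
      ≤ (2 * c0 + 1) * ((∑ b, y b ^ 2) * G⁻¹ * (G * w) ^ 2)
        + (1 / (2 * κ) + 1) * (χ ^ 2 * G⁻¹ * ∑ b, e b ^ 2) := by
  have hGw : G⁻¹ * (G * w) ^ 2 = G * w ^ 2 := by field_simp
  have e1 : (∑ b, y b ^ 2) * G⁻¹ * (G * w) ^ 2 = G * w ^ 2 * ∑ b, y b ^ 2 := by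
    rw [mul_assoc, hGw]; ring
  rw [e1]
  have hb : ∀ b, e b * (2 * χ * y b * w + χ ^ 2 * p b) ≤
      (χ ^ 2 * G⁻¹ * e b ^ 2 + G * w ^ 2 * y b ^ 2)
      + (κ / 2 * G * χ ^ 2 * p b ^ 2 + 1 / (2 * κ) * (χ ^ 2 * G⁻¹ * e b ^ 2)) := by
    intro b
    have i1 : 0 ≤ (χ * e b - G * (y b * w)) ^ 2 * G⁻¹ := by positivity
    have i2 : (χ * e b - G * (y b * w)) ^ 2 * G⁻¹
        = χ ^ 2 * G⁻¹ * e b ^ 2 - 2 * χ * e b * y b * w + G * w ^ 2 * y b ^ 2 := by
      field_simp
      ring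
    have i3 : 0 ≤ χ ^ 2 * (κ * G * p b - e b) ^ 2 * (1 / (2 * κ) * G⁻¹) := by positivity
    have i4 : χ ^ 2 * (κ * G * p b - e b) ^ 2 * (1 / (2 * κ) * G⁻¹)
        = κ / 2 * G * χ ^ 2 * p b ^ 2 - χ ^ 2 * p b * e b + 1 / (2 * κ) * (χ ^ 2 * G⁻¹ * e b ^ 2) := by
      field_simp
      ring
    linarith
  have hs := Finset.sum_le_sum fun b (_ : b ∈ Finset.univ) => hb b
  simp only [Finset.sum_add_distrib, ← Finset.mul_sum] at hs
  have h1' : κ / 2 * G * χ ^ 2 * ∑ b, p b ^ 2 ≤ G / 2 * (χ ^ 2 * bl A p p) := by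
    have := mul_le_mul_of_nonneg_left h1 (show 0 ≤ G / 2 * χ ^ 2 by positivity)
    linarith
  have h2' : 2 * G * w ^ 2 * bl A y y ≤ 2 * G * w ^ 2 * (c0 * ∑ b, y b ^ 2) :=
    mul_le_mul_of_nonneg_left h2 (by positivity)
  have h3' : -(G * (2 * χ * w * bl A p y)) ≤ G / 2 * (χ ^ 2 * bl A p p) + 2 * G * w ^ 2 * bl A y y := by
    have := mul_le_mul_of_nonneg_left h3 (show 0 ≤ G / 2 by positivity)
    linarith
  linarith

lemma qf_toLp (A : Matrix (Fin n) (Fin n) ℝ) (p : Fin n → ℝ) :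
    qf A (WithLp.toLp 2 p) = bl A p p := rfl

lemma norm_toLp_sq (p : Fin n → ℝ) : ‖(WithLp.toLp 2 p : E n)‖ ^ 2 = ∑ b, p b ^ 2 := by
  rw [EuclideanSpace.norm_sq_eq]
  simp

lemma kap_le {ψ V : E n → ℝ} {c C M : ℝ} (h : MM ψ V c C M) (x : E n) (p : Fin n → ℝ) :
    1 / (|C| + 1) * ∑ b, p b ^ 2 ≤ bl (tau ψ x) p p := by
  rw [← qf_toLp, ← norm_toLp_sq]
  set v : E n := WithLp.toLp 2 p
  by_cases hv : v = 0
  · rw [hv]
    simp [qf]
  · have h1 : 0 < ‖v‖ ^ 2 := by
      have := norm_pos_iff.2 hv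
      positivity
    have h2 : c * ‖v‖ ^ 2 ≤ C * ‖v‖ ^ 2 := (h.lower x v).trans (h.upper x v)
    have h3 : c ≤ C := le_of_mul_le_mul_right h2 h1
    have hC : 0 < C := lt_of_lt_of_le h.c_pos h3
    refine le_trans ?_ (h.le_qf_tau x v)
    refine mul_le_mul_of_nonneg_right ?_ h1.le
    rw [abs_of_pos hC, one_div]
    exact inv_anti₀ hC (by linarith)

lemma bl_expand (A : Matrix (Fin n) (Fin n) ℝ) (hA : ∀ i j, A i j = A j i) (p y : Fin n → ℝ) (s t : ℝ) :
    bl A (fun b => s * p b + t * y b) (fun b => s * p b + t * y b)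
      = s ^ 2 * bl A p p + 2 * s * t * bl A p y + t ^ 2 * bl A y y := by
  have h1 : bl A y p = bl A p y := by
    unfold bl
    rw [Finset.sum_comm]
    refine Finset.sum_congr rfl fun a _ => Finset.sum_congr rfl fun b _ => ?_
    rw [hA b a]; ring
  have h2 : bl A (fun b => s * p b + t * y b) (fun b => s * p b + t * y b)
      = s ^ 2 * bl A p p + s * t * bl A p y + s * t * bl A y p + t ^ 2 * bl A y y := by
    unfold bl
    simp only [Finset.mul_sum, ← Finset.sum_add_distrib]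
    refine Finset.sum_congr rfl fun a _ => Finset.sum_congr rfl fun b _ => ?_
    ring
  rw [h2, h1]
  ring

lemma pd_mul {f g : E n → ℝ} {x : E n} (hf : DifferentiableAt ℝ f x) (hg : DifferentiableAt ℝ g x)
    (b : Fin n) : pd b (fun z => f z * g z) x = pd b f x * g x + f x * pd b g x := by
  unfold pd
  have : fderiv ℝ (fun z => f z * g z) x = _ := (hf.hasFDerivAt.mul hg.hasFDerivAt).fderiv
  rw [this]
  simp only [add_apply, smul_apply, smul_eq_mul]
  ring

lemma pd_exp {V : E n → ℝ} {x : E n} (hV : DifferentiableAt ℝ V x) (b : Fin n) :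
    pd b (fun z => Real.exp (V z)) x = Real.exp (V x) * pd b V x := by
  unfold pd
  have : fderiv ℝ (fun z => Real.exp (V z)) x = _ := hV.hasFDerivAt.exp.fderiv
  rw [this]
  simp

lemma cont_pd {g : E n → ℝ} (hg : ContDiff ℝ 1 g) (i : Fin n) : Continuous (pd i g) :=
  (hg.continuous_fderiv (by simp)).clm_apply continuous_const

theorem energy_le {n : ℕ} {ψ V : E n → ℝ} {c C M : ℝ} (hV : ContDiff ℝ (⊤ : ℕ∞) V) (hM : MM ψ V c C M) :
    ∃ C1 C2 : ℝ, 0 ≤ C1 ∧ 0 ≤ C2 ∧ ∀ (U : E n → ℝ) (Er : Fin n → E n → ℝ),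
      ContDiff ℝ (⊤ : ℕ∞) U → (∀ b, Continuous (Er b)) →
      (∀ g : E n → ℝ, Test g → (∫ x, U x * g x)
        + ∑ b, ∫ x, ((∑ a, tau ψ x a b * (pd a U x + pd a V x * U x)) - Er b x) * pd b g x = 0) →
      ∀ χ : E n → ℝ, Test χ → ∫ x, χ x ^ 2 * Real.exp (V x) * U x ^ 2 ≤
          C1 * (∫ x, (∑ b, pd b χ x ^ 2) * Real.exp (V x) * U x ^ 2)
            + C2 * (∫ x, χ x ^ 2 * Real.exp (V x) * ∑ b, Er b x ^ 2) := by
  have hc := hM.c_pos
  obtain ⟨κ, hκ⟩ : ∃ κ : ℝ, κ = 1 / (|C| + 1) := ⟨_, rfl⟩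
  have hκ0 : 0 < κ := by rw [hκ]; positivity
  refine ⟨2 * c⁻¹ + 1, 1 / (2 * κ) + 1, by positivity, by positivity, ?_⟩
  intro U Er hU hEr hId χ hχ
  obtain ⟨hχ1, hχc⟩ := hχ
  have dV : Differentiable ℝ V := hV.differentiable (by simp)
  have dU : Differentiable ℝ U := hU.differentiable (by simp)
  have dχ : Differentiable ℝ χ := hχ1.differentiable (by simp)
  have hexp : ContDiff ℝ (⊤ : ℕ∞) (fun z => Real.exp (V z)) := hV.exp
  have dexp : Differentiable ℝ (fun z => Real.exp (V z)) := hexp.differentiable (by simp)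
  -- the field P
  obtain ⟨P, hP⟩ : ∃ P : Fin n → E n → ℝ, P = fun a x => Real.exp (V x) * (pd a U x + pd a V x * U x) :=
    ⟨_, rfl⟩
  have hPc : ∀ a, Continuous (P a) := by
    intro a
    rw [hP]
    exact hexp.continuous.mul ((cont_pd (hU.of_le (by simp)) a).add
      ((cont_pd (hV.of_le (by simp)) a).mul hU.continuous))
  -- the test function
  have hw : ContDiff ℝ (⊤ : ℕ∞) (fun z => Real.exp (V z) * U z) := hexp.mul hU
  have hg : Test (fun z => χ z * (χ z * (Real.exp (V z) * U z))) :=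
    ⟨hχ1.mul (hχ1.mul hw), hχc.mul_right⟩
  have h0 := hId _ hg
  have hpw : ∀ b x, pd b (fun z => Real.exp (V z) * U z) x = P b x := by
    intro b x
    rw [pd_mul (dexp x) (dU x), pd_exp (dV x), hP]
    ring
  have hpg : ∀ b x, pd b (fun z => χ z * (χ z * (Real.exp (V z) * U z))) x
      = 2 * χ x * pd b χ x * (Real.exp (V x) * U x) + χ x ^ 2 * P b x := by
    intro b x
    have d1 : DifferentiableAt ℝ (fun z => Real.exp (V z) * U z) x := (dexp x).mul (dU x)
    have d2 : DifferentiableAt ℝ (fun z => χ z * (Real.exp (V z) * U z)) x := (dχ x).mul d1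
    rw [pd_mul (dχ x) d2, pd_mul (dχ x) d1, hpw]
    ring
  simp only [hpg] at h0
  have hcs : ∀ q : E n → ℝ, Continuous q → Integrable (fun x => χ x * q x) := fun q hq =>
    (hχ1.continuous.mul hq).integrable_of_hasCompactSupport hχc.mul_right
  have hcs' : ∀ (b : Fin n) (q : E n → ℝ), Continuous q → Integrable (fun x => pd b χ x * q x) :=
    fun b q hq => ((cont_pd (hχ1.of_le (by simp)) b).mul hq).integrable_of_hasCompactSupport
      (((hχc.fderiv ℝ).comp_left (g := fun L : E n →L[ℝ] ℝ => L (ei b)) (by simp)).mul_right)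
  have cτ : ∀ a b, Continuous (fun x => tau ψ x a b) := fun a b => hM.continuous_tau a b
  have cU := hU.continuous
  have cV := hV.continuous
  have cE : Continuous (fun x => Real.exp (V x)) := hexp.continuous
  have cχ := hχ1.continuous
  have cdχ : ∀ b, Continuous (pd b χ) := fun b => cont_pd (hχ1.of_le (by simp)) b
  have cS : ∀ b, Continuous (fun x => (∑ a, tau ψ x a b * (pd a U x + pd a V x * U x)) - Er b x) := by
    intro b
    refine (continuous_finsetSum _ fun a _ => ?_).sub (hEr b)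
    exact (cτ a b).mul ((cont_pd (hU.of_le (by simp)) a).add
      ((cont_pd (hV.of_le (by simp)) a).mul cU))
  -- integrals as one
  have i1 : ∀ b, Integrable (fun x => ((∑ a, tau ψ x a b * (pd a U x + pd a V x * U x)) - Er b x) *
      (2 * χ x * pd b χ x * (Real.exp (V x) * U x) + χ x ^ 2 * P b x)) := by
    intro b
    have := hcs (fun x => ((∑ a, tau ψ x a b * (pd a U x + pd a V x * U x)) - Er b x) *
      (2 * pd b χ x * (Real.exp (V x) * U x) + χ x * P b x))
      ((cS b).mul (((continuous_const.mul (cdχ b)).mul (cE.mul cU)).add (cχ.mul (hPc b))))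
    refine this.congr (Eventually.of_forall fun x => ?_)
    simp only
    ring
  have i0 : Integrable (fun x => U x * (χ x * (χ x * (Real.exp (V x) * U x)))) := by
    refine (hcs (fun x => U x * (χ x * (Real.exp (V x) * U x))) (cU.mul (cχ.mul (cE.mul cU)))).congr
      (Eventually.of_forall fun x => ?_)
    simp only
    ring
  rw [← integral_finsetSum _ (fun b _ => i1 b),
    ← integral_add i0 (integrable_finsetSum _ fun b _ => i1 b)] at h0
  -- right side as one integral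
  have j1 : Integrable (fun x => (∑ b, pd b χ x ^ 2) * Real.exp (V x) * U x ^ 2) := by
    have : (fun x => (∑ b, pd b χ x ^ 2) * Real.exp (V x) * U x ^ 2)
        = fun x => ∑ b, pd b χ x * (pd b χ x * (Real.exp (V x) * U x ^ 2)) := by
      funext x
      rw [Finset.sum_mul, Finset.sum_mul]
      refine Finset.sum_congr rfl fun b _ => ?_
      ring
    rw [this]
    exact integrable_finsetSum _ fun b _ => hcs' b _ ((cdχ b).mul (cE.mul (cU.pow 2)))
  have j2 : Integrable (fun x => χ x ^ 2 * Real.exp (V x) * ∑ b, Er b x ^ 2) := by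
    refine (hcs (fun x => χ x * (Real.exp (V x) * ∑ b, Er b x ^ 2)) (cχ.mul (cE.mul
      (continuous_finsetSum _ fun b _ => (hEr b).pow 2)))).congr (Eventually.of_forall fun x => ?_)
    simp only
    ring
  rw [← integral_const_mul, ← integral_const_mul, ← integral_add (j1.const_mul _) (j2.const_mul _)]
  have j0 : Integrable (fun x => χ x ^ 2 * Real.exp (V x) * U x ^ 2) := by
    refine i0.congr (Eventually.of_forall fun x => ?_)
    simp only
    ring
  have jR : Integrable (fun x => (2 * c⁻¹ + 1) * ((∑ b, pd b χ x ^ 2) * Real.exp (V x) * U x ^ 2)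
      + (1 / (2 * κ) + 1) * (χ x ^ 2 * Real.exp (V x) * ∑ b, Er b x ^ 2)) :=
    (j1.const_mul _).add (j2.const_mul _)
  have jF : Integrable (fun x => U x * (χ x * (χ x * (Real.exp (V x) * U x)))
      + ∑ b, ((∑ a, tau ψ x a b * (pd a U x + pd a V x * U x)) - Er b x) *
        (2 * χ x * pd b χ x * (Real.exp (V x) * U x) + χ x ^ 2 * P b x)) :=
    i0.add (integrable_finsetSum Finset.univ fun b _ => i1 b)
  refine (integral_mono j0 (jF.add jR) fun x => ?_).trans (le_of_eq (by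
    have := integral_add jF jR
    rw [h0, zero_add] at this
    exact this))
  have hpt := pt_alg (κ := κ) (c0 := c⁻¹) hκ0 (tau ψ x) (fun b => P b x) (fun b => pd b χ x)
    (fun b => Er b x) (χ x) (Real.exp (V x) * U x) (Real.exp (-V x)) (Real.exp_pos _)
    (by rw [hκ]; exact kap_le hM x _)
    (by
      rw [← qf_toLp, ← norm_toLp_sq]
      exact hM.qf_tau_le x _)
    (by
      have h5 := hM.qf_tau_nonneg x (WithLp.toLp 2 fun b => χ x * P b x
        + (2 * (Real.exp (V x) * U x)) * pd b χ x)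
      rw [qf_toLp, bl_expand _ (hM.tau_symm x)] at h5
      linarith)
  have hEE : Real.exp (-V x) * (Real.exp (V x) * U x) = U x := by
    rw [← mul_assoc, ← Real.exp_add]; simp
  have hEi : (Real.exp (-V x))⁻¹ = Real.exp (V x) := by rw [Real.exp_neg, inv_inv]
  rw [hEE, hEi] at hpt
  have hSP : ∀ b, ∑ a, tau ψ x a b * (pd a U x + pd a V x * U x)
      = Real.exp (-V x) * ∑ a, tau ψ x a b * P a x := by
    intro b
    rw [Finset.mul_sum]
    refine Finset.sum_congr rfl fun a _ => ?_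
    rw [hP]
    have : Real.exp (-V x) * Real.exp (V x) = 1 := by rw [← Real.exp_add]; simp
    linear_combination (-(tau ψ x a b * (pd a U x + pd a V x * U x))) * this
  have hmain : ∑ b, ((∑ a, tau ψ x a b * (pd a U x + pd a V x * U x)) - Er b x) *
      (2 * χ x * pd b χ x * (Real.exp (V x) * U x) + χ x ^ 2 * P b x)
      = Real.exp (-V x) * (2 * χ x * (Real.exp (V x) * U x) * bl (tau ψ x) (fun b => P b x) (fun b => pd b χ x)
          + χ x ^ 2 * bl (tau ψ x) (fun b => P b x) (fun b => P b x))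
        - ∑ b, Er b x * (2 * χ x * pd b χ x * (Real.exp (V x) * U x) + χ x ^ 2 * P b x) := by
    have e1 : ∀ q : Fin n → ℝ, bl (tau ψ x) (fun b => P b x) q = ∑ b, (∑ a, tau ψ x a b * P a x) * q b := by
      intro q
      unfold bl
      rw [Finset.sum_comm]
      refine Finset.sum_congr rfl fun b _ => ?_
      rw [Finset.sum_mul]
    rw [e1, e1, Finset.mul_sum, Finset.mul_sum, ← Finset.sum_add_distrib, Finset.mul_sum,
      ← Finset.sum_sub_distrib]
    refine Finset.sum_congr rfl fun b _ => ?_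
    rw [hSP b]
    ring
  simp only [Pi.add_apply]
  rw [hmain]
  have e9 : U x * (χ x * (χ x * (Real.exp (V x) * U x))) = χ x ^ 2 * Real.exp (V x) * U x ^ 2 := by ring
  rw [e9]
  linarith

end Vale.Agent.P227.M.ESA52C
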