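import Vale.Agent.P227.M.LIN.Moll

/-! # Friedrichs commutator (helper205, hedge of `StmtESA`) -/

set_option linter.unusedSectionVars false

open MeasureTheory Filter Topology
open scoped ContDiff NNReal

namespace Vale.Agent.P227.Esa205

open Vale.Agent.P227.Moll

variable {E : Type*} [NormedAddCommGroup E] [InnerProductSpace ℝ E] [FiniteDimensional ℝ E]
  [MeasurableSpace E] [BorelSpace E]

/-- derivative of the kernel -/
noncomputable def dk (ρ : E → ℝ) (e : E) (z : E) : ℝ := fderiv ℝ ρ z e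

lemma dk_cont {ρ : E → ℝ} (hρ : ContDiff ℝ ∞ ρ) (e : E) : Continuous (dk ρ e) :=
  (hρ.continuous_fderiv (by simp)).clm_apply continuous_const

lemma dk_smooth {ρ : E → ℝ} (hρ : ContDiff ℝ ∞ ρ) (e : E) : ContDiff ℝ ∞ (dk ρ e) :=
  (hρ.fderiv_right (m := ∞) (by simp)).clm_apply contDiff_const

lemma dk_hcs {ρ : E → ℝ} (hc : HasCompactSupport ρ) (e : E) : HasCompactSupport (dk ρ e) :=
  hc.fderiv_apply ℝ e

lemma dk_zero {ε : ℝ} {ρ : E → ℝ} (h : IsMol ε ρ) (e : E) {z : E} (hz : ε < ‖z‖) :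
    dk ρ e z = 0 := by
  have h1 : ρ =ᶠ[𝓝 z] fun _ => (0 : ℝ) := by
    have h2 : ∀ᶠ y in 𝓝 z, ε < ‖y‖ := (continuous_norm.tendsto z).eventually (lt_mem_nhds hz)
    filter_upwards [h2] with y hy
    exact h.supp y hy.le
  unfold dk
  rw [h1.fderiv_eq]
  simp

lemma memLp_bdd_mul {u g : E → ℝ} {B : ℝ} (hg : MemLp g 2 (volume : Measure E))
    (hu : AEStronglyMeasurable u volume) (hB : ∀ x, |u x| ≤ B) :
    MemLp (fun x => u x * g x) 2 (volume : Measure E) ∧
      nsq (fun x => u x * g x) ≤ B ^ 2 * nsq g := by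
  have hm : MemLp (fun x => u x * g x) 2 (volume : Measure E) := by
    refine MemLp.of_le_mul (c := B) hg (hu.mul hg.1) (Eventually.of_forall fun x => ?_)
    rw [norm_mul]
    exact mul_le_mul_of_nonneg_right (hB x) (norm_nonneg _)
  refine ⟨hm, ?_⟩
  unfold nsq
  rw [← integral_const_mul]
  refine integral_mono_of_nonneg (Eventually.of_forall fun x => by positivity)
    ((memLp_norm_sq_int hg).const_mul _) (Eventually.of_forall fun x => ?_)
  have h1 : ‖u x * g x‖ ≤ B * ‖g x‖ := by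
    rw [norm_mul]
    exact mul_le_mul_of_nonneg_right (hB x) (norm_nonneg _)
  calc ‖u x * g x‖ ^ 2 ≤ (B * ‖g x‖) ^ 2 := pow_le_pow_left₀ (norm_nonneg _) h1 2
    _ = B ^ 2 * ‖g x‖ ^ 2 := by ring

/-- the commutator `∂_e (ρ * (w g)) - w ∂_e (ρ * g)` -/
noncomputable def Dc (ρ : E → ℝ) (e : E) (w g : E → ℝ) (x : E) : ℝ :=
  mo (dk ρ e) (fun y => w y * g y) x - w x * mo (dk ρ e) g x

/-- the commutator minus its limit -/
noncomputable def Rc (ρ : E → ℝ) (e : E) (w g : E → ℝ) (x : E) : ℝ :=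
  Dc ρ e w g x - lineDeriv ℝ w x e * mo ρ g x

variable {ε : ℝ} {ρ : E → ℝ} {w g : E → ℝ} {K : ℝ≥0}

lemma mo_cont {κ : E → ℝ} (hκ : Continuous κ) (hc : HasCompactSupport κ) {f : E → ℝ}
    (hf : LocallyIntegrable f volume) : Continuous (mo κ f) := by
  rw [mo_eq_conv]
  exact hc.continuous_convolution_right _ hf hκ

/-- `κ * (w f) - w (κ * f)` for `w` Lipschitz and `κ` supported in the ball of radius `ε` -/
lemma comm_le {κ : E → ℝ} (hκ : Continuous κ) (hc : HasCompactSupport κ)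
    (hs : ∀ z, ε < ‖z‖ → κ z = 0) (hw : LipschitzWith K w) {f : E → ℝ}
    (hf : LocallyIntegrable f volume) (hwf : LocallyIntegrable (fun y => w y * f y) volume) (x : E) :
    ‖mo κ (fun y => w y * f y) x - w x * mo κ f x‖ ≤
      mo (fun z => K * ε * |κ z|) (fun y => ‖f y‖) x := by
  have i1 := integrable_mo hκ hc hwf x
  have i2 := (integrable_mo hκ hc hf x).const_mul (w x)
  have e1 : mo κ (fun y => w y * f y) x - w x * mo κ f x =
      ∫ y, κ (x - y) * ((w y - w x) * f y) := by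
    unfold mo
    rw [← integral_const_mul, ← integral_sub i1 i2]
    refine integral_congr_ae (Eventually.of_forall fun y => ?_)
    simp only [smul_eq_mul]
    ring
  rw [e1]
  unfold mo
  refine norm_integral_le_of_norm_le ?_ (Eventually.of_forall fun y => ?_)
  · exact integrable_mo (ρ := fun z => K * ε * |κ z|) (by fun_prop)
      (hc.norm.mul_left) (fun z => (hf z).norm) x
  · simp only [smul_eq_mul]
    by_cases hz : ε < ‖x - y‖
    · rw [hs _ hz]; simp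
    · push Not at hz
      rw [norm_mul, norm_mul, Real.norm_eq_abs (κ _)]
      have h1 : ‖w y - w x‖ ≤ K * ε := by
        have h2 := hw.norm_sub_le y x
        rw [norm_sub_rev y x] at h2
        exact h2.trans (mul_le_mul_of_nonneg_left hz K.coe_nonneg)
      calc |κ (x - y)| * (‖w y - w x‖ * ‖f y‖) ≤ |κ (x - y)| * (K * ε * ‖f y‖) := by gcongr
        _ = K * ε * |κ (x - y)| * ‖f y‖ := by ring

lemma comm_nsq {κ : E → ℝ} (hκ : Continuous κ) (hc : HasCompactSupport κ) (hε : 0 ≤ ε)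
    (hs : ∀ z, ε < ‖z‖ → κ z = 0) (hw : LipschitzWith K w) {f : E → ℝ}
    (hf : MemLp f 2 (volume : Measure E))
    (hwf : LocallyIntegrable (fun y => w y * f y) volume) :
    MemLp (fun x => mo κ (fun y => w y * f y) x - w x * mo κ f x) 2 (volume : Measure E) ∧
      nsq (fun x => mo κ (fun y => w y * f y) x - w x * mo κ f x) ≤
        (K * (ε * ∫ z, |κ z|)) ^ 2 * nsq f := by
  have h := nsq_le_mo (ρ := fun z => K * ε * |κ z|) (by fun_prop) (hc.norm.mul_left)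
    (fun z => by positivity) hf
    (w := fun x => mo κ (fun y => w y * f y) x - w x * mo κ f x)
    (((mo_cont hκ hc hwf).sub (hw.continuous.mul (mo_cont hκ hc (locInt hf)))).aestronglyMeasurable)
    (fun x => comm_le hκ hc hs hw (locInt hf) hwf x)
  rw [integral_const_mul, mul_assoc] at h
  exact h

/-- integration by parts for Lipschitz functions -/
lemma mo_dk_lip (hρ : ContDiff ℝ ∞ ρ) (hc : HasCompactSupport ρ) {F : E → ℝ} {L : ℝ≥0}
    (hF : LipschitzWith L F) (e x : E) :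
    mo (dk ρ e) F x = mo ρ (fun y => lineDeriv ℝ F y e) x := by
  have hsm : ContDiff ℝ ∞ (fun y => ρ (x - y)) := hρ.comp (by fun_prop)
  have hcs : HasCompactSupport (fun y => ρ (x - y)) := by
    have := hc.comp_homeomorph (Homeomorph.subLeft x)
    exact this
  obtain ⟨D, hD⟩ : ∃ D, LipschitzWith D (fun y => ρ (x - y)) :=
    ContDiff.lipschitzWith_of_hasCompactSupport hcs hsm (by simp)
  have h := LipschitzWith.integral_lineDeriv_mul_eq (μ := (volume : Measure E)) hF hD hcs e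
  unfold mo
  have h1 : ∀ y, lineDeriv ℝ (fun y => ρ (x - y)) y (-e) = dk ρ e (x - y) := by
    intro y
    rw [(hsm.differentiable (by simp)).differentiableAt.lineDeriv_eq_fderiv]
    have h2 : HasFDerivAt (fun y => ρ (x - y)) ((fderiv ℝ ρ (x - y)).comp (-(ContinuousLinearMap.id ℝ E))) y := by
      have h3 : HasFDerivAt ρ (fderiv ℝ ρ (x - y)) (x - y) :=
        ((hρ.differentiable (by simp)) (x - y)).hasFDerivAt
      exact h3.comp y ((hasFDerivAt_id y).const_sub x)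
    rw [h2.fderiv]
    simp [dk]
  simp only [h1] at h
  simp only [smul_eq_mul]
  rw [← h]
  refine integral_congr_ae (Eventually.of_forall fun y => ?_)
  ring

lemma Rc_bound (hρ : IsMol ε ρ) (hε : 0 ≤ ε) (hw : LipschitzWith K w) {B : ℝ}
    (hB : ∀ x, |w x| ≤ B) (e : E) {K₁ : ℝ} (hK : ε * ∫ z, |dk ρ e z| ≤ K₁)
    (hg : MemLp g 2 (volume : Measure E)) :
    MemLp (Rc ρ e w g) 2 (volume : Measure E) ∧
      nsq (Rc ρ e w g) ≤ (2 * (K * K₁) ^ 2 + 2 * (K * ‖e‖) ^ 2) * nsq g := by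
  have hwg : LocallyIntegrable (fun y => w y * g y) volume :=
    locInt (memLp_bdd_mul hg hw.continuous.aestronglyMeasurable hB).1
  have h1 := comm_nsq (dk_cont hρ.contDiff e) (dk_hcs hρ.hcs e) hε
    (fun z hz => dk_zero hρ e hz) hw hg hwg
  have h2 := nsq_mo_le hρ hg
  have h3 := memLp_bdd_mul (u := fun x => - lineDeriv ℝ w x e) (B := K * ‖e‖) h2.1
    (measurable_lineDeriv hw.continuous).neg.aestronglyMeasurable
    (fun x => by rw [abs_neg]; exact norm_lineDeriv_le_of_lipschitz ℝ hw)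
  have e1 : Rc ρ e w g = fun x => (mo (dk ρ e) (fun y => w y * g y) x - w x * mo (dk ρ e) g x)
      + (- lineDeriv ℝ w x e) * mo ρ g x := by
    funext x; unfold Rc Dc; ring
  rw [e1]
  refine ⟨h1.1.add h3.1, (nsq_add_le h1.1 h3.1).trans ?_⟩
  have h4 : (K * (ε * ∫ z, |dk ρ e z|)) ^ 2 ≤ (K * K₁) ^ 2 := by
    have h5 : 0 ≤ ∫ z, |dk ρ e z| := integral_nonneg fun _ => abs_nonneg _
    have h6 : 0 ≤ K * (ε * ∫ z, |dk ρ e z|) := by positivity
    exact pow_le_pow_left₀ h6 (mul_le_mul_of_nonneg_left hK K.coe_nonneg) 2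
  have h7 := nsq_nonneg g
  have h8 : (K * (ε * ∫ z, |dk ρ e z|)) ^ 2 * nsq g ≤ (K * K₁) ^ 2 * nsq g :=
    mul_le_mul_of_nonneg_right h4 h7
  have h9 : (K * ‖e‖) ^ 2 * nsq (mo ρ g) ≤ (K * ‖e‖) ^ 2 * nsq g :=
    mul_le_mul_of_nonneg_left h2.2 (by positivity)
  linarith [h1.2, h3.2]

lemma Rc_sub (hρ : IsMol ε ρ) (hw : LipschitzWith K w) {B : ℝ}
    (hB : ∀ x, |w x| ≤ B) (e : E) {g₀ : E → ℝ}
    (hg : MemLp g 2 (volume : Measure E)) (hg₀ : MemLp g₀ 2 (volume : Measure E)) (x : E) :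
    Rc ρ e w g x = Rc ρ e w (fun y => g y - g₀ y) x + Rc ρ e w g₀ x := by
  have m1 := (memLp_bdd_mul hg hw.continuous.aestronglyMeasurable hB).1
  have m2 := (memLp_bdd_mul hg₀ hw.continuous.aestronglyMeasurable hB).1
  have c1 := dk_cont hρ.contDiff e
  have c2 := dk_hcs hρ.hcs e
  have e1 : (fun y => w y * (g y - g₀ y)) = fun y => w y * g y - w y * g₀ y := by
    funext y; ring
  unfold Rc Dc
  rw [e1, mo_sub c1 c2 (locInt m1) (locInt m2), mo_sub c1 c2 (locInt hg) (locInt hg₀),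
    mo_sub hρ.contDiff.continuous hρ.hcs (locInt hg) (locInt hg₀)]
  ring


/-- value of the commutator on smooth functions of compact support -/
lemma Rc_smooth (hρ : IsMol ε ρ) (hε : 0 ≤ ε) (hw : LipschitzWith K w) {B : ℝ}
    (hB : ∀ x, |w x| ≤ B) (e : E) {g₀ : E → ℝ} (hg : ContDiff ℝ ∞ g₀) (hc : HasCompactSupport g₀) :
    ∃ q : E → ℝ, MemLp q 2 (volume : Measure E) ∧
      nsq q ≤ (K * ε) ^ 2 * nsq (fun y => fderiv ℝ g₀ y e) ∧
      ∀ x, Rc ρ e w g₀ x = (mo ρ (fun y => lineDeriv ℝ w y e * g₀ y) x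
        - lineDeriv ℝ w x e * mo ρ g₀ x) + q x := by
  have hρc := hρ.contDiff.continuous
  obtain ⟨D, hD⟩ : ∃ D, LipschitzWith D g₀ :=
    ContDiff.lipschitzWith_of_hasCompactSupport hc hg (by simp)
  obtain ⟨B₀, hB₀⟩ := hg.continuous.bounded_above_of_compact_support hc
  have hg' : Continuous (fun y => fderiv ℝ g₀ y e) :=
    (hg.continuous_fderiv (by simp)).clm_apply continuous_const
  have hg'c : HasCompactSupport (fun y => fderiv ℝ g₀ y e) := hc.fderiv_apply ℝ e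
  have m0 : MemLp g₀ 2 (volume : Measure E) := hg.continuous.memLp_of_hasCompactSupport hc
  have m1 : MemLp (fun y => fderiv ℝ g₀ y e) 2 (volume : Measure E) :=
    hg'.memLp_of_hasCompactSupport hg'c
  have m2 := (memLp_bdd_mul m1 hw.continuous.aestronglyMeasurable hB).1
  have mw : AEStronglyMeasurable (fun x => lineDeriv ℝ w x e) (volume : Measure E) :=
    (measurable_lineDeriv hw.continuous).aestronglyMeasurable
  have bw : ∀ x, |lineDeriv ℝ w x e| ≤ K * ‖e‖ := fun x => norm_lineDeriv_le_of_lipschitz ℝ hw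
  have m3 := (memLp_bdd_mul m0 mw bw).1
  have hF : ∃ L : ℝ≥0, LipschitzWith L (fun y => w y * g₀ y) := by
    refine ⟨Real.toNNReal (|B| * D + |B₀| * K), LipschitzWith.of_dist_le' fun x y => ?_⟩
    have h1 : w x * g₀ x - w y * g₀ y = w x * (g₀ x - g₀ y) + g₀ y * (w x - w y) := by ring
    rw [dist_eq_norm, dist_eq_norm, h1]
    have h2 := hD.norm_sub_le x y
    have h3 := hw.norm_sub_le x y
    have h4 : ‖w x‖ ≤ |B| := (hB x).trans (le_abs_self B)
    have h5 : ‖g₀ y‖ ≤ |B₀| := (hB₀ y).trans (le_abs_self B₀)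
    calc ‖w x * (g₀ x - g₀ y) + g₀ y * (w x - w y)‖
        ≤ ‖w x‖ * ‖g₀ x - g₀ y‖ + ‖g₀ y‖ * ‖w x - w y‖ := by
          refine (norm_add_le _ _).trans ?_
          rw [norm_mul, norm_mul]
      _ ≤ |B| * (D * ‖x - y‖) + |B₀| * (K * ‖x - y‖) := by gcongr
      _ = (|B| * D + |B₀| * K) * ‖x - y‖ := by ring
  obtain ⟨L, hL⟩ := hF
  refine ⟨fun x => mo ρ (fun y => w y * fderiv ℝ g₀ y e) x
    - w x * mo ρ (fun y => fderiv ℝ g₀ y e) x, ?_, ?_, ?_⟩
  · exact (comm_nsq hρc hρ.hcs hε (fun z hz => hρ.supp z hz.le) hw m1 (locInt m2)).1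
  · have h := (comm_nsq hρc hρ.hcs hε (fun z hz => hρ.supp z hz.le) hw m1 (locInt m2)).2
    have h1 : ∫ z, |ρ z| = 1 := by
      rw [← hρ.one]
      exact integral_congr_ae (Eventually.of_forall fun z => abs_of_nonneg (hρ.nonneg z))
    rw [h1, mul_one] at h
    exact h
  · intro x
    have h1 : mo (dk ρ e) (fun y => w y * g₀ y) x =
        mo ρ (fun y => lineDeriv ℝ w y e * g₀ y) x + mo ρ (fun y => w y * fderiv ℝ g₀ y e) x := by
      rw [mo_dk_lip hρ.contDiff hρ.hcs hL e x, ← mo_add hρc hρ.hcs (locInt m3) (locInt m2)]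
      unfold mo
      refine integral_congr_ae ?_
      filter_upwards [hw.ae_lineDifferentiableAt e] with y hy
      have h2 : HasLineDerivAt ℝ (fun y => w y * g₀ y)
          (lineDeriv ℝ w y e * g₀ y + w y * fderiv ℝ g₀ y e) y e := by
        have h3 : HasLineDerivAt ℝ w (lineDeriv ℝ w y e) y e := hy.hasLineDerivAt
        have h4 : HasLineDerivAt ℝ g₀ (fderiv ℝ g₀ y e) y e :=
          (((hg.differentiable (by simp)) y).hasFDerivAt).hasLineDerivAt e
        unfold HasLineDerivAt at h3 h4 ⊢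
        have h5 := h3.fun_mul h4
        refine h5.congr_deriv ?_
        simp
      rw [h2.lineDeriv]
    have h2 : mo (dk ρ e) g₀ x = mo ρ (fun y => fderiv ℝ g₀ y e) x := by
      rw [mo_dk_lip hρ.contDiff hρ.hcs hD e x]
      unfold mo
      refine integral_congr_ae (Eventually.of_forall fun y => ?_)
      simp only
      rw [((hg.differentiable (by simp)) y).lineDeriv_eq_fderiv]
    unfold Rc Dc
    rw [h1, h2]
    ring

lemma nsq_add4 {u1 u2 u3 u4 : E → ℝ} (m1 : MemLp u1 2 (volume : Measure E))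
    (m2 : MemLp u2 2 (volume : Measure E)) (m3 : MemLp u3 2 (volume : Measure E))
    (m4 : MemLp u4 2 (volume : Measure E)) :
    MemLp (fun x => u1 x + ((u2 x + u3 x) + u4 x)) 2 (volume : Measure E) ∧
    nsq (fun x => u1 x + ((u2 x + u3 x) + u4 x)) ≤
      2 * nsq u1 + 8 * nsq u2 + 8 * nsq u3 + 4 * nsq u4 := by
  have n3 : MemLp (fun x => u2 x + u3 x) 2 (volume : Measure E) := m2.add m3
  have n4 : MemLp (fun x => (u2 x + u3 x) + u4 x) 2 (volume : Measure E) := n3.add m4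
  have c1 := nsq_add_le m1 n4
  have c2 := nsq_add_le n3 m4
  have c3 := nsq_add_le m2 m3
  exact ⟨m1.add n4, by linarith⟩

/-- **Friedrichs' lemma** -/
theorem friedrichs (hw : LipschitzWith K w) {B : ℝ} (hB : ∀ x, |w x| ≤ B) (e : E) {K₁ : ℝ}
    (hg : MemLp g 2 (volume : Measure E)) {δ : ℝ} (hδ : 0 < δ) :
    ∃ ε₀ > 0, ∀ ε, 0 ≤ ε → ε ≤ ε₀ → ∀ ρ, IsMol ε ρ → ε * ∫ z, |dk ρ e z| ≤ K₁ →
      MemLp (Rc ρ e w g) 2 (volume : Measure E) ∧ nsq (Rc ρ e w g) ≤ δ := by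
  set A : ℝ := 2 * (K * K₁) ^ 2 + 2 * (K * ‖e‖) ^ 2 with hA
  have hA0 : 0 ≤ A := by positivity
  obtain ⟨s, hs0, hs⟩ : ∃ s : ℝ, 0 < s ∧ A * s ^ 2 ≤ δ / 8 := by
    refine ⟨Real.sqrt (δ / (8 * (A + 1))), Real.sqrt_pos.2 (by positivity), ?_⟩
    rw [Real.sq_sqrt (by positivity)]
    rw [mul_div_assoc', div_le_div_iff₀ (by positivity) (by norm_num)]
    nlinarith
  obtain ⟨g₀, hc, hg₀, hsub⟩ := hg.exist_eLpNorm_sub_le (by norm_num) (by norm_num) hs0
  have m0 : MemLp g₀ 2 (volume : Measure E) := hg₀.continuous.memLp_of_hasCompactSupport hc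
  have md : MemLp (fun x => g x - g₀ x) 2 (volume : Measure E) := hg.sub m0
  have hd : nsq (fun x => g x - g₀ x) ≤ s ^ 2 := nsq_le_of_eLpNorm md hs0.le hsub
  have mw : AEStronglyMeasurable (fun x => lineDeriv ℝ w x e) (volume : Measure E) :=
    (measurable_lineDeriv hw.continuous).aestronglyMeasurable
  have bw : ∀ x, |lineDeriv ℝ w x e| ≤ K * ‖e‖ := fun x => norm_lineDeriv_le_of_lipschitz ℝ hw
  have m3 := (memLp_bdd_mul m0 mw bw).1
  obtain ⟨ε₁, hε₁, h1⟩ := mo_approx m3 (show 0 < δ / 32 by positivity)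
  obtain ⟨ε₂, hε₂, h2⟩ := mo_approx m0
    (show 0 < δ / (32 * ((K * ‖e‖) ^ 2 + 1)) by positivity)
  set N := nsq (fun y => fderiv ℝ g₀ y e) with hN
  have hN0 : 0 ≤ N := nsq_nonneg _
  obtain ⟨ε₃, hε₃, h3⟩ : ∃ ε₃ : ℝ, 0 < ε₃ ∧ ∀ ε, 0 ≤ ε → ε ≤ ε₃ → (K * ε) ^ 2 * N ≤ δ / 16 := by
    refine ⟨Real.sqrt (δ / (16 * (K ^ 2 * N + 1))), Real.sqrt_pos.2 (by positivity), fun ε h0 h => ?_⟩
    have h4 : ε ^ 2 ≤ δ / (16 * (K ^ 2 * N + 1)) := by
      rw [← Real.sq_sqrt (show 0 ≤ δ / (16 * ((K : ℝ) ^ 2 * N + 1)) by positivity)]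
      exact pow_le_pow_left₀ h0 h 2
    have h5 : (K * ε) ^ 2 * N = (K ^ 2 * N) * ε ^ 2 := by ring
    rw [h5]
    calc (K ^ 2 * N) * ε ^ 2 ≤ (K ^ 2 * N) * (δ / (16 * (K ^ 2 * N + 1))) := by gcongr
      _ ≤ δ / 16 := by
        rw [mul_div_assoc', div_le_div_iff₀ (by positivity) (by norm_num)]
        nlinarith
  refine ⟨min ε₁ (min ε₂ ε₃), lt_min hε₁ (lt_min hε₂ hε₃), fun ε h0 hε ρ hρ hK => ?_⟩
  have b1 := Rc_bound (g := fun x => g x - g₀ x) hρ h0 hw hB e hK md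
  have b2 := h1 ε (hε.trans (min_le_left _ _)) ρ hρ
  have b3 := h2 ε (hε.trans ((min_le_right _ _).trans (min_le_left _ _))) ρ hρ
  have b4 := h3 ε h0 (hε.trans ((min_le_right _ _).trans (min_le_right _ _)))
  obtain ⟨q, mq, hq, hR⟩ := Rc_smooth hρ h0 hw hB e hg₀ hc
  have n3 : MemLp (fun x => mo ρ (fun y => lineDeriv ℝ w y e * g₀ y) x
      - lineDeriv ℝ w x e * g₀ x) 2 (volume : Measure E) := (nsq_mo_le hρ m3).1.sub m3
  have n4 : MemLp (fun x => mo ρ g₀ x - g₀ x) 2 (volume : Measure E) := (nsq_mo_le hρ m0).1.sub m0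
  have n5 := memLp_bdd_mul (u := fun x => - lineDeriv ℝ w x e) (B := K * ‖e‖) n4 mw.neg
    (fun x => by rw [abs_neg]; exact bw x)
  have e1 : Rc ρ e w g = fun x => Rc ρ e w (fun y => g y - g₀ y) x +
      (((mo ρ (fun y => lineDeriv ℝ w y e * g₀ y) x - lineDeriv ℝ w x e * g₀ x)
        + (- lineDeriv ℝ w x e) * (mo ρ g₀ x - g₀ x)) + q x) := by
    funext x
    rw [Rc_sub hρ hw hB e hg m0 x, hR x]
    ring
  have c1 := nsq_add4 b1.1 n3 n5.1 mq
  rw [e1]
  refine ⟨c1.1, c1.2.trans ?_⟩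
  have c4 : (K * ‖e‖) ^ 2 * nsq (fun x => mo ρ g₀ x - g₀ x) ≤ δ / 32 := by
    calc (K * ‖e‖) ^ 2 * nsq (fun x => mo ρ g₀ x - g₀ x)
        ≤ (K * ‖e‖) ^ 2 * (δ / (32 * ((K * ‖e‖) ^ 2 + 1))) := by gcongr
      _ ≤ δ / 32 := by
        rw [mul_div_assoc', div_le_div_iff₀ (by positivity) (by norm_num)]
        nlinarith [sq_nonneg ((K : ℝ) * ‖e‖)]
  have c5 : A * nsq (fun x => g x - g₀ x) ≤ δ / 8 :=
    (mul_le_mul_of_nonneg_left hd hA0).trans hs
  have c6 := b1.2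
  rw [← hA] at c6
  have c7 := n5.2
  rw [← hN] at hq
  linarith

end Vale.Agent.P227.Esa205
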