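import Vale.Agent.P227.M.LIN.Esa205a
import Vale.Agent.P227.M.Bas

/-! # Energy inequality for mollified solutions (helper205, hedge of `StmtESA`) -/

set_option linter.unusedSectionVars false

open MeasureTheory Filter Topology
open scoped ContDiff NNReal

namespace Vale.Agent.P227.Esa205

open Vale.Agent.P227.Moll

section exist

variable (E : Type*) [NormedAddCommGroup E] [InnerProductSpace ℝ E] [FiniteDimensional ℝ E]
  [MeasurableSpace E] [BorelSpace E]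

/-- mollifiers with the scaling bound of the derivative -/
theorem exists_mol : ∃ Kf : E → ℝ, ∀ ε : ℝ, 0 < ε → ∃ ρ : E → ℝ, IsMol ε ρ ∧
    ∀ e, ε * ∫ z, |dk ρ e z| ≤ Kf e := by
  let b : ContDiffBump (0 : E) := ⟨1 / 2, 1, by norm_num, by norm_num⟩
  set η : E → ℝ := b.normed volume with hη
  have hη1 : ContDiff ℝ ∞ η := b.contDiff_normed
  have hη2 : HasCompactSupport η := b.hasCompactSupport_normed
  refine ⟨fun e => ∫ z, |dk η e z|, fun ε hε => ?_⟩
  set d := Module.finrank ℝ E with hd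
  have hεd : 0 < ε ^ d := by positivity
  have hsc : ∀ f : E → ℝ, ∫ x, f (ε⁻¹ • x) = ε ^ d * ∫ x, f x := by
    intro f
    rw [Measure.integral_comp_smul, smul_eq_mul, inv_pow, inv_inv, abs_of_pos hεd]
  refine ⟨fun x => (ε ^ d)⁻¹ * η (ε⁻¹ • x), ⟨?_, ?_, ?_, ?_, ?_⟩, ?_⟩
  · exact contDiff_const.mul (hη1.comp (contDiff_const_smul _))
  · have h1 : HasCompactSupport (fun x : E => η (ε⁻¹ • x)) :=
      hη2.comp_homeomorph (Homeomorph.smulOfNeZero ε⁻¹ (inv_ne_zero hε.ne'))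
    exact h1.mul_left
  · intro x
    exact mul_nonneg (inv_nonneg.2 hεd.le) (b.nonneg_normed _)
  · intro x hx
    have h1 : η (ε⁻¹ • x) = 0 := by
      have h2 : Function.support η = Metric.ball (0 : E) 1 := b.support_normed_eq
      by_contra h3
      have h4 : ε⁻¹ • x ∈ Function.support η := h3
      rw [h2, Metric.mem_ball, dist_zero_right, norm_smul, norm_inv, Real.norm_of_nonneg hε.le] at h4
      have h5 : 1 ≤ ε⁻¹ * ‖x‖ := by
        rw [← div_eq_inv_mul, le_div_iff₀ hε]; linarith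
      linarith
    rw [h1, mul_zero]
  · rw [integral_const_mul, hsc, b.integral_normed, mul_one]
    exact inv_mul_cancel₀ hεd.ne'
  · intro e
    have h1 : ∀ z, dk (fun x => (ε ^ d)⁻¹ * η (ε⁻¹ • x)) e z =
        (ε ^ d)⁻¹ * ε⁻¹ * dk η e (ε⁻¹ • z) := by
      intro z
      have h2 : HasFDerivAt η (fderiv ℝ η (ε⁻¹ • z)) (ε⁻¹ • z) :=
        ((hη1.differentiable (by simp)) _).hasFDerivAt
      have h3 : HasFDerivAt (fun x : E => ε⁻¹ • x) (ε⁻¹ • ContinuousLinearMap.id ℝ E) z :=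
        (hasFDerivAt_id z).const_smul ε⁻¹
      have h4 := (h2.comp z h3).const_mul (ε ^ d)⁻¹
      unfold dk
      have h5 := h4.fderiv
      simp only [Function.comp_def] at h5
      rw [h5]
      simp
      ring
    simp only [h1, abs_mul]
    rw [integral_const_mul, hsc (fun z => |dk η e z|), abs_of_pos (inv_pos.2 hεd),
      abs_of_pos (inv_pos.2 hε)]
    apply le_of_eq
    field_simp

/-- cut-off functions -/
theorem exists_cut : ∃ K : ℝ, 0 ≤ K ∧ ∀ R : ℝ, 0 < R → ∃ χ : E → ℝ, ContDiff ℝ ∞ χ ∧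
    HasCompactSupport χ ∧ (∀ x, 0 ≤ χ x ∧ χ x ≤ 1) ∧ (∀ x, ‖x‖ ≤ R → χ x = 1) ∧
    ∀ x e, |fderiv ℝ χ x e| ≤ K / R * ‖e‖ := by
  let b : ContDiffBump (0 : E) := ⟨1, 2, by norm_num, by norm_num⟩
  have hb : ContDiff ℝ ∞ (b : E → ℝ) := b.contDiff
  have hbc : HasCompactSupport (b : E → ℝ) := b.hasCompactSupport
  obtain ⟨K, hK⟩ := (hb.continuous_fderiv (by simp)).bounded_above_of_compact_support
    (hbc.fderiv ℝ)
  refine ⟨|K|, abs_nonneg K, fun R hR => ⟨fun x => b (R⁻¹ • x), ?_, ?_, ?_, ?_, ?_⟩⟩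
  · exact hb.comp (contDiff_const_smul _)
  · exact hbc.comp_homeomorph (Homeomorph.smulOfNeZero R⁻¹ (inv_ne_zero hR.ne'))
  · exact fun x => ⟨b.nonneg, b.le_one⟩
  · intro x hx
    apply b.one_of_mem_closedBall
    rw [Metric.mem_closedBall, dist_zero_right, norm_smul, norm_inv, Real.norm_of_nonneg hR.le,
      ← div_eq_inv_mul, div_le_iff₀ hR]
    simpa [b] using hx
  · intro x e
    have h2 : HasFDerivAt (b : E → ℝ) (fderiv ℝ b (R⁻¹ • x)) (R⁻¹ • x) :=
      ((hb.differentiable (by simp)) _).hasFDerivAt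
    have h3 : HasFDerivAt (fun x : E => R⁻¹ • x) (R⁻¹ • ContinuousLinearMap.id ℝ E) x :=
      (hasFDerivAt_id x).const_smul R⁻¹
    have h5 := (h2.comp x h3).fderiv
    simp only [Function.comp_def] at h5
    rw [h5]
    simp only [ContinuousLinearMap.comp_smul, ContinuousLinearMap.comp_id]
    have h6 : (R⁻¹ • fderiv ℝ (b : E → ℝ) (R⁻¹ • x)) e = R⁻¹ * fderiv ℝ b (R⁻¹ • x) e := rfl
    rw [h6, abs_mul, abs_of_pos (inv_pos.2 hR)]
    have h7 : |fderiv ℝ (b : E → ℝ) (R⁻¹ • x) e| ≤ |K| * ‖e‖ := by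
      have h8 := (fderiv ℝ (b : E → ℝ) (R⁻¹ • x)).le_opNorm e
      rw [Real.norm_eq_abs] at h8
      exact h8.trans (mul_le_mul_of_nonneg_right ((hK _).trans (le_abs_self K)) (norm_nonneg e))
    calc R⁻¹ * |fderiv ℝ (b : E → ℝ) (R⁻¹ • x) e| ≤ R⁻¹ * (|K| * ‖e‖) := by gcongr
      _ = |K| / R * ‖e‖ := by ring

end exist

open Vale.Agent.P227.M

/-- the pointwise inequality -/
lemma alg {n : ℕ} (a : Fin n → Fin n → ℝ) (sym : ∀ i j, a i j = a j i) {lam Lam : ℝ}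
    (hl : 0 < lam) (hL : 0 < Lam)
    (low : ∀ v : Fin n → ℝ, lam * ∑ i, v i ^ 2 ≤ ∑ i, ∑ j, a i j * v i * v j)
    (up : ∀ v : Fin n → ℝ, ∑ i, ∑ j, a i j * v i * v j ≤ Lam * ∑ i, v i ^ 2)
    (p q e : Fin n → ℝ) (χ G : ℝ) :
    -∑ i, ((∑ j, a i j * p j) + e i) * (χ ^ 2 * p i + 2 * χ * q i * G) ≤
      3 * Lam * (G ^ 2 * ∑ i, q i ^ 2) + (1 / (2 * lam) + 1 / Lam) * (χ ^ 2 * ∑ i, e i ^ 2) := by
  set Qp := ∑ i, ∑ j, a i j * p i * p j with hQp
  set Qv := ∑ i, ∑ j, a i j * q i * q j with hQv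
  set S := ∑ i, ∑ j, a i j * q i * p j with hS
  set S' := ∑ i, ∑ j, a i j * p i * q j with hS'
  have hSS : S' = S := by
    rw [hS, hS', Finset.sum_comm]
    refine Finset.sum_congr rfl fun i _ => Finset.sum_congr rfl fun j _ => ?_
    rw [sym j i]; ring
  have hA : 0 ≤ χ ^ 2 * Qp + 4 * χ * G * S + 4 * G ^ 2 * Qv := by
    have h1 := low (fun i => χ * p i + 2 * G * q i)
    have h2 : 0 ≤ lam * ∑ i, (χ * p i + 2 * G * q i) ^ 2 :=
      mul_nonneg hl.le (Finset.sum_nonneg fun i _ => sq_nonneg _)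
    have h3 : ∑ i, ∑ j, a i j * (χ * p i + 2 * G * q i) * (χ * p j + 2 * G * q j) =
        χ ^ 2 * Qp + 2 * χ * G * S' + 2 * χ * G * S + 4 * G ^ 2 * Qv := by
      rw [hQp, hQv, hS, hS']
      simp only [Finset.mul_sum, ← Finset.sum_add_distrib]
      refine Finset.sum_congr rfl fun i _ => Finset.sum_congr rfl fun j _ => ?_
      ring
    rw [h3, hSS] at h1
    linarith
  have hB := up q
  have hC := low p
  rw [← hQv] at hB
  rw [← hQp] at hC
  set P := ∑ i, p i ^ 2 with hP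
  set QQ := ∑ i, q i ^ 2 with hQQ
  set EE := ∑ i, e i ^ 2 with hEE
  set ep := ∑ i, e i * p i with hep
  set eq := ∑ i, e i * q i with heq
  have h1 : 0 ≤ lam ^ 2 * P + 2 * lam * ep + EE := by
    have h2 : 0 ≤ ∑ i, (lam * p i + e i) ^ 2 := Finset.sum_nonneg fun i _ => sq_nonneg _
    have h3 : ∑ i, (lam * p i + e i) ^ 2 = lam ^ 2 * P + 2 * lam * ep + EE := by
      rw [hP, hep, hEE]
      simp only [Finset.mul_sum, ← Finset.sum_add_distrib]
      exact Finset.sum_congr rfl fun i _ => by ring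
    linarith
  have h2 : 0 ≤ Lam ^ 2 * G ^ 2 * QQ + 2 * Lam * G * χ * eq + χ ^ 2 * EE := by
    have h2 : 0 ≤ ∑ i, (Lam * G * q i + χ * e i) ^ 2 := Finset.sum_nonneg fun i _ => sq_nonneg _
    have h3 : ∑ i, (Lam * G * q i + χ * e i) ^ 2 =
        Lam ^ 2 * G ^ 2 * QQ + 2 * Lam * G * χ * eq + χ ^ 2 * EE := by
      rw [hQQ, heq, hEE]
      simp only [Finset.mul_sum, ← Finset.sum_add_distrib]
      exact Finset.sum_congr rfl fun i _ => by ring
    linarith
  have hD : 0 ≤ χ ^ 2 * (lam / 2 * P + ep + 1 / (2 * lam) * EE) := by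
    have h3 : lam / 2 * P + ep + 1 / (2 * lam) * EE =
        (lam ^ 2 * P + 2 * lam * ep + EE) / (2 * lam) := by field_simp
    rw [h3]
    positivity
  have hF : 0 ≤ Lam * G ^ 2 * QQ + 2 * G * χ * eq + 1 / Lam * (χ ^ 2 * EE) := by
    have h3 : Lam * G ^ 2 * QQ + 2 * G * χ * eq + 1 / Lam * (χ ^ 2 * EE) =
        (Lam ^ 2 * G ^ 2 * QQ + 2 * Lam * G * χ * eq + χ ^ 2 * EE) / Lam := by field_simp
    rw [h3]
    positivity
  have hmain : ∑ i, ((∑ j, a i j * p j) + e i) * (χ ^ 2 * p i + 2 * χ * q i * G) =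
      χ ^ 2 * Qp + 2 * χ * G * S + χ ^ 2 * ep + 2 * χ * G * eq := by
    have h3 : ∀ i, ((∑ j, a i j * p j) + e i) * (χ ^ 2 * p i + 2 * χ * q i * G) =
        χ ^ 2 * (∑ j, a i j * p i * p j) + 2 * χ * G * (∑ j, a i j * q i * p j)
          + χ ^ 2 * (e i * p i) + 2 * χ * G * (e i * q i) := by
      intro i
      have h4 : ∑ j, a i j * p i * p j = p i * ∑ j, a i j * p j := by
        rw [Finset.mul_sum]; exact Finset.sum_congr rfl fun j _ => by ring
      have h5 : ∑ j, a i j * q i * p j = q i * ∑ j, a i j * p j := by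
        rw [Finset.mul_sum]; exact Finset.sum_congr rfl fun j _ => by ring
      rw [h4, h5]; ring
    simp only [h3, Finset.sum_add_distrib, ← Finset.mul_sum]
    rfl
  rw [hmain]
  have k1 : 0 ≤ G ^ 2 * (Lam * QQ - Qv) := mul_nonneg (sq_nonneg _) (by linarith)
  have k2 : 0 ≤ χ ^ 2 * (Qp - lam * P) := mul_nonneg (sq_nonneg _) (by linarith)
  nlinarith

end Vale.Agent.P227.Esa205
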