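import Vale.Agent.P227.M.LIN.Esa205b

/-! # Energy inequality for mollified solutions, II (helper205, hedge of `StmtESA`) -/

set_option linter.unusedSectionVars false

open MeasureTheory Filter Topology
open scoped ContDiff NNReal

namespace Vale.Agent.P227.Esa205

open Vale.Agent.P227.Moll Vale.Agent.P227.M

/-- data -/
structure Dat {n : ℕ} (V : E n → ℝ) (a : Fin n → Fin n → E n → ℝ) (K : ℝ≥0) (A lam Lam : ℝ) :
    Prop where
  smooth : ContDiff ℝ ∞ V
  lip : ∀ i j, LipschitzWith K (a i j)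
  bdd : ∀ i j x, |a i j x| ≤ A
  sym : ∀ i j x, a i j x = a j i x
  lam0 : 0 < lam
  Lam0 : 0 < Lam
  low : ∀ x (v : Fin n → ℝ), lam * ∑ i, v i ^ 2 ≤ ∑ i, ∑ j, a i j x * v i * v j
  up : ∀ x (v : Fin n → ℝ), ∑ i, ∑ j, a i j x * v i * v j ≤ Lam * ∑ i, v i ^ 2
  st : ∀ᵐ x : E n, ∀ i, (∑ j, lineDeriv ℝ (a i j) x (ei j)) + x i = ∑ j, a i j x * pd j V x

/-- weak solution of `(1 - L) h = 0`, `g = h e^{-V}` -/
structure Wk {n : ℕ} (a : Fin n → Fin n → E n → ℝ) (g : E n → ℝ) : Prop where
  mem : MemLp g 2 (volume : Measure (E n))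
  xg : ∀ j, LocallyIntegrable (fun x : E n => x j * g x) volume
  weak : ∀ f, Test f → ∫ x, g x * (f x - ((∑ i, ∑ j, a i j x * hess f x i j)
    - ∑ i, x i * pd i f x)) = 0

variable {n : ℕ} {V : E n → ℝ} {a : Fin n → Fin n → E n → ℝ} {K : ℝ≥0} {A lam Lam : ℝ}
  {g : E n → ℝ} {ε : ℝ} {ρ : E n → ℝ}

lemma ag_mem (D : Dat V a K A lam Lam) (W : Wk a g) (i j : Fin n) :
    MemLp (fun y => a i j y * g y) 2 (volume : Measure (E n)) :=
  (memLp_bdd_mul W.mem (D.lip i j).continuous.aestronglyMeasurable (D.bdd i j)).1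

/-- `Φ_i` -/
noncomputable def Ph (a : Fin n → Fin n → E n → ℝ) (ρ g : E n → ℝ) (i : Fin n) (x : E n) : ℝ :=
  (∑ j, mo (dk ρ (ei j)) (fun y => a i j y * g y) x) + mo ρ (fun y => y i * g y) x

lemma Ph_smooth (D : Dat V a K A lam Lam) (W : Wk a g) (hρ : IsMol ε ρ) (i : Fin n) :
    ContDiff ℝ ∞ (Ph a ρ g i) := by
  unfold Ph
  refine ContDiff.add (ContDiff.sum fun j _ => ?_) ?_
  · exact contDiff_mo (dk_smooth hρ.contDiff _) (dk_hcs hρ.hcs _) (locInt (ag_mem D W i j))
  · exact contDiff_mo hρ.contDiff hρ.hcs (W.xg i)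

/-- the equation, pointwise -/
lemma div_Ph (D : Dat V a K A lam Lam) (W : Wk a g) (hρ : IsMol ε ρ) (x : E n) :
    mo ρ g x = ∑ i, pd i (Ph a ρ g i) x := by
  have hcd := hρ.contDiff
  have hcs := hρ.hcs
  -- derivative of `Ph`
  have h1 : ∀ i, pd i (Ph a ρ g i) x = (∑ j, mo (dk (dk ρ (ei j)) (ei i)) (fun y => a i j y * g y) x)
      + mo (dk ρ (ei i)) (fun y => y i * g y) x := by
    intro i
    have s1 : ∀ j, ContDiff ℝ ∞ (mo (dk ρ (ei j)) (fun y => a i j y * g y)) := fun j =>
      contDiff_mo (dk_smooth hcd _) (dk_hcs hcs _) (locInt (ag_mem D W i j))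
    have s2 : ContDiff ℝ ∞ (mo ρ (fun y => y i * g y)) := contDiff_mo hcd hcs (W.xg i)
    have d1 : ∀ j, HasFDerivAt (mo (dk ρ (ei j)) (fun y => a i j y * g y))
        (fderiv ℝ (mo (dk ρ (ei j)) (fun y => a i j y * g y)) x) x := fun j =>
      (((s1 j).differentiable (by simp)) x).hasFDerivAt
    have d2 : HasFDerivAt (mo ρ (fun y => y i * g y)) (fderiv ℝ (mo ρ (fun y => y i * g y)) x) x :=
      ((s2.differentiable (by simp)) x).hasFDerivAt
    have d3 := (HasFDerivAt.fun_sum (u := Finset.univ) fun j _ => d1 j).add d2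
    have d4 : fderiv ℝ (Ph a ρ g i) x = _ := d3.fderiv
    unfold pd
    rw [d4]
    simp only [FunLike.coe_add, Pi.add_apply, FunLike.coe_sum, Finset.sum_apply]
    rw [fderiv_mo hcd hcs (W.xg i)]
    congr 1
    refine Finset.sum_congr rfl fun j _ => ?_
    rw [fderiv_mo (dk_smooth hcd _) (dk_hcs hcs _) (locInt (ag_mem D W i j))]
    rfl
  simp only [h1]
  -- the test function
  set f : E n → ℝ := fun y => ρ (x - y) with hf
  have fsm : ContDiff ℝ ∞ f := hcd.comp (by fun_prop)
  have fcs : HasCompactSupport f := by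
    have := hcs.comp_homeomorph (Homeomorph.subLeft x)
    exact this
  have key : ∀ (κ : E n → ℝ), ContDiff ℝ ∞ κ → ∀ (i : Fin n) (y : E n),
      pd i (fun y => κ (x - y)) y = - dk κ (ei i) (x - y) := by
    intro κ hκ i y
    have h3 : HasFDerivAt κ (fderiv ℝ κ (x - y)) (x - y) :=
      ((hκ.differentiable (by simp)) (x - y)).hasFDerivAt
    have h4 := (h3.comp y ((hasFDerivAt_id y).const_sub x)).fderiv
    have h5 : fderiv ℝ (fun y => κ (x - y)) y = _ := h4
    unfold pd dk
    rw [h5]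
    simp
  have hp : ∀ i y, pd i f y = - dk ρ (ei i) (x - y) := fun i y => key ρ hcd i y
  have hh : ∀ i j y, hess f y i j = dk (dk ρ (ei j)) (ei i) (x - y) := by
    intro i j y
    have e1 : pd j f = fun y => - dk ρ (ei j) (x - y) := by funext y; exact hp j y
    unfold hess
    rw [e1]
    have h6 := key (fun z => - dk ρ (ei j) z) (dk_smooth hcd _).neg i y
    rw [h6]
    unfold dk
    have h7 : fderiv ℝ (fun z => -(fderiv ℝ ρ z) (ei j)) (x - y) =
        - fderiv ℝ (fun z => (fderiv ℝ ρ z) (ei j)) (x - y) := fderiv_fun_neg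
    rw [h7]
    simp
  have hw := W.weak f ⟨fsm, fcs⟩
  simp only [hp, hh] at hw
  have i0 : Integrable (fun y => ρ (x - y) • g y) :=
    integrable_mo hcd.continuous hcs (locInt W.mem) x
  have i1 : ∀ i j, Integrable (fun y => dk (dk ρ (ei j)) (ei i) (x - y) • (a i j y * g y)) := fun i j =>
    integrable_mo (dk_cont (dk_smooth hcd _) _) (dk_hcs (dk_hcs hcs _) _) (locInt (ag_mem D W i j)) x
  have i2 : ∀ i, Integrable (fun y => dk ρ (ei i) (x - y) • (y i * g y)) := fun i =>
    integrable_mo (dk_cont hcd _) (dk_hcs hcs _) (W.xg i) x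
  have e1 : ∀ y, g y * (f y - ((∑ i, ∑ j, a i j y * dk (dk ρ (ei j)) (ei i) (x - y))
      - ∑ i, y i * (- dk ρ (ei i) (x - y)))) = ρ (x - y) • g y
        - (∑ i, ((∑ j, dk (dk ρ (ei j)) (ei i) (x - y) • (a i j y * g y))
          + dk ρ (ei i) (x - y) • (y i * g y))) := by
    intro y
    simp only [hf, smul_eq_mul, Finset.sum_add_distrib]
    have e2 : ∑ i, ∑ j, dk (dk ρ (ei j)) (ei i) (x - y) * (a i j y * g y) =
        g y * ∑ i, ∑ j, a i j y * dk (dk ρ (ei j)) (ei i) (x - y) := by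
      simp only [Finset.mul_sum]
      exact Finset.sum_congr rfl fun i _ => Finset.sum_congr rfl fun j _ => by ring
    have e3 : ∑ i, dk ρ (ei i) (x - y) * (y i * g y) = - (g y * ∑ i, y i * (- dk ρ (ei i) (x - y))) := by
      simp only [Finset.mul_sum, ← Finset.sum_neg_distrib]
      exact Finset.sum_congr rfl fun i _ => by ring
    rw [e2, e3]; ring
  simp only [e1] at hw
  have i3 : ∀ i, Integrable (fun y => (∑ j, dk (dk ρ (ei j)) (ei i) (x - y) • (a i j y * g y))
          + dk ρ (ei i) (x - y) • (y i * g y)) := fun i =>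
    (integrable_finsetSum _ fun j _ => i1 i j).add (i2 i)
  rw [integral_sub i0 (integrable_finsetSum _ fun i _ => i3 i),
    integral_finsetSum _ fun i _ => i3 i] at hw
  have e4 : ∀ i, ∫ y, ((∑ j, dk (dk ρ (ei j)) (ei i) (x - y) • (a i j y * g y))
          + dk ρ (ei i) (x - y) • (y i * g y)) =
      (∑ j, mo (dk (dk ρ (ei j)) (ei i)) (fun y => a i j y * g y) x)
      + mo (dk ρ (ei i)) (fun y => y i * g y) x := by
    intro i
    rw [integral_add (integrable_finsetSum _ fun j _ => i1 i j) (i2 i),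
      integral_finsetSum _ fun j _ => i1 i j]
    rfl
  simp only [e4] at hw
  have e5 : ∫ y, ρ (x - y) • g y = mo ρ g x := rfl
  rw [e5] at hw
  linarith

/-- the error -/
noncomputable def er (a : Fin n → Fin n → E n → ℝ) (ρ g : E n → ℝ) (i : Fin n) (x : E n) : ℝ :=
  (∑ j, Rc ρ (ei j) (a i j) g x) + (mo ρ (fun y => y i * g y) x - x i * mo ρ g x)

lemma Ph_eq (D : Dat V a K A lam Lam) (W : Wk a g) (hρ : IsMol ε ρ) :
    ∀ᵐ x : E n, ∀ i, Ph a ρ g i x =
      (∑ j, a i j x * (pd j (mo ρ g) x + pd j V x * mo ρ g x)) + er a ρ g i x := by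
  filter_upwards [D.st] with x hx i
  have h1 : ∀ j, mo (dk ρ (ei j)) (fun y => a i j y * g y) x =
      a i j x * pd j (mo ρ g) x + lineDeriv ℝ (a i j) x (ei j) * mo ρ g x
        + Rc ρ (ei j) (a i j) g x := by
    intro j
    have h2 : pd j (mo ρ g) x = mo (dk ρ (ei j)) g x := by
      unfold pd
      rw [fderiv_mo hρ.contDiff hρ.hcs (locInt W.mem)]
      rfl
    unfold Rc Dc
    rw [h2]
    ring
  unfold Ph er
  simp only [h1, Finset.sum_add_distrib, mul_add]
  rw [← Finset.sum_mul]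
  have h3 : ∑ j, a i j x * (pd j V x * mo ρ g x) = (∑ j, a i j x * pd j V x) * mo ρ g x := by
    rw [Finset.sum_mul]
    exact Finset.sum_congr rfl fun j _ => by ring
  rw [h3, ← hx i]
  ring


/-- the energy inequality -/
lemma energy (D : Dat V a K A lam Lam) (W : Wk a g) (hρ : IsMol ε ρ) {χ : E n → ℝ} (hχ : Test χ)
    (her : ∀ i, MemLp (er a ρ g i) 2 (volume : Measure (E n))) :
    ∫ x, Real.exp (V x) * χ x ^ 2 * mo ρ g x ^ 2 ≤
      3 * Lam * (∫ x, Real.exp (V x) * (∑ i, pd i χ x ^ 2) * mo ρ g x ^ 2)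
      + (1 / (2 * lam) + 1 / Lam) * ∫ x, Real.exp (V x) * χ x ^ 2 * ∑ i, er a ρ g i x ^ 2 := by
  have sG : ContDiff ℝ ∞ (mo ρ g) := contDiff_mo hρ.contDiff hρ.hcs (locInt W.mem)
  have sV := D.smooth
  have sE : ContDiff ℝ ∞ (fun x => Real.exp (V x)) := sV.exp
  have sχ := hχ.1
  have cχ := hχ.2
  -- the test function
  set φ : E n → ℝ := fun x => χ x ^ 2 * (Real.exp (V x) * mo ρ g x) with hφ
  have sφ : ContDiff ℝ ∞ φ := (sχ.pow 2).mul (sE.mul sG)
  have cφ : HasCompactSupport φ := by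
    have h1 : HasCompactSupport (fun x => χ x ^ 2) := by
      have := cχ.comp_left (g := fun t : ℝ => t ^ 2) (by norm_num)
      exact this
    exact h1.mul_right
  have dif : ∀ {f : E n → ℝ}, ContDiff ℝ ∞ f → ∀ x, DifferentiableAt ℝ f x := fun hf x =>
    (hf.differentiable (by simp)) x
  have dφ : ∀ i x, pd i φ x = Real.exp (V x) * (χ x ^ 2 * (pd i (mo ρ g) x + pd i V x * mo ρ g x)
      + 2 * χ x * pd i χ x * mo ρ g x) := by
    intro i x
    have h1 := ((dif sχ x).hasFDerivAt.pow 2).mul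
      (((dif sV x).hasFDerivAt.exp).mul (dif sG x).hasFDerivAt)
    have h2 : fderiv ℝ φ x = _ := h1.fderiv
    unfold pd
    rw [h2]
    simp
    ring
  have scp : ∀ {f : E n → ℝ}, ContDiff ℝ ∞ f → ∀ i, Continuous (pd i f) := fun hf i =>
    (hf.continuous_fderiv (by simp)).clm_apply continuous_const
  have cpφ : ∀ i, HasCompactSupport (pd i φ) := fun i => cφ.fderiv_apply ℝ (ei i)
  have sP : ∀ i, ContDiff ℝ ∞ (Ph a ρ g i) := fun i => Ph_smooth D W hρ i
  -- integration by parts
  have ibp : ∀ i, ∫ x, pd i (Ph a ρ g i) x * φ x = - ∫ x, Ph a ρ g i x * pd i φ x := by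
    intro i
    have h1 := integral_mul_fderiv_eq_neg_fderiv_mul_of_integrable (μ := (volume : Measure (E n)))
      (f := Ph a ρ g i) (g := φ) (v := ei i)
      (((scp (sP i) i).mul sφ.continuous).integrable_of_hasCompactSupport cφ.mul_left)
      (((sP i).continuous.mul (scp sφ i)).integrable_of_hasCompactSupport (cpφ i).mul_left)
      (((sP i).continuous.mul sφ.continuous).integrable_of_hasCompactSupport cφ.mul_left)
      (fun x _ => dif (sP i) x) (fun x _ => dif sφ x)
    unfold pd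
    linarith
  have e1 : ∫ x, Real.exp (V x) * χ x ^ 2 * mo ρ g x ^ 2 = ∫ x, ∑ i, pd i (Ph a ρ g i) x * φ x := by
    refine integral_congr_ae (Eventually.of_forall fun x => ?_)
    simp only
    rw [← Finset.sum_mul, ← div_Ph D W hρ x]
    simp only [hφ]
    ring
  have k1 : ∀ i, Integrable (fun x => pd i (Ph a ρ g i) x * φ x) := fun i =>
    ((scp (sP i) i).mul sφ.continuous).integrable_of_hasCompactSupport cφ.mul_left
  have k2 : ∀ i, Integrable (fun x => Ph a ρ g i x * pd i φ x) := fun i =>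
    ((sP i).continuous.mul (scp sφ i)).integrable_of_hasCompactSupport (cpφ i).mul_left
  rw [e1, integral_finsetSum _ fun i _ => k1 i]
  simp only [ibp]
  rw [Finset.sum_neg_distrib, ← integral_finsetSum _ fun i _ => k2 i,
    ← integral_neg, ← integral_const_mul, ← integral_const_mul]
  have j1 : Integrable (fun x => 3 * Lam * (Real.exp (V x) * (∑ i, pd i χ x ^ 2) * mo ρ g x ^ 2)) := by
    refine Continuous.integrable_of_hasCompactSupport ?_ ?_
    · exact continuous_const.mul ((sE.continuous.mul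
        (continuous_finsetSum _ fun i _ => (scp sχ i).pow 2)).mul (sG.continuous.pow 2))
    · have h1 : HasCompactSupport (fun x => ∑ i, pd i χ x ^ 2) := by
        refine HasCompactSupport.intro' (K := tsupport χ) cχ (isClosed_tsupport χ) fun x hx => ?_
        refine Finset.sum_eq_zero fun i _ => ?_
        have h2 : fderiv ℝ χ x = 0 := by
          have h3 : χ =ᶠ[𝓝 x] 0 := notMem_tsupport_iff_eventuallyEq.1 hx
          rw [h3.fderiv_eq]
          simp
        unfold pd
        rw [h2]; simp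
      exact (h1.mul_left.mul_right).mul_left
  have bχ : ∃ B, ∀ x, |Real.exp (V x) * χ x ^ 2| ≤ B := by
    have h1 : HasCompactSupport (fun x => Real.exp (V x) * χ x ^ 2) := by
      have h2 : HasCompactSupport (fun x => χ x ^ 2) := by
        have := cχ.comp_left (g := fun t : ℝ => t ^ 2) (by norm_num)
        exact this
      exact h2.mul_left
    exact (sE.continuous.mul (sχ.continuous.pow 2)).bounded_above_of_compact_support h1
  obtain ⟨B, hB⟩ := bχ
  have j2 : Integrable (fun x => (1 / (2 * lam) + 1 / Lam) *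
      (Real.exp (V x) * χ x ^ 2 * ∑ i, er a ρ g i x ^ 2)) := by
    refine Integrable.const_mul ?_ _
    have h1 : Integrable (fun x => ∑ i, er a ρ g i x ^ 2) :=
      integrable_finsetSum _ fun i _ => (her i).integrable_sq
    exact h1.bdd_mul (sE.continuous.mul (sχ.continuous.pow 2)).aestronglyMeasurable
      (Eventually.of_forall hB)
  rw [← integral_add j1 j2]
  refine integral_mono_ae ?_ (j1.add j2) ?_
  · exact (integrable_finsetSum _ fun i _ => k2 i).neg
  · filter_upwards [Ph_eq D W hρ] with x hx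
    simp only [hx, dφ]
    have h1 := alg (fun i j => a i j x) (fun i j => D.sym i j x) D.lam0 D.Lam0 (D.low x) (D.up x)
      (fun j => pd j (mo ρ g) x + pd j V x * mo ρ g x) (fun i => pd i χ x) (fun i => er a ρ g i x)
      (χ x) (mo ρ g x)
    have h2 : 0 < Real.exp (V x) := Real.exp_pos _
    have h3 := mul_le_mul_of_nonneg_left h1 h2.le
    calc -∑ i, ((∑ j, a i j x * (pd j (mo ρ g) x + pd j V x * mo ρ g x)) + er a ρ g i x) *
          (Real.exp (V x) * (χ x ^ 2 * (pd i (mo ρ g) x + pd i V x * mo ρ g x)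
            + 2 * χ x * pd i χ x * mo ρ g x))
        = Real.exp (V x) * (-∑ i, ((∑ j, a i j x * (pd j (mo ρ g) x + pd j V x * mo ρ g x))
            + er a ρ g i x) * (χ x ^ 2 * (pd i (mo ρ g) x + pd i V x * mo ρ g x)
            + 2 * χ x * pd i χ x * mo ρ g x)) := by
          rw [mul_neg, Finset.mul_sum]
          congr 1
          exact Finset.sum_congr rfl fun i _ => by ring
      _ ≤ _ := h3
      _ = _ := by ring

end Vale.Agent.P227.Esa205
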