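import Vale.Agent.P227.M.LIN.Esa205c

/-! # Weak solutions of `(1 - L) h = 0` vanish (helper205, hedge of `StmtESA`) -/

set_option linter.unusedSectionVars false

open MeasureTheory Filter Topology
open scoped ContDiff NNReal

namespace Vale.Agent.P227.Esa205

open Vale.Agent.P227.Moll Vale.Agent.P227.M

variable {n : ℕ} {V : E n → ℝ} {a : Fin n → Fin n → E n → ℝ} {K : ℝ≥0} {A lam Lam : ℝ}
  {g : E n → ℝ} {ε : ℝ} {ρ : E n → ℝ}

lemma nsq_sum {u : Fin n → E n → ℝ} (hu : ∀ j, MemLp (u j) 2 (volume : Measure (E n))) :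
    MemLp (fun x => ∑ j, u j x) 2 (volume : Measure (E n)) ∧
      nsq (fun x => ∑ j, u j x) ≤ n * ∑ j, nsq (u j) := by
  refine ⟨memLp_finsetSum _ fun j _ => hu j, ?_⟩
  have i1 : ∀ j, Integrable (fun x => ‖u j x‖ ^ 2) := fun j => memLp_norm_sq_int (hu j)
  unfold nsq
  rw [← integral_finsetSum _ fun j _ => i1 j, ← integral_const_mul]
  refine integral_mono_of_nonneg (Eventually.of_forall fun x => by positivity)
    ((integrable_finsetSum _ fun j _ => i1 j).const_mul _) (Eventually.of_forall fun x => ?_)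
  simp only [Real.norm_eq_abs, sq_abs]
  have h := sq_sum_le_card_mul_sum_sq (s := (Finset.univ : Finset (Fin n))) (f := fun j => u j x)
  simpa using h

lemma coord_lip (i : Fin n) : LipschitzWith 1 (fun x : E n => x i) := by
  refine LipschitzWith.of_dist_le_mul fun x y => ?_
  rw [dist_eq_norm, dist_eq_norm, NNReal.coe_one, one_mul]
  exact abs_coord_le (x - y) i

lemma ev_of {P : ℝ → Prop} {ε₀ : ℝ} (h0 : 0 < ε₀) (h : ∀ ε, 0 ≤ ε → ε ≤ ε₀ → P ε) :
    ∀ᶠ ε in 𝓝[>] (0 : ℝ), P ε := by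
  filter_upwards [Ioo_mem_nhdsGT h0] with ε hε
  exact h ε hε.1.le hε.2.le

/-- good mollifiers exist -/
lemma exists_good (D : Dat V a K A lam Lam) (W : Wk a g) {δ : ℝ} (hδ : 0 < δ) :
    ∃ (ε : ℝ) (ρ : E n → ℝ), IsMol ε ρ ∧ nsq (fun x => mo ρ g x - g x) ≤ δ ∧
      (∀ i, MemLp (er a ρ g i) 2 (volume : Measure (E n))) ∧
      ∀ i, nsq (er a ρ g i) ≤ (2 * (n : ℝ) ^ 2 + 2) * δ := by
  obtain ⟨Kf, hKf⟩ := exists_mol (E n)
  have h1 : ∀ᶠ ε in 𝓝[>] (0 : ℝ), ∀ i j, ∀ ρ : E n → ℝ, IsMol ε ρ →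
      ε * ∫ z, |dk ρ (ei j) z| ≤ Kf (ei j) →
      MemLp (Rc ρ (ei j) (a i j) g) 2 (volume : Measure (E n)) ∧ nsq (Rc ρ (ei j) (a i j) g) ≤ δ := by
    rw [eventually_all]
    intro i
    rw [eventually_all]
    intro j
    obtain ⟨ε₀, h0, h⟩ := friedrichs (D.lip i j) (D.bdd i j) (ei j) (K₁ := Kf (ei j)) W.mem hδ
    exact ev_of h0 h
  have h2 : ∀ᶠ ε in 𝓝[>] (0 : ℝ), ∀ ρ : E n → ℝ, IsMol ε ρ → nsq (fun x => mo ρ g x - g x) ≤ δ := by
    obtain ⟨ε₀, h0, h⟩ := mo_approx W.mem hδ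
    exact ev_of h0 fun ε _ hε => h ε hε
  have h3 : ∀ᶠ ε in 𝓝[>] (0 : ℝ), ε ^ 2 * nsq g ≤ δ := by
    have h4 : Tendsto (fun ε : ℝ => ε ^ 2 * nsq g) (𝓝[>] 0) (𝓝 ((0 : ℝ) ^ 2 * nsq g)) :=
      ((continuous_pow 2).mul continuous_const).continuousAt.tendsto.mono_left nhdsWithin_le_nhds
    have h5 : (0 : ℝ) ^ 2 * nsq g = 0 := by ring
    rw [h5] at h4
    filter_upwards [h4.eventually (gt_mem_nhds hδ)] with ε hε
    exact hε.le
  obtain ⟨ε, h1, h2, h3, hε⟩ := (h1.and (h2.and (h3.and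
    (self_mem_nhdsWithin (a := (0 : ℝ)) (s := Set.Ioi 0))))).exists
  have hε0 : 0 < ε := hε
  obtain ⟨ρ, hρ, hK⟩ := hKf ε hε0
  have q1 : ∀ i, MemLp (fun x => mo ρ (fun y => y i * g y) x - x i * mo ρ g x) 2
        (volume : Measure (E n)) ∧
      nsq (fun x => mo ρ (fun y => y i * g y) x - x i * mo ρ g x) ≤ δ := by
    intro i
    have h := comm_nsq (K := 1) (w := fun x : E n => x i) (f := g) hρ.contDiff.continuous hρ.hcs
      hε0.le (fun z hz => hρ.supp z hz.le) (coord_lip i) W.mem (W.xg i)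
    have h4 : ∫ z, |ρ z| = 1 := by
      rw [← hρ.one]
      exact integral_congr_ae (Eventually.of_forall fun z => abs_of_nonneg (hρ.nonneg z))
    rw [h4, mul_one, NNReal.coe_one, one_mul] at h
    exact ⟨h.1, h.2.trans h3⟩
  have s1 : ∀ i, MemLp (fun x => ∑ j, Rc ρ (ei j) (a i j) g x) 2 (volume : Measure (E n)) ∧
      nsq (fun x => ∑ j, Rc ρ (ei j) (a i j) g x) ≤ (n : ℝ) ^ 2 * δ := by
    intro i
    have h := nsq_sum (u := fun j => Rc ρ (ei j) (a i j) g) fun j => (h1 i j ρ hρ (hK _)).1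
    refine ⟨h.1, h.2.trans ?_⟩
    have h4 : ∑ j, nsq (Rc ρ (ei j) (a i j) g) ≤ ∑ _j : Fin n, δ :=
      Finset.sum_le_sum fun j _ => (h1 i j ρ hρ (hK _)).2
    simp only [Finset.sum_const, Finset.card_univ, Fintype.card_fin, nsmul_eq_mul] at h4
    calc (n : ℝ) * ∑ j, nsq (Rc ρ (ei j) (a i j) g) ≤ n * (n * δ) := by gcongr
      _ = (n : ℝ) ^ 2 * δ := by ring
  refine ⟨ε, ρ, hρ, h2 ρ hρ, fun i => (s1 i).1.add (q1 i).1, fun i => ?_⟩
  have h5 := nsq_add_le (s1 i).1 (q1 i).1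
  have h6 : nsq (er a ρ g i) = nsq (fun x => (∑ j, Rc ρ (ei j) (a i j) g x)
      + (mo ρ (fun y => y i * g y) x - x i * mo ρ g x)) := rfl
  rw [h6]
  nlinarith [(s1 i).2, (q1 i).2]

lemma bdd_of_test {b : E n → ℝ} (hb : Continuous b) (hc : HasCompactSupport b) :
    ∃ B : ℝ, 0 ≤ B ∧ ∀ x, |b x| ≤ B := by
  obtain ⟨B, hB⟩ := hb.bounded_above_of_compact_support hc
  exact ⟨|B|, abs_nonneg B, fun x => (hB x).trans (le_abs_self B)⟩

/-- comparison of weighted integrals -/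
lemma wt_le {b u v : E n → ℝ} {B : ℝ} (hb : Continuous b) (h0 : ∀ x, 0 ≤ b x) (hB : ∀ x, |b x| ≤ B)
    (hu : MemLp u 2 (volume : Measure (E n))) (hv : MemLp v 2 (volume : Measure (E n))) :
    ∫ x, b x * u x ^ 2 ≤ 2 * (∫ x, b x * v x ^ 2) + 2 * B * nsq (fun x => u x - v x) := by
  have i1 : ∀ {u : E n → ℝ}, MemLp u 2 (volume : Measure (E n)) →
      Integrable (fun x => b x * u x ^ 2) := fun hu =>
    hu.integrable_sq.bdd_mul hb.aestronglyMeasurable (Eventually.of_forall hB)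
  have hd : MemLp (fun x => u x - v x) 2 (volume : Measure (E n)) := hu.sub hv
  unfold nsq
  rw [← integral_const_mul, ← integral_const_mul, ← integral_add ((i1 hv).const_mul 2)
    ((memLp_norm_sq_int hd).const_mul _)]
  refine integral_mono (i1 hu) (((i1 hv).const_mul 2).add ((memLp_norm_sq_int hd).const_mul _))
    fun x => ?_
  simp only [Real.norm_eq_abs, sq_abs]
  have h1 : b x ≤ B := (le_abs_self _).trans (hB x)
  have h2 : b x * (u x - v x) ^ 2 ≤ B * (u x - v x) ^ 2 :=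
    mul_le_mul_of_nonneg_right h1 (sq_nonneg _)
  have h3 : b x * u x ^ 2 ≤ b x * (2 * v x ^ 2 + 2 * (u x - v x) ^ 2) :=
    mul_le_mul_of_nonneg_left (by nlinarith [sq_nonneg (u x - 2 * v x)]) (h0 x)
  nlinarith

/-- the limit inequality -/
theorem limit_ineq (D : Dat V a K A lam Lam) (W : Wk a g) {χ : E n → ℝ} (hχ : Test χ) :
    ∫ x, Real.exp (V x) * χ x ^ 2 * g x ^ 2 ≤
      12 * Lam * ∫ x, Real.exp (V x) * (∑ i, pd i χ x ^ 2) * g x ^ 2 := by
  have sE : ContDiff ℝ ∞ (fun x => Real.exp (V x)) := D.smooth.exp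
  have sχ := hχ.1
  have cχ := hχ.2
  have scp : ∀ {f : E n → ℝ}, ContDiff ℝ ∞ f → ∀ i, Continuous (pd i f) := fun hf i =>
    (hf.continuous_fderiv (by simp)).clm_apply continuous_const
  have c1 : Continuous (fun x => Real.exp (V x) * χ x ^ 2) := sE.continuous.mul (sχ.continuous.pow 2)
  have c2 : Continuous (fun x => Real.exp (V x) * ∑ i, pd i χ x ^ 2) :=
    sE.continuous.mul (continuous_finsetSum _ fun i _ => (scp sχ i).pow 2)
  have k1 : HasCompactSupport (fun x => Real.exp (V x) * χ x ^ 2) := by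
    have h2 : HasCompactSupport (fun x => χ x ^ 2) := by
      have := cχ.comp_left (g := fun t : ℝ => t ^ 2) (by norm_num)
      exact this
    exact h2.mul_left
  have k2 : HasCompactSupport (fun x => Real.exp (V x) * ∑ i, pd i χ x ^ 2) := by
    have h1 : HasCompactSupport (fun x => ∑ i, pd i χ x ^ 2) := by
      refine HasCompactSupport.intro' (K := tsupport χ) cχ (isClosed_tsupport χ) fun x hx => ?_
      refine Finset.sum_eq_zero fun i _ => ?_
      have h2 : fderiv ℝ χ x = 0 := by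
        have h3 : χ =ᶠ[𝓝 x] 0 := notMem_tsupport_iff_eventuallyEq.1 hx
        rw [h3.fderiv_eq]
        simp
      unfold pd
      rw [h2]; simp
    exact h1.mul_left
  obtain ⟨B1, hB10, hB1⟩ := bdd_of_test c1 k1
  obtain ⟨B2, hB20, hB2⟩ := bdd_of_test c2 k2
  have n1 : ∀ x, 0 ≤ Real.exp (V x) * χ x ^ 2 := fun x => by positivity
  have n2 : ∀ x, 0 ≤ Real.exp (V x) * ∑ i, pd i χ x ^ 2 := fun x =>
    mul_nonneg (Real.exp_pos _).le (Finset.sum_nonneg fun i _ => sq_nonneg _)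
  have hl := D.lam0
  have hL := D.Lam0
  set C1 := 1 / (2 * lam) + 1 / Lam with hC1
  have hC10 : 0 < C1 := by positivity
  set Q := 12 * Lam * B2 + 2 * B1 + 2 * C1 * B1 * (n * (2 * (n : ℝ) ^ 2 + 2)) with hQ
  have hQ0 : 0 ≤ Q := by positivity
  refine le_of_forall_pos_le_add fun η hη => ?_
  have hδ : 0 < η / (Q + 1) := by positivity
  obtain ⟨ε, ρ, hρ, hG, hm, he⟩ := exists_good D W hδ
  set δ := η / (Q + 1) with hδ'
  have mG : MemLp (mo ρ g) 2 (volume : Measure (E n)) := (nsq_mo_le hρ W.mem).1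
  have e1 := energy D W hρ hχ hm
  have e2 := wt_le c1 n1 hB1 W.mem mG
  have e3 := wt_le c2 n2 hB2 mG W.mem
  have e4 : nsq (fun x => g x - mo ρ g x) = nsq (fun x => mo ρ g x - g x) := by
    unfold nsq
    refine integral_congr_ae (Eventually.of_forall fun x => ?_)
    simp only [norm_sub_rev]
  rw [e4] at e2
  have e5 : ∫ x, Real.exp (V x) * χ x ^ 2 * ∑ i, er a ρ g i x ^ 2 ≤
      B1 * (n * ((2 * (n : ℝ) ^ 2 + 2) * δ)) := by
    have i1 : ∀ i, Integrable (fun x => er a ρ g i x ^ 2) := fun i => (hm i).integrable_sq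
    have i2 : Integrable (fun x => ∑ i, er a ρ g i x ^ 2) := integrable_finsetSum _ fun i _ => i1 i
    calc ∫ x, Real.exp (V x) * χ x ^ 2 * ∑ i, er a ρ g i x ^ 2
        ≤ ∫ x, B1 * ∑ i, er a ρ g i x ^ 2 := by
          refine integral_mono (i2.bdd_mul c1.aestronglyMeasurable (Eventually.of_forall hB1))
            (i2.const_mul _) fun x => ?_
          exact mul_le_mul_of_nonneg_right ((le_abs_self _).trans (hB1 x))
            (Finset.sum_nonneg fun i _ => sq_nonneg _)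
      _ = B1 * ∑ i, nsq (er a ρ g i) := by
          rw [integral_const_mul, integral_finsetSum _ fun i _ => i1 i]
          simp only [nsq, Real.norm_eq_abs, sq_abs]
      _ ≤ B1 * ∑ _i : Fin n, ((2 * (n : ℝ) ^ 2 + 2) * δ) := by
          gcongr with i _
          exact he i
      _ = _ := by simp
  have e6 : C1 * ∫ x, Real.exp (V x) * χ x ^ 2 * ∑ i, er a ρ g i x ^ 2 ≤
      C1 * (B1 * (n * ((2 * (n : ℝ) ^ 2 + 2) * δ))) := mul_le_mul_of_nonneg_left e5 hC10.le
  have e7 : 3 * Lam * (∫ x, Real.exp (V x) * (∑ i, pd i χ x ^ 2) * mo ρ g x ^ 2) ≤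
      3 * Lam * (2 * (∫ x, Real.exp (V x) * (∑ i, pd i χ x ^ 2) * g x ^ 2)
        + 2 * B2 * nsq (fun x => mo ρ g x - g x)) := mul_le_mul_of_nonneg_left e3 (by positivity)
  have e8 : 3 * Lam * (2 * B2 * nsq (fun x => mo ρ g x - g x)) ≤ 3 * Lam * (2 * B2 * δ) := by gcongr
  have e9 : 2 * B1 * nsq (fun x => mo ρ g x - g x) ≤ 2 * B1 * δ := by gcongr
  have e10 : Q * δ ≤ η := by
    rw [hδ', mul_div_assoc', div_le_iff₀ (by positivity)]
    nlinarith
  have e11 : Q * δ = 12 * Lam * B2 * δ + 2 * B1 * δ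
      + 2 * (C1 * (B1 * (n * ((2 * (n : ℝ) ^ 2 + 2) * δ)))) := by rw [hQ]; ring
  linarith

/-- weak solutions in the energy space vanish -/
theorem zero_of_weak (D : Dat V a K A lam Lam) (W : Wk a g)
    (hfin : Integrable (fun x => Real.exp (V x) * g x ^ 2)) : g =ᵐ[volume] 0 := by
  obtain ⟨Kc, hKc0, hcut⟩ := exists_cut (E n)
  choose χ h1 h2 h3 h4 h5 using fun m : ℕ => hcut ((m : ℝ) + 1) (by positivity)
  set I := ∫ x, Real.exp (V x) * g x ^ 2 with hI
  have hI0 : 0 ≤ I := integral_nonneg fun x => by positivity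
  have b1 : ∀ m : ℕ, ∫ x, Real.exp (V x) * χ m x ^ 2 * g x ^ 2 ≤
      12 * Lam * (n * (Kc / ((m : ℝ) + 1)) ^ 2) * I := by
    intro m
    refine (limit_ineq D W ⟨h1 m, h2 m⟩).trans ?_
    have hL := D.Lam0
    rw [mul_assoc (12 * Lam)]
    refine mul_le_mul_of_nonneg_left ?_ (by positivity)
    rw [hI, ← integral_const_mul]
    refine integral_mono_of_nonneg (Eventually.of_forall fun x => ?_) (hfin.const_mul _)
      (Eventually.of_forall fun x => ?_)
    · exact mul_nonneg (mul_nonneg (Real.exp_pos _).le (Finset.sum_nonneg fun i _ => sq_nonneg _))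
        (sq_nonneg _)
    · have h6 : ∑ i, pd i (χ m) x ^ 2 ≤ n * (Kc / ((m : ℝ) + 1)) ^ 2 := by
        calc ∑ i, pd i (χ m) x ^ 2 ≤ ∑ _i : Fin n, (Kc / ((m : ℝ) + 1)) ^ 2 := by
              refine Finset.sum_le_sum fun i _ => ?_
              have h7 := h5 m x (ei i)
              rw [norm_ei, mul_one] at h7
              rw [← sq_abs]
              exact pow_le_pow_left₀ (abs_nonneg _) h7 2
          _ = _ := by simp
      have h8 : 0 ≤ Real.exp (V x) * g x ^ 2 := by positivity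
      calc Real.exp (V x) * (∑ i, pd i (χ m) x ^ 2) * g x ^ 2
          = (∑ i, pd i (χ m) x ^ 2) * (Real.exp (V x) * g x ^ 2) := by ring
        _ ≤ (n * (Kc / ((m : ℝ) + 1)) ^ 2) * (Real.exp (V x) * g x ^ 2) :=
            mul_le_mul_of_nonneg_right h6 h8
  have t1 : Tendsto (fun m : ℕ => ∫ x, Real.exp (V x) * χ m x ^ 2 * g x ^ 2) atTop (𝓝 I) := by
    refine tendsto_integral_of_dominated_convergence (fun x => Real.exp (V x) * g x ^ 2) ?_ hfin ?_ ?_
    · intro m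
      have h6 : (fun x => Real.exp (V x) * χ m x ^ 2 * g x ^ 2) =
          fun x => χ m x ^ 2 * (Real.exp (V x) * g x ^ 2) := by funext x; ring
      rw [h6]
      exact ((h1 m).continuous.pow 2).aestronglyMeasurable.mul hfin.1
    · intro m
      refine Eventually.of_forall fun x => ?_
      rw [Real.norm_of_nonneg (by positivity)]
      have h6 : χ m x ^ 2 ≤ 1 := by
        have := h3 m x
        nlinarith
      calc Real.exp (V x) * χ m x ^ 2 * g x ^ 2 = χ m x ^ 2 * (Real.exp (V x) * g x ^ 2) := by ring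
        _ ≤ 1 * (Real.exp (V x) * g x ^ 2) := mul_le_mul_of_nonneg_right h6 (by positivity)
        _ = _ := one_mul _
    · refine Eventually.of_forall fun x => ?_
      refine tendsto_const_nhds.congr' ?_
      obtain ⟨N, hN⟩ := exists_nat_ge ‖x‖
      filter_upwards [eventually_ge_atTop N] with m hm
      have h6 : ‖x‖ ≤ (m : ℝ) + 1 := by
        have : (N : ℝ) ≤ m := by exact_mod_cast hm
        linarith
      rw [h4 m x h6]
      ring
  have t2 : Tendsto (fun m : ℕ => 12 * Lam * (n * (Kc / ((m : ℝ) + 1)) ^ 2) * I) atTop (𝓝 0) := by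
    have h6 : Tendsto (fun m : ℕ => 1 / ((m : ℝ) + 1)) atTop (𝓝 0) :=
      tendsto_one_div_add_atTop_nhds_zero_nat
    have h7 := (((h6.const_mul Kc).pow 2).const_mul (n : ℝ)).const_mul (12 * Lam) |>.mul_const I
    have h8 : 12 * Lam * (n * (Kc * 0) ^ 2) * I = 0 := by ring
    rw [h8] at h7
    refine h7.congr fun m => ?_
    ring
  have hI1 : I ≤ 0 := le_of_tendsto_of_tendsto' t1 t2 b1
  have hI2 : I = 0 := le_antisymm hI1 hI0
  rw [hI, integral_eq_zero_iff_of_nonneg (fun x => by positivity) hfin] at hI2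
  filter_upwards [hI2] with x hx
  have h6 : Real.exp (V x) * g x ^ 2 = 0 := hx
  have h7 : g x ^ 2 = 0 := by
    rcases mul_eq_zero.1 h6 with h | h
    · exact absurd h (Real.exp_pos _).ne'
    · exact h
  exact pow_eq_zero_iff (by norm_num) |>.1 h7

end Vale.Agent.P227.Esa205
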