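import Mathlib

/-! LIN-1: mollifiers in `L²` and Friedrichs' commutator lemma (helper52). -/

open MeasureTheory Filter Set
open scoped Topology ENNReal NNReal ContDiff

namespace Vale.Agent.P227.M.Fried

variable {E : Type*} [NormedAddCommGroup E] [InnerProductSpace ℝ E] [FiniteDimensional ℝ E]
  [MeasurableSpace E] [BorelSpace E]

/-- Young's inequality `L¹ * L² ⊂ L²` for lower integrals -/
theorem young_lint (k g : E → ℝ≥0∞) (hk : Measurable k) (hg : AEMeasurable g volume) :
    ∫⁻ x, (∫⁻ z, k (x - z) * g z) ^ 2 ≤ (∫⁻ z, k z) ^ 2 * ∫⁻ z, g z ^ 2 := by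
  have hkx : ∀ x : E, AEMeasurable (fun z => k (x - z)) volume := fun x =>
    (hk.comp (measurable_const.sub measurable_id)).aemeasurable
  have hsub : ∀ x : E, ∫⁻ z, k (x - z) = ∫⁻ z, k z := fun x =>
    lintegral_sub_left_eq_self k x
  have cs : ∀ x, (∫⁻ z, k (x - z) * g z) ^ 2 ≤ (∫⁻ z, k z) * ∫⁻ z, k (x - z) * g z ^ 2 := by
    intro x
    have h1 := ENNReal.lintegral_mul_norm_pow_le (μ := (volume : Measure E)) (f := fun z => k (x - z))
      (g := fun z => k (x - z) * g z ^ 2) (hkx x) ((hkx x).mul (hg.pow_const 2))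
      (p := 1/2) (q := 1/2) (by norm_num) (by norm_num) (by norm_num)
    have h2 : ∀ z, k (x - z) ^ ((1:ℝ)/2) * (k (x - z) * g z ^ 2) ^ ((1:ℝ)/2) = k (x - z) * g z := by
      intro z
      rw [ENNReal.mul_rpow_of_nonneg _ _ (by norm_num), ← mul_assoc,
        ← ENNReal.rpow_add_of_nonneg _ _ (by norm_num) (by norm_num), ← ENNReal.rpow_natCast,
        ← ENNReal.rpow_mul]
      norm_num
    simp only [h2] at h1
    calc (∫⁻ z, k (x - z) * g z) ^ 2
        ≤ ((∫⁻ z, k (x - z)) ^ ((1:ℝ)/2) * (∫⁻ z, k (x - z) * g z ^ 2) ^ ((1:ℝ)/2)) ^ 2 := by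
          gcongr
      _ = (∫⁻ z, k z) * ∫⁻ z, k (x - z) * g z ^ 2 := by
          rw [mul_pow, ← ENNReal.rpow_natCast, ← ENNReal.rpow_natCast, ← ENNReal.rpow_mul,
            ← ENNReal.rpow_mul, hsub x]
          norm_num
  calc ∫⁻ x, (∫⁻ z, k (x - z) * g z) ^ 2
      ≤ ∫⁻ x, (∫⁻ z, k z) * ∫⁻ z, k (x - z) * g z ^ 2 := lintegral_mono cs
    _ = (∫⁻ z, k z) * ∫⁻ x, ∫⁻ z, k (x - z) * g z ^ 2 := by
        rw [lintegral_const_mul'']
        have : AEMeasurable (fun p : E × E => k (p.1 - p.2) * g p.2 ^ 2) (volume.prod volume) :=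
          ((hk.comp (measurable_fst.sub measurable_snd)).aemeasurable).mul
            ((hg.comp_snd).pow_const 2)
        exact this.lintegral_prod_right'
    _ = (∫⁻ z, k z) * ∫⁻ z, ∫⁻ x, k (x - z) * g z ^ 2 := by
        rw [lintegral_lintegral_swap]
        exact ((hk.comp (measurable_fst.sub measurable_snd)).aemeasurable).mul
            ((hg.comp_snd).pow_const 2)
    _ = (∫⁻ z, k z) * ∫⁻ z, (∫⁻ x, k x) * g z ^ 2 := by
        congr 1
        refine lintegral_congr fun z => ?_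
        have hm : Measurable (fun x => k (x - z)) := hk.comp (measurable_id.sub measurable_const)
        rw [lintegral_mul_const _ hm]
        congr 1
        exact lintegral_sub_right_eq_self k z
    _ = (∫⁻ z, k z) ^ 2 * ∫⁻ z, g z ^ 2 := by
        rw [lintegral_const_mul'' _ (hg.pow_const 2)]; ring

/-- Young's inequality with an arbitrary dominated integrand -/
theorem young_eLp {k : E → ℝ≥0∞} {g : E → ℝ} (hk : Measurable k) (hg : AEStronglyMeasurable g volume)
    (f : E → ℝ) (hf : ∀ᵐ x, ‖f x‖ₑ ≤ ∫⁻ z, k (x - z) * ‖g z‖ₑ) :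
    eLpNorm f 2 volume ≤ (∫⁻ z, k z) * eLpNorm g 2 volume := by
  have e : ∀ h : E → ℝ, eLpNorm h 2 volume = (∫⁻ x, ‖h x‖ₑ ^ 2) ^ ((1:ℝ)/2) := by
    intro h
    rw [eLpNorm_eq_lintegral_rpow_enorm_toReal (by norm_num) (by norm_num)]
    norm_num
  rw [e, e]
  have h1 : ∫⁻ x, ‖f x‖ₑ ^ 2 ≤ (∫⁻ z, k z) ^ 2 * ∫⁻ z, ‖g z‖ₑ ^ 2 := by
    refine le_trans (lintegral_mono_ae ?_) (young_lint k (fun z => ‖g z‖ₑ) hk hg.enorm)
    filter_upwards [hf] with x hx
    gcongr
  calc (∫⁻ x, ‖f x‖ₑ ^ 2) ^ ((1:ℝ)/2) ≤ ((∫⁻ z, k z) ^ 2 * ∫⁻ z, ‖g z‖ₑ ^ 2) ^ ((1:ℝ)/2) := by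
        gcongr
    _ = (∫⁻ z, k z) * (∫⁻ z, ‖g z‖ₑ ^ 2) ^ ((1:ℝ)/2) := by
        rw [ENNReal.mul_rpow_of_nonneg _ _ (by norm_num), ← ENNReal.rpow_natCast,
          ← ENNReal.rpow_mul]
        norm_num

/-! ### the mollifier -/

variable (E) in
/-- base bump -/
noncomputable def bs : ContDiffBump (0 : E) := ⟨1/2, 1, by norm_num, by norm_num⟩

/-- `η_δ (x) = δ^{-d} η (x / δ)` -/
noncomputable def mo (δ : ℝ) (x : E) : ℝ :=
  (δ ^ Module.finrank ℝ E)⁻¹ * (bs E).normed volume (δ⁻¹ • x)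

theorem mo_nonneg {δ : ℝ} (hδ : 0 < δ) (x : E) : 0 ≤ mo δ x :=
  mul_nonneg (by positivity) ((bs E).nonneg_normed _)

theorem mo_neg (δ : ℝ) (x : E) : mo δ (-x) = mo δ x := by
  unfold mo
  rw [smul_neg, (bs E).normed_neg]

theorem mo_contDiff (δ : ℝ) : ContDiff ℝ ∞ (mo (E := E) δ) := by
  unfold mo
  exact contDiff_const.mul (((bs E).contDiff_normed (n := ⊤)).comp (contDiff_const_smul _))

theorem mo_eq_zero {δ : ℝ} (hδ : 0 < δ) {x : E} (hx : δ < ‖x‖) : mo δ x = 0 := by
  unfold mo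
  have h : δ⁻¹ • x ∉ Function.support ((bs E).normed volume) := by
    rw [(bs E).support_normed_eq]
    simp only [Metric.mem_ball, dist_zero_right, norm_smul, norm_inv, Real.norm_eq_abs,
      abs_of_pos hδ, not_lt]
    have : (bs E).rOut = 1 := rfl
    rw [this, ← div_eq_inv_mul, le_div_iff₀ hδ]
    linarith
  rw [Function.notMem_support.1 h, mul_zero]

theorem mo_compact {δ : ℝ} (hδ : 0 < δ) : HasCompactSupport (mo (E := E) δ) := by
  refine HasCompactSupport.intro (isCompact_closedBall (0 : E) δ) fun x hx => mo_eq_zero hδ ?_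
  simpa using hx

theorem mo_integral {δ : ℝ} (hδ : 0 < δ) : ∫ x : E, mo δ x = 1 := by
  unfold mo
  rw [integral_const_mul, Measure.integral_comp_inv_smul_of_nonneg _ _ hδ.le, (bs E).integral_normed]
  simp [hδ.ne']

theorem mo_lintegral {δ : ℝ} (hδ : 0 < δ) : ∫⁻ x : E, ‖mo δ x‖ₑ = 1 := by
  have hi : Integrable (mo (E := E) δ) volume :=
    (mo_contDiff δ).continuous.integrable_of_hasCompactSupport (mo_compact hδ)
  have h := ofReal_integral_eq_lintegral_ofReal hi (Eventually.of_forall (mo_nonneg hδ))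
  rw [mo_integral hδ, ENNReal.ofReal_one] at h
  rw [h]
  refine lintegral_congr fun x => ?_
  rw [Real.enorm_eq_ofReal (mo_nonneg hδ x)]

/-- derivative of the mollifier -/
theorem mo_fderiv (δ : ℝ) (x v : E) :
    fderiv ℝ (mo (E := E) δ) x v =
      (δ ^ Module.finrank ℝ E)⁻¹ * (δ⁻¹ * fderiv ℝ ((bs E).normed volume) (δ⁻¹ • x) v) := by
  have h1 : HasFDerivAt ((bs E).normed volume) (fderiv ℝ ((bs E).normed volume) (δ⁻¹ • x)) (δ⁻¹ • x) :=
    (((bs E).contDiff_normed (n := ⊤)).differentiable (by simp) _).hasFDerivAt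
  have h2 : HasFDerivAt (fun x : E => δ⁻¹ • x) (δ⁻¹ • ContinuousLinearMap.id ℝ E) x :=
    (hasFDerivAt_id x).const_smul δ⁻¹
  have h3 := ((h1.comp x h2).const_mul ((δ ^ Module.finrank ℝ E)⁻¹))
  have h4 : fderiv ℝ (mo (E := E) δ) x = _ := h3.fderiv
  rw [h4]
  simp

/-- the scale invariant constant -/
noncomputable def cst (v : E) : ℝ≥0∞ := ∫⁻ x : E, ‖fderiv ℝ ((bs E).normed volume) x v‖ₑ * ‖x‖ₑ

theorem cst_lt_top (v : E) : cst v < ⊤ := by
  unfold cst
  have hc : Continuous (fun x : E => fderiv ℝ ((bs E).normed volume) x v * ‖x‖) := by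
    have := ((bs E).contDiff_normed (μ := volume) (n := ⊤)).continuous_fderiv (by simp)
    fun_prop
  have hs : HasCompactSupport (fun x : E => fderiv ℝ ((bs E).normed volume) x v * ‖x‖) := by
    refine HasCompactSupport.mul_right ?_
    exact ((bs E).hasCompactSupport_normed.fderiv_apply (𝕜 := ℝ) v)
  have hi := hc.integrable_of_hasCompactSupport (μ := volume) hs
  have h2 := hi.2
  unfold HasFiniteIntegral at h2
  refine lt_of_le_of_lt (lintegral_mono fun x => ?_) h2
  rw [enorm_mul, enorm_norm]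

theorem mo_cst {δ : ℝ} (hδ : 0 < δ) (v : E) :
    ∫⁻ x : E, ‖fderiv ℝ (mo (E := E) δ) x v‖ₑ * ‖x‖ₑ = cst v := by
  have h : ∀ x : E, ‖fderiv ℝ (mo (E := E) δ) x v‖ₑ * ‖x‖ₑ =
      ENNReal.ofReal ((δ ^ Module.finrank ℝ E)⁻¹) *
        (fun w : E => ‖fderiv ℝ ((bs E).normed volume) w v‖ₑ * ‖w‖ₑ) (δ⁻¹ • x) := by
    intro x
    simp only
    rw [mo_fderiv, enorm_mul, enorm_mul, enorm_smul,
      Real.enorm_eq_ofReal (r := (δ ^ Module.finrank ℝ E)⁻¹) (by positivity)]
    ring
  have hm : Measurable (fun w : E => ‖fderiv ℝ ((bs E).normed volume) w v‖ₑ * ‖w‖ₑ) := by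
    have := ((bs E).contDiff_normed (μ := volume) (n := ⊤)).continuous_fderiv (by simp)
    have h2 : Continuous (fun w : E => fderiv ℝ ((bs E).normed volume) w v) := by fun_prop
    exact h2.measurable.enorm.mul measurable_enorm
  rw [lintegral_congr h]
  have hm2 : Measurable (fun x : E => (fun w : E => ‖fderiv ℝ ((bs E).normed volume) w v‖ₑ * ‖w‖ₑ)
    (δ⁻¹ • x)) := hm.comp (measurable_const_smul _)
  rw [lintegral_const_mul _ hm2]
  have key : ∫⁻ x : E, (fun w : E => ‖fderiv ℝ ((bs E).normed volume) w v‖ₑ * ‖w‖ₑ) (δ⁻¹ • x)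
      = ENNReal.ofReal (δ ^ Module.finrank ℝ E) * cst v := by
    have h5 := lintegral_map (μ := (volume : Measure E)) hm (measurable_const_smul (δ⁻¹ : ℝ))
    rw [Measure.map_addHaar_smul volume (inv_ne_zero hδ.ne'), lintegral_smul_measure] at h5
    rw [← h5, smul_eq_mul]
    congr 2
    rw [inv_pow, inv_inv, abs_of_pos (by positivity)]
  rw [key, ← mul_assoc, ← ENNReal.ofReal_mul (by positivity), inv_mul_cancel₀ (by positivity)]
  simp

/-! ### `L²` bounds and convergence of mollifications -/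

/-- mollification -/
noncomputable def mol (δ : ℝ) (G : E → ℝ) (x : E) : ℝ := ∫ z, mo δ (x - z) * G z

theorem mol_enorm_le (δ : ℝ) (G : E → ℝ) (x : E) :
    ‖mol δ G x‖ₑ ≤ ∫⁻ z, ‖mo δ (x - z)‖ₑ * ‖G z‖ₑ := by
  refine (enorm_integral_le_lintegral_enorm _).trans (le_of_eq ?_)
  simp_rw [enorm_mul]

theorem mo_meas (δ : ℝ) : Measurable (fun x : E => ‖mo δ x‖ₑ) :=
  (mo_contDiff δ).continuous.measurable.enorm

theorem mol_bound {δ : ℝ} (hδ : 0 < δ) {G : E → ℝ} (hG : AEStronglyMeasurable G volume) :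
    eLpNorm (mol δ G) 2 volume ≤ eLpNorm G 2 volume := by
  have h := young_eLp (mo_meas (E := E) δ) hG (mol δ G)
    (Eventually.of_forall fun x => mol_enorm_le δ G x)
  rwa [mo_lintegral hδ, one_mul] at h

theorem mo_integrable_mul {δ : ℝ} (hδ : 0 < δ) {G : E → ℝ} (hG : LocallyIntegrable G volume) (x : E) :
    Integrable (fun z => mo δ (x - z) * G z) := by
  have hc : Continuous (fun z : E => mo δ (x - z)) :=
    (mo_contDiff δ).continuous.comp (continuous_const.sub continuous_id)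
  have hs : HasCompactSupport (fun z : E => mo δ (x - z)) := by
    refine HasCompactSupport.intro (isCompact_closedBall x δ) fun z hz => mo_eq_zero hδ ?_
    rw [Metric.mem_closedBall, not_le, dist_eq_norm] at hz
    rwa [norm_sub_rev]
  have := hG.integrable_smul_left_of_hasCompactSupport hc hs
  simpa using this

theorem mo_integral_sub {δ : ℝ} (hδ : 0 < δ) (x : E) : ∫ z : E, mo δ (x - z) = 1 := by
  rw [integral_sub_left_eq_self (fun z => mo δ z) volume x, mo_integral hδ]

theorem mol_sub_le {δ : ℝ} (hδ : 0 < δ) {g : E → ℝ} (hg : LocallyIntegrable g volume)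
    {ε : ℝ} (x : E) (h : ∀ z, ‖x - z‖ ≤ δ → |g z - g x| ≤ ε) : |mol δ g x - g x| ≤ ε := by
  have h1 : mol δ g x - g x = ∫ z, mo δ (x - z) * (g z - g x) := by
    have : ∀ z, mo δ (x - z) * (g z - g x) = mo δ (x - z) * g z - mo δ (x - z) * g x := by
      intro z; ring
    simp_rw [this]
    rw [integral_sub (mo_integrable_mul hδ hg x) (mo_integrable_mul hδ (locallyIntegrable_const _) x),
      integral_mul_const, mo_integral_sub hδ, one_mul]
    rfl
  rw [h1]
  have h2 : ∀ z, ‖mo δ (x - z) * (g z - g x)‖ ≤ mo δ (x - z) * ε := by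
    intro z
    rw [norm_mul, Real.norm_eq_abs, Real.norm_eq_abs, abs_of_nonneg (mo_nonneg hδ _)]
    rcases le_or_gt ‖x - z‖ δ with hz | hz
    · exact mul_le_mul_of_nonneg_left (h z hz) (mo_nonneg hδ _)
    · rw [mo_eq_zero hδ hz]; simp
  have h3 := norm_integral_le_of_norm_le (mo_integrable_mul hδ (locallyIntegrable_const ε) x)
    (Eventually.of_forall h2)
  rwa [integral_mul_const, mo_integral_sub hδ, one_mul, Real.norm_eq_abs] at h3

theorem mol_eq_conv (δ : ℝ) (G : E → ℝ) :
    mol δ G = MeasureTheory.convolution G (mo δ) (ContinuousLinearMap.mul ℝ ℝ) volume := by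
  funext x
  unfold mol MeasureTheory.convolution
  congr 1
  funext z
  simp [mul_comm]

theorem mol_contDiff {δ : ℝ} (hδ : 0 < δ) {G : E → ℝ} (hG : LocallyIntegrable G volume) :
    ContDiff ℝ ∞ (mol δ G) := by
  rw [mol_eq_conv]
  exact (mo_compact hδ).contDiff_convolution_right _ hG (mo_contDiff δ)

theorem mol_fderiv {δ : ℝ} (hδ : 0 < δ) {G : E → ℝ} (hG : LocallyIntegrable G volume) (x v : E) :
    fderiv ℝ (mol δ G) x v = ∫ z, fderiv ℝ (mo δ) (x - z) v * G z := by
  have h := (mo_compact (E := E) hδ).hasFDerivAt_convolution_right (ContinuousLinearMap.mul ℝ ℝ) hG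
    ((mo_contDiff δ).of_le (by simp)) x
  rw [← mol_eq_conv] at h
  rw [h.fderiv, convolution_precompR_apply _ hG ((mo_compact hδ).fderiv ℝ)
    ((mo_contDiff δ).continuous_fderiv (by simp))]
  unfold MeasureTheory.convolution
  congr 1
  funext z
  simp [mul_comm]

/-- `η_δ * f → f` in `L²` -/
theorem mol_tendsto {f : E → ℝ} (hf : MemLp f 2 volume) {ε : ℝ} (hε : 0 < ε) :
    ∃ δ₀ > 0, ∀ δ, 0 < δ → δ ≤ δ₀ → eLpNorm (fun x => mol δ f x - f x) 2 volume ≤ ENNReal.ofReal ε := by
  obtain ⟨g, hgs, hgc, hfg⟩ := hf.exist_eLpNorm_sub_le (by norm_num) (by norm_num)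
    (show (0:ℝ) < ε / 3 by positivity)
  have hgcont : Continuous g := hgc.continuous
  set K : Set E := Metric.cthickening 1 (tsupport g) with hK
  have hKc : IsCompact K := hgs.isCompact.cthickening
  have hKm : volume K < ⊤ := hKc.measure_lt_top
  set m : ℝ := ((volume K) ^ ((1:ℝ)/2)).toReal with hm
  have hm0 : 0 ≤ m := ENNReal.toReal_nonneg
  have hmK : (volume K) ^ ((1:ℝ)/2) = ENNReal.ofReal m := by
    rw [hm, ENNReal.ofReal_toReal]
    exact ENNReal.rpow_ne_top_of_nonneg (by norm_num) hKm.ne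
  set c : ℝ := ε / 3 / (m + 1) with hc
  have hc0 : 0 < c := by positivity
  have huc := hgs.uniformContinuous_of_continuous hgcont
  rw [Metric.uniformContinuous_iff] at huc
  obtain ⟨δ₁, hδ₁, hu⟩ := huc c hc0
  have hfl : LocallyIntegrable f volume := hf.locallyIntegrable (by norm_num)
  have hgl : LocallyIntegrable g volume := hgcont.locallyIntegrable
  refine ⟨min (δ₁ / 2) 1, by positivity, fun δ hδ hδ₀ => ?_⟩
  have hδ1 : δ ≤ δ₁ / 2 := hδ₀.trans (min_le_left _ _)
  have hδ2 : δ ≤ 1 := hδ₀.trans (min_le_right _ _)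
  have h1 : ∀ x, |mol δ g x - g x| ≤ c := fun x => mol_sub_le hδ hgl x fun z hz => by
    have := hu (a := z) (b := x) (by rw [dist_eq_norm, norm_sub_rev]; linarith)
    rw [Real.dist_eq] at this
    exact this.le
  have hs1 : Function.support (mol δ g) ⊆ K := by
    intro x hx
    by_contra hxK
    apply hx
    have : ∀ z, mo δ (x - z) * g z = 0 := by
      intro z
      rcases le_or_gt ‖x - z‖ δ with hz | hz
      · have : g z = 0 := by
          by_contra hgz
          apply hxK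
          refine Metric.mem_cthickening_of_dist_le x z 1 _ (subset_tsupport g hgz) ?_
          rw [dist_eq_norm]; linarith
        rw [this, mul_zero]
      · rw [mo_eq_zero hδ hz, zero_mul]
    unfold mol
    simp [this]
  have hs2 : Function.support g ⊆ K :=
    (subset_tsupport g).trans (Metric.self_subset_cthickening _)
  have h2 : eLpNorm (mol δ g - g) 2 volume ≤ ENNReal.ofReal (ε / 3) := by
    refine (eLpNorm_sub_le_of_dist_bdd volume (by norm_num) hKc.measurableSet hc0.le
      (fun x => by rw [Real.dist_eq]; exact h1 x) hs1 hs2).trans ?_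
    have : (1:ℝ) / (2:ℝ≥0∞).toReal = 1 / 2 := by norm_num
    rw [this, hmK, ← ENNReal.ofReal_mul hc0.le]
    apply ENNReal.ofReal_le_ofReal
    rw [hc, div_mul_eq_mul_div, div_le_iff₀ (by positivity)]
    nlinarith
  have h3 : eLpNorm (mol δ (f - g)) 2 volume ≤ ENNReal.ofReal (ε / 3) :=
    (mol_bound hδ (hf.1.sub hgcont.aestronglyMeasurable)).trans hfg
  have h4 : (fun x => mol δ f x - f x) = (mol δ (f - g) + (mol δ g - g)) + (g - f) := by
    funext x
    have : mol δ (f - g) x = mol δ f x - mol δ g x := by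
      unfold mol
      rw [← integral_sub (mo_integrable_mul hδ hfl x) (mo_integrable_mul hδ hgl x)]
      congr 1
      funext z
      simp only [Pi.sub_apply]
      ring
    simp only [Pi.add_apply, Pi.sub_apply, this]
    ring
  have hmeas : ∀ h : E → ℝ, LocallyIntegrable h volume → AEStronglyMeasurable (mol δ h) volume := by
    intro h hh
    exact (mol_contDiff hδ hh).continuous.aestronglyMeasurable
  rw [h4]
  refine (eLpNorm_add_le ((hmeas _ (hfl.sub hgl)).add ((hmeas _ hgl).sub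
    hgcont.aestronglyMeasurable)) (hgcont.aestronglyMeasurable.sub hf.1) (by norm_num)).trans ?_
  refine (add_le_add_left (eLpNorm_add_le (hmeas _ (hfl.sub hgl)) ((hmeas _ hgl).sub
    hgcont.aestronglyMeasurable) (by norm_num)) _).trans ?_
  rw [eLpNorm_sub_comm g f]
  calc eLpNorm (mol δ (f - g)) 2 volume + eLpNorm (mol δ g - g) 2 volume + eLpNorm (f - g) 2 volume
      ≤ ENNReal.ofReal (ε / 3) + ENNReal.ofReal (ε / 3) + ENNReal.ofReal (ε / 3) := by gcongr
    _ = ENNReal.ofReal ε := by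
        rw [← ENNReal.ofReal_add (by positivity) (by positivity),
          ← ENNReal.ofReal_add (by positivity) (by positivity)]
        congr 1; ring

/-! ### Friedrichs' commutator -/

/-- the commutator `[a, η_δ *] G` -/
noncomputable def com (a : E → ℝ) (δ : ℝ) (G : E → ℝ) (x : E) : ℝ :=
  a x * mol δ G x - mol δ (fun z => a z * G z) x

theorem locInt_mul {a G : E → ℝ} (ha : Continuous a) (hG : LocallyIntegrable G volume) :
    LocallyIntegrable (fun z => a z * G z) volume := by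
  have := hG.continuous_smul ha
  simpa using this

/-- the kernel part of the derivative of the commutator -/
noncomputable def ker (a : E → ℝ) (δ : ℝ) (v : E) (G : E → ℝ) (x : E) : ℝ :=
  a x * fderiv ℝ (mol δ G) x v - fderiv ℝ (mol δ (fun z => a z * G z)) x v

theorem com_fderiv {a : E → ℝ} {K : ℝ≥0} (ha : LipschitzWith K a) {δ : ℝ} (hδ : 0 < δ) {G : E → ℝ}
    (hG : LocallyIntegrable G volume) {x : E} (hx : DifferentiableAt ℝ a x) (v : E) :
    fderiv ℝ (com a δ G) x v = fderiv ℝ a x v * mol δ G x + ker a δ v G x := by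
  have h1 : DifferentiableAt ℝ (mol δ G) x :=
    ((mol_contDiff hδ hG).differentiable (by simp)) x
  have h2 : DifferentiableAt ℝ (mol δ (fun z => a z * G z)) x :=
    ((mol_contDiff hδ (locInt_mul ha.continuous hG)).differentiable (by simp)) x
  have h3 := (hx.hasFDerivAt.mul h1.hasFDerivAt).sub h2.hasFDerivAt
  have h4 : fderiv ℝ (com a δ G) x = _ := h3.fderiv
  rw [h4]
  unfold ker
  simp
  ring

theorem int_ker {a : E → ℝ} {K : ℝ≥0} (ha : LipschitzWith K a) {δ : ℝ} (hδ : 0 < δ) {G : E → ℝ}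
    (hG : LocallyIntegrable G volume) (x v : E) :
    ker a δ v G x = ∫ z, fderiv ℝ (mo δ) (x - z) v * ((a x - a z) * G z) := by
  unfold ker
  have hint : ∀ h : E → ℝ, LocallyIntegrable h volume →
      Integrable (fun z => fderiv ℝ (mo δ) (x - z) v * h z) := by
    intro h hh
    have hc : Continuous (fun z : E => fderiv ℝ (mo δ) (x - z) v) := by
      have := (mo_contDiff (E := E) δ).continuous_fderiv (by simp)
      fun_prop
    have hs : HasCompactSupport (fun z : E => fderiv ℝ (mo δ) (x - z) v) := by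
      refine HasCompactSupport.intro (isCompact_closedBall x δ) fun z hz => ?_
      rw [Metric.mem_closedBall, not_le, dist_eq_norm] at hz
      have h5 : mo (E := E) δ =ᶠ[𝓝 (x - z)] fun _ => 0 := by
        have : ∀ᶠ w : E in 𝓝 (x - z), δ < ‖w‖ :=
          (continuous_norm.tendsto _).eventually (lt_mem_nhds (by rwa [norm_sub_rev]))
        filter_upwards [this] with w hw using mo_eq_zero hδ hw
      rw [h5.fderiv_eq]
      simp
    have := hh.integrable_smul_left_of_hasCompactSupport hc hs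
    simpa using this
  rw [mol_fderiv hδ hG, mol_fderiv hδ (locInt_mul ha.continuous hG), ← integral_const_mul,
    ← integral_sub ((hint _ hG).const_mul _) (hint _ (locInt_mul ha.continuous hG))]
  congr 1
  funext z
  ring

theorem ker_enorm_le {a : E → ℝ} {K : ℝ≥0} (ha : LipschitzWith K a) {δ : ℝ} (hδ : 0 < δ) {G : E → ℝ}
    (hG : LocallyIntegrable G volume) (x v : E) :
    ‖ker a δ v G x‖ₑ ≤ ∫⁻ z, ((K : ℝ≥0∞) * (‖fderiv ℝ (mo δ) (x - z) v‖ₑ * ‖x - z‖ₑ)) * ‖G z‖ₑ := by
  rw [int_ker ha hδ hG]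
  refine (enorm_integral_le_lintegral_enorm _).trans (lintegral_mono fun z => ?_)
  rw [enorm_mul, enorm_mul]
  have h1 : ‖a x - a z‖ₑ ≤ (K : ℝ≥0∞) * ‖x - z‖ₑ := by
    have := ha x z
    rwa [edist_eq_enorm_sub, edist_eq_enorm_sub] at this
  calc ‖fderiv ℝ (mo δ) (x - z) v‖ₑ * (‖a x - a z‖ₑ * ‖G z‖ₑ)
      ≤ ‖fderiv ℝ (mo δ) (x - z) v‖ₑ * (((K : ℝ≥0∞) * ‖x - z‖ₑ) * ‖G z‖ₑ) := by gcongr
    _ = _ := by ring

theorem ker_bound {a : E → ℝ} {K : ℝ≥0} (ha : LipschitzWith K a) {δ : ℝ} (hδ : 0 < δ) {G : E → ℝ}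
    (hG : LocallyIntegrable G volume) (hm : AEStronglyMeasurable G volume) (v : E) :
    eLpNorm (ker a δ v G) 2 volume ≤ ((K : ℝ≥0∞) * cst v) * eLpNorm G 2 volume := by
  have hmk : Measurable (fun w : E => (K : ℝ≥0∞) * (‖fderiv ℝ (mo δ) w v‖ₑ * ‖w‖ₑ)) := by
    have h2 : Continuous (fun w : E => fderiv ℝ (mo δ) w v) := by
      have := (mo_contDiff (E := E) δ).continuous_fderiv (by simp)
      fun_prop
    exact (h2.measurable.enorm.mul measurable_enorm).const_mul _
  have h := young_eLp hmk hm (ker a δ v G) (Eventually.of_forall fun x => ker_enorm_le ha hδ hG x v)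
  refine h.trans (le_of_eq ?_)
  congr 1
  rw [lintegral_const_mul, mo_cst hδ]
  have h2 : Continuous (fun w : E => fderiv ℝ (mo δ) w v) := by
    have := (mo_contDiff (E := E) δ).continuous_fderiv (by simp)
    fun_prop
  exact h2.measurable.enorm.mul measurable_enorm

theorem ker_meas {a : E → ℝ} {K : ℝ≥0} (ha : LipschitzWith K a) {δ : ℝ} (hδ : 0 < δ) {G : E → ℝ}
    (hG : LocallyIntegrable G volume) (v : E) : Continuous (ker a δ v G) := by
  unfold ker
  have h1 := (mol_contDiff hδ hG).continuous_fderiv (by simp)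
  have h2 := (mol_contDiff hδ (locInt_mul ha.continuous hG)).continuous_fderiv (by simp)
  have h3 := ha.continuous
  fun_prop

theorem fd_le {a : E → ℝ} {K : ℝ≥0} (ha : LipschitzWith K a) (x v : E) :
    ‖fderiv ℝ a x v‖ₑ ≤ (K : ℝ≥0∞) * ‖v‖ₑ := by
  have h1 : ‖fderiv ℝ a x‖ ≤ K := norm_fderiv_le_of_lipschitz ℝ ha
  have h2 : ‖fderiv ℝ a x v‖ ≤ K * ‖v‖ := (ContinuousLinearMap.le_opNorm _ _).trans (by gcongr)
  rw [← ofReal_norm, ← ofReal_norm, ← ENNReal.ofReal_coe_nnreal, ← ENNReal.ofReal_mul K.coe_nonneg]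
  exact ENNReal.ofReal_le_ofReal h2

/-- **Friedrichs, bound** -/
theorem com_bound {a : E → ℝ} {K : ℝ≥0} (ha : LipschitzWith K a) {δ : ℝ} (hδ : 0 < δ) {G : E → ℝ}
    (hG : LocallyIntegrable G volume) (v : E) :
    eLpNorm (fun x => fderiv ℝ (com a δ G) x v) 2 volume ≤
      (K : ℝ≥0∞) * (‖v‖ₑ + cst v) * eLpNorm G 2 volume := by
  have hm := hG.aestronglyMeasurable
  have h1 : (fun x => fderiv ℝ (com a δ G) x v) =ᵐ[volume]
      (fun x => fderiv ℝ a x v * mol δ G x) + ker a δ v G := by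
    filter_upwards [ha.ae_differentiableAt] with x hx
    rw [com_fderiv ha hδ hG hx]; rfl
  rw [eLpNorm_congr_ae h1]
  have hmeas : AEStronglyMeasurable (fun x => fderiv ℝ a x v * mol δ G x) volume :=
    ((measurable_fderiv_apply_const ℝ a v).aestronglyMeasurable).mul
      (mol_contDiff hδ hG).continuous.aestronglyMeasurable
  refine (eLpNorm_add_le hmeas (ker_meas ha hδ hG v).aestronglyMeasurable (by norm_num)).trans ?_
  have h2 : eLpNorm (fun x => fderiv ℝ a x v * mol δ G x) 2 volume ≤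
      ((K : ℝ≥0∞) * ‖v‖ₑ) * eLpNorm G 2 volume := by
    have h3 : eLpNorm (fun x => fderiv ℝ a x v * mol δ G x) 2 volume ≤
        ((K * ‖v‖₊ : ℝ≥0) : ℝ≥0∞) * eLpNorm (mol δ G) 2 volume := by
      refine eLpNorm_le_nnreal_smul_eLpNorm_of_ae_le_mul (Eventually.of_forall fun x => ?_) 2
      have := fd_le ha x v
      rw [← ENNReal.coe_le_coe]
      push_cast
      rw [← enorm_eq_nnnorm, ← enorm_eq_nnnorm, ← enorm_eq_nnnorm, enorm_mul]
      gcongr
    refine h3.trans ?_
    push_cast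
    rw [← enorm_eq_nnnorm]
    gcongr
    exact mol_bound hδ hm
  calc _ ≤ ((K : ℝ≥0∞) * ‖v‖ₑ) * eLpNorm G 2 volume + ((K : ℝ≥0∞) * cst v) * eLpNorm G 2 volume := by
        gcongr
        exact ker_bound ha hδ hG hm v
    _ = _ := by ring

/-- differentiation under the mollifier for test functions, with a Lipschitz weight -/
theorem mol_fderiv_mul {a : E → ℝ} {K : ℝ≥0} (ha : LipschitzWith K a) {δ : ℝ} (hδ : 0 < δ)
    {G : E → ℝ} (hGs : HasCompactSupport G) (hGc : ContDiff ℝ ∞ G) (x v : E) :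
    fderiv ℝ (mol δ (fun z => a z * G z)) x v =
      mol δ (fun z => fderiv ℝ a z v * G z) x + mol δ (fun z => a z * fderiv ℝ G z v) x := by
  have hGl : LocallyIntegrable G volume := hGc.continuous.locallyIntegrable
  rw [mol_fderiv hδ (locInt_mul ha.continuous hGl)]
  set g : E → ℝ := fun z => mo δ (x - z) * G z with hg
  have hgc : ContDiff ℝ ∞ g := ((mo_contDiff δ).comp (contDiff_const.sub contDiff_id)).mul hGc
  have hgs : HasCompactSupport g := hGs.mul_left
  obtain ⟨D, hD⟩ := hgc.lipschitzWith_of_hasCompactSupport hgs (by simp)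
  have key := ha.integral_lineDeriv_mul_eq hD hgs v (μ := volume)
  have hgd : ∀ z, lineDeriv ℝ g z (-v) =
      fderiv ℝ (mo δ) (x - z) v * G z - mo δ (x - z) * fderiv ℝ G z v := by
    intro z
    have hgd' : DifferentiableAt ℝ g z := hgc.differentiable (by simp) z
    rw [hgd'.lineDeriv_eq_fderiv]
    have hm : HasFDerivAt (fun z : E => mo δ (x - z)) ((fderiv ℝ (mo δ) (x - z)).comp
        (-ContinuousLinearMap.id ℝ E)) z := by
      have h1 : HasFDerivAt (mo (E := E) δ) (fderiv ℝ (mo δ) (x - z)) (x - z) :=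
        (((mo_contDiff δ).differentiable (by simp)) _).hasFDerivAt
      have h2 : HasFDerivAt (fun z : E => x - z) (-ContinuousLinearMap.id ℝ E) z := by
        simpa using (hasFDerivAt_id z).const_sub x
      exact h1.comp z h2
    have hG : HasFDerivAt G (fderiv ℝ G z) z := (hGc.differentiable (by simp) z).hasFDerivAt
    have h3 : fderiv ℝ g z = _ := (hm.mul hG).fderiv
    rw [h3]
    simp
    ring
  have h1 : ∫ z, lineDeriv ℝ a z v * g z = mol δ (fun z => fderiv ℝ a z v * G z) x := by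
    unfold mol
    refine integral_congr_ae ?_
    filter_upwards [ha.ae_differentiableAt] with z hz
    rw [hz.lineDeriv_eq_fderiv, hg]
    ring
  rw [h1] at key
  rw [key]
  unfold mol
  have hint1 : Integrable (fun z => lineDeriv ℝ g z (-v) * a z) := by
    have hc : Continuous (fun z => lineDeriv ℝ g z (-v)) := by
      have h5 : (fun z => lineDeriv ℝ g z (-v)) = fun z => fderiv ℝ g z (-v) := by
        funext z
        exact (hgc.differentiable (by simp) z).lineDeriv_eq_fderiv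
      rw [h5]
      have := hgc.continuous_fderiv (by simp)
      fun_prop
    have hs : HasCompactSupport (fun z => lineDeriv ℝ g z (-v)) := by
      have h5 : (fun z => lineDeriv ℝ g z (-v)) = fun z => fderiv ℝ g z (-v) := by
        funext z
        exact (hgc.differentiable (by simp) z).lineDeriv_eq_fderiv
      rw [h5]
      exact hgs.fderiv_apply (𝕜 := ℝ) (-v)
    exact (hc.mul ha.continuous).integrable_of_hasCompactSupport hs.mul_right
  have hint2 : Integrable (fun z => mo δ (x - z) * (a z * fderiv ℝ G z v)) := by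
    have hc2 := hGc.continuous_fderiv (by simp)
    exact mo_integrable_mul hδ (locInt_mul ha.continuous
      (Continuous.locallyIntegrable (by fun_prop))) x
  rw [← integral_add hint1 hint2]
  congr 1
  funext z
  rw [hgd]
  ring

theorem int_ker_le {a : E → ℝ} {K : ℝ≥0} (ha : LipschitzWith K a) {δ : ℝ} (hδ : 0 < δ)
    {G : E → ℝ} (hG : LocallyIntegrable G volume) :
    eLpNorm (com a δ G) 2 volume ≤ (K : ℝ≥0∞) * ENNReal.ofReal δ * eLpNorm G 2 volume := by
  have hm := hG.aestronglyMeasurable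
  have h := young_eLp (k := fun w => ((K : ℝ≥0∞) * ENNReal.ofReal δ) * ‖mo δ w‖ₑ)
    ((mo_meas (E := E) δ).const_mul _) hm (com a δ G) (Eventually.of_forall fun x => ?_)
  · refine h.trans (le_of_eq ?_)
    rw [lintegral_const_mul _ (mo_meas δ), mo_lintegral hδ, mul_one]
  · have h1 : com a δ G x = ∫ z, mo δ (x - z) * ((a x - a z) * G z) := by
      unfold com mol
      rw [← integral_const_mul, ← integral_sub ((mo_integrable_mul hδ hG x).const_mul _)
        (mo_integrable_mul hδ (locInt_mul ha.continuous hG) x)]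
      congr 1
      funext z
      ring
    rw [h1]
    refine (enorm_integral_le_lintegral_enorm _).trans (lintegral_mono fun z => ?_)
    rw [enorm_mul, enorm_mul]
    rcases le_or_gt ‖x - z‖ δ with hz | hz
    · have h2 : ‖a x - a z‖ₑ ≤ (K : ℝ≥0∞) * ENNReal.ofReal δ := by
        have := ha x z
        rw [edist_eq_enorm_sub, edist_eq_enorm_sub] at this
        refine this.trans ?_
        gcongr
        rw [← ofReal_norm]
        exact ENNReal.ofReal_le_ofReal hz
      calc ‖mo δ (x - z)‖ₑ * (‖a x - a z‖ₑ * ‖G z‖ₑ)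
          ≤ ‖mo δ (x - z)‖ₑ * (((K : ℝ≥0∞) * ENNReal.ofReal δ) * ‖G z‖ₑ) := by gcongr
        _ = _ := by ring
    · rw [mo_eq_zero hδ hz]
      simp

theorem eLp_mul_bdd {h g : E → ℝ} {C : ℝ≥0} (hh : ∀ x, ‖h x‖ₑ ≤ C) :
    eLpNorm (fun x => h x * g x) 2 volume ≤ (C : ℝ≥0∞) * eLpNorm g 2 volume := by
  refine eLpNorm_le_nnreal_smul_eLpNorm_of_ae_le_mul (Eventually.of_forall fun x => ?_) 2
  rw [← ENNReal.coe_le_coe]
  push_cast
  rw [← enorm_eq_nnnorm, ← enorm_eq_nnnorm, enorm_mul]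
  gcongr
  exact hh x

/-- **Friedrichs, convergence** for test functions -/
theorem com_tendsto_test {a : E → ℝ} {K : ℝ≥0} (ha : LipschitzWith K a) {G : E → ℝ}
    (hGs : HasCompactSupport G) (hGc : ContDiff ℝ ∞ G) (v : E) {ε : ℝ} (hε : 0 < ε) :
    ∃ δ₀ > 0, ∀ δ, 0 < δ → δ ≤ δ₀ →
      eLpNorm (fun x => fderiv ℝ (com a δ G) x v) 2 volume ≤ ENNReal.ofReal ε := by
  have hGl : LocallyIntegrable G volume := hGc.continuous.locallyIntegrable
  have hG2 : MemLp G 2 volume := hGc.continuous.memLp_of_hasCompactSupport hGs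
  set dG : E → ℝ := fun z => fderiv ℝ G z v with hdG
  have hdGc : Continuous dG := by
    have := hGc.continuous_fderiv (by simp)
    fun_prop
  have hdGs : HasCompactSupport dG := hGs.fderiv_apply (𝕜 := ℝ) v
  have hdG2 : MemLp dG 2 volume := hdGc.memLp_of_hasCompactSupport hdGs
  set A : E → ℝ := fun z => fderiv ℝ a z v * G z with hA
  have hAm : AEStronglyMeasurable A volume :=
    ((measurable_fderiv_apply_const ℝ a v).aestronglyMeasurable).mul
      hGc.continuous.aestronglyMeasurable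
  have hfd : ∀ x, ‖fderiv ℝ a x v‖ₑ ≤ ((K * ‖v‖₊ : ℝ≥0) : ℝ≥0∞) := by
    intro x
    have := fd_le ha x v
    push_cast
    rwa [← enorm_eq_nnnorm]
  have hA2 : MemLp A 2 volume := by
    refine ⟨hAm, ?_⟩
    exact (eLp_mul_bdd hfd).trans_lt (ENNReal.mul_lt_top ENNReal.coe_lt_top hG2.2)
  have hAl : LocallyIntegrable A volume := hA2.locallyIntegrable (by norm_num)
  set M : ℝ := (eLpNorm dG 2 volume).toReal with hM
  have hM0 : 0 ≤ M := ENNReal.toReal_nonneg
  have hMe : eLpNorm dG 2 volume = ENNReal.ofReal M := by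
    rw [hM, ENNReal.ofReal_toReal hdG2.2.ne]
  set k : ℝ := K * ‖v‖ with hk
  have hk0 : 0 ≤ k := by positivity
  have hke : ((K * ‖v‖₊ : ℝ≥0) : ℝ≥0∞) = ENNReal.ofReal k := by
    rw [hk, ← ENNReal.ofReal_coe_nnreal]
    push_cast
    rfl
  obtain ⟨δ₁, hδ₁, h1⟩ := mol_tendsto hG2 (show (0:ℝ) < ε / 3 / (k + 1) by positivity)
  obtain ⟨δ₂, hδ₂, h2⟩ := mol_tendsto hA2 (show (0:ℝ) < ε / 3 by positivity)
  refine ⟨min (min δ₁ δ₂) (ε / 3 / (K * M + 1)), by positivity, fun δ hδ hδ₀ => ?_⟩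
  have hd1 : δ ≤ δ₁ := hδ₀.trans ((min_le_left _ _).trans (min_le_left _ _))
  have hd2 : δ ≤ δ₂ := hδ₀.trans ((min_le_left _ _).trans (min_le_right _ _))
  have hd3 : δ ≤ ε / 3 / (K * M + 1) := hδ₀.trans (min_le_right _ _)
  have hae : (fun x => fderiv ℝ (com a δ G) x v) =ᵐ[volume]
      ((fun x => fderiv ℝ a x v * (mol δ G x - G x)) - (fun x => mol δ A x - A x)) + com a δ dG := by
    filter_upwards [ha.ae_differentiableAt] with x hx
    rw [com_fderiv ha hδ hGl hx]
    unfold ker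
    rw [mol_fderiv_mul ha hδ hGs hGc]
    have h5 := mol_fderiv_mul (a := fun _ : E => (1:ℝ)) (K := 0) (LipschitzWith.const 1) hδ hGs hGc x v
    have h6 : fderiv ℝ (fun _ : E => (1:ℝ)) = 0 := by
      funext z; simp
    simp only [one_mul, fderiv_fun_const, Pi.zero_apply, ContinuousLinearMap.zero_apply,
      zero_mul] at h5
    have h7 : mol δ (fun _ : E => (0:ℝ)) x = 0 := by unfold mol; simp
    rw [h7, zero_add] at h5
    rw [h5]
    simp only [Pi.add_apply, Pi.sub_apply, com, hA, hdG]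
    ring
  rw [eLpNorm_congr_ae hae]
  have m1 : AEStronglyMeasurable (fun x => fderiv ℝ a x v * (mol δ G x - G x)) volume :=
    ((measurable_fderiv_apply_const ℝ a v).aestronglyMeasurable).mul
      ((mol_contDiff hδ hGl).continuous.sub hGc.continuous).aestronglyMeasurable
  have m2 : AEStronglyMeasurable (fun x => mol δ A x - A x) volume :=
    (mol_contDiff hδ hAl).continuous.aestronglyMeasurable.sub hAm
  have m3 : AEStronglyMeasurable (com a δ dG) volume := by
    unfold com
    have c1 := (mol_contDiff hδ (hdGc.locallyIntegrable (μ := volume))).continuous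
    have c2 := (mol_contDiff hδ (locInt_mul ha.continuous
      (hdGc.locallyIntegrable (μ := volume)))).continuous
    exact ((ha.continuous.mul c1).sub c2).aestronglyMeasurable
  refine (eLpNorm_add_le (m1.sub m2) m3 (by norm_num)).trans ?_
  refine (add_le_add_left (eLpNorm_sub_le m1 m2 (by norm_num)) _).trans ?_
  have b1 : eLpNorm (fun x => fderiv ℝ a x v * (mol δ G x - G x)) 2 volume ≤ ENNReal.ofReal (ε / 3) := by
    refine (eLp_mul_bdd hfd).trans ?_
    rw [hke]
    calc ENNReal.ofReal k * eLpNorm (fun x => mol δ G x - G x) 2 volume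
        ≤ ENNReal.ofReal k * ENNReal.ofReal (ε / 3 / (k + 1)) := by gcongr; exact h1 δ hδ hd1
      _ = ENNReal.ofReal (k * (ε / 3 / (k + 1))) := (ENNReal.ofReal_mul hk0).symm
      _ ≤ _ := by
        apply ENNReal.ofReal_le_ofReal
        rw [mul_div_assoc', div_le_iff₀ (by positivity)]
        nlinarith
  have b3 : eLpNorm (com a δ dG) 2 volume ≤ ENNReal.ofReal (ε / 3) := by
    refine (int_ker_le ha hδ (hdGc.locallyIntegrable (μ := volume))).trans ?_
    rw [hMe, ← ENNReal.ofReal_coe_nnreal, ← ENNReal.ofReal_mul K.coe_nonneg,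
      ← ENNReal.ofReal_mul (by positivity)]
    apply ENNReal.ofReal_le_ofReal
    have h8 : δ * (K * M + 1) ≤ ε / 3 := by
      rwa [le_div_iff₀ (by positivity)] at hd3
    nlinarith [K.coe_nonneg]
  calc _ ≤ ENNReal.ofReal (ε / 3) + ENNReal.ofReal (ε / 3) + ENNReal.ofReal (ε / 3) := by
        gcongr
        exact h2 δ hδ hd2
    _ = ENNReal.ofReal ε := by
        rw [← ENNReal.ofReal_add (by positivity) (by positivity),
          ← ENNReal.ofReal_add (by positivity) (by positivity)]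
        congr 1; ring

theorem com_sub {a : E → ℝ} (ha : Continuous a) {δ : ℝ} (hδ : 0 < δ) {G g : E → ℝ}
    (hG : LocallyIntegrable G volume) (hg : LocallyIntegrable g volume) (x : E) :
    com a δ G x = com a δ (G - g) x + com a δ g x := by
  have h1 : mol δ (G - g) x = mol δ G x - mol δ g x := by
    unfold mol
    rw [← integral_sub (mo_integrable_mul hδ hG x) (mo_integrable_mul hδ hg x)]
    congr 1
    funext z
    simp only [Pi.sub_apply]
    ring
  have h2 : mol δ (fun z => a z * (G - g) z) x =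
      mol δ (fun z => a z * G z) x - mol δ (fun z => a z * g z) x := by
    unfold mol
    rw [← integral_sub (mo_integrable_mul hδ (locInt_mul ha hG) x)
      (mo_integrable_mul hδ (locInt_mul ha hg) x)]
    congr 1
    funext z
    simp only [Pi.sub_apply]
    ring
  unfold com
  rw [h1, h2]
  ring

/-- **Friedrichs, convergence** -/
theorem com_tendsto {a : E → ℝ} {K : ℝ≥0} (ha : LipschitzWith K a) {G : E → ℝ}
    (hG : MemLp G 2 volume) (v : E) {ε : ℝ} (hε : 0 < ε) :
    ∃ δ₀ > 0, ∀ δ, 0 < δ → δ ≤ δ₀ →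
      eLpNorm (fun x => fderiv ℝ (com a δ G) x v) 2 volume ≤ ENNReal.ofReal ε := by
  have hGl : LocallyIntegrable G volume := hG.locallyIntegrable (by norm_num)
  have hCt : (K : ℝ≥0∞) * (‖v‖ₑ + cst v) < ⊤ :=
    ENNReal.mul_lt_top ENNReal.coe_lt_top (ENNReal.add_lt_top.2 ⟨enorm_lt_top, cst_lt_top v⟩)
  set C : ℝ := ((K : ℝ≥0∞) * (‖v‖ₑ + cst v)).toReal with hC
  have hC0 : 0 ≤ C := ENNReal.toReal_nonneg
  have hCe : (K : ℝ≥0∞) * (‖v‖ₑ + cst v) = ENNReal.ofReal C := by
    rw [hC, ENNReal.ofReal_toReal hCt.ne]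
  obtain ⟨g, hgs, hgc, hfg⟩ := hG.exist_eLpNorm_sub_le (by norm_num) (by norm_num)
    (show (0:ℝ) < ε / 2 / (C + 1) by positivity)
  have hgl : LocallyIntegrable g volume := hgc.continuous.locallyIntegrable
  obtain ⟨δ₀, hδ₀, h⟩ := com_tendsto_test ha hgs hgc v (show (0:ℝ) < ε / 2 by positivity)
  refine ⟨δ₀, hδ₀, fun δ hδ hd => ?_⟩
  have hae : (fun x => fderiv ℝ (com a δ G) x v) =ᵐ[volume]
      (fun x => fderiv ℝ (com a δ (G - g)) x v) + (fun x => fderiv ℝ (com a δ g) x v) := by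
    filter_upwards [ha.ae_differentiableAt] with x hx
    have e1 : com a δ G = com a δ (G - g) + com a δ g := by
      funext y
      exact com_sub ha.continuous hδ hGl hgl y
    have d : ∀ h : E → ℝ, LocallyIntegrable h volume → DifferentiableAt ℝ (com a δ h) x := by
      intro h hh
      unfold com
      exact (hx.mul (((mol_contDiff hδ hh).differentiable (by simp)) x)).sub
        (((mol_contDiff hδ (locInt_mul ha.continuous hh)).differentiable (by simp)) x)
    rw [e1, fderiv_add (d _ (hGl.sub hgl)) (d _ hgl)]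
    rfl
  rw [eLpNorm_congr_ae hae]
  have m1 : AEStronglyMeasurable (fun x => fderiv ℝ (com a δ (G - g)) x v) volume :=
    (measurable_fderiv_apply_const ℝ _ v).aestronglyMeasurable
  have m2 : AEStronglyMeasurable (fun x => fderiv ℝ (com a δ g) x v) volume :=
    (measurable_fderiv_apply_const ℝ _ v).aestronglyMeasurable
  refine (eLpNorm_add_le m1 m2 (by norm_num)).trans ?_
  have b1 : eLpNorm (fun x => fderiv ℝ (com a δ (G - g)) x v) 2 volume ≤ ENNReal.ofReal (ε / 2) := by
    refine (com_bound ha hδ (hGl.sub hgl) v).trans ?_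
    rw [hCe]
    calc ENNReal.ofReal C * eLpNorm (G - g) 2 volume
        ≤ ENNReal.ofReal C * ENNReal.ofReal (ε / 2 / (C + 1)) := by gcongr
      _ = ENNReal.ofReal (C * (ε / 2 / (C + 1))) := (ENNReal.ofReal_mul hC0).symm
      _ ≤ _ := by
        apply ENNReal.ofReal_le_ofReal
        rw [mul_div_assoc', div_le_iff₀ (by positivity)]
        nlinarith
  calc _ ≤ ENNReal.ofReal (ε / 2) + ENNReal.ofReal (ε / 2) := by
        gcongr
        exact h δ hδ hd
    _ = ENNReal.ofReal ε := by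
        rw [← ENNReal.ofReal_add (by positivity) (by positivity)]
        congr 1; ring

end Vale.Agent.P227.M.Fried
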