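import Mathlib

/-!
P227/M/LIN: mollification in `L²`.
-/

namespace Vale.Agent.P227.M.LIN

open MeasureTheory Filter Topology Function Set Metric
open scoped ENNReal NNReal Convolution ContDiff

variable {E : Type*} [NormedAddCommGroup E] [InnerProductSpace ℝ E] [FiniteDimensional ℝ E]
  [MeasurableSpace E] [BorelSpace E]

/-- continuity of translations in `L²`. -/
theorem tendsto_translate {f : E → ℝ} (hf : MemLp f 2 (volume : Measure E)) :
    Tendsto (fun t : E => eLpNorm (fun x => f (x - t) - f x) 2 volume) (𝓝 0) (𝓝 0) := by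
  have hmp : ∀ t : E, MeasurePreserving (fun x : E => x - t) volume volume :=
    fun t => measurePreserving_sub_right volume t
  let g : E → C(E, E) := fun t => ⟨fun x => x - t, by fun_prop⟩
  have hg : Continuous g := by
    refine ContinuousMap.continuous_of_continuous_uncurry _ ?_
    exact continuous_snd.sub continuous_fst
  have key := Continuous.compMeasurePreservingLp (p := 2) (μ := (volume : Measure E))
    (ν := (volume : Measure E)) (f := fun _ : E => hf.toLp f) (g := g) continuous_const hg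
    (fun t => hmp t) (by norm_num)
  have h0 := key.tendsto 0
  rw [tendsto_iff_edist_tendsto_0] at h0
  refine h0.congr fun t => ?_
  rw [Lp.edist_def]
  refine eLpNorm_congr_ae ?_
  have h1 : (Lp.compMeasurePreserving (g t) (hmp t) (hf.toLp f) : E → ℝ) =ᵐ[volume]
      fun x => f (x - t) := by
    refine (Lp.coeFn_compMeasurePreserving _ (hmp t)).trans ?_
    exact (hmp t).quasiMeasurePreserving.ae_eq_comp hf.coeFn_toLp
  have h2 : (Lp.compMeasurePreserving (g 0) (hmp 0) (hf.toLp f) : E → ℝ) =ᵐ[volume] f := by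
    refine (Lp.coeFn_compMeasurePreserving _ (hmp 0)).trans ?_
    have h3 := (hmp 0).quasiMeasurePreserving.ae_eq_comp hf.coeFn_toLp
    refine h3.trans (Eventually.of_forall fun x => ?_)
    simp
  filter_upwards [h1, h2] with x h1 h2
  rw [Pi.sub_apply]
  exact congrArg₂ (· - ·) h1 h2

/-- mollification. -/
noncomputable def mol (φ : ContDiffBump (0 : E)) (f : E → ℝ) : E → ℝ :=
  φ.normed volume ⋆[ContinuousLinearMap.mul ℝ ℝ, volume] f

theorem mol_apply (φ : ContDiffBump (0 : E)) (f : E → ℝ) (x : E) :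
    mol φ f x = ∫ t, φ.normed volume t * f (x - t) := rfl

theorem mol_apply' (φ : ContDiffBump (0 : E)) (f : E → ℝ) (x : E) :
    mol φ f x = ∫ t, φ.normed volume (x - t) * f t :=
  convolution_mul_swap

theorem mol_congr (φ : ContDiffBump (0 : E)) {f g : E → ℝ} (h : f =ᵐ[volume] g) :
    mol φ f = mol φ g :=
  convolution_congr _ EventuallyEq.rfl h

theorem contDiff_mol (φ : ContDiffBump (0 : E)) {f : E → ℝ} (hf : LocallyIntegrable f volume) :
    ContDiff ℝ ∞ (mol φ f) :=
  φ.hasCompactSupport_normed.contDiff_convolution_left _ φ.contDiff_normed hf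

theorem locallyIntegrable_of_memLp {f : E → ℝ} (hf : MemLp f 2 (volume : Measure E)) :
    LocallyIntegrable f volume :=
  hf.locallyIntegrable one_le_two

/-- **the `L²` distance of a mollification**, for a measurable function. -/
theorem eLpNorm_mol_sub_le_aux (φ : ContDiffBump (0 : E)) {f : E → ℝ}
    (hfm : StronglyMeasurable f) (hf : MemLp f 2 (volume : Measure E)) {δ : ℝ≥0∞}
    (hδ : ∀ t ∈ ball (0 : E) φ.rOut, eLpNorm (fun x => f (x - t) - f x) 2 volume ≤ δ) :
    eLpNorm (fun x => mol φ f x - f x) 2 volume ≤ δ := by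
  set ρ : E → ℝ := φ.normed volume with hρ
  have hρc : Continuous ρ := φ.continuous_normed
  have hρ0 : ∀ x, 0 ≤ ρ x := φ.nonneg_normed
  have hρi : Integrable ρ volume := φ.integrable_normed
  have hρ1 : ∫ x, ρ x = 1 := φ.integral_normed
  let ν : Measure E := volume.withDensity fun t => ENNReal.ofReal (ρ t)
  have hν : IsProbabilityMeasure ν := by
    constructor
    rw [withDensity_apply _ MeasurableSet.univ, Measure.restrict_univ,
      ← ofReal_integral_eq_lintegral_ofReal hρi (Eventually.of_forall hρ0), hρ1,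
      ENNReal.ofReal_one]
  have hli := locallyIntegrable_of_memLp hf
  have hint : ∀ x, Integrable (fun t => ρ t * f (x - t)) volume := fun x =>
    (φ.hasCompactSupport_normed.convolutionExists_left (ContinuousLinearMap.mul ℝ ℝ) hρc hli x)
  have hmF : StronglyMeasurable (fun q : E × E => f (q.1 - q.2) - f q.1) :=
    (hfm.comp_measurable (measurable_fst.sub measurable_snd)).sub
      (hfm.comp_measurable measurable_fst)
  have hm1 : ∀ x, StronglyMeasurable (fun t => f (x - t) - f x) := fun x =>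
    hmF.comp_measurable (measurable_const.prodMk measurable_id)
  -- pointwise Jensen
  have hJ : ∀ x, ‖mol φ f x - f x‖ₑ ^ 2 ≤ ∫⁻ t, ‖f (x - t) - f x‖ₑ ^ 2 ∂ν := by
    intro x
    have h1 : mol φ f x - f x = ∫ t, ρ t * (f (x - t) - f x) := by
      have h2 : f x = ∫ t, ρ t * f x := by rw [integral_mul_const, hρ1, one_mul]
      rw [mol_apply]
      conv_lhs => rw [h2]
      rw [← integral_sub (hint x) (hρi.mul_const _)]
      exact integral_congr_ae (Eventually.of_forall fun t => by simp only; ring)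
    have h3 : ‖mol φ f x - f x‖ₑ ≤ ∫⁻ t, ‖f (x - t) - f x‖ₑ ∂ν := by
      rw [h1]
      refine (enorm_integral_le_lintegral_enorm _).trans_eq ?_
      rw [lintegral_withDensity_eq_lintegral_mul₀ (by fun_prop) (hm1 x).enorm.aemeasurable]
      refine lintegral_congr fun t => ?_
      rw [enorm_mul, Pi.mul_apply, Real.enorm_eq_ofReal (hρ0 t)]
    have h4 : ∫⁻ t, ‖f (x - t) - f x‖ₑ ∂ν = eLpNorm (fun t => f (x - t) - f x) 1 ν :=
      (eLpNorm_one_eq_lintegral_enorm).symm
    have h5 : eLpNorm (fun t => f (x - t) - f x) 1 ν ≤ eLpNorm (fun t => f (x - t) - f x) 2 ν :=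
      eLpNorm_le_eLpNorm_of_exponent_le one_le_two (hm1 x).aestronglyMeasurable
    have h6 : eLpNorm (fun t => f (x - t) - f x) 2 ν ^ 2 = ∫⁻ t, ‖f (x - t) - f x‖ₑ ^ 2 ∂ν := by
      have := eLpNorm_nnreal_pow_eq_lintegral (f := fun t => f (x - t) - f x) (μ := ν)
        (p := 2) (by norm_num)
      simpa using this
    rw [← h6]
    exact pow_le_pow_left' (h3.trans (h4.le.trans h5)) 2
  have h7 : eLpNorm (fun x => mol φ f x - f x) 2 volume ^ 2 = ∫⁻ x, ‖mol φ f x - f x‖ₑ ^ 2 := by
    have := eLpNorm_nnreal_pow_eq_lintegral (f := fun x => mol φ f x - f x)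
      (μ := (volume : Measure E)) (p := 2) (by norm_num)
    simpa using this
  have h8 : eLpNorm (fun x => mol φ f x - f x) 2 volume ^ 2 ≤ δ ^ 2 := by
    rw [h7]
    refine (lintegral_mono hJ).trans ?_
    rw [lintegral_lintegral_swap (hmF.enorm.pow_const 2).aemeasurable]
    have h9 : ∀ t, ∫⁻ x, ‖f (x - t) - f x‖ₑ ^ 2 =
        eLpNorm (fun x => f (x - t) - f x) 2 volume ^ 2 := by
      intro t
      have := eLpNorm_nnreal_pow_eq_lintegral (f := fun x => f (x - t) - f x)
        (μ := (volume : Measure E)) (p := 2) (by norm_num)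
      simpa using this.symm
    calc ∫⁻ t, (∫⁻ x, ‖f (x - t) - f x‖ₑ ^ 2) ∂ν
        = ∫⁻ t, ENNReal.ofReal (ρ t) * eLpNorm (fun x => f (x - t) - f x) 2 volume ^ 2 := by
          rw [lintegral_withDensity_eq_lintegral_mul₀ (by fun_prop)]
          · exact lintegral_congr fun t => by rw [Pi.mul_apply, h9]
          · exact ((hmF.enorm.pow_const 2).lintegral_prod_left').aemeasurable
      _ ≤ ∫⁻ t, ENNReal.ofReal (ρ t) * δ ^ 2 := by
          refine lintegral_mono fun t => ?_
          by_cases ht : t ∈ ball (0 : E) φ.rOut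
          · exact mul_le_mul_right (pow_le_pow_left' (hδ t ht) 2) _
          · have h0 : ρ t = 0 := by
              have hs : t ∉ Function.support ρ := by rwa [hρ, φ.support_normed_eq]
              exact notMem_support.1 hs
            simp [h0]
      _ = δ ^ 2 := by
          rw [lintegral_mul_const _ (by fun_prop),
            ← ofReal_integral_eq_lintegral_ofReal hρi (Eventually.of_forall hρ0), hρ1,
            ENNReal.ofReal_one, one_mul]
  exact (ENNReal.pow_le_pow_left_iff (by norm_num)).1 h8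

theorem eLpNorm_mol_sub_le (φ : ContDiffBump (0 : E)) {f : E → ℝ}
    (hf : MemLp f 2 (volume : Measure E)) {δ : ℝ≥0∞}
    (hδ : ∀ t ∈ ball (0 : E) φ.rOut, eLpNorm (fun x => f (x - t) - f x) 2 volume ≤ δ) :
    eLpNorm (fun x => mol φ f x - f x) 2 volume ≤ δ := by
  have hae : f =ᵐ[volume] hf.1.mk f := hf.1.ae_eq_mk
  have h1 := eLpNorm_mol_sub_le_aux φ hf.1.stronglyMeasurable_mk
    ((memLp_congr_ae hae).1 hf) (δ := δ) (fun t ht => by
      refine le_of_eq_of_le (eLpNorm_congr_ae ?_) (hδ t ht)
      have h2 := (measurePreserving_sub_right (volume : Measure E) t).quasiMeasurePreserving.ae_eq_comp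
        hae
      filter_upwards [h2, hae] with x h2 h3
      have h4 : f (x - t) = hf.1.mk f (x - t) := h2
      rw [h3, h4])
  refine le_of_eq_of_le (eLpNorm_congr_ae ?_) h1
  filter_upwards [hae] with x hx
  rw [mol_congr φ hae, hx]

/-- a sequence of mollifiers. -/
noncomputable def bump (E : Type*) [NormedAddCommGroup E] (k : ℕ) : ContDiffBump (0 : E) where
  rIn := 1 / (2 * (k + 1))
  rOut := 1 / (k + 1)
  rIn_pos := by positivity
  rIn_lt_rOut := by
    rw [div_lt_div_iff₀ (by positivity) (by positivity)]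
    have : (0 : ℝ) ≤ k := Nat.cast_nonneg k
    linarith

omit [InnerProductSpace ℝ E] [FiniteDimensional ℝ E] [MeasurableSpace E] [BorelSpace E] in
theorem bump_rOut_le (k : ℕ) : (bump E k).rOut ≤ 1 := by
  have : (0 : ℝ) ≤ k := Nat.cast_nonneg k
  change (1 : ℝ) / (k + 1) ≤ 1
  rw [div_le_one (by positivity)]
  linarith

omit [InnerProductSpace ℝ E] [FiniteDimensional ℝ E] [MeasurableSpace E] [BorelSpace E] in
theorem tendsto_bump_rOut : Tendsto (fun k => (bump E k).rOut) atTop (𝓝 0) :=
  tendsto_one_div_add_atTop_nhds_zero_nat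

/-- **mollifications converge in `L²`.** -/
theorem tendsto_mol {f : E → ℝ} (hf : MemLp f 2 (volume : Measure E)) :
    Tendsto (fun k => eLpNorm (fun x => mol (bump E k) f x - f x) 2 volume) atTop (𝓝 0) := by
  rw [ENNReal.tendsto_atTop_zero]
  intro δ hδ
  have h1 := tendsto_translate hf
  rw [ENNReal.tendsto_nhds_zero] at h1
  obtain ⟨r, hr, hr'⟩ := Metric.eventually_nhds_iff.1 (h1 δ hδ)
  obtain ⟨N, hN⟩ := eventually_atTop.1
    ((tendsto_bump_rOut (E := E)).eventually (gt_mem_nhds hr))
  refine ⟨N, fun k hk => eLpNorm_mol_sub_le _ hf fun t ht => hr' ?_⟩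
  exact lt_trans (mem_ball.1 ht) (hN k hk)

theorem memLp_mol (k : ℕ) {f : E → ℝ} (hf : MemLp f 2 (volume : Measure E)) :
    MemLp (mol (bump E k) f) 2 volume := by
  have hc : Continuous (mol (bump E k) f) :=
    (contDiff_mol _ (locallyIntegrable_of_memLp hf)).continuous
  -- crude bound of the translations
  have h1 : eLpNorm (fun x => mol (bump E k) f x - f x) 2 volume ≤
      eLpNorm f 2 volume + eLpNorm f 2 volume := by
    refine eLpNorm_mol_sub_le _ hf fun t _ => ?_
    have hmp := measurePreserving_sub_right (volume : Measure E) t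
    have h2 : MemLp (fun x => f (x - t)) 2 volume := hf.comp_measurePreserving hmp
    refine (eLpNorm_sub_le h2.1 hf.1 one_le_two).trans ?_
    gcongr
    exact (eLpNorm_comp_measurePreserving hf.1 hmp).le
  have h3 : MemLp (fun x => mol (bump E k) f x - f x) 2 volume :=
    ⟨hc.aestronglyMeasurable.sub hf.1, h1.trans_lt (ENNReal.add_lt_top.2 ⟨hf.2, hf.2⟩)⟩
  have h4 := h3.add hf
  refine (memLp_congr_ae (Eventually.of_forall fun x => ?_)).1 h4
  simp

/-- convolution with a kernel. -/
noncomputable def cv (κ f : E → ℝ) : E → ℝ := κ ⋆[ContinuousLinearMap.mul ℝ ℝ, volume] f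

theorem mol_eq_cv (φ : ContDiffBump (0 : E)) (f : E → ℝ) : mol φ f = cv (φ.normed volume) f := rfl

theorem cv_apply (κ f : E → ℝ) (x : E) : cv κ f x = ∫ t, κ (x - t) * f t :=
  convolution_mul_swap

theorem contDiff_cv {κ : E → ℝ} (h1 : HasCompactSupport κ) (h2 : ContDiff ℝ ∞ κ) {f : E → ℝ}
    (hf : LocallyIntegrable f volume) : ContDiff ℝ ∞ (cv κ f) :=
  h1.contDiff_convolution_left _ h2 hf

/-- the directional derivative of a convolution. -/
theorem fderiv_cv {κ : E → ℝ} (h1 : HasCompactSupport κ) (h2 : ContDiff ℝ ∞ κ) {f : E → ℝ}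
    (hf : LocallyIntegrable f volume) (v : E) :
    (fun x => fderiv ℝ (cv κ f) x v) = cv (fun x => fderiv ℝ κ x v) f := by
  funext x
  have h3 := h1.hasFDerivAt_convolution_left (ContinuousLinearMap.mul ℝ ℝ) (h2.of_le (by simp)) hf x
  have h4 : fderiv ℝ (cv κ f) x = _ := h3.fderiv
  have hint := ((h1.fderiv ℝ).convolutionExists_left
    ((ContinuousLinearMap.mul ℝ ℝ).precompL E) (h2.continuous_fderiv (by simp)) hf x)
  rw [h4, convolution_def, ContinuousLinearMap.integral_apply hint]
  rfl

theorem hasCompactSupport_fderiv {κ : E → ℝ} (h1 : HasCompactSupport κ) (v : E) :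
    HasCompactSupport (fun x => fderiv ℝ κ x v) := by
  refine (h1.fderiv ℝ).comp_left (g := fun L : E →L[ℝ] ℝ => L v) ?_
  simp

theorem contDiff_fderiv {κ : E → ℝ} (h2 : ContDiff ℝ ∞ κ) (v : E) :
    ContDiff ℝ ∞ (fun x => fderiv ℝ κ x v) :=
  (h2.fderiv_right (m := ∞) (by simp)).clm_apply contDiff_const

/-- derivatives of the reflected kernel. -/
theorem fderiv_sub_left {κ : E → ℝ} (h2 : ContDiff ℝ ∞ κ) (x v : E) :
    (fun t => fderiv ℝ (fun t => κ (x - t)) t v) = fun t => -fderiv ℝ κ (x - t) v := by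
  funext t
  have h3 : HasFDerivAt (fun t => κ (x - t)) ((fderiv ℝ κ (x - t)).comp (-ContinuousLinearMap.id ℝ E)) t := by
    have h4 : HasFDerivAt (fun t : E => x - t) (-ContinuousLinearMap.id ℝ E) t :=
      (hasFDerivAt_id t).const_sub x
    exact ((h2.differentiable (by simp)) (x - t)).hasFDerivAt.comp t h4
  rw [h3.fderiv]
  simp

end Vale.Agent.P227.M.LIN
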