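import Vale.Agent.P227.M.LIN.Iface
import Vale.Agent.P227.M.Bas

/-! # P227/M/LIN/TopA: the `L²(e^{-V})` glue for the assembly of `StmtLin` (helper592). -/

open MeasureTheory Filter
open scoped Topology ENNReal InnerProductSpace

namespace Vale.Agent.P227.M.LIN.T592

variable {n : ℕ} {V : E n → ℝ} {c C : ℝ}

theorem integral_mu (hV : Continuous V) (g : E n → ℝ) :
    ∫ x, g x ∂(mu V) = ∫ x, g x * Real.exp (-V x) := by
  unfold mu
  rw [integral_withDensity_eq_integral_toReal_smul (by fun_prop) (by simp)]
  refine integral_congr_ae (Eventually.of_forall fun x => ?_)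
  simp only [ENNReal.toReal_ofReal (Real.exp_pos _).le, smul_eq_mul, mul_comm]

theorem integrable_mu (hV : Continuous V) (g : E n → ℝ) :
    Integrable g (mu V) ↔ Integrable (fun x => g x * Real.exp (-V x)) := by
  unfold mu
  rw [integrable_withDensity_iff_integrable_smul' (by fun_prop) (by simp)]
  refine integrable_congr (Eventually.of_forall fun x => ?_)
  simp only [ENNReal.toReal_ofReal (Real.exp_pos _).le, smul_eq_mul, mul_comm]

theorem mu_ac (V : E n → ℝ) : mu V ≪ volume := withDensity_absolutelyContinuous _ _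

theorem ac_mu (hV : Continuous V) : (volume : Measure (E n)) ≪ mu V := by
  unfold mu
  refine withDensity_absolutelyContinuous' (by fun_prop) (Eventually.of_forall fun x => ?_)
  simp [Real.exp_pos]

theorem memLp_gr (h : Reg V c C) {f : E n → ℝ} (hf : Gr f) : MemLp f 2 (mu V) := by
  rw [memLp_two_iff_integrable_sq hf.cont.aestronglyMeasurable, integrable_mu h.cont]
  exact h.integrable_gr (hf.pow 2)

theorem inner_toLp (hV : Continuous V) {f g : E n → ℝ} (hf : MemLp f 2 (mu V))
    (hg : MemLp g 2 (mu V)) :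
    inner ℝ (hf.toLp f) (hg.toLp g) = ∫ x, f x * g x * Real.exp (-V x) := by
  rw [L2.inner_def, ← integral_mu hV]
  refine integral_congr_ae ?_
  filter_upwards [hf.coeFn_toLp, hg.coeFn_toLp] with x h1 h2
  rw [h1, h2]
  simp [mul_comm]

theorem inner_lp_toLp (hV : Continuous V) (f : Lp ℝ 2 (mu V)) {g : E n → ℝ}
    (hg : MemLp g 2 (mu V)) :
    inner ℝ f (hg.toLp g) = ∫ x, f x * g x * Real.exp (-V x) := by
  have h := inner_toLp hV (Lp.memLp f) hg
  rwa [Lp.toLp_coeFn] at h

theorem normsq_toLp (h : Reg V c C) {f : E n → ℝ} (hf : MemLp f 2 (mu V)) :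
    ‖hf.toLp f‖ ^ 2 = (∫ x, Real.exp (-V x)) * Ex V (fun x => f x ^ 2) := by
  rw [← real_inner_self_eq_norm_sq, inner_toLp h.cont hf hf]
  unfold Ex
  rw [mul_div_cancel₀ _ h.Z_pos.ne']
  simp only [sq]

/-- the submodule of test functions -/
noncomputable def TF (n : ℕ) : Submodule ℝ (E n → ℝ) where
  carrier := {f | Test f}
  add_mem' := fun {a b} ha hb => ⟨ha.1.add hb.1, ha.2.add hb.2⟩
  zero_mem' := ⟨contDiff_const, HasCompactSupport.zero⟩
  smul_mem' := fun r f hf => ⟨contDiff_const.smul hf.1, by
    have : HasCompactSupport ((fun _ : E n => r) • f) := HasCompactSupport.smul_left hf.2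
    exact this⟩

theorem gr_test {f : E n → ℝ} (hf : Test f) : Gr f := Gr.of_test hf.1.continuous hf.2

theorem test_pd {f : E n → ℝ} (hf : Test f) (i : Fin n) : Test (pd i f) :=
  ⟨contDiff_pd_top hf.1 i, by
    have h := hf.2.fderiv (𝕜 := ℝ)
    refine h.comp_left (g := fun L : E n →L[ℝ] ℝ => L (ei i)) (by simp)⟩

theorem pd_add {f g : E n → ℝ} (hf : Differentiable ℝ f) (hg : Differentiable ℝ g) (i : Fin n)
    (x : E n) : pd i (fun y => f y + g y) x = pd i f x + pd i g x := by
  unfold pd
  have := fderiv_add (hf x) (hg x)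
  have h2 : fderiv ℝ (fun y => f y + g y) x = fderiv ℝ f x + fderiv ℝ g x := this
  rw [h2]; rfl

theorem pd_smul {f : E n → ℝ} (hf : Differentiable ℝ f) (r : ℝ) (i : Fin n)
    (x : E n) : pd i (fun y => r * f y) x = r * pd i f x := by
  unfold pd
  have h2 : fderiv ℝ (fun y => r * f y) x = r • fderiv ℝ f x := by
    have := fderiv_const_mul (hf x) r
    exact this
  rw [h2]; rfl

theorem test_diff {f : E n → ℝ} (hf : Test f) : Differentiable ℝ f :=
  hf.1.differentiable (by simp)

theorem hess_add {f g : E n → ℝ} (hf : Test f) (hg : Test g) (i j : Fin n) (x : E n) :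
    hess (fun y => f y + g y) x i j = hess f x i j + hess g x i j := by
  unfold hess
  have : pd j (fun y => f y + g y) = fun y => pd j f y + pd j g y := by
    funext y; exact pd_add (test_diff hf) (test_diff hg) j y
  rw [this]
  exact pd_add (test_diff (test_pd hf j)) (test_diff (test_pd hg j)) i x

theorem hess_smul {f : E n → ℝ} (hf : Test f) (r : ℝ) (i j : Fin n) (x : E n) :
    hess (fun y => r * f y) x i j = r * hess f x i j := by
  unfold hess
  have : pd j (fun y => r * f y) = fun y => r * pd j f y := by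
    funext y; exact pd_smul (test_diff hf) r j y
  rw [this]
  exact pd_smul (test_diff (test_pd hf j)) r i x

theorem Lop_add {ψ f g : E n → ℝ} (hf : Test f) (hg : Test g) (x : E n) :
    Lop ψ (fun y => f y + g y) x = Lop ψ f x + Lop ψ g x := by
  unfold Lop
  simp only [hess_add hf hg, pd_add (test_diff hf) (test_diff hg), mul_add, Finset.sum_add_distrib]
  ring

theorem Lop_smul {ψ f : E n → ℝ} (hf : Test f) (r : ℝ) (x : E n) :
    Lop ψ (fun y => r * f y) x = r * Lop ψ f x := by
  unfold Lop
  simp only [hess_smul hf r, pd_smul (test_diff hf) r, mul_sub, Finset.mul_sum]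
  congr 1
  · refine Finset.sum_congr rfl fun i _ => Finset.sum_congr rfl fun j _ => by ring
  · refine Finset.sum_congr rfl fun i _ => by ring

end Vale.Agent.P227.M.LIN.T592
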