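import Vale.Agent.P227.M.LIN.Iface
import Vale.Agent.P227.M.LIN.TopA
import Vale.Agent.P227.M.LIN.AE
import Vale.Agent.P227.M.LIN.Fried
import Vale.Agent.P227.M.LIN.MollB
import Vale.Agent.P227.M.LIN.Moll2
import Vale.Agent.P227.M.BasMM

/-! # P227/M/LIN: `StmtESA` by mollification, part A: the pointwise identity and the energy
inequality (helper255). -/

open MeasureTheory Filter
open scoped Topology ENNReal NNReal ContDiff

namespace Vale.Agent.P227.M.Esa255

variable {n : ℕ} {ψ V : E n → ℝ} {c C M : ℝ}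

theorem pd_mol {δ : ℝ} (hδ : 0 < δ) {G : E n → ℝ} (hG : LocallyIntegrable G volume) (i : Fin n)
    (x : E n) : pd i (Fried.mol δ G) x = ∫ z, pd i (Fried.mo δ) (x - z) * G z :=
  Fried.mol_fderiv hδ hG x (ei i)

theorem pd_pd_mol {δ : ℝ} (hδ : 0 < δ) {G : E n → ℝ} (hG : LocallyIntegrable G volume)
    (i j : Fin n) (x : E n) :
    pd i (pd j (Fried.mol δ G)) x = ∫ z, pd i (pd j (Fried.mo δ)) (x - z) * G z := by
  have h1 : pd j (Fried.mol δ G) = LIN.cv (pd j (Fried.mo δ)) G := by
    funext x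
    rw [pd_mol hδ hG, LIN.cv_apply]
  rw [h1]
  have h2 := congrFun (LIN.fderiv_cv (κ := pd j (Fried.mo δ))
    (LIN.hasCompactSupport_fderiv (Fried.mo_compact hδ) (ei j))
    (LIN.contDiff_fderiv (Fried.mo_contDiff δ) (ei j)) hG (ei i)) x
  exact h2.trans (LIN.cv_apply _ _ _)

theorem int_ker {κ : E n → ℝ} (hc : Continuous κ) (hs : HasCompactSupport κ) {G : E n → ℝ}
    (hG : LocallyIntegrable G volume) (x : E n) : Integrable (fun z => κ (x - z) * G z) := by
  have h1 : Continuous (fun z : E n => κ (x - z)) := hc.comp (continuous_const.sub continuous_id)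
  have h2 : HasCompactSupport (fun z : E n => κ (x - z)) :=
    hs.comp_homeomorph (Homeomorph.subLeft x)
  have := hG.integrable_smul_left_of_hasCompactSupport h1 h2
  simpa using this

theorem test_mo {δ : ℝ} (hδ : 0 < δ) (x : E n) : Test (fun z => Fried.mo δ (x - z)) :=
  ⟨(Fried.mo_contDiff δ).comp (contDiff_const.sub contDiff_id),
    (Fried.mo_compact hδ).comp_homeomorph (Homeomorph.subLeft x)⟩

theorem pd_refl {κ : E n → ℝ} (h2 : ContDiff ℝ ∞ κ) (x : E n) (i : Fin n) :
    pd i (fun t => κ (x - t)) = fun t => -pd i κ (x - t) := LIN.fderiv_sub_left h2 x (ei i)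

theorem pd_neg' (i : Fin n) (f : E n → ℝ) : pd i (fun x => -f x) = fun x => -pd i f x := by
  funext x
  simp [pd]

theorem lop_mo {δ : ℝ} (x z : E n) :
    Lop ψ (fun z => Fried.mo δ (x - z)) z =
      (∑ i, ∑ j, tau ψ z i j * pd i (pd j (Fried.mo δ)) (x - z)) +
        ∑ i, z i * pd i (Fried.mo δ) (x - z) := by
  have h0 : ContDiff ℝ ∞ (Fried.mo (E := E n) δ) := Fried.mo_contDiff δ
  have h1 : ∀ j : Fin n, pd j (fun t => Fried.mo δ (x - t)) = fun t => -pd j (Fried.mo δ) (x - t) :=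
    fun j => pd_refl h0 x j
  have h2 : ∀ i j : Fin n, hess (fun t => Fried.mo δ (x - t)) z i j
      = pd i (pd j (Fried.mo δ)) (x - z) := by
    intro i j
    unfold hess
    rw [h1 j, pd_neg', pd_refl (contDiff_pd_top h0 j) x i]
    simp
  unfold Lop
  simp only [h2, h1]
  simp only [mul_neg, Finset.sum_neg_distrib, sub_neg_eq_add]

/-- the smooth field whose divergence is `G_δ` -/
noncomputable def Fd (ψ : E n → ℝ) (δ : ℝ) (G : E n → ℝ) (i : Fin n) (y : E n) : ℝ :=
  (∑ j, pd j (Fried.mol δ (fun z => tau ψ z i j * G z)) y) + Fried.mol δ (fun z => z i * G z) y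

theorem contDiff_Fd (h : MM ψ V c C M) {δ : ℝ} (hδ : 0 < δ) {G : E n → ℝ}
    (hG : LocallyIntegrable G volume) (i : Fin n) : ContDiff ℝ ∞ (Fd ψ δ G i) := by
  unfold Fd
  refine ContDiff.add (ContDiff.sum fun j _ => ?_) ?_
  · exact contDiff_pd_top (Fried.mol_contDiff hδ (Fried.locInt_mul (h.continuous_tau i j) hG)) j
  · exact Fried.mol_contDiff hδ (Fried.locInt_mul (by fun_prop) hG)

theorem pd_Fd (h : MM ψ V c C M) {δ : ℝ} (hδ : 0 < δ) {G : E n → ℝ}
    (hG : LocallyIntegrable G volume) (i : Fin n) (x : E n) :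
    pd i (Fd ψ δ G i) x = (∑ j, ∫ z, pd i (pd j (Fried.mo δ)) (x - z) * (tau ψ z i j * G z)) +
      ∫ z, pd i (Fried.mo δ) (x - z) * (z i * G z) := by
  have hd1 : ∀ j, DifferentiableAt ℝ (pd j (Fried.mol δ (fun z => tau ψ z i j * G z))) x := fun j =>
    ((contDiff_pd_top (Fried.mol_contDiff hδ (Fried.locInt_mul (h.continuous_tau i j) hG)) j).differentiable
      (by simp)) x
  have hd2 : DifferentiableAt ℝ (Fried.mol δ (fun z => z i * G z)) x :=
    ((Fried.mol_contDiff hδ (Fried.locInt_mul (by fun_prop) hG)).differentiable (by simp)) x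
  have e1 : pd i (Fd ψ δ G i) x = (∑ j, pd i (pd j (Fried.mol δ (fun z => tau ψ z i j * G z))) x) +
      pd i (Fried.mol δ (fun z => z i * G z)) x := by
    unfold Fd
    rw [AE.pd_add (DifferentiableAt.fun_sum fun j _ => hd1 j) hd2, AE.pd_sum _ fun j _ => hd1 j]
  rw [e1]
  congr 1
  · refine Finset.sum_congr rfl fun j _ => ?_
    exact pd_pd_mol hδ (Fried.locInt_mul (h.continuous_tau i j) hG) i j x
  · exact pd_mol hδ (Fried.locInt_mul (by fun_prop) hG) i x

/-- the mollified equation, pointwise -/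
theorem pointwise (h : MM ψ V c C M) {h0 : E n → ℝ}
    (hG : LocallyIntegrable (fun x => h0 x * Real.exp (-V x)) volume)
    (horth : ∀ f : E n → ℝ, Test f → ∫ x, h0 x * (f x - Lop ψ f x) * Real.exp (-V x) = 0)
    {δ : ℝ} (hδ : 0 < δ) (x : E n) :
    Fried.mol δ (fun x => h0 x * Real.exp (-V x)) x =
      ∑ i, pd i (Fd ψ δ (fun x => h0 x * Real.exp (-V x)) i) x := by
  set G : E n → ℝ := fun x => h0 x * Real.exp (-V x) with hGdef
  have h1 := horth _ (test_mo hδ x)
  have hmo : ContDiff ℝ ∞ (Fried.mo (E := E n) δ) := Fried.mo_contDiff δ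
  have hmc : HasCompactSupport (Fried.mo (E := E n) δ) := Fried.mo_compact hδ
  have k1 : ∀ i : Fin n, Continuous (pd i (Fried.mo (E := E n) δ)) := fun i =>
    (contDiff_pd_top hmo i).continuous
  have k1s : ∀ i : Fin n, HasCompactSupport (pd i (Fried.mo (E := E n) δ)) := fun i =>
    LIN.hasCompactSupport_fderiv hmc (ei i)
  have k2 : ∀ i j : Fin n, Continuous (pd i (pd j (Fried.mo (E := E n) δ))) := fun i j =>
    (contDiff_pd_top (contDiff_pd_top hmo j) i).continuous
  have k2s : ∀ i j : Fin n, HasCompactSupport (pd i (pd j (Fried.mo (E := E n) δ))) := fun i j =>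
    LIN.hasCompactSupport_fderiv (k1s j) (ei i)
  have i0 : Integrable (fun z => Fried.mo δ (x - z) * G z) := int_ker hmo.continuous hmc hG x
  have i1 : ∀ i j : Fin n, Integrable
      (fun z => pd i (pd j (Fried.mo δ)) (x - z) * (tau ψ z i j * G z)) := fun i j =>
    int_ker (k2 i j) (k2s i j) (Fried.locInt_mul (h.continuous_tau i j) hG) x
  have i2 : ∀ i : Fin n, Integrable (fun z => pd i (Fried.mo δ) (x - z) * (z i * G z)) := fun i =>
    int_ker (k1 i) (k1s i) (Fried.locInt_mul (by fun_prop) hG) x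
  have e : ∀ z, h0 z * (Fried.mo δ (x - z) - Lop ψ (fun z => Fried.mo δ (x - z)) z) *
      Real.exp (-V z) = Fried.mo δ (x - z) * G z -
        ∑ i, ((∑ j, pd i (pd j (Fried.mo δ)) (x - z) * (tau ψ z i j * G z)) +
          pd i (Fried.mo δ) (x - z) * (z i * G z)) := by
    intro z
    rw [lop_mo, Finset.sum_add_distrib]
    have e1 : ∑ i, ∑ j, pd i (pd j (Fried.mo δ)) (x - z) * (tau ψ z i j * G z) =
        (∑ i, ∑ j, tau ψ z i j * pd i (pd j (Fried.mo δ)) (x - z)) * G z := by
      rw [Finset.sum_mul]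
      refine Finset.sum_congr rfl fun i _ => ?_
      rw [Finset.sum_mul]
      exact Finset.sum_congr rfl fun j _ => by ring
    have e2 : ∑ i, pd i (Fried.mo δ) (x - z) * (z i * G z) =
        (∑ i, z i * pd i (Fried.mo δ) (x - z)) * G z := by
      rw [Finset.sum_mul]
      exact Finset.sum_congr rfl fun i _ => by ring
    rw [e1, e2, hGdef]
    ring
  simp only [e] at h1
  have i3 : ∀ i : Fin n, Integrable (fun z => (∑ j, pd i (pd j (Fried.mo δ)) (x - z) *
      (tau ψ z i j * G z)) + pd i (Fried.mo δ) (x - z) * (z i * G z)) := fun i =>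
    (integrable_finsetSum _ fun j _ => i1 i j).add (i2 i)
  have i4 : Integrable (fun z => ∑ i, ((∑ j, pd i (pd j (Fried.mo δ)) (x - z) *
      (tau ψ z i j * G z)) + pd i (Fried.mo δ) (x - z) * (z i * G z))) :=
    integrable_finsetSum _ fun i _ => i3 i
  rw [integral_sub i0 i4, integral_finsetSum _ (fun i _ => i3 i)] at h1
  have h2 : Fried.mol δ G x = ∫ z, Fried.mo δ (x - z) * G z := rfl
  rw [h2]
  rw [sub_eq_zero] at h1
  rw [h1]
  refine Finset.sum_congr rfl fun i _ => ?_
  rw [pd_Fd h hδ hG, integral_add (integrable_finsetSum _ fun j _ => i1 i j) (i2 i),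
    integral_finsetSum _ (fun j _ => i1 i j)]

end Vale.Agent.P227.M.Esa255
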