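import Vale.Agent.P227.M.LIN.Iface
import Vale.Agent.P227.M.LIN.Moll2

/-! # Friedrichs commutator for a locally Lipschitz coefficient with a weak divergence -/

open MeasureTheory Filter Topology Metric Set
open scoped ContDiff

namespace Vale.Agent.P227.M.Esa48

open Vale.Agent.P227.Moll

variable {n : ℕ}

/-- coefficients -/
structure Dat (ρ : E n → ℝ) (a : Fin n → Fin n → E n → ℝ) (β : Fin n → E n → ℝ) (κ κ' : ℝ) :
    Prop where
  κ_pos : 0 < κ
  ρ_cont : Continuous ρ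
  ρ_pos : ∀ x, 0 < ρ x
  a_lip : ∀ R : ℝ, ∃ Λ : ℝ, 0 ≤ Λ ∧
    ∀ i j x y, ‖x‖ ≤ R → ‖y‖ ≤ R → |a i j x - a i j y| ≤ Λ * ‖x - y‖
  a_cont : ∀ i j, Continuous (a i j)
  a_lower : ∀ x (v : Fin n → ℝ), κ * ρ x * ∑ i, v i ^ 2 ≤ ∑ i, ∑ j, a i j x * v i * v j
  a_upper : ∀ x (v : Fin n → ℝ), ∑ i, ∑ j, a i j x * v i * v j ≤ κ' * ρ x * ∑ i, v i ^ 2
  a_symm : ∀ i j x, a i j x = a j i x
  β_cont : ∀ j, Continuous (β j)
  wd : ∀ j (φ : E n → ℝ), ContDiff ℝ 1 φ → HasCompactSupport φ →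
    ∑ i, ∫ x, a i j x * pd i φ x = - ∫ x, β j x * φ x

variable {ρ : E n → ℝ} {a : Fin n → Fin n → E n → ℝ} {β : Fin n → E n → ℝ} {κ κ' : ℝ}

lemma norm_ei (i : Fin n) : ‖(ei i : E n)‖ = 1 := by simp [ei]

/-- the commutator -/
noncomputable def Rc (a : Fin n → Fin n → E n → ℝ) (j : Fin n) (k : ℕ) (g : E n → ℝ) (x : E n) : ℝ :=
  ∑ i, (pd i (mo (seqM k) (fun y => a i j y * g y)) x - a i j x * pd i (mo (seqM k) g) x)

lemma pd_mo_eq {k : ℕ} {f : E n → ℝ} (hf : LocallyIntegrable f volume) (i : Fin n) (x : E n) :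
    pd i (mo (seqM k) f) x = mo (fun z => fderiv ℝ (seqM k : E n → ℝ) z (ei i)) f x :=
  fderiv_mo (seqM_isMol k).contDiff (seqM_isMol k).hcs hf x (ei i)

lemma pd_mo_eq' {k : ℕ} {g : E n → ℝ} (hg : ContDiff ℝ 1 g) (hc : HasCompactSupport g) (i : Fin n)
    (x : E n) : pd i (mo (seqM k) g) x = mo (seqM k) (pd i g) x :=
  fderiv_mo' ((seqM_isMol k).contDiff.continuous.integrable_of_hasCompactSupport
    (seqM_isMol k).hcs).locallyIntegrable hg hc x (ei i)

lemma dk_cont (k : ℕ) (i : Fin n) : Continuous (fun z => fderiv ℝ (seqM k : E n → ℝ) z (ei i)) :=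
  ((seqM_isMol k).contDiff.continuous_fderiv (by simp)).clm_apply continuous_const

lemma dk_hcs (k : ℕ) (i : Fin n) :
    HasCompactSupport (fun z => fderiv ℝ (seqM k : E n → ℝ) z (ei i)) :=
  ((seqM_isMol k).hcs.fderiv ℝ).comp_left (g := fun L : E n →L[ℝ] ℝ => L (ei i)) (by simp)

lemma dk_zero {k : ℕ} {z : E n} (hz : 1 < ‖z‖) : fderiv ℝ (seqM k : E n → ℝ) z = 0 := by
  have h1 : (seqM k : E n → ℝ) =ᶠ[𝓝 z] fun _ => 0 := by
    have h2 : ∀ᶠ y : E n in 𝓝 z, 1 < ‖y‖ := continuous_norm.continuousAt.eventually (lt_mem_nhds hz)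
    filter_upwards [h2] with y hy
    refine (seqM_isMol k).supp y (le_trans ?_ hy.le)
    rw [div_le_one (by positivity)]
    have : (0 : ℝ) ≤ k := Nat.cast_nonneg k
    linarith
  rw [h1.fderiv_eq]
  simp

lemma locInt_mul {w g : E n → ℝ} (hw : Continuous w) (hg : LocallyIntegrable g volume) :
    LocallyIntegrable (fun y => w y * g y) volume := by
  rw [← locallyIntegrableOn_univ] at hg ⊢
  exact hg.continuousOn_mul hw.continuousOn isOpen_univ.isLocallyClosed

lemma cont_pd_mo {k : ℕ} {f : E n → ℝ} (hf : LocallyIntegrable f volume) (i : Fin n) :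
    Continuous (pd i (mo (seqM k) f)) :=
  ((contDiff_mo (seqM_isMol k).contDiff (seqM_isMol k).hcs hf).continuous_fderiv
    (by simp)).clm_apply continuous_const

lemma Rc_cont (ha : ∀ i j, Continuous (a i j)) (j : Fin n) (k : ℕ) {g : E n → ℝ}
    (hg : LocallyIntegrable g volume) : Continuous (Rc a j k g) := by
  unfold Rc
  refine continuous_finset_sum _ fun i _ => ?_
  exact (cont_pd_mo (locInt_mul (ha i j) hg) i).sub ((ha i j).mul (cont_pd_mo hg i))

lemma Rc_bound (ha : ∀ i j, Continuous (a i j)) {R Λ : ℝ} (hΛ : 0 ≤ Λ)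
    (hl : ∀ i j x y, ‖x‖ ≤ R + 1 → ‖y‖ ≤ R + 1 → |a i j x - a i j y| ≤ Λ * ‖x - y‖)
    (j : Fin n) (k : ℕ) {g : E n → ℝ} (hg : LocallyIntegrable g volume) {x : E n} (hx : ‖x‖ ≤ R) :
    |Rc a j k g x| ≤
      mo (fun z => (n * Λ) * kerM (1 / ((k : ℝ) + 1)) z) (fun y => ‖g y‖) x := by
  have hε : (0 : ℝ) < 1 / ((k : ℝ) + 1) := by positivity
  have hgn : LocallyIntegrable (fun y => ‖g y‖) volume := fun z => (hg z).norm
  have i0 : Integrable (fun y => kerM (1 / ((k : ℝ) + 1)) (x - y) • ‖g y‖) :=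
    integrable_mo (kerM_cont hε) (kerM_hcs hε) hgn x
  have hterm : ∀ i, |pd i (mo (seqM k) (fun y => a i j y * g y)) x - a i j x * pd i (mo (seqM k) g) x|
      ≤ Λ * mo (kerM (1 / ((k : ℝ) + 1))) (fun y => ‖g y‖) x := by
    intro i
    rw [pd_mo_eq (locInt_mul (ha i j) hg), pd_mo_eq hg]
    unfold mo
    have i1 := integrable_mo (dk_cont k i) (dk_hcs k i) (locInt_mul (ha i j) hg) x
    have i2 := integrable_mo (dk_cont k i) (dk_hcs k i) hg x
    rw [← integral_const_mul, ← integral_sub i1 (i2.const_mul _), ← integral_const_mul]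
    refine abs_integral_le_integral_abs.trans ?_
    refine integral_mono_of_nonneg (Eventually.of_forall fun y => abs_nonneg _) (i0.const_mul Λ)
      (Eventually.of_forall fun y => ?_)
    simp only [smul_eq_mul]
    have e1 : fderiv ℝ (seqM k : E n → ℝ) (x - y) (ei i) * (a i j y * g y)
        - a i j x * (fderiv ℝ (seqM k : E n → ℝ) (x - y) (ei i) * g y)
        = fderiv ℝ (seqM k : E n → ℝ) (x - y) (ei i) * (a i j y - a i j x) * g y := by ring
    rw [e1, abs_mul, abs_mul]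
    by_cases hz : 1 < ‖x - y‖
    · rw [dk_zero hz]
      simp only [ContinuousLinearMap.zero_apply, abs_zero, zero_mul]
      have := kerM_nonneg (1 / ((k : ℝ) + 1)) (x - y)
      positivity
    · have hy : ‖y‖ ≤ R + 1 := by
        have h1 : ‖y‖ ≤ ‖x‖ + ‖x - y‖ := by
          have := norm_sub_le x (x - y)
          simpa using this
        linarith [not_lt.1 hz]
      have h2 : |a i j y - a i j x| ≤ Λ * ‖x - y‖ := by
        have := hl i j y x hy (by linarith)
        rwa [norm_sub_rev] at this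
      have h3 : |fderiv ℝ (seqM k : E n → ℝ) (x - y) (ei i)| ≤ ‖fderiv ℝ (seqM k : E n → ℝ) (x - y)‖ := by
        have := (fderiv ℝ (seqM k : E n → ℝ) (x - y)).le_opNorm (ei i)
        rwa [norm_ei, mul_one] at this
      have h4 : kerM (1 / ((k : ℝ) + 1)) (x - y) = ‖fderiv ℝ (seqM k : E n → ℝ) (x - y)‖ * ‖x - y‖ := rfl
      rw [h4, Real.norm_eq_abs]
      calc |fderiv ℝ (seqM k : E n → ℝ) (x - y) (ei i)| * |a i j y - a i j x| * |g y|
          ≤ ‖fderiv ℝ (seqM k : E n → ℝ) (x - y)‖ * (Λ * ‖x - y‖) * |g y| := by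
            gcongr
        _ = Λ * (‖fderiv ℝ (seqM k : E n → ℝ) (x - y)‖ * ‖x - y‖ * |g y|) := by ring
  have e2 : mo (fun z => (n * Λ) * kerM (1 / ((k : ℝ) + 1)) z) (fun y => ‖g y‖) x
      = ∑ _i : Fin n, Λ * mo (kerM (1 / ((k : ℝ) + 1))) (fun y => ‖g y‖) x := by
    rw [Finset.sum_const, Finset.card_univ, Fintype.card_fin, nsmul_eq_mul]
    unfold mo
    rw [← integral_const_mul, ← integral_const_mul]
    refine integral_congr_ae (Eventually.of_forall fun y => ?_)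
    simp only [smul_eq_mul]
    ring
  rw [e2]
  unfold Rc
  exact (Finset.abs_sum_le_sum_abs _ _).trans (Finset.sum_le_sum fun i _ => hterm i)

lemma Rc_L2 (D : Dat ρ a β κ κ') (j : Fin n) (R : ℝ) : ∃ K : ℝ, 0 ≤ K ∧
    ∀ k (g : E n → ℝ), MemLp g 2 (volume : Measure (E n)) →
      MemLp (indicator (closedBall 0 R) (Rc a j k g)) 2 (volume : Measure (E n)) ∧
      nsq (indicator (closedBall 0 R) (Rc a j k g)) ≤ K * nsq g := by
  obtain ⟨Λ, hΛ, hl⟩ := D.a_lip (R + 1)
  refine ⟨((n * Λ) * ∫ z : E n, kerM 1 z) ^ 2, by positivity, fun k g hg => ?_⟩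
  have hε : (0 : ℝ) < 1 / ((k : ℝ) + 1) := by positivity
  have hloc := locInt hg
  have h1 := nsq_le_mo (ρ := fun z : E n => (n * Λ) * kerM (1 / ((k : ℝ) + 1)) z)
    (continuous_const.mul (kerM_cont hε)) ((kerM_hcs hε).mul_left)
    (fun z => mul_nonneg (by positivity) (kerM_nonneg _ _)) hg
    (w := indicator (closedBall 0 R) (Rc a j k g))
    ((Rc_cont D.a_cont j k hloc).aestronglyMeasurable.indicator measurableSet_closedBall)
    (fun x => by
      by_cases hx : x ∈ closedBall (0 : E n) R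
      · rw [indicator_of_mem hx, Real.norm_eq_abs]
        exact Rc_bound D.a_cont hΛ hl j k hloc (by simpa using hx)
      · rw [indicator_of_notMem hx, norm_zero]
        refine integral_nonneg fun y => ?_
        have := kerM_nonneg (1 / ((k : ℝ) + 1)) (x - y)
        simp only [smul_eq_mul, Pi.zero_apply]
        positivity)
  refine ⟨h1.1, ?_⟩
  have h2 : ∫ z : E n, (n * Λ) * kerM (1 / ((k : ℝ) + 1)) z = (n * Λ) * ∫ z : E n, kerM 1 z := by
    rw [integral_const_mul, kerM_int hε]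
  rw [← h2]
  exact h1.2

end Vale.Agent.P227.M.Esa48
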