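import Vale.Agent.P227.M.LIN.Esa48a

/-! # Friedrichs commutator: convergence -/

open MeasureTheory Filter Topology Metric Set
open scoped ContDiff

namespace Vale.Agent.P227.M.Esa48

open Vale.Agent.P227.Moll

variable {n : ℕ}
variable {ρ : E n → ℝ} {a : Fin n → Fin n → E n → ℝ} {β : Fin n → E n → ℝ} {κ κ' : ℝ}

lemma cont_pd {g : E n → ℝ} (hg : ContDiff ℝ 1 g) (i : Fin n) : Continuous (pd i g) :=
  (hg.continuous_fderiv (by simp)).clm_apply continuous_const

lemma hcs_pd {g : E n → ℝ} (hc : HasCompactSupport g) (i : Fin n) : HasCompactSupport (pd i g) :=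
  (hc.fderiv ℝ).comp_left (g := fun L : E n →L[ℝ] ℝ => L (ei i)) (by simp)

lemma Rc_smooth (D : Dat ρ a β κ κ') (j : Fin n) (k : ℕ) {g : E n → ℝ} (hg : ContDiff ℝ 1 g)
    (hc : HasCompactSupport g) (x : E n) :
    Rc a j k g x = mo (seqM k) (fun y => (∑ i, a i j y * pd i g y) + β j y * g y) x
      - ∑ i, a i j x * mo (seqM k) (pd i g) x := by
  have hm := seqM_isMol (E := E n) k
  have hloc : LocallyIntegrable g volume :=
    (hg.continuous.integrable_of_hasCompactSupport hc).locallyIntegrable
  -- test function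
  have hη1 : ContDiff ℝ 1 (fun y : E n => (seqM k : E n → ℝ) (x - y)) :=
    (hm.contDiff.of_le (by simp)).comp (contDiff_const.sub contDiff_id)
  have hφ : ContDiff ℝ 1 (fun y : E n => (seqM k : E n → ℝ) (x - y) * g y) := hη1.mul hg
  have hφc : HasCompactSupport (fun y : E n => (seqM k : E n → ℝ) (x - y) * g y) := hc.mul_left
  have hwd := D.wd j _ hφ hφc
  have hpd : ∀ i y, pd i (fun y : E n => (seqM k : E n → ℝ) (x - y) * g y) y
      = -(fderiv ℝ (seqM k : E n → ℝ) (x - y) (ei i)) * g y + (seqM k : E n → ℝ) (x - y) * pd i g y := by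
    intro i y
    have h1 : HasFDerivAt (fun y : E n => (seqM k : E n → ℝ) (x - y))
        ((fderiv ℝ (seqM k : E n → ℝ) (x - y)).comp (-(ContinuousLinearMap.id ℝ (E n)))) y := by
      have h2 : HasFDerivAt (fun y : E n => x - y) (-(ContinuousLinearMap.id ℝ (E n))) y :=
        (hasFDerivAt_id y).const_sub x
      exact ((hm.contDiff.differentiable (by simp)) (x - y)).hasFDerivAt.comp y h2
    have h3 : HasFDerivAt g (fderiv ℝ g y) y := (hg.differentiable (by simp) y).hasFDerivAt
    have h4 : fderiv ℝ (fun y : E n => (seqM k : E n → ℝ) (x - y) * g y) y = _ := (h1.mul h3).fderiv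
    unfold pd
    rw [h4]
    simp only [ContinuousLinearMap.add_apply, ContinuousLinearMap.smul_apply, smul_eq_mul,
      ContinuousLinearMap.comp_apply, ContinuousLinearMap.neg_apply, ContinuousLinearMap.id_apply,
      map_neg]
    ring
  simp only [hpd] at hwd
  -- integrability
  have i1 : ∀ i, Integrable (fun y => fderiv ℝ (seqM k : E n → ℝ) (x - y) (ei i) * (a i j y * g y)) :=
    fun i => integrable_mo (dk_cont k i) (dk_hcs k i) (locInt_mul (D.a_cont i j) hloc) x
  have hpl : ∀ i, LocallyIntegrable (pd i g) volume := fun i =>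
    ((cont_pd hg i).integrable_of_hasCompactSupport (hcs_pd hc i)).locallyIntegrable
  have i2 : ∀ i, Integrable (fun y => (seqM k : E n → ℝ) (x - y) * (a i j y * pd i g y)) :=
    fun i => integrable_mo hm.contDiff.continuous hm.hcs (locInt_mul (D.a_cont i j) (hpl i)) x
  have i3 : Integrable (fun y => (seqM k : E n → ℝ) (x - y) * (β j y * g y)) :=
    integrable_mo hm.contDiff.continuous hm.hcs (locInt_mul (D.β_cont j) hloc) x
  have e1 : ∀ i, ∫ y, a i j y * (-(fderiv ℝ (seqM k : E n → ℝ) (x - y) (ei i)) * g y
      + (seqM k : E n → ℝ) (x - y) * pd i g y)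
      = -(∫ y, fderiv ℝ (seqM k : E n → ℝ) (x - y) (ei i) * (a i j y * g y))
        + ∫ y, (seqM k : E n → ℝ) (x - y) * (a i j y * pd i g y) := by
    intro i
    have i5 : Integrable (fun y => -(fderiv ℝ (seqM k : E n → ℝ) (x - y) (ei i) * (a i j y * g y))) :=
      (i1 i).neg
    rw [← integral_neg, ← integral_add i5 (i2 i)]
    refine integral_congr_ae (Eventually.of_forall fun y => ?_)
    simp only
    ring
  simp only [e1] at hwd
  rw [Finset.sum_add_distrib, Finset.sum_neg_distrib] at hwd
  have e3 : ∫ y, β j y * ((seqM k : E n → ℝ) (x - y) * g y)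
      = ∫ y, (seqM k : E n → ℝ) (x - y) * (β j y * g y) := by
    refine integral_congr_ae (Eventually.of_forall fun y => ?_)
    simp only
    ring
  rw [e3] at hwd
  have e4 : mo (seqM k) (fun y => (∑ i, a i j y * pd i g y) + β j y * g y) x
      = (∑ i, ∫ y, (seqM k : E n → ℝ) (x - y) * (a i j y * pd i g y))
        + ∫ y, (seqM k : E n → ℝ) (x - y) * (β j y * g y) := by
    unfold mo
    rw [← integral_finsetSum _ (fun i _ => i2 i), ← integral_add (integrable_finsetSum _ fun i _ => i2 i) i3]
    refine integral_congr_ae (Eventually.of_forall fun y => ?_)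
    simp only [smul_eq_mul]
    rw [← Finset.mul_sum]
    ring
  unfold Rc
  rw [Finset.sum_sub_distrib, e4]
  have e5 : ∀ i, pd i (mo (seqM k) (fun y => a i j y * g y)) x
      = ∫ y, fderiv ℝ (seqM k : E n → ℝ) (x - y) (ei i) * (a i j y * g y) := by
    intro i
    rw [pd_mo_eq (locInt_mul (D.a_cont i j) hloc)]
    rfl
  simp only [e5, fun i => pd_mo_eq' (k := k) hg hc i x]
  linarith

/-- multiplication of an `L²` sequence by a bounded-on-the-ball function, cut off to the ball -/
lemma L2t_ball {f : ℕ → E n → ℝ} {g : E n → ℝ} (h : L2t f g) {w : E n → ℝ} (hw : Continuous w)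
    (R : ℝ) : L2t (fun k => indicator (closedBall 0 R) (fun x => w x * f k x))
      (indicator (closedBall 0 R) (fun x => w x * g x)) := by
  obtain ⟨B, hB⟩ := (isCompact_closedBall (0 : E n) R).exists_bound_of_continuousOn hw.continuousOn
  have h1 := h.bmul (w := indicator (closedBall 0 R) w)
    (hw.aestronglyMeasurable.indicator measurableSet_closedBall) (B := |B|) (fun x => by
      by_cases hx : x ∈ closedBall (0 : E n) R
      · rw [indicator_of_mem hx]
        exact (hB x hx).trans (le_abs_self B)
      · rw [indicator_of_notMem hx, abs_zero]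
        exact abs_nonneg B)
  have e : ∀ q : E n → ℝ, (fun x => indicator (closedBall 0 R) w x * q x)
      = indicator (closedBall 0 R) (fun x => w x * q x) := by
    intro q
    funext x
    by_cases hx : x ∈ closedBall (0 : E n) R
    · rw [indicator_of_mem hx, indicator_of_mem hx]
    · rw [indicator_of_notMem hx, indicator_of_notMem hx, zero_mul]
  have e2 : (fun k => indicator (closedBall 0 R) (fun x => w x * f k x)) =
      fun k (x : E n) => indicator (closedBall 0 R) w x * f k x := by
    funext k
    exact (e _).symm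
  rw [e2, ← e]
  exact h1

lemma memLp_cc {g : E n → ℝ} (hg : Continuous g) (hc : HasCompactSupport g) :
    MemLp g 2 (volume : Measure (E n)) := hg.memLp_of_hasCompactSupport hc

lemma Rc_tendsto_smooth (D : Dat ρ a β κ κ') (j : Fin n) (R : ℝ) {g : E n → ℝ}
    (hg : ContDiff ℝ 1 g) (hc : HasCompactSupport g) :
    L2t (fun k => indicator (closedBall 0 R) (Rc a j k g))
      (indicator (closedBall 0 R) (fun x => β j x * g x)) := by
  have hF : MemLp (fun y => (∑ i, a i j y * pd i g y) + β j y * g y) 2 (volume : Measure (E n)) := by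
    refine memLp_cc ?_ ?_
    · exact (continuous_finsetSum _ fun i _ => (D.a_cont i j).mul (cont_pd hg i)).add
        ((D.β_cont j).mul hg.continuous)
    · refine HasCompactSupport.add ?_ hc.mul_left
      refine HasCompactSupport.intro' (K := tsupport g) hc (isClosed_tsupport g) fun x hx => ?_
      refine Finset.sum_eq_zero fun i _ => ?_
      have h0 : pd i g x = 0 := by
        have : g =ᶠ[𝓝 x] fun _ => 0 := notMem_tsupport_iff_eventuallyEq.1 hx
        unfold pd
        rw [this.fderiv_eq]; simp
      rw [h0, mul_zero]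
  have h1 := L2t_ball (L2t.moll hF) (w := fun _ => (1 : ℝ)) continuous_const R
  have h2 : ∀ i, L2t (fun k => indicator (closedBall 0 R) (fun x => a i j x * mo (seqM k) (pd i g) x))
      (indicator (closedBall 0 R) (fun x => a i j x * pd i g x)) := fun i =>
    L2t_ball (L2t.moll (memLp_cc (cont_pd hg i) (hcs_pd hc i))) (D.a_cont i j) R
  have h3 := h1.sub (L2t.sum (s := Finset.univ) fun i _ => h2 i)
  refine ⟨fun k => ?_, ?_, ?_⟩
  · have e : (indicator (closedBall 0 R) (Rc a j k g) : E n → ℝ) = fun x =>
        indicator (closedBall 0 R) (fun x => (1 : ℝ) * mo (seqM k)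
          (fun y => (∑ i, a i j y * pd i g y) + β j y * g y) x) x
        - ∑ i, indicator (closedBall 0 R) (fun x => a i j x * mo (seqM k) (pd i g) x) x := by
      funext x
      by_cases hx : x ∈ closedBall (0 : E n) R
      · simp only [indicator_of_mem hx, one_mul]
        exact Rc_smooth D j k hg hc x
      · simp only [indicator_of_notMem hx, Finset.sum_const_zero, sub_zero]
    rw [e]
    exact h3.mem k
  · have e : (indicator (closedBall 0 R) (fun x => β j x * g x) : E n → ℝ) = fun x =>
        indicator (closedBall 0 R) (fun x => (1 : ℝ) * ((∑ i, a i j x * pd i g x) + β j x * g x)) x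
        - ∑ i, indicator (closedBall 0 R) (fun x => a i j x * pd i g x) x := by
      funext x
      by_cases hx : x ∈ closedBall (0 : E n) R
      · simp only [indicator_of_mem hx]
        ring
      · simp only [indicator_of_notMem hx, Finset.sum_const_zero, sub_zero]
    rw [e]
    exact h3.mem'
  · refine h3.lim.congr fun k => ?_
    congr 1
    funext x
    by_cases hx : x ∈ closedBall (0 : E n) R
    · simp only [indicator_of_mem hx]
      rw [Rc_smooth D j k hg hc x]
      ring
    · simp only [indicator_of_notMem hx, Finset.sum_const_zero, sub_zero]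

lemma Rc_add (ha : ∀ i j, Continuous (a i j)) (j : Fin n) (k : ℕ) {f g : E n → ℝ}
    (hf : LocallyIntegrable f volume) (hg : LocallyIntegrable g volume) (x : E n) :
    Rc a j k (fun y => f y + g y) x = Rc a j k f x + Rc a j k g x := by
  unfold Rc
  rw [← Finset.sum_add_distrib]
  refine Finset.sum_congr rfl fun i _ => ?_
  have hfg : LocallyIntegrable (fun y => f y + g y) volume := hf.add hg
  rw [pd_mo_eq (locInt_mul (ha i j) hfg), pd_mo_eq hfg, pd_mo_eq (locInt_mul (ha i j) hf),
    pd_mo_eq hf, pd_mo_eq (locInt_mul (ha i j) hg), pd_mo_eq hg]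
  have e1 : (fun y => a i j y * (f y + g y)) = fun y => a i j y * f y + a i j y * g y := by
    funext y; ring
  rw [e1, mo_add (dk_cont k i) (dk_hcs k i) (locInt_mul (ha i j) hf) (locInt_mul (ha i j) hg),
    mo_add (dk_cont k i) (dk_hcs k i) hf hg]
  ring

lemma mo_hcs {η g : E n → ℝ} (h1 : HasCompactSupport η) (h2 : HasCompactSupport g) :
    HasCompactSupport (mo η g) := by
  rw [mo_eq_conv]
  exact HasCompactSupport.convolution _ h2 h1

/-- the commutator converges to `β_j g`, for `g ∈ L²` with compact support -/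
lemma Rc_tendsto (D : Dat ρ a β κ κ') (j : Fin n) (R : ℝ) {g : E n → ℝ}
    (hg : MemLp g 2 (volume : Measure (E n))) (hgc : HasCompactSupport g) :
    L2t (fun k => indicator (closedBall 0 R) (Rc a j k g))
      (indicator (closedBall 0 R) (fun x => β j x * g x)) := by
  obtain ⟨K, hK0, hK⟩ := Rc_L2 D j R
  obtain ⟨B, hB⟩ := (isCompact_closedBall (0 : E n) R).exists_bound_of_continuousOn
    (D.β_cont j).continuousOn
  have hmul : ∀ q : E n → ℝ, MemLp q 2 (volume : Measure (E n)) →
      MemLp (indicator (closedBall 0 R) (fun x => β j x * q x)) 2 (volume : Measure (E n)) ∧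
      nsq (indicator (closedBall 0 R) (fun x => β j x * q x)) ≤ B ^ 2 * nsq q := by
    intro q hq
    have h1 := (L2t_ball (L2t.const hq) (D.β_cont j) R).mem'
    refine ⟨h1, ?_⟩
    rw [nsq, nsq, ← integral_const_mul]
    refine integral_mono_of_nonneg (Eventually.of_forall fun x => by positivity)
      ((memLp_norm_sq_int hq).const_mul _) (Eventually.of_forall fun x => ?_)
    by_cases hx : x ∈ closedBall (0 : E n) R
    · simp only [indicator_of_mem hx, norm_mul, mul_pow]
      have := pow_le_pow_left₀ (norm_nonneg _) (hB x hx) 2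
      exact mul_le_mul_of_nonneg_right this (by positivity)
    · have h9 : (0 : ℝ) ≤ B ^ 2 * ‖q x‖ ^ 2 := by positivity
      simpa only [indicator_of_notMem hx, norm_zero, ne_eq, OfNat.ofNat_ne_zero, not_false_eq_true,
        zero_pow] using h9
  refine ⟨fun k => (hK k g hg).1, (hmul g hg).1, ?_⟩
  rw [Metric.tendsto_atTop]
  intro δ hδ
  -- approximate g by smooth functions
  have hmoll := L2t.moll hg
  obtain ⟨δ', hδ'⟩ : ∃ δ' : ℝ, δ' = δ / (8 * (K + B ^ 2 + 1)) := ⟨_, rfl⟩
  have hδ'0 : 0 < δ' := by rw [hδ']; positivity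
  obtain ⟨m, hm⟩ := (hmoll.lim.eventually (gt_mem_nhds hδ'0)).exists
  obtain ⟨gm, hgm⟩ : ∃ gm : E n → ℝ, gm = mo (seqM m) g := ⟨_, rfl⟩
  have hgm1 : ContDiff ℝ ∞ gm := by
    rw [hgm]; exact contDiff_mo (seqM_isMol m).contDiff (seqM_isMol m).hcs (locInt hg)
  have hgmc : HasCompactSupport gm := by
    rw [hgm]; exact mo_hcs (seqM_isMol m).hcs hgc
  have hgmL : MemLp gm 2 (volume : Measure (E n)) := memLp_cc hgm1.continuous hgmc
  rw [← hgm] at hm
  have hs := Rc_tendsto_smooth D j R (hgm1.of_le (by simp)) hgmc
  have hd : MemLp (fun y => g y - gm y) 2 (volume : Measure (E n)) := hg.sub hgmL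
  have hdn : nsq (fun y => g y - gm y) < δ' := by
    have e : nsq (fun y => g y - gm y) = nsq (fun y => gm y - g y) := by
      unfold nsq
      refine integral_congr_ae (Eventually.of_forall fun x => ?_)
      simp only [norm_sub_rev]
    rw [e]; exact hm
  obtain ⟨N, hN⟩ := (Metric.tendsto_atTop.1 hs.lim) (δ / 8) (by positivity)
  refine ⟨N, fun k hk => ?_⟩
  have h1 := hN k hk
  rw [Real.dist_eq, sub_zero, abs_of_nonneg (nsq_nonneg _)] at h1 ⊢
  have hR := hK k _ hd
  have hβ := hmul _ hd
  have e : (fun x => indicator (closedBall 0 R) (Rc a j k g) x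
      - indicator (closedBall 0 R) (fun x => β j x * g x) x) = fun x =>
      (indicator (closedBall 0 R) (Rc a j k gm) x
        - indicator (closedBall 0 R) (fun x => β j x * gm x) x)
      + (indicator (closedBall 0 R) (Rc a j k (fun y => g y - gm y)) x
        - indicator (closedBall 0 R) (fun x => β j x * (g x - gm x)) x) := by
    funext x
    by_cases hx : x ∈ closedBall (0 : E n) R
    · simp only [indicator_of_mem hx]
      have h5 := Rc_add D.a_cont j k (locInt hgmL) (locInt hd) x
      have e6 : (fun y => gm y + (g y - gm y)) = g := by funext y; ring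
      rw [e6] at h5
      rw [h5]
      ring
    · simp only [indicator_of_notMem hx]
      ring
  rw [e]
  have m1 : MemLp (fun x => indicator (closedBall 0 R) (Rc a j k gm) x
      - indicator (closedBall 0 R) (fun x => β j x * gm x) x) 2 (volume : Measure (E n)) :=
    (hs.mem k).sub hs.mem'
  have m2 : MemLp (fun x => indicator (closedBall 0 R) (Rc a j k (fun y => g y - gm y)) x
      - indicator (closedBall 0 R) (fun x => β j x * (g x - gm x)) x) 2
      (volume : Measure (E n)) := hR.1.sub hβ.1
  have b1 := nsq_add_le m1 m2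
  have b2 : nsq (fun x => indicator (closedBall 0 R) (Rc a j k (fun y => g y - gm y)) x
        - indicator (closedBall 0 R) (fun x => β j x * (g x - gm x)) x)
      ≤ 2 * nsq (indicator (closedBall 0 R) (Rc a j k (fun y => g y - gm y)))
        + 2 * nsq (indicator (closedBall 0 R) (fun x => β j x * (g x - gm x))) := by
    have hneg : MemLp (fun x => -(indicator (closedBall 0 R) (fun x => β j x * (g x - gm x)) x)) 2
      (volume : Measure (E n)) := hβ.1.neg
    have := nsq_add_le hR.1 hneg
    have e7 : nsq (fun x => -(indicator (closedBall 0 R) (fun x => β j x * (g x - gm x)) x))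
        = nsq (indicator (closedBall 0 R) (fun x => β j x * (g x - gm x))) := by
      unfold nsq
      simp only [norm_neg]
    rw [e7] at this
    simpa only [sub_eq_add_neg] using this
  have b4 : (K + B ^ 2) * δ' ≤ δ / 8 := by
    rw [hδ', mul_div_assoc', div_le_iff₀ (by positivity)]
    nlinarith [hK0, sq_nonneg B, hδ.le]
  have b5 : K * nsq (fun y => g y - gm y) ≤ K * δ' := mul_le_mul_of_nonneg_left hdn.le hK0
  have b6 : B ^ 2 * nsq (fun y => g y - gm y) ≤ B ^ 2 * δ' :=
    mul_le_mul_of_nonneg_left hdn.le (sq_nonneg _)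
  have b7 := hR.2
  have b8 := hβ.2
  refine lt_of_le_of_lt b1 ?_
  have b9 : K * δ' + B ^ 2 * δ' ≤ δ / 8 := by linarith [b4, add_mul K (B ^ 2) δ']
  linarith [b2, b5, b6, b7, b8, h1, hδ]

end Vale.Agent.P227.M.Esa48
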