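import Mathlib

/-! ESA block, convolution basics (helper929). -/

open MeasureTheory Set Filter Topology
open scoped ContDiff Convolution ENNReal NNReal Pointwise

noncomputable section
namespace Vale.Agent.P227.M.Esa929

abbrev EE (n : ℕ) := EuclideanSpace ℝ (Fin n)

variable {n : ℕ}

/-- partial derivative -/
def pd (i : Fin n) (F : EE n → ℝ) (x : EE n) : ℝ :=
  fderiv ℝ F x (EuclideanSpace.single i 1)

/-- smooth compactly supported test functions -/
def TF (F : EE n → ℝ) : Prop := ContDiff ℝ ∞ F ∧ HasCompactSupport F

/-- convolution -/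
def cv (K f : EE n → ℝ) (x : EE n) : ℝ := ∫ y, K (x - y) * f y

theorem cv_eq (K f : EE n → ℝ) :
    cv K f = (f ⋆[ContinuousLinearMap.mul ℝ ℝ, volume] K) := by
  funext x
  simp only [cv, convolution, ContinuousLinearMap.mul_apply']
  congr 1; funext y; ring

theorem TF.pd {K : EE n → ℝ} (hK : TF K) (i : Fin n) : TF (pd i K) := by
  constructor
  · have : ContDiff ℝ ∞ (fun x => fderiv ℝ K x) := hK.1.fderiv_right (by simp)
    exact this.clm_apply contDiff_const
  · exact hK.2.fderiv_apply (𝕜 := ℝ) _

theorem cv_smooth {K f : EE n → ℝ} (hK : TF K) (hf : LocallyIntegrable f volume) :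
    ContDiff ℝ ∞ (cv K f) := by
  rw [cv_eq]
  exact hK.2.contDiff_convolution_right _ hf hK.1

theorem pd_cv {K f : EE n → ℝ} (hK : TF K) (hf : LocallyIntegrable f volume) (i : Fin n) :
    pd i (cv K f) = cv (pd i K) f := by
  funext x
  have h1 := hK.2.hasFDerivAt_convolution_right (ContinuousLinearMap.mul ℝ ℝ) hf
    (hK.1.of_le (by simp)) x
  rw [pd, cv_eq, h1.fderiv]
  have hint : ConvolutionExistsAt f (fderiv ℝ K) x ((ContinuousLinearMap.mul ℝ ℝ).precompR (EE n))
      volume := by
    apply (hK.2.fderiv (𝕜 := ℝ)).convolutionExists_right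
    · exact hf
    · exact (hK.1.continuous_fderiv (by simp))
  rw [convolution, ContinuousLinearMap.integral_apply hint]
  rw [cv]
  congr 1; funext y
  change f y * (fderiv ℝ K (x - y)) (EuclideanSpace.single i 1) = _
  rw [pd]; ring

theorem cv_comm (K f : EE n → ℝ) : cv K f = cv f K := by
  funext x
  simp only [cv]
  rw [← integral_sub_left_eq_self (fun y => K (x - y) * f y) volume x]
  congr 1; funext y; rw [sub_sub_cancel]; ring

theorem TF.li {G : EE n → ℝ} (hG : TF G) : LocallyIntegrable G volume :=
  hG.1.continuous.locallyIntegrable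

theorem TF.cv {K G : EE n → ℝ} (hK : TF K) (hG : TF G) : TF (cv K G) := by
  constructor
  · exact cv_smooth hK hG.li
  · rw [cv_eq]; exact hG.2.convolution _ hK.2

theorem pd_cv' {K G : EE n → ℝ} (hK : TF K) (hG : TF G) (i : Fin n) :
    pd i (cv K G) = cv K (pd i G) := by
  rw [cv_comm, pd_cv hG hK.li, cv_comm]

theorem TF.bdd {K : EE n → ℝ} (hK : TF K) : ∃ M, 0 ≤ M ∧ ∀ x, |K x| ≤ M := by
  obtain ⟨M, hM⟩ := hK.2.exists_bound_of_continuous hK.1.continuous
  exact ⟨M, (norm_nonneg _).trans (hM 0), fun x => by simpa using hM x⟩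

/-- Fubini for convolution against a locally integrable function -/
theorem fub {f K G : EE n → ℝ} (hf : LocallyIntegrable f volume) (hK : TF K) (hG : TF G) :
    ∫ y, f y * Esa929.cv K G y = ∫ x, G x * Esa929.cv (fun z => K (-z)) f x := by
  have hcs : IsCompact (tsupport K + tsupport G) := hK.2.isCompact.add hG.2.isCompact
  set S : Set (EE n) := tsupport K + tsupport G with hS
  have hSm : MeasurableSet S := hcs.measurableSet
  obtain ⟨M, hM0, hM⟩ := hK.bdd
  have hfS : Integrable (S.indicator f) volume := (hf.integrableOn_isCompact hcs).integrable_indicator hSm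
  have hGi : Integrable G volume := hG.1.continuous.integrable_of_hasCompactSupport hG.2
  have hint : Integrable (Function.uncurry fun (y x : EE n) => f y * (K (y - x) * G x))
      (volume.prod volume) := by
    have h1 : Integrable (fun z : EE n × EE n => S.indicator f z.1 * G z.2) (volume.prod volume) :=
      hfS.mul_prod hGi
    have h2 : Integrable (fun z : EE n × EE n => K (z.1 - z.2) * (S.indicator f z.1 * G z.2))
        (volume.prod volume) := by
      apply h1.bdd_mul (c := M)
      · exact (hK.1.continuous.comp (continuous_fst.sub continuous_snd)).aestronglyMeasurable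
      · exact Eventually.of_forall fun z => by simpa using hM (z.1 - z.2)
    refine h2.congr (Eventually.of_forall fun z => ?_)
    rcases z with ⟨y, x⟩
    simp only [Function.uncurry]
    by_cases hy : y ∈ S
    · rw [indicator_of_mem hy]; ring
    · rw [indicator_of_notMem hy]
      have : K (y - x) * G x = 0 := by
        by_contra hne
        have hk : K (y - x) ≠ 0 := left_ne_zero_of_mul hne
        have hg : G x ≠ 0 := right_ne_zero_of_mul hne
        apply hy
        rw [hS]
        exact ⟨y - x, subset_tsupport _ hk, x, subset_tsupport _ hg, by simp⟩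
      rw [this]; simp
  have := integral_integral_swap hint
  calc ∫ y, f y * Esa929.cv K G y = ∫ y, ∫ x, f y * (K (y - x) * G x) := by
        congr 1; funext y; rw [Esa929.cv, ← integral_const_mul]
    _ = ∫ x, ∫ y, f y * (K (y - x) * G x) := this
    _ = ∫ x, G x * Esa929.cv (fun z => K (-z)) f x := by
        congr 1; funext x
        rw [Esa929.cv, ← integral_const_mul]
        congr 1; funext y
        rw [neg_sub]; ring

end Vale.Agent.P227.M.Esa929
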