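import Vale.Agent.P227.M.LIN.Esa929A

/-! ESA block, Schur test and L2 limits (helper929). -/

open MeasureTheory Set Filter Topology
open scoped ContDiff Convolution ENNReal NNReal Pointwise

noncomputable section
namespace Vale.Agent.P227.M.Esa929

variable {n : ℕ}

theorem cs_enn {α : Type*} [MeasurableSpace α] {μ : Measure α} {κ F : α → ℝ≥0∞}
    (hκ : AEMeasurable κ μ) (hF : AEMeasurable F μ) :
    (∫⁻ y, κ y * F y ∂μ) ^ 2 ≤ (∫⁻ y, κ y ∂μ) * ∫⁻ y, κ y * F y ^ 2 ∂μ := by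
  have h := ENNReal.lintegral_mul_le_Lp_mul_Lq μ (Real.HolderConjugate.two_two)
    (f := fun y => κ y ^ ((1:ℝ)/2)) (g := fun y => κ y ^ ((1:ℝ)/2) * F y)
    (hκ.pow_const _) ((hκ.pow_const _).mul hF)
  have e1 : (fun y => ((fun y => κ y ^ ((1:ℝ)/2)) * (fun y => κ y ^ ((1:ℝ)/2) * F y)) y)
      = fun y => κ y * F y := by
    funext y
    simp only [Pi.mul_apply]
    rw [← mul_assoc, ← ENNReal.rpow_add_of_nonneg _ _ (by norm_num) (by norm_num)]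
    norm_num
  have e2 : (fun y => (κ y ^ ((1:ℝ)/2)) ^ (2:ℝ)) = κ := by
    funext y
    rw [← ENNReal.rpow_mul]; norm_num
  have e3 : (fun y => (κ y ^ ((1:ℝ)/2) * F y) ^ (2:ℝ)) = fun y => κ y * F y ^ 2 := by
    funext y
    rw [ENNReal.mul_rpow_of_nonneg _ _ (by norm_num), ← ENNReal.rpow_mul]; norm_num
  rw [e1] at h
  rw [e2, e3] at h
  calc (∫⁻ y, κ y * F y ∂μ) ^ 2
      ≤ ((∫⁻ y, κ y ∂μ) ^ ((1:ℝ)/2) * (∫⁻ y, κ y * F y ^ 2 ∂μ) ^ ((1:ℝ)/2)) ^ 2 := by gcongr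
    _ = (∫⁻ y, κ y ∂μ) * ∫⁻ y, κ y * F y ^ 2 ∂μ := by
        rw [mul_pow, ← ENNReal.rpow_natCast, ← ENNReal.rpow_natCast, ← ENNReal.rpow_mul,
          ← ENNReal.rpow_mul]
        norm_num

theorem schur {S T : Set (EE n)} (hS : MeasurableSet S) (hT : MeasurableSet T)
    {κ : EE n → ℝ≥0∞} (hκ : Measurable κ) {M : ℝ≥0∞} (hMt : M ≠ ⊤) (hM : ∫⁻ z, κ z ≤ M)
    (hsupp : ∀ x ∈ S, ∀ y, y ∉ T → κ (x - y) = 0)
    {K : EE n → EE n → ℝ} (hK : ∀ x ∈ S, ∀ y, ‖K x y‖ₑ ≤ κ (x - y))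
    {f : EE n → ℝ} (hf : AEStronglyMeasurable f volume) :
    ∫⁻ x in S, ‖∫ y, K x y * f y‖ₑ ^ 2 ≤ M ^ 2 * ∫⁻ y in T, ‖f y‖ₑ ^ 2 := by
  have hfm : AEMeasurable (fun y => ‖f y‖ₑ) volume := hf.enorm
  have h1 : ∀ x ∈ S, ‖∫ y, K x y * f y‖ₑ ^ 2 ≤ M * ∫⁻ y, κ (x - y) * ‖f y‖ₑ ^ 2 := by
    intro x hx
    have hκx : AEMeasurable (fun y => κ (x - y)) volume :=
      (hκ.comp (measurable_const.sub measurable_id)).aemeasurable
    calc ‖∫ y, K x y * f y‖ₑ ^ 2 ≤ (∫⁻ y, ‖K x y * f y‖ₑ) ^ 2 := by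
          gcongr; exact enorm_integral_le_lintegral_enorm _
      _ ≤ (∫⁻ y, κ (x - y) * ‖f y‖ₑ) ^ 2 := by
          gcongr with y
          rw [enorm_mul]
          gcongr
          exact hK x hx y
      _ ≤ (∫⁻ y, κ (x - y)) * ∫⁻ y, κ (x - y) * ‖f y‖ₑ ^ 2 := cs_enn hκx hfm
      _ ≤ M * ∫⁻ y, κ (x - y) * ‖f y‖ₑ ^ 2 := by
          gcongr
          rwa [lintegral_sub_left_eq_self κ x]
  have hswap : ∫⁻ x in S, ∫⁻ y, κ (x - y) * ‖f y‖ₑ ^ 2 =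
      ∫⁻ y, ∫⁻ x in S, κ (x - y) * ‖f y‖ₑ ^ 2 := by
    apply lintegral_lintegral_swap
    apply AEMeasurable.mul
    · exact (hκ.comp (measurable_fst.sub measurable_snd)).aemeasurable
    · have := hfm.pow_const 2
      exact (this.comp_snd)
  calc ∫⁻ x in S, ‖∫ y, K x y * f y‖ₑ ^ 2
      ≤ ∫⁻ x in S, M * ∫⁻ y, κ (x - y) * ‖f y‖ₑ ^ 2 := setLIntegral_mono' hS h1
    _ = M * ∫⁻ x in S, ∫⁻ y, κ (x - y) * ‖f y‖ₑ ^ 2 := lintegral_const_mul' _ _ hMt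
    _ = M * ∫⁻ y, ∫⁻ x in S, κ (x - y) * ‖f y‖ₑ ^ 2 := by rw [hswap]
    _ ≤ M * ∫⁻ y, T.indicator (fun y => M * ‖f y‖ₑ ^ 2) y := by
        gcongr with y
        by_cases hy : y ∈ T
        · rw [indicator_of_mem hy]
          have hκy : Measurable (fun x => κ (x - y)) := hκ.comp (measurable_id.sub measurable_const)
          rw [lintegral_mul_const _ hκy]
          gcongr
          calc ∫⁻ x in S, κ (x - y) ≤ ∫⁻ x, κ (x - y) := setLIntegral_le_lintegral _ _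
            _ = ∫⁻ x, κ x := lintegral_sub_right_eq_self κ y
            _ ≤ M := hM
        · rw [indicator_of_notMem hy]
          have : ∫⁻ x in S, κ (x - y) * ‖f y‖ₑ ^ 2 = ∫⁻ x in S, 0 :=
            setLIntegral_congr_fun hS (fun x hx => by rw [hsupp x hx y hy, zero_mul])
          rw [this]; simp
    _ = M ^ 2 * ∫⁻ y in T, ‖f y‖ₑ ^ 2 := by
        rw [lintegral_indicator hT, lintegral_const_mul' _ _ hMt, ← mul_assoc, sq]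

theorem eLp2 (f : EE n → ℝ) (S : Set (EE n)) :
    eLpNorm f 2 (volume.restrict S) = (∫⁻ x in S, ‖f x‖ₑ ^ 2) ^ ((1:ℝ)/2) := by
  rw [eLpNorm_eq_lintegral_rpow_enorm_toReal (by norm_num) (by norm_num)]
  norm_num

theorem schur' {S T : Set (EE n)} (hS : MeasurableSet S) (hT : MeasurableSet T)
    {κ : EE n → ℝ≥0∞} (hκ : Measurable κ) {M : ℝ≥0∞} (hMt : M ≠ ⊤) (hM : ∫⁻ z, κ z ≤ M)
    (hsupp : ∀ x ∈ S, ∀ y, y ∉ T → κ (x - y) = 0)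
    {K : EE n → EE n → ℝ} (hK : ∀ x ∈ S, ∀ y, ‖K x y‖ₑ ≤ κ (x - y))
    {f : EE n → ℝ} (hf : AEStronglyMeasurable f volume) :
    eLpNorm (fun x => ∫ y, K x y * f y) 2 (volume.restrict S)
      ≤ M * eLpNorm f 2 (volume.restrict T) := by
  rw [eLp2, eLp2]
  calc _ ≤ (M ^ 2 * ∫⁻ y in T, ‖f y‖ₑ ^ 2) ^ ((1:ℝ)/2) := by
        gcongr
        exact schur hS hT hκ hMt hM hsupp hK hf
    _ = M * (∫⁻ y in T, ‖f y‖ₑ ^ 2) ^ ((1:ℝ)/2) := by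
        rw [ENNReal.mul_rpow_of_nonneg _ _ (by norm_num), ← ENNReal.rpow_natCast,
          ← ENNReal.rpow_mul]
        norm_num

end Vale.Agent.P227.M.Esa929
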