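import Vale.Agent.P227.M.LIN.Esa929B

/-! ESA block, L2 limit lemma, product lemma, mollifiers (helper929). -/

open MeasureTheory Set Filter Topology Metric
open scoped ContDiff Convolution ENNReal NNReal Pointwise

noncomputable section
namespace Vale.Agent.P227.M.Esa929

variable {n : ℕ}

theorem L2lim {R : ℝ} (K : ℕ → EE n → EE n → ℝ) (κ : ℕ → EE n → ℝ≥0∞)
    (hκ : ∀ N, Measurable (κ N)) {M : ℝ≥0∞} (hMt : M ≠ ⊤) (hM : ∀ N, ∫⁻ z, κ N z ≤ M)
    (hsupp : ∀ N, ∀ x ∈ closedBall (0 : EE n) R, ∀ y, y ∉ closedBall (0 : EE n) (R+1) → κ N (x - y) = 0)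
    (hK : ∀ N, ∀ x ∈ closedBall (0 : EE n) R, ∀ y, ‖K N x y‖ₑ ≤ κ N (x - y))
    (hKi : ∀ N x f, LocallyIntegrable f volume → Integrable (fun y => K N x y * f y) volume)
    (hKm : ∀ N f, LocallyIntegrable f volume → Continuous (fun x => ∫ y, K N x y * f y))
    {m : EE n → ℝ} (hm : Continuous m) {h : EE n → ℝ} (hloc : LocallyIntegrable h volume)
    (hh : MemLp h 2 (volume.restrict (closedBall (0 : EE n) (R+1))))
    (hlim : ∀ g, TF g → Tendsto (fun N => eLpNorm (fun x => (∫ y, K N x y * g y) - m x * g x) 2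
      (volume.restrict (closedBall (0 : EE n) R))) atTop (𝓝 0)) :
    Tendsto (fun N => eLpNorm (fun x => (∫ y, K N x y * h y) - m x * h x) 2
      (volume.restrict (closedBall (0 : EE n) R))) atTop (𝓝 0) := by
  obtain ⟨B, hB⟩ := (isCompact_closedBall (0 : EE n) R).exists_bound_of_continuousOn hm.continuousOn
  set S := closedBall (0 : EE n) R with hSdef
  set T := closedBall (0 : EE n) (R+1) with hTdef
  have hST : S ⊆ T := closedBall_subset_closedBall (by linarith)
  rw [ENNReal.tendsto_nhds_zero]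
  intro ε hε
  by_cases hεt : ε = ⊤
  · exact Eventually.of_forall fun N => by rw [hεt]; exact le_top
  set A : ℝ≥0∞ := M + ENNReal.ofReal B + 1 with hA
  have hAt : A ≠ ⊤ := by simp [hA, hMt]
  have hA0 : A ≠ 0 := by simp [hA]
  set δ : ℝ := (ε / 2 / A).toReal with hδ
  have hδt : ε / 2 / A ≠ ⊤ := by
    apply ENNReal.div_ne_top _ hA0
    exact ENNReal.div_ne_top hεt (by norm_num)
  have hδ0 : 0 < δ := by
    apply ENNReal.toReal_pos _ hδt
    simp [hε.ne', hAt]
  have : IsFiniteMeasure (volume.restrict T) :=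
    ⟨by rw [Measure.restrict_apply_univ]; exact (isCompact_closedBall _ _).measure_lt_top⟩
  obtain ⟨g, hgc, hgs, hg⟩ := hh.exist_eLpNorm_sub_le (by norm_num) (by norm_num) hδ0
  have hgTF : TF g := ⟨hgs, hgc⟩
  have hofδ : ENNReal.ofReal δ = ε / 2 / A := ENNReal.ofReal_toReal hδt
  rw [hofδ] at hg
  have hgl : LocallyIntegrable g volume := hgTF.li
  have hev := (ENNReal.tendsto_nhds_zero.1 (hlim g hgTF)) (ε / 2) (by simp [hε.ne'])
  filter_upwards [hev] with N hN
  have hmS : AEStronglyMeasurable (fun x => ∫ y, K N x y * (h - g) y) (volume.restrict S) :=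
    (hKm N _ (hloc.sub hgl)).aestronglyMeasurable
  have hmS2 : AEStronglyMeasurable (fun x => (∫ y, K N x y * g y) - m x * g x) (volume.restrict S) :=
    ((hKm N _ hgl).sub (hm.mul hgs.continuous)).aestronglyMeasurable
  have hmS3 : AEStronglyMeasurable (fun x => m x * (g x - h x)) (volume.restrict S) :=
    hm.aestronglyMeasurable.mul
      (hgs.continuous.aestronglyMeasurable.sub hloc.aestronglyMeasurable.restrict)
  have hsplit : (fun x => (∫ y, K N x y * h y) - m x * h x) =
      ((fun x => ∫ y, K N x y * (h - g) y) + (fun x => (∫ y, K N x y * g y) - m x * g x))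
        + (fun x => m x * (g x - h x)) := by
    funext x
    simp only [Pi.add_apply, Pi.sub_apply]
    have : ∫ y, K N x y * (h y - g y) = (∫ y, K N x y * h y) - ∫ y, K N x y * g y := by
      rw [← integral_sub (hKi N x h hloc) (hKi N x g hgl)]
      congr 1; funext y; ring
    rw [this]; ring
  have hb1 : eLpNorm (fun x => ∫ y, K N x y * (h - g) y) 2 (volume.restrict S)
      ≤ M * (ε / 2 / A) := by
    refine (schur' measurableSet_closedBall measurableSet_closedBall (hκ N) hMt (hM N) (hsupp N)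
      (hK N) (hloc.sub hgl).aestronglyMeasurable).trans ?_
    gcongr
  have hb3 : eLpNorm (fun x => m x * (g x - h x)) 2 (volume.restrict S)
      ≤ ENNReal.ofReal B * (ε / 2 / A) := by
    calc eLpNorm (fun x => m x * (g x - h x)) 2 (volume.restrict S)
        ≤ ENNReal.ofReal B * eLpNorm (h - g) 2 (volume.restrict S) := by
          apply eLpNorm_le_mul_eLpNorm_of_ae_le_mul
          rw [ae_restrict_iff' measurableSet_closedBall]
          refine Eventually.of_forall fun x hx => ?_
          rw [norm_mul, Pi.sub_apply, norm_sub_rev]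
          gcongr
          exact hB x hx
      _ ≤ ENNReal.ofReal B * eLpNorm (h - g) 2 (volume.restrict T) := by
          gcongr
      _ ≤ ENNReal.ofReal B * (ε / 2 / A) := by gcongr
  rw [hsplit]
  calc _ ≤ (eLpNorm (fun x => ∫ y, K N x y * (h - g) y) 2 (volume.restrict S)
        + eLpNorm (fun x => (∫ y, K N x y * g y) - m x * g x) 2 (volume.restrict S))
        + eLpNorm (fun x => m x * (g x - h x)) 2 (volume.restrict S) := by
        refine (eLpNorm_add_le (hmS.add hmS2) hmS3 (by norm_num)).trans ?_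
        gcongr
        exact eLpNorm_add_le hmS hmS2 (by norm_num)
    _ ≤ (M * (ε / 2 / A) + ε / 2) + ENNReal.ofReal B * (ε / 2 / A) := by gcongr
    _ ≤ A * (ε / 2 / A) + ε / 2 := by
        rw [hA]
        have : (M + ENNReal.ofReal B + 1) * (ε / 2 / (M + ENNReal.ofReal B + 1))
            = M * (ε / 2 / (M + ENNReal.ofReal B + 1))
              + ENNReal.ofReal B * (ε / 2 / (M + ENNReal.ofReal B + 1))
              + (ε / 2 / (M + ENNReal.ofReal B + 1)) := by ring
        rw [this, ← hA]
        calc _ = (M * (ε / 2 / A) + ENNReal.ofReal B * (ε / 2 / A)) + ε / 2 := by ring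
          _ ≤ _ := add_le_add le_self_add le_rfl
    _ = ε := by
        rw [ENNReal.mul_div_cancel hA0 hAt, ENNReal.add_halves]

theorem prodlim {S : Set (EE n)} {f g : ℕ → EE n → ℝ} {f0 g0 w : EE n → ℝ}
    (hf : ∀ N, MemLp (f N) 2 (volume.restrict S)) (hg : ∀ N, MemLp (g N) 2 (volume.restrict S))
    (hf0 : MemLp f0 2 (volume.restrict S)) (hg0 : MemLp g0 2 (volume.restrict S))
    (hSm : MeasurableSet S)
    (hw : Continuous w) {B : ℝ} (hB : ∀ x ∈ S, ‖w x‖ ≤ B)
    (h1 : Tendsto (fun N => eLpNorm (f N - f0) 2 (volume.restrict S)) atTop (𝓝 0))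
    (h2 : Tendsto (fun N => eLpNorm (g N - g0) 2 (volume.restrict S)) atTop (𝓝 0)) :
    Tendsto (fun N => ∫ x in S, w x * (f N x * g N x)) atTop (𝓝 (∫ x in S, w x * (f0 x * g0 x))) := by
  have hwm : ∀ F : EE n → ℝ, MemLp F 2 (volume.restrict S) →
      MemLp (fun x => w x * F x) 2 (volume.restrict S) := by
    intro F hF
    refine MemLp.of_le_mul (c := B) hF (hw.aestronglyMeasurable.mul hF.1) ?_
    rw [ae_restrict_iff' hSm]
    refine Eventually.of_forall fun x hx => ?_
    rw [norm_mul]
    gcongr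
    exact hB x hx
  have t1 := (Lp.tendsto_Lp_iff_tendsto_eLpNorm'' f hf f0 hf0).2 h1
  have t2 : Tendsto (fun N => (hwm _ (hg N)).toLp (fun x => w x * g N x)) atTop
      (𝓝 ((hwm _ hg0).toLp (fun x => w x * g0 x))) := by
    rw [Lp.tendsto_Lp_iff_tendsto_eLpNorm'']
    have hle : ∀ N, eLpNorm ((fun x => w x * g N x) - (fun x => w x * g0 x)) 2 (volume.restrict S)
        ≤ ENNReal.ofReal B * eLpNorm (g N - g0) 2 (volume.restrict S) := by
      intro N
      apply eLpNorm_le_mul_eLpNorm_of_ae_le_mul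
      rw [ae_restrict_iff' hSm]
      refine Eventually.of_forall fun x hx => ?_
      simp only [Pi.sub_apply]
      rw [← mul_sub, norm_mul]
      gcongr
      exact hB x hx
    refine tendsto_of_tendsto_of_tendsto_of_le_of_le tendsto_const_nhds ?_ (fun N => bot_le) hle
    have := ENNReal.Tendsto.const_mul (a := ENNReal.ofReal B) h2 (Or.inr ENNReal.ofReal_ne_top)
    simpa using this
  have t3 := Filter.Tendsto.inner (𝕜 := ℝ) t1 t2
  have e : ∀ (F G : EE n → ℝ) (hF : MemLp F 2 (volume.restrict S)) (hG : MemLp G 2 (volume.restrict S)),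
      inner ℝ (hF.toLp F) ((hwm _ hG).toLp (fun x => w x * G x)) = ∫ x in S, w x * (F x * G x) := by
    intro F G hF hG
    rw [L2.inner_def]
    apply integral_congr_ae
    filter_upwards [hF.coeFn_toLp, (hwm _ hG).coeFn_toLp] with x hx1 hx2
    rw [hx1, hx2]
    simp only [RCLike.inner_apply, conj_trivial]
    ring
  rw [e f0 g0 hf0 hg0] at t3
  refine t3.congr fun N => ?_
  rw [e (f N) (g N) (hf N) (hg N)]

end Vale.Agent.P227.M.Esa929
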