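import Vale.Agent.P227.M.LIN.Esa929C

/-! ESA block, mollifiers (helper929). -/

open MeasureTheory Set Filter Topology Metric
open scoped ContDiff Convolution ENNReal NNReal Pointwise

noncomputable section
namespace Vale.Agent.P227.M.Esa929

variable {n : ℕ}

/-- mollifier sequence -/
structure Moll (k : ℕ → EE n → ℝ) (L : ℝ) : Prop where
  tf : ∀ N, TF (k N)
  even : ∀ N x, k N (-x) = k N x
  nonneg : ∀ N x, 0 ≤ k N x
  int1 : ∀ N, ∫ x, k N x = 1
  supp : ∀ (N : ℕ) x, 1 / ((N : ℝ) + 1) < ‖x‖ → k N x = 0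
  der : ∀ (N : ℕ) i, ∫ x, |pd i (k N) x| ≤ L * ((N : ℝ) + 1)

theorem exists_moll : ∃ (k : ℕ → EE n → ℝ) (L : ℝ), 0 ≤ L ∧ Moll k L := by
  let b : ContDiffBump (0 : EE n) := ⟨1/2, 1, by norm_num, by norm_num⟩
  set k0 : EE n → ℝ := b.normed volume with hk0
  have hk0s : ContDiff ℝ ∞ k0 := b.contDiff_normed
  have hk0c : HasCompactSupport k0 := b.hasCompactSupport_normed
  set L : ℝ := ∑ i : Fin n, ∫ x, |pd i k0 x| with hL
  set s : ℕ → ℝ := fun N => (N : ℝ) + 1 with hs
  have hs0 : ∀ N, 0 < s N := fun N => by simp only [hs]; positivity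
  refine ⟨fun N x => s N ^ n * k0 (s N • x), L, ?_, ?_⟩
  · rw [hL]; exact Finset.sum_nonneg fun i _ => integral_nonneg fun x => abs_nonneg _
  have hfr : Module.finrank ℝ (EE n) = n := by simp
  have hscale : ∀ (g : EE n → ℝ) N, ∫ x, s N ^ n * g (s N • x) = ∫ x, g x := by
    intro g N
    rw [integral_const_mul, Measure.integral_comp_smul_of_nonneg volume g (s N) (hR := (hs0 N).le), hfr,
      smul_eq_mul, ← mul_assoc, mul_inv_cancel₀ (pow_pos (hs0 N) n).ne', one_mul]
  refine ⟨?_, ?_, ?_, ?_, ?_, ?_⟩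
  · intro N
    constructor
    · exact contDiff_const.mul (hk0s.comp (contDiff_const_smul _))
    · apply HasCompactSupport.mul_left
      exact hk0c.comp_smul (hs0 N).ne'
  · intro N x
    simp only [smul_neg]
    rw [hk0, b.normed_neg]
  · intro N x
    exact mul_nonneg (pow_nonneg (hs0 N).le _) (b.nonneg_normed _)
  · intro N
    rw [hscale k0 N]; exact b.integral_normed
  · intro N x hx
    have : k0 (s N • x) = 0 := by
      have h1 : s N • x ∉ Function.support k0 := by
        rw [hk0, b.support_normed_eq]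
        simp only [mem_ball, dist_zero_right, not_lt]
        rw [norm_smul, Real.norm_eq_abs, abs_of_pos (hs0 N)]
        have h2 : 1 / s N < ‖x‖ := hx
        rw [div_lt_iff₀ (hs0 N)] at h2
        show (1:ℝ) ≤ _
        linarith [mul_comm (s N) ‖x‖]
      simpa [Function.mem_support] using h1
    simp only [this, mul_zero]
  · intro N i
    have hpd : ∀ x, pd i (fun x => s N ^ n * k0 (s N • x)) x = s N ^ n * (s N * pd i k0 (s N • x)) := by
      intro x
      have hd : HasFDerivAt (fun x => s N ^ n * k0 (s N • x))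
          (s N ^ n • ((fderiv ℝ k0 (s N • x)).comp (s N • ContinuousLinearMap.id ℝ (EE n)))) x := by
        have h1 : HasFDerivAt (fun x : EE n => s N • x) (s N • ContinuousLinearMap.id ℝ (EE n)) x :=
          (hasFDerivAt_id x).const_smul (s N)
        have h2 : HasFDerivAt k0 (fderiv ℝ k0 (s N • x)) (s N • x) :=
          ((hk0s.differentiable (by simp)) _).hasFDerivAt
        exact (h2.comp x h1).const_mul _
      rw [pd, hd.fderiv]
      simp only [smul_apply, ContinuousLinearMap.comp_apply,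
        ContinuousLinearMap.id_apply, map_smul, smul_eq_mul, pd]
    have e1 : (fun x => |pd i (fun x => s N ^ n * k0 (s N • x)) x|) =
        fun x => s N ^ n * (s N * |pd i k0 (s N • x)|) := by
      funext x
      rw [hpd, abs_mul, abs_mul, abs_of_pos (pow_pos (hs0 N) n), abs_of_pos (hs0 N)]
    show ∫ x, |pd i (fun x => s N ^ n * k0 (s N • x)) x| ≤ _
    rw [e1, hscale (fun x => s N * |pd i k0 x|) N, integral_const_mul, mul_comm]
    gcongr
    rw [hL]
    exact Finset.single_le_sum (f := fun i : Fin n => ∫ x, |pd i k0 x|)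
      (fun i _ => integral_nonneg fun x => abs_nonneg _) (Finset.mem_univ i)


theorem Moll.integrable {k : ℕ → EE n → ℝ} {L : ℝ} (hk : Moll k L) (N : ℕ) :
    Integrable (k N) volume :=
  (hk.tf N).1.continuous.integrable_of_hasCompactSupport (hk.tf N).2

theorem Moll.pd_supp {k : ℕ → EE n → ℝ} {L : ℝ} (hk : Moll k L) (N : ℕ) (i : Fin n) (x : EE n)
    (hx : 1 / ((N : ℝ) + 1) < ‖x‖) : pd i (k N) x = 0 := by
  have h1 : tsupport (k N) ⊆ closedBall 0 (1 / ((N : ℝ) + 1)) := by
    apply closure_minimal _ isClosed_closedBall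
    intro y hy
    rw [mem_closedBall_zero_iff]
    by_contra hc
    exact hy (hk.supp N y (not_le.1 hc))
  have h2 : fderiv ℝ (k N) x = 0 := by
    by_contra hne
    have := h1 (support_fderiv_subset ℝ (f := k N) hne)
    rw [mem_closedBall_zero_iff] at this
    linarith
  rw [pd, h2]; simp

theorem Moll.bound {k : ℕ → EE n → ℝ} {L : ℝ} (hk : Moll k L) (N : ℕ) (x : EE n) (D : EE n → ℝ)
    {δ : ℝ} (hD : ∀ y, ‖x - y‖ ≤ 1 / ((N : ℝ) + 1) → |D y| ≤ δ) :
    |∫ y, k N (x - y) * D y| ≤ δ := by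
  have hi : Integrable (fun y => k N (x - y) * δ) volume :=
    ((hk.integrable N).comp_sub_left x).mul_const δ
  have h1 : ‖∫ y, k N (x - y) * D y‖ ≤ ∫ y, k N (x - y) * δ := by
    apply norm_integral_le_of_norm_le hi
    refine Eventually.of_forall fun y => ?_
    rw [norm_mul, Real.norm_of_nonneg (hk.nonneg N _)]
    by_cases hy : ‖x - y‖ ≤ 1 / ((N : ℝ) + 1)
    · exact mul_le_mul_of_nonneg_left (hD y hy) (hk.nonneg N _)
    · rw [hk.supp N _ (not_le.1 hy)]; simp
  rw [Real.norm_eq_abs, integral_mul_const, integral_sub_left_eq_self (k N) volume x, hk.int1,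
    one_mul] at h1
  exact h1

theorem Moll.conv_int {k : ℕ → EE n → ℝ} {L : ℝ} (hk : Moll k L) (N : ℕ) (x : EE n) :
    ∫ y, k N (x - y) = 1 := by
  rw [integral_sub_left_eq_self (k N) volume x, hk.int1]

end Vale.Agent.P227.M.Esa929
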