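import Vale.Agent.P227.M.LIN.Esa929D

/-! ESA block, limits of the kernels (helper929). -/

open MeasureTheory Set Filter Topology Metric
open scoped ContDiff Convolution ENNReal NNReal Pointwise

noncomputable section
namespace Vale.Agent.P227.M.Esa929

variable {n : ℕ}

/-- continuous function times locally integrable function -/
theorem li_mul {w f : EE n → ℝ} (hw : Continuous w) (hf : LocallyIntegrable f volume) :
    LocallyIntegrable (fun x => w x * f x) volume := by
  rw [locallyIntegrable_iff]
  intro K hK
  have h1 := hf.integrableOn_isCompact hK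
  obtain ⟨B, hB⟩ := hK.exists_bound_of_continuousOn hw.continuousOn
  refine Integrable.bdd_mul (c := B) h1 hw.aestronglyMeasurable ?_
  rw [ae_restrict_iff' hK.measurableSet]
  exact Eventually.of_forall fun x hx => hB x hx

theorem cv_int {K f : EE n → ℝ} (hK : Continuous K) (hKc : HasCompactSupport K)
    (hf : LocallyIntegrable f volume) (x : EE n) :
    Integrable (fun y => K (x - y) * f y) volume := by
  have := hf.integrable_smul_left_of_hasCompactSupport (g := fun y => K (x - y))
    (hK.comp (continuous_const.sub continuous_id)) (by
      have := hKc.comp_homeomorph (Homeomorph.subLeft x)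
      exact this)
  simpa only [smul_eq_mul] using this

/-- kernel (b): multiplication -/
theorem lim_mul {k : ℕ → EE n → ℝ} {L : ℝ} (hk : Moll k L) {R : ℝ} {w : EE n → ℝ}
    (hw : Continuous w) {h : EE n → ℝ} (hloc : LocallyIntegrable h volume)
    (hh : MemLp h 2 (volume.restrict (closedBall (0 : EE n) (R+1)))) :
    Tendsto (fun N => eLpNorm (fun x => cv (k N) (fun y => w y * h y) x - w x * h x) 2
      (volume.restrict (closedBall (0 : EE n) R))) atTop (𝓝 0) := by
  obtain ⟨B, hB⟩ := (isCompact_closedBall (0 : EE n) (R+1)).exists_bound_of_continuousOn hw.continuousOn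
  have hN1 : ∀ N : ℕ, 1 / ((N : ℝ) + 1) ≤ 1 := fun N => by
    rw [div_le_one (by positivity)]; linarith [(Nat.cast_nonneg N : (0:ℝ) ≤ N)]
  have hout : ∀ x ∈ closedBall (0 : EE n) R, ∀ y, y ∉ closedBall (0 : EE n) (R+1) → 1 < ‖x - y‖ := by
    intro x hx y hy
    rw [mem_closedBall_zero_iff] at hx hy
    have := norm_sub_norm_le y x
    rw [norm_sub_rev] at this
    linarith [not_le.1 hy]
  have key := L2lim (R := R) (K := fun N x y => k N (x - y) * w y)
    (κ := fun N z => ENNReal.ofReal B * ‖k N z‖ₑ)
    (fun N => (measurable_const.mul ((hk.tf N).1.continuous.measurable.enorm)))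
    (M := ENNReal.ofReal B) ENNReal.ofReal_ne_top
    (fun N => by
      rw [lintegral_const_mul' _ _ ENNReal.ofReal_ne_top]
      have h1 : ∫⁻ z, ‖k N z‖ₑ = 1 := by
        have h2 := ofReal_integral_norm_eq_lintegral_enorm (hk.integrable N)
        rw [← h2]
        have h3 : (fun x => ‖k N x‖) = k N := by
          funext x; exact Real.norm_of_nonneg (hk.nonneg N x)
        rw [h3, hk.int1]; simp
      rw [h1, mul_one])
    (fun N x hx y hy => by
      have := hout x hx y hy
      rw [hk.supp N (x - y) (lt_of_le_of_lt (hN1 N) this)]; simp)
    (fun N x hx y => by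
      by_cases hy : y ∈ closedBall (0 : EE n) (R+1)
      · rw [enorm_mul, mul_comm]
        gcongr
        rw [← ofReal_norm]
        exact ENNReal.ofReal_le_ofReal (hB y hy)
      · have := hout x hx y hy
        rw [hk.supp N (x - y) (lt_of_le_of_lt (hN1 N) this)]; simp)
    (fun N x f hf => by
      have := cv_int (hk.tf N).1.continuous (hk.tf N).2 (li_mul hw hf) x
      refine this.congr (Eventually.of_forall fun y => ?_)
      simp only []; ring)
    (fun N f hf => by
      have := (cv_smooth (hk.tf N) (li_mul hw hf)).continuous
      have e : (fun x => ∫ y, k N (x - y) * w y * f y) = cv (k N) (fun x => w x * f x) := by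
        funext x
        simp only [cv]
        congr 1; funext y; ring
      rw [e]; exact this)
    hw hloc hh ?_
  · refine key.congr fun N => ?_
    congr 1
    funext x
    simp only [cv]
    congr 2; funext y; ring
  · intro g hg
    have hwg : Continuous (fun x => w x * g x) := hw.mul hg.1.continuous
    have huc : UniformContinuous (fun x => w x * g x) :=
      hg.2.mul_left.uniformContinuous_of_continuous hwg
    have hfin : volume (closedBall (0 : EE n) R) ≠ ⊤ := (isCompact_closedBall _ _).measure_lt_top.ne
    set A : ℝ≥0∞ := (volume (closedBall (0 : EE n) R)) ^ ((2 : ℝ≥0∞).toReal⁻¹) with hA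
    have hAt : A ≠ ⊤ := by
      rw [hA]
      exact ENNReal.rpow_ne_top_of_nonneg (by norm_num) hfin
    rw [ENNReal.tendsto_nhds_zero]
    intro ε hε
    by_cases hεt : ε = ⊤
    · exact Eventually.of_forall fun N => by rw [hεt]; exact le_top
    set δ : ℝ := (ε / (A + 1)).toReal with hδ
    have hδt : ε / (A + 1) ≠ ⊤ := ENNReal.div_ne_top hεt (by simp)
    have hδ0 : 0 < δ := by
      apply ENNReal.toReal_pos _ hδt
      simp [hε.ne', hAt]
    obtain ⟨η, hη0, hη⟩ := Metric.uniformContinuous_iff.1 huc δ hδ0
    obtain ⟨N0, hN0⟩ := exists_nat_one_div_lt hη0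
    filter_upwards [eventually_ge_atTop N0] with N hN
    have hbd : ∀ x, |(∫ y, k N (x - y) * w y * g y) - w x * g x| ≤ δ := by
      intro x
      have e : (∫ y, k N (x - y) * w y * g y) - w x * g x
          = ∫ y, k N (x - y) * (w y * g y - w x * g x) := by
        have h1 : Integrable (fun y => k N (x - y) * (w y * g y)) volume :=
          cv_int (hk.tf N).1.continuous (hk.tf N).2 hwg.locallyIntegrable x
        have h2 : Integrable (fun y => k N (x - y) * (w x * g x)) volume :=
          ((hk.integrable N).comp_sub_left x).mul_const _
        calc _ = (∫ y, k N (x - y) * (w y * g y)) - ∫ y, k N (x - y) * (w x * g x) := by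
              rw [integral_mul_const, hk.conv_int, one_mul]
              congr 2; funext y; ring
          _ = _ := by
              rw [← integral_sub h1 h2]
              congr 1; funext y; ring
      rw [e]
      apply hk.bound N x
      intro y hy
      have h3 : dist y x < η := by
        rw [dist_comm, dist_eq_norm]
        refine lt_of_le_of_lt hy (lt_of_le_of_lt ?_ hN0)
        apply one_div_le_one_div_of_le (by positivity)
        have : (N0 : ℝ) ≤ N := Nat.cast_le.2 hN
        linarith
      have := hη h3
      rw [Real.dist_eq] at this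
      exact this.le
    calc eLpNorm _ 2 (volume.restrict (closedBall (0 : EE n) R))
        ≤ (volume.restrict (closedBall (0 : EE n) R)) univ ^ ((2 : ℝ≥0∞).toReal⁻¹)
            * ENNReal.ofReal δ := by
          apply eLpNorm_le_of_ae_bound
          exact Eventually.of_forall fun x => hbd x
      _ ≤ (A + 1) * ENNReal.ofReal δ := by
          rw [Measure.restrict_apply_univ, ← hA]
          gcongr
          exact le_self_add
      _ = ε := by
          rw [hδ, ENNReal.ofReal_toReal hδt]
          exact ENNReal.mul_div_cancel (by simp) (by simp [hAt])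

end Vale.Agent.P227.M.Esa929
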