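import Vale.Agent.P227.M.LIN.Esa929E

/-! ESA block, the Friedrichs commutator (helper929). -/

open MeasureTheory Set Filter Topology Metric
open scoped ContDiff Convolution ENNReal NNReal Pointwise

noncomputable section
namespace Vale.Agent.P227.M.Esa929

variable {n : ℕ}

/-- the error term of the mollified equation, column `j` -/
def err (k : EE n → ℝ) (a : EE n → Fin n → ℝ) (b h : EE n → ℝ) (x : EE n) : ℝ :=
  cv k (fun y => b y * h y) x
    - ∑ i, (cv (pd i k) (fun y => a y i * h y) x - a x i * cv (pd i k) h x)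

/-- the kernel of `err` -/
def ker (k : EE n → ℝ) (a : EE n → Fin n → ℝ) (b : EE n → ℝ) (x y : EE n) : ℝ :=
  k (x - y) * b y - ∑ i, pd i k (x - y) * (a y i - a x i)

theorem ker_int {k : EE n → ℝ} (hk : TF k) {a : EE n → Fin n → ℝ} (ha : ∀ i, Continuous fun x => a x i)
    {b : EE n → ℝ} (hb : Continuous b) {f : EE n → ℝ} (hf : LocallyIntegrable f volume) (x : EE n) :
    Integrable (fun y => ker k a b x y * f y) volume ∧
      ∫ y, ker k a b x y * f y = err k a b f x := by
  have h1 : Integrable (fun y => k (x - y) * (b y * f y)) volume :=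
    cv_int hk.1.continuous hk.2 (li_mul hb hf) x
  have h2 : ∀ i, Integrable (fun y => pd i k (x - y) * (a y i * f y)) volume := fun i =>
    cv_int (hk.pd i).1.continuous (hk.pd i).2 (li_mul (ha i) hf) x
  have h3 : ∀ i, Integrable (fun y => a x i * (pd i k (x - y) * f y)) volume := fun i =>
    (cv_int (hk.pd i).1.continuous (hk.pd i).2 hf x).const_mul _
  have e : (fun y => ker k a b x y * f y) = fun y => k (x - y) * (b y * f y)
      - ∑ i, (pd i k (x - y) * (a y i * f y) - a x i * (pd i k (x - y) * f y)) := by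
    funext y
    rw [ker, sub_mul, Finset.sum_mul]
    congr 1
    · ring
    · apply Finset.sum_congr rfl; intro i _; ring
  have h23 : ∀ i, Integrable (fun y => pd i k (x - y) * (a y i * f y)
      - a x i * (pd i k (x - y) * f y)) volume := fun i => (h2 i).sub (h3 i)
  have h4 : Integrable (fun y => ∑ i, (pd i k (x - y) * (a y i * f y) - a x i * (pd i k (x - y) * f y)))
      volume := integrable_finsetSum _ fun i _ => h23 i
  refine ⟨by rw [e]; exact h1.sub h4, ?_⟩
  rw [e, integral_sub h1 h4, integral_finsetSum _ fun i _ => h23 i, err]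
  congr 1
  apply Finset.sum_congr rfl
  intro i _
  rw [integral_sub (h2 i) (h3 i), integral_const_mul]
  rfl

theorem err_cont {k : EE n → ℝ} (hk : TF k) {a : EE n → Fin n → ℝ} (ha : ∀ i, Continuous fun x => a x i)
    {b : EE n → ℝ} (hb : Continuous b) {f : EE n → ℝ} (hf : LocallyIntegrable f volume) :
    Continuous (err k a b f) := by
  unfold err
  refine (cv_smooth hk (li_mul hb hf)).continuous.sub (continuous_finsetSum _ fun i _ => ?_)
  exact (cv_smooth (hk.pd i) (li_mul (ha i) hf)).continuous.sub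
    ((ha i).mul (cv_smooth (hk.pd i) hf).continuous)

/-- for smooth `g` the error is a small commutator -/
theorem err_smooth {k : EE n → ℝ} (hk : TF k) {a : EE n → Fin n → ℝ} (ha : ∀ i, Continuous fun x => a x i)
    {b : EE n → ℝ} (hb : Continuous b)
    (hdiv : ∀ F, TF F → ∫ x, ∑ i, a x i * pd i F x = - ∫ x, b x * F x)
    {g : EE n → ℝ} (hg : TF g) (x : EE n) :
    err k a b g x = - ∑ i, ∫ y, k (x - y) * ((a y i - a x i) * pd i g y) := by
  have hkx : ContDiff ℝ ∞ (fun y => k (x - y)) := hk.1.comp (contDiff_const.sub contDiff_id)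
  have hF : TF (fun y => k (x - y) * g y) := ⟨hkx.mul hg.1, hg.2.mul_left⟩
  have hpd : ∀ i y, pd i (fun y => k (x - y) * g y) y =
      - (pd i k (x - y) * g y) + k (x - y) * pd i g y := by
    intro i y
    have d1 : HasFDerivAt (fun y => k (x - y)) (-(fderiv ℝ k (x - y))) y := by
      have h1 : HasFDerivAt (fun y : EE n => x - y) (-(ContinuousLinearMap.id ℝ (EE n))) y := by
        simpa using (hasFDerivAt_id y).const_sub x
      have h2 : HasFDerivAt k (fderiv ℝ k (x - y)) (x - y) :=
        ((hk.1.differentiable (by simp)) _).hasFDerivAt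
      have h3 := h2.comp y h1
      have e : (fderiv ℝ k (x - y)).comp (-(ContinuousLinearMap.id ℝ (EE n))) = -(fderiv ℝ k (x - y)) := by
        ext v; simp
      rw [e] at h3; exact h3
    have d2 : HasFDerivAt g (fderiv ℝ g y) y := ((hg.1.differentiable (by simp)) _).hasFDerivAt
    have d3 : fderiv ℝ (fun y => k (x - y) * g y) y = _ := (d1.mul d2).fderiv
    rw [pd, d3]
    simp only [pd, ContinuousLinearMap.add_apply, ContinuousLinearMap.coe_smul', Pi.smul_apply,
      ContinuousLinearMap.neg_apply, smul_eq_mul]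
    ring
  have hdv := hdiv _ hF
  have i1 : ∀ i, Integrable (fun y => pd i k (x - y) * (a y i * g y)) volume := fun i =>
    cv_int (hk.pd i).1.continuous (hk.pd i).2 (li_mul (ha i) hg.li) x
  have i2 : ∀ i, Integrable (fun y => k (x - y) * (a y i * pd i g y)) volume := fun i =>
    cv_int hk.1.continuous hk.2 (li_mul (ha i) (hg.pd i).li) x
  have i3 : ∀ i, Integrable (fun y => k (x - y) * (a x i * pd i g y)) volume := fun i =>
    cv_int hk.1.continuous hk.2 (li_mul continuous_const (hg.pd i).li) x
  have e1 : ∫ y, ∑ i, a y i * pd i (fun y => k (x - y) * g y) y =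
      ∑ i, (- (∫ y, pd i k (x - y) * (a y i * g y)) + ∫ y, k (x - y) * (a y i * pd i g y)) := by
    have : ∀ i, (fun y => a y i * pd i (fun y => k (x - y) * g y) y) =
        fun y => -(pd i k (x - y) * (a y i * g y)) + k (x - y) * (a y i * pd i g y) := by
      intro i; funext y; rw [hpd]; ring
    rw [integral_finsetSum _ fun i _ => by rw [this i]; exact (i1 i).neg.add (i2 i)]
    apply Finset.sum_congr rfl
    intro i _
    have i1n : Integrable (fun y => -(pd i k (x - y) * (a y i * g y))) volume := (i1 i).neg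
    rw [this i, integral_add i1n (i2 i), integral_neg]
  have e2 : ∀ i, cv (pd i k) g x = ∫ y, k (x - y) * pd i g y := by
    intro i
    have : cv (pd i k) g = cv k (pd i g) := by
      rw [← pd_cv hk hg.li, pd_cv' hk hg]
    rw [this]; rfl
  have e3 : ∀ i, ∫ y, k (x - y) * ((a y i - a x i) * pd i g y) =
      (∫ y, k (x - y) * (a y i * pd i g y)) - a x i * cv (pd i k) g x := by
    intro i
    rw [e2, ← integral_const_mul, ← integral_sub (i2 i) (by
      refine (i3 i).congr (Eventually.of_forall fun y => ?_); simp only []; ring)]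
    congr 1; funext y; ring
  rw [e1] at hdv
  rw [err]
  have e4 : cv k (fun y => b y * g y) x = ∫ y, b y * (k (x - y) * g y) := by
    rw [cv]; congr 1; funext y; ring
  have e5 : ∀ i, cv (pd i k) (fun y => a y i * g y) x = ∫ y, pd i k (x - y) * (a y i * g y) := fun i => rfl
  simp only [e3, e5, Finset.sum_sub_distrib, Finset.sum_add_distrib, Finset.sum_neg_distrib] at hdv ⊢
  rw [e4]
  linarith

/-- kernel (c) -/
theorem lim_err {k : ℕ → EE n → ℝ} {L : ℝ} (hk : Moll k L) {R : ℝ}
    {a : EE n → Fin n → ℝ} (ha : ∀ i, Continuous fun x => a x i)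
    (hlip : ∀ R : ℝ, ∃ Λ : ℝ, 0 ≤ Λ ∧ ∀ i, ∀ x ∈ closedBall (0 : EE n) R, ∀ y ∈ closedBall (0 : EE n) R,
      |a x i - a y i| ≤ Λ * ‖x - y‖)
    {b : EE n → ℝ} (hb : Continuous b)
    (hdiv : ∀ F, TF F → ∫ x, ∑ i, a x i * pd i F x = - ∫ x, b x * F x)
    {h : EE n → ℝ} (hloc : LocallyIntegrable h volume)
    (hh : MemLp h 2 (volume.restrict (closedBall (0 : EE n) (R+1)))) :
    Tendsto (fun N => eLpNorm (err (k N) a b h) 2
      (volume.restrict (closedBall (0 : EE n) R))) atTop (𝓝 0) := by
  obtain ⟨B, hB⟩ := (isCompact_closedBall (0 : EE n) (R+1)).exists_bound_of_continuousOn hb.continuousOn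
  obtain ⟨Λ, hΛ0, hΛ⟩ := hlip (R + 1)
  have hN1 : ∀ N : ℕ, 1 / ((N : ℝ) + 1) ≤ 1 := fun N => by
    rw [div_le_one (by positivity)]; linarith [(Nat.cast_nonneg N : (0:ℝ) ≤ N)]
  have hST : closedBall (0 : EE n) R ⊆ closedBall (0 : EE n) (R+1) :=
    closedBall_subset_closedBall (by linarith)
  have hout : ∀ x ∈ closedBall (0 : EE n) R, ∀ y, y ∉ closedBall (0 : EE n) (R+1) → 1 < ‖x - y‖ := by
    intro x hx y hy
    rw [mem_closedBall_zero_iff] at hx hy
    have := norm_sub_norm_le y x
    rw [norm_sub_rev] at this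
    linarith [not_le.1 hy]
  set B' : ℝ := max B 0 with hB'
  have hB0 : 0 ≤ B' := le_max_right _ _
  set κr : ℕ → EE n → ℝ := fun N z => B' * |k N z| + ∑ i, Λ / ((N : ℝ) + 1) * |pd i (k N) z| with hκr
  have hκr0 : ∀ N z, 0 ≤ κr N z := fun N z => by
    simp only [hκr]
    exact add_nonneg (mul_nonneg hB0 (abs_nonneg _))
      (Finset.sum_nonneg fun i _ => mul_nonneg (by positivity) (abs_nonneg _))
  have hκc : ∀ N, Continuous (κr N) := fun N => by
    simp only [hκr]
    exact (continuous_const.mul (hk.tf N).1.continuous.abs).add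
      (continuous_finsetSum _ fun i _ => continuous_const.mul ((hk.tf N).pd i).1.continuous.abs)
  have hki : ∀ N, Integrable (fun z => |k N z|) volume := fun N => (hk.integrable N).abs
  have hpi : ∀ N i, Integrable (fun z => |pd i (k N) z|) volume := fun N i =>
    (((hk.tf N).pd i).1.continuous.integrable_of_hasCompactSupport ((hk.tf N).pd i).2).abs
  have hκi : ∀ N, Integrable (κr N) volume := fun N => by
    simp only [hκr]
    exact ((hki N).const_mul _).add (integrable_finsetSum _ fun i _ => (hpi N i).const_mul _)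
  have hκint : ∀ N, ∫ z, κr N z ≤ B' + n * (Λ * L) := by
    intro N
    simp only [hκr]
    rw [integral_add ((hki N).const_mul _) (integrable_finsetSum _ fun i _ => (hpi N i).const_mul _),
      integral_const_mul, integral_finsetSum _ fun i _ => (hpi N i).const_mul _]
    have h1 : ∫ z, |k N z| = 1 := by
      have : (fun z => |k N z|) = k N := by funext z; exact abs_of_nonneg (hk.nonneg N z)
      rw [this, hk.int1]
    rw [h1, mul_one]
    have h2 : ∑ i : Fin n, ∫ z, Λ / ((N : ℝ) + 1) * |pd i (k N) z| ≤ ∑ i : Fin n, Λ * L := by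
      apply Finset.sum_le_sum
      intro i _
      rw [integral_const_mul]
      have h3 := hk.der N i
      calc Λ / ((N : ℝ) + 1) * ∫ z, |pd i (k N) z| ≤ Λ / ((N : ℝ) + 1) * (L * ((N : ℝ) + 1)) := by
            gcongr
        _ = Λ * L := by field_simp
    simp only [Finset.sum_const, Finset.card_univ, Fintype.card_fin, nsmul_eq_mul] at h2
    linarith
  have hsupp0 : ∀ N z, 1 < ‖z‖ → κr N z = 0 := by
    intro N z hz
    have h1 : k N z = 0 := hk.supp N z (lt_of_le_of_lt (hN1 N) hz)
    have h2 : ∀ i, pd i (k N) z = 0 := fun i => hk.pd_supp N i z (lt_of_le_of_lt (hN1 N) hz)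
    simp [hκr, h1, h2]
  have hKb : ∀ N, ∀ x ∈ closedBall (0 : EE n) R, ∀ y, |ker (k N) a b x y| ≤ κr N (x - y) := by
    intro N x hx y
    rw [ker]
    refine (abs_sub _ _).trans ?_
    by_cases hy : y ∈ closedBall (0 : EE n) (R+1)
    · simp only [hκr]
      apply add_le_add
      · rw [abs_mul, mul_comm]
        gcongr
        exact (hB y hy).trans (le_max_left _ _)
      · refine (Finset.abs_sum_le_sum_abs _ _).trans (Finset.sum_le_sum fun i _ => ?_)
        rw [abs_mul, mul_comm]
        by_cases hxy : 1 / ((N : ℝ) + 1) < ‖x - y‖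
        · rw [hk.pd_supp N i _ hxy]; simp
        · have h1 := hΛ i y hy x (hST hx)
          have h2 : Λ * ‖y - x‖ ≤ Λ / ((N : ℝ) + 1) := by
            rw [norm_sub_rev, div_eq_mul_one_div]
            gcongr
            exact not_lt.1 hxy
          gcongr
          exact h1.trans h2
    · have h0 := hout x hx y hy
      have h1 : k N (x - y) = 0 := hk.supp N _ (lt_of_le_of_lt (hN1 N) h0)
      have h2 : ∀ i, pd i (k N) (x - y) = 0 := fun i => hk.pd_supp N i _ (lt_of_le_of_lt (hN1 N) h0)
      simp [hκr, h1, h2]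
  have key := L2lim (R := R) (K := fun N => ker (k N) a b)
    (κ := fun N z => ENNReal.ofReal (κr N z))
    (fun N => (hκc N).measurable.ennreal_ofReal)
    (M := ENNReal.ofReal (B' + n * (Λ * L))) ENNReal.ofReal_ne_top
    (fun N => by
      rw [← ofReal_integral_eq_lintegral_ofReal (hκi N) (Eventually.of_forall (hκr0 N))]
      exact ENNReal.ofReal_le_ofReal (hκint N))
    (fun N x hx y hy => by rw [hsupp0 N _ (hout x hx y hy)]; simp)
    (fun N x hx y => by
      rw [← ofReal_norm]
      exact ENNReal.ofReal_le_ofReal (hKb N x hx y))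
    (fun N x f hf => (ker_int (hk.tf N) ha hb hf x).1)
    (fun N f hf => by
      have e : (fun x => ∫ y, ker (k N) a b x y * f y) = err (k N) a b f := by
        funext x; exact (ker_int (hk.tf N) ha hb hf x).2
      rw [e]; exact err_cont (hk.tf N) ha hb hf)
    (m := fun _ => 0) continuous_const hloc hh ?_
  · refine key.congr fun N => ?_
    congr 1
    funext x
    rw [(ker_int (hk.tf N) ha hb hloc x).2]; ring
  · intro g hg
    have hG : ∃ G, 0 ≤ G ∧ ∀ i x, |pd i g x| ≤ G := by
      choose G hG0 hG using fun i => (hg.pd i).bdd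
      exact ⟨∑ i, G i, Finset.sum_nonneg fun i _ => hG0 i, fun i x => (hG i x).trans
        (Finset.single_le_sum (f := G) (fun i _ => hG0 i) (Finset.mem_univ i))⟩
    obtain ⟨G, hG0, hG⟩ := hG
    have hbd : ∀ N, ∀ x ∈ closedBall (0 : EE n) R,
        |(∫ y, ker (k N) a b x y * g y) - (fun _ => (0:ℝ)) x * g x| ≤ n * (Λ * G) * (1 / ((N : ℝ) + 1)) := by
      intro N x hx
      rw [(ker_int (hk.tf N) ha hb hg.li x).2, err_smooth (hk.tf N) ha hb hdiv hg x]
      simp only [zero_mul, sub_zero, abs_neg]
      refine (Finset.abs_sum_le_sum_abs _ _).trans ?_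
      have : ∀ i ∈ Finset.univ (α := Fin n),
          |∫ y, k N (x - y) * ((a y i - a x i) * pd i g y)| ≤ Λ * G * (1 / ((N : ℝ) + 1)) := by
        intro i _
        apply hk.bound N x
        intro y hy
        have hyT : y ∈ closedBall (0 : EE n) (R+1) := by
          by_contra hc
          have := hout x hx y hc
          linarith [hN1 N]
        rw [abs_mul]
        have h1 := hΛ i y hyT x (hST hx)
        rw [norm_sub_rev] at h1
        calc |a y i - a x i| * |pd i g y| ≤ (Λ * ‖x - y‖) * G := by
              gcongr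
              exact hG i y
          _ ≤ (Λ * (1 / ((N : ℝ) + 1))) * G := by gcongr
          _ = _ := by ring
      refine (Finset.sum_le_sum this).trans (le_of_eq ?_)
      simp only [Finset.sum_const, Finset.card_univ, Fintype.card_fin, nsmul_eq_mul]
      ring
    have hfin : volume (closedBall (0 : EE n) R) ≠ ⊤ := (isCompact_closedBall _ _).measure_lt_top.ne
    set A : ℝ≥0∞ := (volume (closedBall (0 : EE n) R)) ^ ((2 : ℝ≥0∞).toReal⁻¹) with hA
    have hAt : A ≠ ⊤ := by
      rw [hA]
      exact ENNReal.rpow_ne_top_of_nonneg (by norm_num) hfin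
    have hle : ∀ N, eLpNorm (fun x => (∫ y, ker (k N) a b x y * g y) - (fun _ => (0:ℝ)) x * g x) 2
        (volume.restrict (closedBall (0 : EE n) R))
        ≤ A * ENNReal.ofReal (n * (Λ * G) * (1 / ((N : ℝ) + 1))) := by
      intro N
      have := eLpNorm_le_of_ae_bound (p := 2) (μ := volume.restrict (closedBall (0 : EE n) R))
        (f := fun x => (∫ y, ker (k N) a b x y * g y) - (fun _ => (0:ℝ)) x * g x)
        (C := n * (Λ * G) * (1 / ((N : ℝ) + 1))) (by
          rw [ae_restrict_iff' measurableSet_closedBall]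
          exact Eventually.of_forall fun x hx => hbd N x hx)
      rwa [Measure.restrict_apply_univ, ← hA] at this
    refine tendsto_of_tendsto_of_tendsto_of_le_of_le tendsto_const_nhds ?_ (fun N => bot_le) hle
    have h1 : Tendsto (fun N : ℕ => n * (Λ * G) * (1 / ((N : ℝ) + 1))) atTop (𝓝 0) := by
      have := (tendsto_one_div_add_atTop_nhds_zero_nat (𝕜 := ℝ)).const_mul (n * (Λ * G))
      simpa using this
    have h2 := ENNReal.tendsto_ofReal h1
    rw [ENNReal.ofReal_zero] at h2
    have h3 := ENNReal.Tendsto.const_mul (a := A) h2 (Or.inr hAt)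
    simpa using h3

end Vale.Agent.P227.M.Esa929
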