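import Vale.Agent.P227.M.LIN.Esa929F

/-! ESA block, weak identity and the energy inequality (helper929). -/

open MeasureTheory Set Filter Topology Metric
open scoped ContDiff Convolution ENNReal NNReal Pointwise

noncomputable section
namespace Vale.Agent.P227.M.Esa929

variable {n : ℕ}

theorem li_tf {f G : EE n → ℝ} (hf : LocallyIntegrable f volume) (hG : TF G) :
    Integrable (fun x => f x * G x) volume := by
  have := hf.integrable_smul_right_of_hasCompactSupport hG.1.continuous hG.2
  simpa only [smul_eq_mul] using this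

theorem pd_odd {k : EE n → ℝ} (hk : TF k) (he : ∀ x, k (-x) = k x) (i : Fin n) (x : EE n) :
    pd i k (-x) = - pd i k x := by
  have h1 : HasFDerivAt (fun y : EE n => -y) (-(ContinuousLinearMap.id ℝ (EE n))) x :=
    (hasFDerivAt_id x).neg
  have h2 : HasFDerivAt k (fderiv ℝ k (-x)) (-x) := ((hk.1.differentiable (by simp)) _).hasFDerivAt
  have h3 := h2.comp x h1
  have e : (k ∘ fun y : EE n => -y) = k := by funext y; exact he y
  rw [e] at h3
  have h4 := h3.fderiv
  rw [pd, pd, h4]
  simp

theorem fub_even {k f G : EE n → ℝ} (hf : LocallyIntegrable f volume) (hk : TF k)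
    (he : ∀ x, k (-x) = k x) (hG : TF G) :
    ∫ y, f y * cv k G y = ∫ x, G x * cv k f x := by
  rw [fub hf hk hG]
  congr 1; funext x
  have : (fun z => k (-z)) = k := by funext z; exact he z
  rw [this]

theorem fub_odd {k f G : EE n → ℝ} (hf : LocallyIntegrable f volume) (hk : TF k)
    (he : ∀ x, k (-x) = k x) (hG : TF G) (i : Fin n) :
    ∫ y, f y * cv (pd i k) G y = - ∫ x, G x * cv (pd i k) f x := by
  rw [fub hf (hk.pd i) hG, ← integral_neg]
  congr 1; funext x
  have : (fun z => pd i k (-z)) = fun z => - pd i k z := by funext z; exact pd_odd hk he i z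
  rw [this]
  simp only [cv]
  rw [← mul_neg, ← integral_neg]
  congr 2; funext y; ring

/-- the mollified equation -/
theorem weak_id {ρ : EE n → ℝ} {a : EE n → Fin n → Fin n → ℝ} {b : EE n → Fin n → ℝ}
    (hρ : Continuous ρ) (ha : ∀ i j, Continuous fun x => a x i j) (hb : ∀ j, Continuous fun x => b x j)
    {h : EE n → ℝ} (hloc : LocallyIntegrable h volume)
    (heq : ∀ F, TF F → ∫ x, h x * (ρ x * F x - ∑ i, ∑ j, a x i j * pd i (pd j F) x
      - ∑ j, b x j * pd j F x) = 0)
    {k : EE n → ℝ} (hk : TF k) (he : ∀ x, k (-x) = k x) {G : EE n → ℝ} (hG : TF G) :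
    (∫ x, G x * cv k (fun y => ρ y * h y) x) +
      ∫ x, ∑ j, pd j G x * (∑ i, a x i j * cv (pd i k) h x - err k (fun x i => a x i j) (fun x => b x j) h x)
      = 0 := by
  have hF : TF (cv k G) := hk.cv hG
  have h1 : ∀ i j, pd i (cv k (pd j G)) = cv (pd i k) (pd j G) := by
    intro i j
    rw [pd_cv hk (hG.pd j).li]
  have h2 : ∀ j, pd j (cv k G) = cv k (pd j G) := fun j => pd_cv' hk hG j
  have I0 : Integrable (fun x => (ρ x * h x) * cv k G x) volume := li_tf (li_mul hρ hloc) hF
  have I1 : ∀ i j, Integrable (fun x => (a x i j * h x) * cv (pd i k) (pd j G) x) volume := fun i j =>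
    li_tf (li_mul (ha i j) hloc) ((hk.pd i).cv (hG.pd j))
  have I2 : ∀ j, Integrable (fun x => (b x j * h x) * cv k (pd j G) x) volume := fun j =>
    li_tf (li_mul (hb j) hloc) (hk.cv (hG.pd j))
  have I1s : Integrable (fun x => ∑ i, ∑ j, (a x i j * h x) * cv (pd i k) (pd j G) x) volume :=
    integrable_finsetSum _ fun i _ => integrable_finsetSum _ fun j _ => I1 i j
  have I2s : Integrable (fun x => ∑ j, (b x j * h x) * cv k (pd j G) x) volume :=
    integrable_finsetSum _ fun j _ => I2 j
  have E := heq _ hF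
  have e0 : (fun x => h x * (ρ x * cv k G x - ∑ i, ∑ j, a x i j * pd i (pd j (cv k G)) x
      - ∑ j, b x j * pd j (cv k G) x)) = fun x => ((ρ x * h x) * cv k G x
        - ∑ i, ∑ j, (a x i j * h x) * cv (pd i k) (pd j G) x) - ∑ j, (b x j * h x) * cv k (pd j G) x := by
    funext x
    simp only [h2, h1]
    rw [mul_sub, mul_sub, Finset.mul_sum, Finset.mul_sum]
    congr 1
    · congr 1
      · ring
      · apply Finset.sum_congr rfl; intro i _
        rw [Finset.mul_sum]
        apply Finset.sum_congr rfl; intro j _; ring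
    · apply Finset.sum_congr rfl; intro j _; ring
  have I01 : Integrable (fun x => (ρ x * h x) * cv k G x
      - ∑ i, ∑ j, (a x i j * h x) * cv (pd i k) (pd j G) x) volume := I0.sub I1s
  rw [e0, integral_sub I01 I2s, integral_sub I0 I1s,
    integral_finsetSum _ fun i _ => integrable_finsetSum _ fun j _ => I1 i j,
    integral_finsetSum _ fun j _ => I2 j] at E
  rw [fub_even (li_mul hρ hloc) hk he hG] at E
  have e1 : ∀ i, ∫ x, ∑ j, (a x i j * h x) * cv (pd i k) (pd j G) x =
      - ∑ j, ∫ x, pd j G x * cv (pd i k) (fun y => a y i j * h y) x := by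
    intro i
    rw [integral_finsetSum _ fun j _ => I1 i j, ← Finset.sum_neg_distrib]
    apply Finset.sum_congr rfl; intro j _
    exact fub_odd (li_mul (ha i j) hloc) hk he (hG.pd j) i
  have e2 : ∀ j, ∫ x, (b x j * h x) * cv k (pd j G) x = ∫ x, pd j G x * cv k (fun y => b y j * h y) x :=
    fun j => fub_even (li_mul (hb j) hloc) hk he (hG.pd j)
  simp only [e1, e2] at E
  have J1 : ∀ i j, Integrable (fun x => pd j G x * cv (pd i k) (fun y => a y i j * h y) x) volume := by
    intro i j
    have := li_tf (cv_smooth (hk.pd i) (li_mul (ha i j) hloc)).continuous.locallyIntegrable (hG.pd j)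
    refine this.congr (Eventually.of_forall fun x => ?_); simp only []; ring
  have J2 : ∀ j, Integrable (fun x => pd j G x * cv k (fun y => b y j * h y) x) volume := by
    intro j
    have := li_tf (cv_smooth hk (li_mul (hb j) hloc)).continuous.locallyIntegrable (hG.pd j)
    refine this.congr (Eventually.of_forall fun x => ?_); simp only []; ring
  have e3 : (fun x => ∑ j, pd j G x * (∑ i, a x i j * cv (pd i k) h x
      - err k (fun x i => a x i j) (fun x => b x j) h x)) =
      fun x => ∑ j, (∑ i, pd j G x * cv (pd i k) (fun y => a y i j * h y) x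
        - pd j G x * cv k (fun y => b y j * h y) x) := by
    funext x
    apply Finset.sum_congr rfl; intro j _
    rw [err, ← Finset.mul_sum, ← mul_sub]
    congr 1
    rw [Finset.sum_sub_distrib]
    ring
  have J12 : ∀ j, Integrable (fun x => ∑ i, pd j G x * cv (pd i k) (fun y => a y i j * h y) x
        - pd j G x * cv k (fun y => b y j * h y) x) volume := fun j =>
    (integrable_finsetSum _ fun i _ => J1 i j).sub (J2 j)
  rw [e3, integral_finsetSum _ fun j _ => J12 j]
  have e4 : ∀ j, ∫ x, (∑ i, pd j G x * cv (pd i k) (fun y => a y i j * h y) x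
        - pd j G x * cv k (fun y => b y j * h y) x) =
      (∑ i, ∫ x, pd j G x * cv (pd i k) (fun y => a y i j * h y) x)
        - ∫ x, pd j G x * cv k (fun y => b y j * h y) x := by
    intro j
    rw [integral_sub (integrable_finsetSum _ fun i _ => J1 i j) (J2 j),
      integral_finsetSum _ fun i _ => J1 i j]
  simp only [e4, Finset.sum_sub_distrib, Finset.sum_neg_distrib] at E ⊢
  rw [Finset.sum_comm] at E
  linarith

/-- pointwise inequality -/
theorem ptw (A : Fin n → Fin n → ℝ) (hsym : ∀ i j, A i j = A j i) {c C r : ℝ} (hc : 0 < c) (hr : 0 < r)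
    (hlow : ∀ v : Fin n → ℝ, c * r * ∑ i, v i ^ 2 ≤ ∑ i, ∑ j, A i j * v i * v j)
    (hup : ∀ v : Fin n → ℝ, ∑ i, ∑ j, A i j * v i * v j ≤ C * r * ∑ i, v i ^ 2)
    (Z H : ℝ) (p q e : Fin n → ℝ) :
    -((2 * C + 1) * (r * H ^ 2 * ∑ j, q j ^ 2)) - (1 / (2 * c) + 1) * (Z ^ 2 / r * ∑ j, e j ^ 2) ≤
      ∑ j, (2 * Z * H * q j + Z ^ 2 * p j) * (∑ i, A i j * p i - e j) := by
  set App := ∑ i, ∑ j, A i j * p i * p j with hApp
  set Aqq := ∑ i, ∑ j, A i j * q i * q j with hAqq
  set Apq := ∑ j, q j * ∑ i, A i j * p i with hApq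
  set pe := ∑ j, p j * e j with hpe
  set qe := ∑ j, q j * e j with hqe
  set P := ∑ j, p j ^ 2 with hP
  set Q := ∑ j, q j ^ 2 with hQ
  set E := ∑ j, e j ^ 2 with hE
  have hexp : ∑ j, (2 * Z * H * q j + Z ^ 2 * p j) * (∑ i, A i j * p i - e j)
      = Z ^ 2 * App + 2 * Z * H * Apq - 2 * Z * H * qe - Z ^ 2 * pe := by
    have h1 : App = ∑ j, p j * ∑ i, A i j * p i := by
      rw [hApp, Finset.sum_comm]
      apply Finset.sum_congr rfl; intro j _
      rw [Finset.mul_sum]
      apply Finset.sum_congr rfl; intro i _; ring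
    rw [h1, hApq, hqe, hpe]
    simp only [Finset.mul_sum (s := Finset.univ) (a := Z ^ 2) (f := fun j => p j * ∑ i, A i j * p i),
      Finset.mul_sum (s := Finset.univ) (a := 2 * Z * H) (f := fun j => q j * ∑ i, A i j * p i),
      Finset.mul_sum (s := Finset.univ) (a := 2 * Z * H) (f := fun j => q j * e j),
      Finset.mul_sum (s := Finset.univ) (a := Z ^ 2) (f := fun j => p j * e j)]
    rw [← Finset.sum_add_distrib, ← Finset.sum_sub_distrib, ← Finset.sum_sub_distrib]
    apply Finset.sum_congr rfl; intro j _; ring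
  -- A(p,q) by the square
  have hsq : 0 ≤ Z ^ 2 * App + 4 * Z * H * Apq + 4 * H ^ 2 * Aqq := by
    have h1 := hlow (fun i => Z * p i + 2 * H * q i)
    have h2 : 0 ≤ c * r * ∑ i, (Z * p i + 2 * H * q i) ^ 2 :=
      mul_nonneg (mul_pos hc hr).le (Finset.sum_nonneg fun i _ => sq_nonneg _)
    have h3 : ∑ i, ∑ j, A i j * (Z * p i + 2 * H * q i) * (Z * p j + 2 * H * q j)
        = Z ^ 2 * App + 4 * Z * H * Apq + 4 * H ^ 2 * Aqq := by
      have h4 : Apq = ∑ i, ∑ j, A i j * p i * q j := by
        rw [hApq, Finset.sum_comm (f := fun i j => A i j * p i * q j)]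
        apply Finset.sum_congr rfl; intro j _
        rw [Finset.mul_sum]
        apply Finset.sum_congr rfl; intro i _; ring
      have h5 : Apq = ∑ i, ∑ j, A i j * q i * p j := by
        rw [hApq]
        apply Finset.sum_congr rfl; intro i _
        rw [Finset.mul_sum]
        apply Finset.sum_congr rfl; intro j _; rw [hsym i j]; ring
      have h6 : Z ^ 2 * App + 4 * Z * H * Apq + 4 * H ^ 2 * Aqq
          = Z ^ 2 * App + 2 * Z * H * (∑ i, ∑ j, A i j * p i * q j)
            + 2 * Z * H * (∑ i, ∑ j, A i j * q i * p j) + 4 * H ^ 2 * Aqq := by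
        rw [← h4, ← h5]; ring
      rw [h6, hApp, hAqq]
      simp only [Finset.mul_sum, ← Finset.sum_add_distrib]
      apply Finset.sum_congr rfl; intro i _
      apply Finset.sum_congr rfl; intro j _
      ring
    linarith
  have hq := hup q
  have hp := hlow p
  have hcr : 0 < c * r := mul_pos hc hr
  -- p·e
  have hpe' : pe ≤ c * r / 2 * P + 1 / (2 * (c * r)) * E := by
    rw [hpe, hP, hE, Finset.mul_sum, Finset.mul_sum, ← Finset.sum_add_distrib]
    apply Finset.sum_le_sum; intro j _
    have : 0 ≤ (c * r * p j - e j) ^ 2 / (2 * (c * r)) := by positivity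
    have h2 : (c * r * p j - e j) ^ 2 / (2 * (c * r)) =
        c * r / 2 * p j ^ 2 + 1 / (2 * (c * r)) * e j ^ 2 - p j * e j := by
      field_simp; ring
    linarith
  have hqe' : 2 * Z * H * qe ≤ r * H ^ 2 * Q + Z ^ 2 / r * E := by
    rw [hqe, hQ, hE, Finset.mul_sum, Finset.mul_sum, Finset.mul_sum, ← Finset.sum_add_distrib]
    apply Finset.sum_le_sum; intro j _
    have : 0 ≤ (r * H * q j - Z * e j) ^ 2 / r := by positivity
    have h2 : (r * H * q j - Z * e j) ^ 2 / r =
        r * H ^ 2 * q j ^ 2 + Z ^ 2 / r * e j ^ 2 - 2 * Z * H * (q j * e j) := by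
      field_simp; ring
    linarith
  rw [hexp]
  have hZ : 0 ≤ Z ^ 2 := sq_nonneg Z
  have hH : 0 ≤ H ^ 2 := sq_nonneg H
  have k1 : Z ^ 2 * pe ≤ Z ^ 2 * (1 / 2 * App + 1 / (2 * (c * r)) * E) := by
    apply mul_le_mul_of_nonneg_left _ hZ
    have : c * r / 2 * P ≤ 1 / 2 * App := by
      have := hp
      linarith
    linarith
  have k2 : H ^ 2 * Aqq ≤ H ^ 2 * (C * r * Q) := mul_le_mul_of_nonneg_left hq hH
  have k3 : Z ^ 2 * (1 / (2 * (c * r)) * E) = 1 / (2 * c) * (Z ^ 2 / r * E) := by field_simp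
  nlinarith

end Vale.Agent.P227.M.Esa929
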