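import Vale.Agent.P227.M.LIN.Esa929G

/-! ESA block, energy inequality and conclusion (helper929). -/

open MeasureTheory Set Filter Topology Metric
open scoped ContDiff Convolution ENNReal NNReal Pointwise

noncomputable section
namespace Vale.Agent.P227.M.Esa929

variable {n : ℕ}

/-- data of the theorem -/
structure Dat (ρ : EE n → ℝ) (a : EE n → Fin n → Fin n → ℝ) (b : EE n → Fin n → ℝ) (c C : ℝ) : Prop where
  hρ : Continuous ρ
  hρ0 : ∀ x, 0 < ρ x
  hsym : ∀ x i j, a x i j = a x j i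
  hac : ∀ i j, Continuous fun x => a x i j
  hlip : ∀ R : ℝ, ∃ Λ : ℝ, 0 ≤ Λ ∧ ∀ i j, ∀ x ∈ closedBall (0 : EE n) R, ∀ y ∈ closedBall (0 : EE n) R,
      |a x i j - a y i j| ≤ Λ * ‖x - y‖
  hb : ∀ j, Continuous fun x => b x j
  hc : 0 < c
  hlow : ∀ x (v : Fin n → ℝ), c * ρ x * ∑ i, v i ^ 2 ≤ ∑ i, ∑ j, a x i j * v i * v j
  hup : ∀ x (v : Fin n → ℝ), ∑ i, ∑ j, a x i j * v i * v j ≤ C * ρ x * ∑ i, v i ^ 2
  hdiv : ∀ j F, TF F → ∫ x, ∑ i, a x i j * pd i F x = - ∫ x, b x j * F x

theorem pd_mul {F G : EE n → ℝ} (hF : ContDiff ℝ ∞ F) (hG : ContDiff ℝ ∞ G) (j : Fin n) (x : EE n) :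
    pd j (fun y => F y * G y) x = F x * pd j G x + G x * pd j F x := by
  have d1 : HasFDerivAt F (fderiv ℝ F x) x := ((hF.differentiable (by simp)) _).hasFDerivAt
  have d2 : HasFDerivAt G (fderiv ℝ G x) x := ((hG.differentiable (by simp)) _).hasFDerivAt
  have d3 : fderiv ℝ (fun y => F y * G y) x = _ := (d1.mul d2).fderiv
  rw [pd, d3]
  rfl

theorem Continuous.integrableOn_cpt {S : Set (EE n)} (hS : IsCompact S) {f : EE n → ℝ}
    (hf : Continuous f) : IntegrableOn f S volume :=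
  hf.continuousOn.integrableOn_compact hS

theorem energy {ρ : EE n → ℝ} {a : EE n → Fin n → Fin n → ℝ} {b : EE n → Fin n → ℝ} {c C : ℝ}
    (D : Dat ρ a b c C) {h : EE n → ℝ} (hloc : LocallyIntegrable h volume)
    (heq : ∀ F, TF F → ∫ x, h x * (ρ x * F x - ∑ i, ∑ j, a x i j * pd i (pd j F) x
      - ∑ j, b x j * pd j F x) = 0)
    {k : EE n → ℝ} (hk : TF k) (he : ∀ x, k (-x) = k x) {ζ : EE n → ℝ} (hζ : TF ζ) {R : ℝ}
    (hζR : ∀ x, x ∉ closedBall (0 : EE n) R → ζ x = 0 ∧ ∀ j, pd j ζ x = 0) :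
    ∫ x in closedBall (0 : EE n) R, ζ x ^ 2 * (cv k h x * cv k (fun y => ρ y * h y) x) ≤
      (2 * C + 1) * (∫ x in closedBall (0 : EE n) R, (ρ x * ∑ j, pd j ζ x ^ 2) * (cv k h x * cv k h x))
      + (1 / (2 * c) + 1) * ∑ j, ∫ x in closedBall (0 : EE n) R, (ζ x ^ 2 / ρ x) *
        (err k (fun x i => a x i j) (fun x => b x j) h x * err k (fun x i => a x i j) (fun x => b x j) h x) := by
  set S := closedBall (0 : EE n) R with hS
  set e : Fin n → EE n → ℝ := fun j => err k (fun x i => a x i j) (fun x => b x j) h with hedef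
  have hcvs : ContDiff ℝ ∞ (cv k h) := cv_smooth hk hloc
  have hG : TF (fun x => ζ x ^ 2 * cv k h x) := by
    constructor
    · exact (hζ.1.pow 2).mul hcvs
    · have h1 : HasCompactSupport (fun x => ζ x * (ζ x * cv k h x)) := hζ.2.mul_right
      have e1 : (fun x => ζ x * (ζ x * cv k h x)) = fun x => ζ x ^ 2 * cv k h x := by funext x; ring
      rwa [e1] at h1
  have hW := weak_id D.hρ D.hac D.hb hloc heq hk he hG
  have hpdG : ∀ j x, pd j (fun x => ζ x ^ 2 * cv k h x) x =
      2 * ζ x * cv k h x * pd j ζ x + ζ x ^ 2 * cv (pd j k) h x := by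
    intro j x
    have h1 : (fun x => ζ x ^ 2 * cv k h x) = fun x => ζ x * (ζ x * cv k h x) := by funext x; ring
    rw [h1, pd_mul hζ.1 (hζ.1.mul hcvs), pd_mul hζ.1 hcvs, pd_cv hk hloc]
    ring
  have hec : ∀ j, Continuous (e j) := fun j => err_cont hk (fun i => D.hac i j) (D.hb j) hloc
  have hρi : Continuous (fun x => (ρ x)⁻¹) := D.hρ.inv₀ (fun x => (D.hρ0 x).ne')
  have hcc : Continuous (cv k h) := hcvs.continuous
  have hccρ : Continuous (cv k (fun y => ρ y * h y)) := (cv_smooth hk (li_mul D.hρ hloc)).continuous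
  have hpc : ∀ j, Continuous (cv (pd j k) h) := fun j => (cv_smooth (hk.pd j) hloc).continuous
  have hζc : Continuous ζ := hζ.1.continuous
  have hqc : ∀ j, Continuous (pd j ζ) := fun j => (hζ.pd j).1.continuous
  -- the two integrals of the identity live on S
  have s1 : ∫ x, (ζ x ^ 2 * cv k h x) * cv k (fun y => ρ y * h y) x =
      ∫ x in S, ζ x ^ 2 * (cv k h x * cv k (fun y => ρ y * h y) x) := by
    rw [← setIntegral_eq_integral_of_forall_compl_eq_zero (s := S)]
    · congr 1; funext x; ring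
    · intro x hx; rw [(hζR x hx).1]; ring
  have s2 : ∫ x, ∑ j, pd j (fun x => ζ x ^ 2 * cv k h x) x * (∑ i, a x i j * cv (pd i k) h x - e j x) =
      ∫ x in S, ∑ j, (2 * ζ x * cv k h x * pd j ζ x + ζ x ^ 2 * cv (pd j k) h x)
        * (∑ i, a x i j * cv (pd i k) h x - e j x) := by
    rw [← setIntegral_eq_integral_of_forall_compl_eq_zero (s := S)]
    · congr 1; funext x
      apply Finset.sum_congr rfl; intro j _; rw [hpdG]
    · intro x hx
      apply Finset.sum_eq_zero; intro j _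
      rw [hpdG, (hζR x hx).1]; ring
  have hW' : (∫ x in S, ζ x ^ 2 * (cv k h x * cv k (fun y => ρ y * h y) x)) +
      ∫ x in S, ∑ j, (2 * ζ x * cv k h x * pd j ζ x + ζ x ^ 2 * cv (pd j k) h x)
        * (∑ i, a x i j * cv (pd i k) h x - e j x) = 0 := by
    rw [← s1, ← s2]; exact hW
  have hcS : IsCompact S := isCompact_closedBall _ _
  have int1 : IntegrableOn (fun x => (ρ x * ∑ j, pd j ζ x ^ 2) * (cv k h x * cv k h x)) S volume := by
    refine Continuous.integrableOn_cpt hcS ?_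
    exact (D.hρ.mul (continuous_finsetSum _ fun j _ => (hqc j).pow 2)).mul (hcc.mul hcc)
  have int2 : ∀ j, IntegrableOn (fun x => (ζ x ^ 2 / ρ x) * (e j x * e j x)) S volume := fun j => by
    refine Continuous.integrableOn_cpt hcS ?_
    have : Continuous (fun x => ζ x ^ 2 * (ρ x)⁻¹ * (e j x * e j x)) :=
      ((hζc.pow 2).mul hρi).mul ((hec j).mul (hec j))
    exact this
  have int3 : IntegrableOn (fun x => ∑ j, (2 * ζ x * cv k h x * pd j ζ x + ζ x ^ 2 * cv (pd j k) h x)
        * (∑ i, a x i j * cv (pd i k) h x - e j x)) S volume := by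
    refine Continuous.integrableOn_cpt hcS ?_
    refine continuous_finsetSum _ fun j _ => ?_
    refine Continuous.mul ?_ ?_
    · exact (((continuous_const.mul hζc).mul hcc).mul (hqc j)).add ((hζc.pow 2).mul (hpc j))
    · exact (continuous_finsetSum _ fun i _ => (D.hac i j).mul (hpc i)).sub (hec j)
  have int2s : IntegrableOn (fun x => ∑ j, (ζ x ^ 2 / ρ x) * (e j x * e j x)) S volume :=
    integrable_finsetSum _ fun j _ => int2 j
  have hineq : ∫ x in S, (-((2 * C + 1) * ((ρ x * ∑ j, pd j ζ x ^ 2) * (cv k h x * cv k h x)))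
      - (1 / (2 * c) + 1) * ∑ j, (ζ x ^ 2 / ρ x) * (e j x * e j x)) ≤
      ∫ x in S, ∑ j, (2 * ζ x * cv k h x * pd j ζ x + ζ x ^ 2 * cv (pd j k) h x)
        * (∑ i, a x i j * cv (pd i k) h x - e j x) := by
    apply setIntegral_mono _ int3
    · intro x
      have := ptw (fun i j => a x i j) (D.hsym x) D.hc (D.hρ0 x) (D.hlow x) (D.hup x) (ζ x) (cv k h x)
        (fun j => cv (pd j k) h x) (fun j => pd j ζ x) (fun j => e j x)
      simp only [] at this ⊢
      have e1 : (ρ x * ∑ j, pd j ζ x ^ 2) * (cv k h x * cv k h x) =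
          ρ x * cv k h x ^ 2 * ∑ j, pd j ζ x ^ 2 := by ring
      have e2 : ∑ j, (ζ x ^ 2 / ρ x) * (e j x * e j x) = ζ x ^ 2 / ρ x * ∑ j, e j x ^ 2 := by
        rw [Finset.mul_sum]; apply Finset.sum_congr rfl; intro j _; ring
      rw [e1, e2]
      exact this
    · exact (int1.const_mul (2 * C + 1)).neg.sub (int2s.const_mul _)
  have i1' : IntegrableOn (fun x => -((2 * C + 1) * ((ρ x * ∑ j, pd j ζ x ^ 2) * (cv k h x * cv k h x)))) S volume :=
    (int1.const_mul (2 * C + 1)).neg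
  rw [integral_sub i1' (int2s.const_mul _), integral_neg, integral_const_mul,
    integral_const_mul, integral_finsetSum _ fun j _ => int2 j] at hineq
  linarith

theorem main_ineq {ρ : EE n → ℝ} {a : EE n → Fin n → Fin n → ℝ} {b : EE n → Fin n → ℝ} {c C : ℝ}
    (D : Dat ρ a b c C) {h : EE n → ℝ} (hloc : LocallyIntegrable h volume)
    (hL2 : ∀ R : ℝ, MemLp h 2 (volume.restrict (closedBall (0 : EE n) R)))
    (heq : ∀ F, TF F → ∫ x, h x * (ρ x * F x - ∑ i, ∑ j, a x i j * pd i (pd j F) x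
      - ∑ j, b x j * pd j F x) = 0)
    {ζ : EE n → ℝ} (hζ : TF ζ) {R : ℝ}
    (hζR : ∀ x, x ∉ closedBall (0 : EE n) R → ζ x = 0 ∧ ∀ j, pd j ζ x = 0) :
    ∫ x in closedBall (0 : EE n) R, ζ x ^ 2 * (h x * (ρ x * h x)) ≤
      (2 * C + 1) * ∫ x in closedBall (0 : EE n) R, (ρ x * ∑ j, pd j ζ x ^ 2) * (h x * h x) := by
  obtain ⟨k, L, hL, hk⟩ := exists_moll (n := n)
  set S := closedBall (0 : EE n) R with hS
  have hcS : IsCompact S := isCompact_closedBall _ _
  have hSm : MeasurableSet S := measurableSet_closedBall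
  have hfinm : IsFiniteMeasure (volume.restrict S) :=
    ⟨by rw [Measure.restrict_apply_univ]; exact hcS.measure_lt_top⟩
  have contL2 : ∀ f : EE n → ℝ, Continuous f → MemLp f 2 (volume.restrict S) := by
    intro f hf
    obtain ⟨B, hB⟩ := hcS.exists_bound_of_continuousOn hf.continuousOn
    refine MemLp.of_bound hf.aestronglyMeasurable B ?_
    rw [ae_restrict_iff' hSm]
    exact Eventually.of_forall hB
  have hhS : MemLp h 2 (volume.restrict S) := hL2 R
  -- limits
  have l1 : Tendsto (fun N => eLpNorm (cv (k N) h - h) 2 (volume.restrict S)) atTop (𝓝 0) := by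
    have := lim_mul hk (R := R) (w := fun _ => 1) continuous_const hloc (hL2 (R + 1))
    refine this.congr fun N => ?_
    congr 1; funext x; simp
  have l2 : Tendsto (fun N => eLpNorm (cv (k N) (fun y => ρ y * h y) - fun y => ρ y * h y) 2
      (volume.restrict S)) atTop (𝓝 0) :=
    lim_mul hk (R := R) D.hρ hloc (hL2 (R + 1))
  have l3 : ∀ j, Tendsto (fun N => eLpNorm (err (k N) (fun x i => a x i j) (fun x => b x j) h
      - fun _ => 0) 2 (volume.restrict S)) atTop (𝓝 0) := by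
    intro j
    have := lim_err hk (R := R) (a := fun x i => a x i j) (b := fun x => b x j) (fun i => D.hac i j)
      (fun R => by
        obtain ⟨Λ, h0, h1⟩ := D.hlip R
        exact ⟨Λ, h0, fun i x hx y hy => h1 i j x hx y hy⟩) (D.hb j) (D.hdiv j) hloc (hL2 (R + 1))
    refine this.congr fun N => ?_
    congr 1; funext x; simp
  have hρh : MemLp (fun y => ρ y * h y) 2 (volume.restrict S) := by
    obtain ⟨B, hB⟩ := hcS.exists_bound_of_continuousOn D.hρ.continuousOn
    refine MemLp.of_le_mul (c := B) hhS (D.hρ.aestronglyMeasurable.mul hhS.1) ?_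
    rw [ae_restrict_iff' hSm]
    refine Eventually.of_forall fun x hx => ?_
    rw [norm_mul]; gcongr; exact hB x hx
  have hζc : Continuous ζ := hζ.1.continuous
  have hw1 : Continuous (fun x => ζ x ^ 2) := hζc.pow 2
  have hw2 : Continuous (fun x => ρ x * ∑ j, pd j ζ x ^ 2) :=
    D.hρ.mul (continuous_finsetSum _ fun j _ => ((hζ.pd j).1.continuous).pow 2)
  have hw3 : Continuous (fun x => ζ x ^ 2 / ρ x) := hw1.div D.hρ (fun x => (D.hρ0 x).ne')
  obtain ⟨B1, hB1⟩ := hcS.exists_bound_of_continuousOn hw1.continuousOn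
  obtain ⟨B2, hB2⟩ := hcS.exists_bound_of_continuousOn hw2.continuousOn
  obtain ⟨B3, hB3⟩ := hcS.exists_bound_of_continuousOn hw3.continuousOn
  have c1 : ∀ N, MemLp (cv (k N) h) 2 (volume.restrict S) := fun N =>
    contL2 _ (cv_smooth (hk.tf N) hloc).continuous
  have c2 : ∀ N, MemLp (cv (k N) (fun y => ρ y * h y)) 2 (volume.restrict S) := fun N =>
    contL2 _ (cv_smooth (hk.tf N) (li_mul D.hρ hloc)).continuous
  have c3 : ∀ j N, MemLp (err (k N) (fun x i => a x i j) (fun x => b x j) h) 2 (volume.restrict S) :=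
    fun j N => contL2 _ (err_cont (hk.tf N) (fun i => D.hac i j) (D.hb j) hloc)
  have z0 : MemLp (fun _ : EE n => (0:ℝ)) 2 (volume.restrict S) := contL2 _ continuous_const
  have T1 := prodlim c1 c2 hhS hρh hSm hw1 hB1 l1 l2
  have T2 := prodlim c1 c1 hhS hhS hSm hw2 hB2 l1 l1
  have T3 : ∀ j, Tendsto (fun N => ∫ x in S, (ζ x ^ 2 / ρ x) *
      (err (k N) (fun x i => a x i j) (fun x => b x j) h x * err (k N) (fun x i => a x i j) (fun x => b x j) h x))
      atTop (𝓝 0) := by
    intro j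
    have := prodlim (c3 j) (c3 j) z0 z0 hSm hw3 hB3 (l3 j) (l3 j)
    simpa using this
  have T3s : Tendsto (fun N => ∑ j, ∫ x in S, (ζ x ^ 2 / ρ x) *
      (err (k N) (fun x i => a x i j) (fun x => b x j) h x * err (k N) (fun x i => a x i j) (fun x => b x j) h x))
      atTop (𝓝 0) := by
    have := tendsto_finsetSum (Finset.univ : Finset (Fin n)) fun j _ => T3 j
    simpa using this
  have hR := (T2.const_mul (2 * C + 1)).add (T3s.const_mul (1 / (2 * c) + 1))
  have := le_of_tendsto_of_tendsto' T1 hR (fun N =>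
    energy D hloc heq (hk.tf N) (hk.even N) hζ hζR)
  simpa using this

end Vale.Agent.P227.M.Esa929
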