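import Vale.Agent.P227.M.LIN.Esa929H

/-! ESA block, abstract theorem (helper929). -/

open MeasureTheory Set Filter Topology Metric
open scoped ContDiff Convolution ENNReal NNReal Pointwise

noncomputable section
namespace Vale.Agent.P227.M.Esa929

variable {n : ℕ}

theorem exists_cutoff : ∃ G : ℝ, 0 ≤ G ∧ ∀ R : ℝ, 1 ≤ R → ∃ ζ : EE n → ℝ, TF ζ ∧
    (∀ x ∈ closedBall (0 : EE n) R, ζ x = 1) ∧
    (∀ x, x ∉ closedBall (0 : EE n) (2 * R) → ζ x = 0 ∧ ∀ j, pd j ζ x = 0) ∧
    ∀ j x, |pd j ζ x| ≤ G / R := by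
  let χ : ContDiffBump (0 : EE n) := ⟨1, 2, by norm_num, by norm_num⟩
  have hχ : TF (χ : EE n → ℝ) := ⟨χ.contDiff, χ.hasCompactSupport⟩
  have hG : ∃ G, 0 ≤ G ∧ ∀ i x, |pd i (χ : EE n → ℝ) x| ≤ G := by
    choose G hG0 hG using fun i => (hχ.pd i).bdd
    exact ⟨∑ i, G i, Finset.sum_nonneg fun i _ => hG0 i, fun i x => (hG i x).trans
      (Finset.single_le_sum (f := G) (fun i _ => hG0 i) (Finset.mem_univ i))⟩
  obtain ⟨G, hG0, hG⟩ := hG
  refine ⟨G, hG0, fun R hR => ?_⟩
  have hR0 : 0 < R := by linarith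
  have hRi : 0 < R⁻¹ := inv_pos.2 hR0
  have hζ : TF (fun x : EE n => χ (R⁻¹ • x)) := by
    constructor
    · exact hχ.1.comp (contDiff_const_smul _)
    · exact hχ.2.comp_smul hRi.ne'
  have hz : ∀ x, x ∉ closedBall (0 : EE n) (2 * R) → χ (R⁻¹ • x) = 0 := by
    intro x hx
    apply χ.zero_of_le_dist
    rw [mem_closedBall_zero_iff, not_le] at hx
    rw [dist_zero_right, norm_smul, Real.norm_eq_abs, abs_of_pos hRi]
    show (2:ℝ) ≤ _
    rw [inv_mul_eq_div, le_div_iff₀ hR0]
    exact hx.le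
  refine ⟨fun x => χ (R⁻¹ • x), hζ, ?_, ?_, ?_⟩
  · intro x hx
    apply χ.one_of_mem_closedBall
    rw [mem_closedBall_zero_iff] at hx ⊢
    rw [norm_smul, Real.norm_eq_abs, abs_of_pos hRi]
    show _ ≤ (1:ℝ)
    rw [inv_mul_eq_div, div_le_one hR0]; exact hx
  · intro x hx
    refine ⟨hz x hx, fun j => ?_⟩
    have h1 : tsupport (fun x : EE n => χ (R⁻¹ • x)) ⊆ closedBall 0 (2 * R) := by
      apply closure_minimal _ isClosed_closedBall
      intro y hy
      by_contra hc
      exact hy (hz y hc)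
    have h2 : fderiv ℝ (fun x : EE n => χ (R⁻¹ • x)) x = 0 := by
      by_contra hne
      exact hx (h1 (support_fderiv_subset ℝ (f := fun x : EE n => χ (R⁻¹ • x)) hne))
    rw [pd, h2]; simp
  · intro j x
    have hd : HasFDerivAt (fun x : EE n => χ (R⁻¹ • x))
        ((fderiv ℝ (χ : EE n → ℝ) (R⁻¹ • x)).comp (R⁻¹ • ContinuousLinearMap.id ℝ (EE n))) x := by
      have h1 : HasFDerivAt (fun x : EE n => R⁻¹ • x) (R⁻¹ • ContinuousLinearMap.id ℝ (EE n)) x :=
        (hasFDerivAt_id x).const_smul (R⁻¹)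
      have h2 : HasFDerivAt (χ : EE n → ℝ) (fderiv ℝ (χ : EE n → ℝ) (R⁻¹ • x)) (R⁻¹ • x) :=
        ((hχ.1.differentiable (by simp)) _).hasFDerivAt
      exact h2.comp x h1
    have e1 : pd j (fun x : EE n => χ (R⁻¹ • x)) x = R⁻¹ * pd j (χ : EE n → ℝ) (R⁻¹ • x) := by
      rw [pd, hd.fderiv]
      simp only [ContinuousLinearMap.comp_apply, smul_apply,
        ContinuousLinearMap.id_apply, map_smul, smul_eq_mul, pd]
    rw [e1, abs_mul, abs_of_pos hRi, inv_mul_eq_div]
    gcongr
    exact hG j _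

theorem esa {ρ : EE n → ℝ} {a : EE n → Fin n → Fin n → ℝ} {b : EE n → Fin n → ℝ} {c C : ℝ}
    (D : Dat ρ a b c C) {h : EE n → ℝ} (hm : AEStronglyMeasurable h volume)
    (hint : Integrable (fun x => ρ x * (h x * h x)) volume)
    (heq : ∀ F, TF F → ∫ x, h x * (ρ x * F x - ∑ i, ∑ j, a x i j * pd i (pd j F) x
      - ∑ j, b x j * pd j F x) = 0) : h =ᵐ[volume] 0 := by
  have hL2 : ∀ R : ℝ, MemLp h 2 (volume.restrict (closedBall (0 : EE n) R)) := by
    intro R
    rw [memLp_two_iff_integrable_sq hm.restrict]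
    have hρi : Continuous (fun x => (ρ x)⁻¹) := D.hρ.inv₀ (fun x => (D.hρ0 x).ne')
    obtain ⟨B, hB⟩ := (isCompact_closedBall (0 : EE n) R).exists_bound_of_continuousOn hρi.continuousOn
    have h1 : Integrable (fun x => (ρ x)⁻¹ * (ρ x * (h x * h x))) (volume.restrict (closedBall (0 : EE n) R)) := by
      refine Integrable.bdd_mul (c := B) hint.restrict hρi.aestronglyMeasurable ?_
      rw [ae_restrict_iff' measurableSet_closedBall]
      exact Eventually.of_forall hB
    refine h1.congr (Eventually.of_forall fun x => ?_)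
    have := (D.hρ0 x).ne'
    simp only []
    field_simp
  have hloc : LocallyIntegrable h volume := by
    rw [locallyIntegrable_iff]
    intro K hK
    obtain ⟨R, hR⟩ := hK.isBounded.subset_closedBall (0 : EE n)
    have : IsFiniteMeasure (volume.restrict (closedBall (0 : EE n) R)) :=
      ⟨by rw [Measure.restrict_apply_univ]; exact (isCompact_closedBall _ _).measure_lt_top⟩
    have h1 : Integrable h (volume.restrict (closedBall (0 : EE n) R)) :=
      (hL2 R).integrable (by norm_num)
    exact IntegrableOn.mono_set h1 hR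
  obtain ⟨G, hG0, hG⟩ := exists_cutoff (n := n)
  set I := ∫ x, ρ x * (h x * h x) with hI
  have hI0 : 0 ≤ I := integral_nonneg fun x => mul_nonneg (D.hρ0 x).le (mul_self_nonneg _)
  set K := |2 * C + 1| * (n * G ^ 2 * I) with hK
  have hbound : ∀ R : ℝ, 1 ≤ R → ∫ x in closedBall (0 : EE n) R, ρ x * (h x * h x) ≤ K / R ^ 2 := by
    intro R hR
    have hR0 : 0 < R := by linarith
    obtain ⟨ζ, hζ, hζ1, hζ0, hζG⟩ := hG R hR
    have hmain := main_ineq D hloc hL2 heq hζ hζ0
    have hζc : Continuous ζ := hζ.1.continuous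
    obtain ⟨Bz, hBz0, hBz⟩ := hζ.bdd
    have hsum : ∀ x, ∑ j, pd j ζ x ^ 2 ≤ n * (G / R) ^ 2 := by
      intro x
      calc ∑ j, pd j ζ x ^ 2 ≤ ∑ _j : Fin n, (G / R) ^ 2 := by
            apply Finset.sum_le_sum; intro j _
            rw [← sq_abs]
            gcongr
            exact hζG j x
        _ = n * (G / R) ^ 2 := by simp
    have hsum0 : ∀ x, 0 ≤ ∑ j, pd j ζ x ^ 2 := fun x => Finset.sum_nonneg fun j _ => sq_nonneg _
    have hqc : Continuous (fun x => ∑ j, pd j ζ x ^ 2) :=
      continuous_finsetSum _ fun j _ => ((hζ.pd j).1.continuous).pow 2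
    have int1 : Integrable (fun x => ζ x ^ 2 * (ρ x * (h x * h x))) volume := by
      refine Integrable.bdd_mul (c := Bz ^ 2) hint (hζc.pow 2).aestronglyMeasurable ?_
      refine Eventually.of_forall fun x => ?_
      rw [Real.norm_eq_abs, abs_of_nonneg (sq_nonneg _), ← sq_abs]
      gcongr
      exact hBz x
    have int2 : Integrable (fun x => (∑ j, pd j ζ x ^ 2) * (ρ x * (h x * h x))) volume := by
      refine Integrable.bdd_mul (c := n * (G / R) ^ 2) hint hqc.aestronglyMeasurable ?_
      refine Eventually.of_forall fun x => ?_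
      rw [Real.norm_eq_abs, abs_of_nonneg (hsum0 x)]
      exact hsum x
    have e1 : (fun x => ζ x ^ 2 * (h x * (ρ x * h x))) = fun x => ζ x ^ 2 * (ρ x * (h x * h x)) := by
      funext x; ring
    have e2 : (fun x => (ρ x * ∑ j, pd j ζ x ^ 2) * (h x * h x)) =
        fun x => (∑ j, pd j ζ x ^ 2) * (ρ x * (h x * h x)) := by
      funext x; ring
    rw [e1, e2] at hmain
    have hsub : closedBall (0 : EE n) R ⊆ closedBall (0 : EE n) (2 * R) :=
      closedBall_subset_closedBall (by linarith)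
    calc ∫ x in closedBall (0 : EE n) R, ρ x * (h x * h x)
        = ∫ x in closedBall (0 : EE n) R, ζ x ^ 2 * (ρ x * (h x * h x)) := by
          apply setIntegral_congr_fun measurableSet_closedBall
          intro x hx
          simp only []
          rw [hζ1 x hx]; ring
      _ ≤ ∫ x in closedBall (0 : EE n) (2 * R), ζ x ^ 2 * (ρ x * (h x * h x)) := by
          apply setIntegral_mono_set int1.integrableOn _ hsub.eventuallyLE
          exact Eventually.of_forall fun x => mul_nonneg (sq_nonneg _)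
            (mul_nonneg (D.hρ0 x).le (mul_self_nonneg _))
      _ ≤ (2 * C + 1) * ∫ x in closedBall (0 : EE n) (2 * R), (∑ j, pd j ζ x ^ 2) * (ρ x * (h x * h x)) := hmain
      _ ≤ |2 * C + 1| * ∫ x, (n * (G / R) ^ 2) * (ρ x * (h x * h x)) := by
          have n1 : 0 ≤ ∫ x in closedBall (0 : EE n) (2 * R), (∑ j, pd j ζ x ^ 2) * (ρ x * (h x * h x)) :=
            integral_nonneg fun x => mul_nonneg (hsum0 x)
              (mul_nonneg (D.hρ0 x).le (mul_self_nonneg _))
          refine (mul_le_mul_of_nonneg_right (le_abs_self _) n1).trans ?_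
          gcongr
          calc ∫ x in closedBall (0 : EE n) (2 * R), (∑ j, pd j ζ x ^ 2) * (ρ x * (h x * h x))
              ≤ ∫ x, (∑ j, pd j ζ x ^ 2) * (ρ x * (h x * h x)) := by
                apply setIntegral_le_integral int2
                exact Eventually.of_forall fun x => mul_nonneg (hsum0 x)
                  (mul_nonneg (D.hρ0 x).le (mul_self_nonneg _))
            _ ≤ ∫ x, (n * (G / R) ^ 2) * (ρ x * (h x * h x)) := by
                apply integral_mono int2 (hint.const_mul _)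
                intro x
                exact mul_le_mul_of_nonneg_right (hsum x)
                  (mul_nonneg (D.hρ0 x).le (mul_self_nonneg _))
      _ = K / R ^ 2 := by
          rw [integral_const_mul, ← hI, hK]
          field_simp
  have hlim : Tendsto (fun N : ℕ => K / ((N : ℝ) + 1) ^ 2) atTop (𝓝 0) := by
    have h1 : Tendsto (fun N : ℕ => ((N : ℝ) + 1)) atTop atTop :=
      tendsto_atTop_add_const_right _ _ tendsto_natCast_atTop_atTop
    exact ((tendsto_pow_atTop (two_ne_zero)).comp h1).const_div_atTop K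
  have hzero : ∀ m : ℕ, ∫ x in closedBall (0 : EE n) m, ρ x * (h x * h x) ≤ 0 := by
    intro m
    refine ge_of_tendsto hlim ?_
    filter_upwards [eventually_ge_atTop m] with N hN
    have hNm : (m : ℝ) ≤ (N : ℝ) + 1 := by
      have : (m : ℝ) ≤ N := Nat.cast_le.2 hN
      linarith
    calc ∫ x in closedBall (0 : EE n) m, ρ x * (h x * h x)
        ≤ ∫ x in closedBall (0 : EE n) ((N : ℝ) + 1), ρ x * (h x * h x) := by
          apply setIntegral_mono_set hint.integrableOn _ (closedBall_subset_closedBall hNm).eventuallyLE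
          exact Eventually.of_forall fun x => mul_nonneg (D.hρ0 x).le (mul_self_nonneg _)
      _ ≤ K / ((N : ℝ) + 1) ^ 2 := hbound _ (by linarith [(Nat.cast_nonneg N : (0:ℝ) ≤ N)])
  have hae : ∀ m : ℕ, ∀ᵐ x ∂volume, x ∈ closedBall (0 : EE n) m → h x = 0 := by
    intro m
    have h0 : ∫ x in closedBall (0 : EE n) m, ρ x * (h x * h x) = 0 :=
      le_antisymm (hzero m) (integral_nonneg fun x => mul_nonneg (D.hρ0 x).le (mul_self_nonneg _))
    rw [integral_eq_zero_iff_of_nonneg (fun x => mul_nonneg (D.hρ0 x).le (mul_self_nonneg _))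
      hint.integrableOn] at h0
    rw [Filter.EventuallyEq, ae_restrict_iff' measurableSet_closedBall] at h0
    filter_upwards [h0] with x hx hxm
    have h1 := hx hxm
    simp only [Pi.zero_apply, mul_eq_zero, or_self] at h1
    rcases h1 with h1 | h1
    · exact absurd h1 (D.hρ0 x).ne'
    · exact h1
  rw [← ae_all_iff] at hae
  filter_upwards [hae] with x hx
  obtain ⟨m, hm'⟩ := exists_nat_ge ‖x‖
  exact hx m (by rw [mem_closedBall_zero_iff]; exact hm')

end Vale.Agent.P227.M.Esa929
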