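import Vale.Agent.P227.M.LIN.H1Main
import Vale.Agent.P227.M.LIN.H1Pt
import Vale.Agent.P227.M.LIN.H1Av
import Vale.Agent.P227.M.LIN.H1Leb
import Vale.Agent.P227.M.LIN.H1Com
import Vale.Agent.P227.M.LIN.H1Alg
import Vale.Agent.P227.M.LIN.H1Mo

/-! # P227/M/LIN: `StmtH1` (helper72; blocks by 52, 414, 479, 592, 700, 966 and others). -/

open MeasureTheory Filter Metric Set
open scoped Topology

namespace Vale.Agent.P227.M.LIN.H1M

theorem stmtH1 : StmtH1 := by
  intro n ψ V c C M hV hM w v hw hv h1 h2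
  by_cases hZ : 0 < ∫ x, Real.exp (-V x)
  · obtain ⟨T1, hT1, hpt⟩ := pt_bound hM
    obtain ⟨C2, hC2, hav⟩ := av_L2 hV.smooth.continuous (nice_lip hV)
    obtain ⟨Tc, hTc, hcom⟩ := Lop_pd hM
    exact core hV.smooth.continuous hZ hT1 hpt hC2 hav
      (fun g K hg hs b => leb hV.smooth.continuous hg hs b) (fun f hf => Lop_lip hM hf) hTc hcom
      (fun g K hg => lip_ae hg) (fun m g hg => mo_test m hg) w v hw hv h1 h2
  · have hZ0 : ∫ x, Real.exp (-V x) = 0 :=
      le_antisymm (not_lt.1 hZ) (integral_nonneg fun x => (Real.exp_pos _).le)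
    have h0 : ∀ f : E n → ℝ, Ex V f = 0 := by
      intro f
      show (∫ x, f x * Real.exp (-V x)) / (∫ x, Real.exp (-V x)) = 0
      rw [hZ0, div_zero]
    refine ⟨0, fun δ hδ => ⟨fun _ => 0, 0, test_zero, ?_, ?_, ?_⟩⟩
    · rw [h0]; exact hδ.le
    · intro i _; rw [h0]; exact hδ.le
    · rw [h0]

end Vale.Agent.P227.M.LIN.H1M
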