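import Vale.Agent.P227.M.LIN.H1Pt0

/-! # P227/M/LIN: `StmtH1` from the pointwise bound (helper72). -/

open MeasureTheory Filter Metric Set
open scoped Topology

namespace Vale.Agent.P227.M.LIN.H1M

variable {n m : ℕ} {R : ℝ}

/-! ## test functions -/

theorem test_cont {f : E n → ℝ} (hf : Test f) : Continuous f := hf.1.continuous

theorem test_diff {f : E n → ℝ} (hf : Test f) (x : E n) : DifferentiableAt ℝ f x :=
  (hf.1.differentiable (by simp)) x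

theorem test_pd {f : E n → ℝ} (hf : Test f) (b : Fin n) : Test (pd b f) := by
  refine ⟨?_, ?_⟩
  · exact (hf.1.fderiv_right (m := (⊤ : ℕ∞)) (by simp)).clm_apply contDiff_const
  · exact hf.2.fderiv_apply (𝕜 := ℝ) (ei b)

theorem test_add {f g : E n → ℝ} (hf : Test f) (hg : Test g) : Test (fun x => f x + g x) :=
  ⟨hf.1.add hg.1, hf.2.add hg.2⟩

theorem test_sub {f g : E n → ℝ} (hf : Test f) (hg : Test g) : Test (fun x => f x - g x) :=
  ⟨hf.1.sub hg.1, hf.2.sub hg.2⟩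

theorem test_mul {f g : E n → ℝ} (hf : Test f) (hg : Test g) : Test (fun x => f x * g x) :=
  ⟨hf.1.mul hg.1, hf.2.mul_right⟩

theorem test_zero : Test (fun _ : E n => (0 : ℝ)) :=
  ⟨contDiff_const, HasCompactSupport.zero⟩

theorem pd_add {f g : E n → ℝ} {x : E n} (hf : DifferentiableAt ℝ f x) (hg : DifferentiableAt ℝ g x) (b : Fin n) :
    pd b (fun y => f y + g y) x = pd b f x + pd b g x := by
  unfold pd
  rw [fderiv_fun_add hf hg]; rfl

theorem pd_sub {f g : E n → ℝ} {x : E n} (hf : DifferentiableAt ℝ f x) (hg : DifferentiableAt ℝ g x) (b : Fin n) :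
    pd b (fun y => f y - g y) x = pd b f x - pd b g x := by
  unfold pd
  rw [fderiv_fun_sub hf hg]; rfl

theorem hess_add {f g : E n → ℝ} (hf : Test f) (hg : Test g) (x : E n) (a b : Fin n) :
    hess (fun y => f y + g y) x a b = hess f x a b + hess g x a b := by
  unfold hess
  have h1 : pd b (fun y => f y + g y) = fun y => pd b f y + pd b g y := by
    funext y; exact pd_add (test_diff hf y) (test_diff hg y) b
  rw [h1]
  exact pd_add (test_diff (test_pd hf b) x) (test_diff (test_pd hg b) x) a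

theorem hess_sub {f g : E n → ℝ} (hf : Test f) (hg : Test g) (x : E n) (a b : Fin n) :
    hess (fun y => f y - g y) x a b = hess f x a b - hess g x a b := by
  unfold hess
  have h1 : pd b (fun y => f y - g y) = fun y => pd b f y - pd b g y := by
    funext y; exact pd_sub (test_diff hf y) (test_diff hg y) b
  rw [h1]
  exact pd_sub (test_diff (test_pd hf b) x) (test_diff (test_pd hg b) x) a

/-! ## second order quantities -/

/-- `f² + |∇f|² + |D²f|²` -/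
noncomputable def q2 (f : E n → ℝ) (x : E n) : ℝ :=
  f x ^ 2 + (∑ a, (pd a f x) ^ 2) + ∑ a, ∑ b, (hess f x a b) ^ 2

theorem q2_nonneg (f : E n → ℝ) (x : E n) : 0 ≤ q2 f x := by unfold q2; positivity

theorem q2_cont {f : E n → ℝ} (hf : Test f) : Continuous (q2 f) := by
  unfold q2
  refine ((test_cont hf).pow 2).add (continuous_finsetSum _ fun a _ => (test_cont (test_pd hf a)).pow 2) |>.add ?_
  exact continuous_finsetSum _ fun a _ => continuous_finsetSum _ fun b _ =>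
    (test_cont (test_pd (test_pd hf b) a)).pow 2

theorem cs_eventually {f : E n → ℝ} (hf : HasCompactSupport f) : ∃ R : ℝ, ∀ x, R ≤ ‖x‖ → f x = 0 := by
  obtain ⟨R, hR⟩ := hf.isCompact.isBounded.subset_closedBall (0 : E n)
  refine ⟨R + 1, fun x hx => ?_⟩
  by_contra h
  have h1 : x ∈ tsupport f := subset_tsupport f h
  have h2 := hR h1
  rw [mem_closedBall, dist_zero_right] at h2
  linarith

theorem cs_of_zero {f : E n → ℝ} {R : ℝ} (hf : ∀ x, R ≤ ‖x‖ → f x = 0) : HasCompactSupport f := by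
  refine HasCompactSupport.of_support_subset_isCompact (isCompact_closedBall (0 : E n) R) ?_
  intro x hx
  rw [mem_closedBall, dist_zero_right]
  by_contra h
  exact hx (hf x (by push Not at h; exact h.le))

theorem q2_cs {f : E n → ℝ} (hf : Test f) : HasCompactSupport (q2 f) := by
  unfold q2
  have key : ∀ (g : E n → ℝ), HasCompactSupport g → HasCompactSupport (fun x => g x ^ 2) := by
    intro g hg
    obtain ⟨R, hR⟩ := cs_eventually hg
    exact cs_of_zero (R := R) (fun x hx => by simp [hR x hx])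
  have hs : ∀ (s : Finset (Fin n)) (g : Fin n → E n → ℝ), (∀ a, HasCompactSupport (g a)) →
      HasCompactSupport (fun x => ∑ a ∈ s, g a x) := by
    intro s g hg
    choose R hR using fun a => cs_eventually (hg a)
    refine cs_of_zero (R := ∑ a, |R a|) (fun x hx => ?_)
    refine Finset.sum_eq_zero fun a _ => hR a x ?_
    exact (le_abs_self _).trans ((Finset.single_le_sum (f := fun a => |R a|) (fun i _ => abs_nonneg _)
      (Finset.mem_univ a)).trans hx)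
  refine ((key _ hf.2).add (hs _ _ fun a => key _ (test_pd hf a).2)).add ?_
  exact hs _ _ fun a => hs _ _ fun b => key _ (test_pd (test_pd hf b) a).2

theorem sq_sum_le (f : Fin n → ℝ) : (∑ a, |f a|) ^ 2 ≤ n * ∑ a, (f a) ^ 2 := by
  have := sq_sum_le_card_mul_sum_sq (s := (Finset.univ : Finset (Fin n))) (f := fun a => |f a|)
  simpa using this

/-- constant -/
noncomputable def NS (n : ℕ) : ℝ := 3 * (1 + n + n * n)

theorem NS_pos : 0 < NS n := by unfold NS; positivity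

theorem S2_sq (f : E n → ℝ) (x : E n) : (S2 f x) ^ 2 ≤ NS n * q2 f x := by
  unfold S2 q2 NS
  have h1 := sq_sum_le (fun a => pd a f x)
  have h2 : (∑ a, ∑ b, |hess f x a b|) ^ 2 ≤ n * (n * ∑ a, ∑ b, (hess f x a b) ^ 2) := by
    have h3 := sq_sum_le (fun a => ∑ b, |hess f x a b|)
    have h4 : ∀ a, abs (∑ b, |hess f x a b|) = ∑ b, |hess f x a b| := fun a =>
      abs_of_nonneg (Finset.sum_nonneg fun b _ => abs_nonneg _)
    simp only [h4] at h3
    refine h3.trans (mul_le_mul_of_nonneg_left ?_ (Nat.cast_nonneg n))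
    rw [Finset.mul_sum]
    exact Finset.sum_le_sum fun a _ => sq_sum_le (fun b => hess f x a b)
  set A := |f x|
  set P := ∑ a, |pd a f x|
  set Q := ∑ a, ∑ b, |hess f x a b|
  set p := ∑ a, (pd a f x) ^ 2
  set q := ∑ a, ∑ b, (hess f x a b) ^ 2
  have hp : 0 ≤ p := Finset.sum_nonneg fun _ _ => sq_nonneg _
  have hq : 0 ≤ q := Finset.sum_nonneg fun _ _ => Finset.sum_nonneg fun _ _ => sq_nonneg _
  have hA : A ^ 2 = f x ^ 2 := sq_abs _
  have hn : (0 : ℝ) ≤ n := Nat.cast_nonneg n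
  have e1 : (A + P + Q) ^ 2 ≤ 3 * (A ^ 2 + P ^ 2 + Q ^ 2) := by
    nlinarith [sq_nonneg (A - P), sq_nonneg (A - Q), sq_nonneg (P - Q)]
  have e2 : A ^ 2 + P ^ 2 + Q ^ 2 ≤ f x ^ 2 + n * p + n * (n * q) := by rw [hA]; linarith
  have hf2 : 0 ≤ f x ^ 2 := sq_nonneg _
  have e3 : f x ^ 2 + n * p + n * (n * q) ≤ (1 + n + n * n) * (f x ^ 2 + p + q) := by
    nlinarith [mul_nonneg hn hf2, mul_nonneg hn hp, mul_nonneg hn hq, mul_nonneg (mul_nonneg hn hn) hf2,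
      mul_nonneg (mul_nonneg hn hn) hp, mul_nonneg (mul_nonneg hn hn) hq]
  nlinarith

theorem S2_cont {f : E n → ℝ} (hf : Test f) : Continuous (S2 f) := by
  unfold S2
  refine ((test_cont hf).abs).add (continuous_finsetSum _ fun a _ => (test_cont (test_pd hf a)).abs) |>.add ?_
  exact continuous_finsetSum _ fun a _ => continuous_finsetSum _ fun b _ =>
    (test_cont (test_pd (test_pd hf b) a)).abs

theorem S2_cs {f : E n → ℝ} (hf : Test f) : HasCompactSupport (S2 f) := by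
  obtain ⟨R, hR⟩ := cs_eventually (q2_cs hf)
  refine cs_of_zero (R := R) (fun x hx => ?_)
  have h1 := S2_sq f x
  rw [hR x hx, mul_zero] at h1
  exact pow_eq_zero_iff (two_ne_zero) |>.mp (le_antisymm h1 (sq_nonneg _))

theorem q2_add_le {f g : E n → ℝ} (hf : Test f) (hg : Test g) (x : E n) :
    q2 (fun y => f y + g y) x ≤ 2 * q2 f x + 2 * q2 g x := by
  unfold q2
  have h1 : ∀ a, (pd a (fun y => f y + g y) x) ^ 2 ≤ 2 * (pd a f x) ^ 2 + 2 * (pd a g x) ^ 2 := by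
    intro a
    rw [pd_add (test_diff hf x) (test_diff hg x)]
    nlinarith [sq_nonneg (pd a f x - pd a g x)]
  have h2 : ∀ a b, (hess (fun y => f y + g y) x a b) ^ 2 ≤ 2 * (hess f x a b) ^ 2 + 2 * (hess g x a b) ^ 2 := by
    intro a b
    rw [hess_add hf hg]
    nlinarith [sq_nonneg (hess f x a b - hess g x a b)]
  have h3 : ∑ a, (pd a (fun y => f y + g y) x) ^ 2 ≤ 2 * ∑ a, (pd a f x) ^ 2 + 2 * ∑ a, (pd a g x) ^ 2 := by
    rw [Finset.mul_sum, Finset.mul_sum, ← Finset.sum_add_distrib]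
    exact Finset.sum_le_sum fun a _ => h1 a
  have h4 : ∑ a, ∑ b, (hess (fun y => f y + g y) x a b) ^ 2
      ≤ 2 * ∑ a, ∑ b, (hess f x a b) ^ 2 + 2 * ∑ a, ∑ b, (hess g x a b) ^ 2 := by
    rw [Finset.mul_sum, Finset.mul_sum, ← Finset.sum_add_distrib]
    refine Finset.sum_le_sum fun a _ => ?_
    rw [Finset.mul_sum, Finset.mul_sum, ← Finset.sum_add_distrib]
    exact Finset.sum_le_sum fun b _ => h2 a b
  nlinarith [sq_nonneg (f x - g x)]

/-! ## integrals -/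

/-- unnormalised integral with weight `e^{-V}` -/
noncomputable def J (V f : E n → ℝ) : ℝ := ∫ x, f x * Real.exp (-V x)

theorem int_w {V f : E n → ℝ} (hV : Continuous V) (hf : Continuous f) (hs : HasCompactSupport f) :
    Integrable (fun x => f x * Real.exp (-V x)) :=
  Continuous.integrable_of_hasCompactSupport (hf.mul (Real.continuous_exp.comp hV.neg)) hs.mul_right

theorem J_mono {V f g : E n → ℝ} (hf : ∀ᵐ x, 0 ≤ f x) (hg : Integrable (fun x => g x * Real.exp (-V x)))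
    (h : ∀ᵐ x, f x ≤ g x) : J V f ≤ J V g := by
  unfold J
  refine integral_mono_of_nonneg ?_ hg ?_
  · filter_upwards [hf] with x hx
    exact mul_nonneg hx (Real.exp_pos _).le
  · filter_upwards [h] with x hx
    exact mul_le_mul_of_nonneg_right hx (Real.exp_pos _).le

theorem J_nonneg {V f : E n → ℝ} (hf : ∀ x, 0 ≤ f x) : 0 ≤ J V f :=
  integral_nonneg fun x => mul_nonneg (hf x) (Real.exp_pos _).le

theorem J_add {V f g : E n → ℝ} (hf : Integrable (fun x => f x * Real.exp (-V x)))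
    (hg : Integrable (fun x => g x * Real.exp (-V x))) : J V (fun x => f x + g x) = J V f + J V g := by
  unfold J
  rw [← integral_add hf hg]
  congr 1; ext x; ring

theorem J_smul {V f : E n → ℝ} (k : ℝ) : J V (fun x => k * f x) = k * J V f := by
  unfold J
  rw [← integral_const_mul]
  congr 1; ext x; ring

theorem J_sum {V : E n → ℝ} {ι : Type*} (s : Finset ι) {f : ι → E n → ℝ}
    (hf : ∀ i ∈ s, Integrable (fun x => f i x * Real.exp (-V x))) :
    J V (fun x => ∑ i ∈ s, f i x) = ∑ i ∈ s, J V (f i) := by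
  unfold J
  rw [← integral_finsetSum s hf]
  congr 1; ext x; rw [Finset.sum_mul]

theorem iadd {V f g : E n → ℝ} (hf : Integrable (fun x => f x * Real.exp (-V x)))
    (hg : Integrable (fun x => g x * Real.exp (-V x))) :
    Integrable (fun x => (f x + g x) * Real.exp (-V x)) := by
  refine (hf.add hg).congr (Eventually.of_forall fun x => ?_)
  simp only [Pi.add_apply]; ring

theorem ismul {V f : E n → ℝ} (k : ℝ) (hf : Integrable (fun x => f x * Real.exp (-V x))) :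
    Integrable (fun x => (k * f x) * Real.exp (-V x)) := by
  refine (hf.const_mul k).congr (Eventually.of_forall fun x => ?_)
  ring

theorem isum {V : E n → ℝ} {ι : Type*} (s : Finset ι) {f : ι → E n → ℝ}
    (hf : ∀ i ∈ s, Integrable (fun x => f i x * Real.exp (-V x))) :
    Integrable (fun x => (∑ i ∈ s, f i x) * Real.exp (-V x)) := by
  refine (integrable_finsetSum s hf).congr (Eventually.of_forall fun x => ?_)
  simp only [Finset.sum_mul]

/-- the hypothesis `av_L2`, in terms of `J` -/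
def AvHyp (V : E n → ℝ) (C2 : ℝ) : Prop :=
  ∀ R : ℝ, ∃ m0 : ℕ, ∀ m ≥ m0, ∀ g : E n → ℝ, Continuous g → HasCompactSupport g →
    Integrable (fun x => (closedBall (0 : E n) R).indicator
      (fun x => (av m (fun y => |g y|) x) ^ 2 * Real.exp (-V x)) x) ∧
    ∫ x in closedBall (0 : E n) R, (av m (fun y => |g y|) x) ^ 2 * Real.exp (-V x)
      ≤ C2 * ∫ x, g x ^ 2 * Real.exp (-V x)

theorem avR_J {V : E n → ℝ} {C2 : ℝ} (hav : AvHyp V C2) (R : ℝ) : ∃ m0 : ℕ, ∀ m ≥ m0, ∀ g : E n → ℝ,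
    Continuous g → HasCompactSupport g →
    Integrable (fun x => (avR m R g x) ^ 2 * Real.exp (-V x)) ∧
    J V (fun x => (avR m R g x) ^ 2) ≤ C2 * J V (fun x => g x ^ 2) := by
  obtain ⟨m0, hm0⟩ := hav (2 * R)
  refine ⟨m0, fun m hm g hg hs => ?_⟩
  obtain ⟨h1, h2⟩ := hm0 m hm g hg hs
  have e : (fun x => (avR m R g x) ^ 2 * Real.exp (-V x)) = fun x => (closedBall (0 : E n) (2 * R)).indicator
      (fun x => (av m (fun y => |g y|) x) ^ 2 * Real.exp (-V x)) x := by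
    funext x
    unfold avR
    by_cases hx : x ∈ closedBall (0 : E n) (2 * R)
    · rw [indicator_of_mem hx, indicator_of_mem hx]
    · rw [indicator_of_notMem hx, indicator_of_notMem hx]; ring
  refine ⟨by rw [e]; exact h1, ?_⟩
  unfold J
  rw [e, integral_indicator measurableSet_closedBall]
  exact h2

theorem S2_J {V : E n → ℝ} (hV : Continuous V) {d : E n → ℝ} (hd : Test d) :
    J V (fun x => S2 d x ^ 2) ≤ NS n * J V (q2 d) := by
  rw [← J_smul]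
  refine J_mono (Eventually.of_forall fun x => sq_nonneg _) (ismul _ (int_w hV (q2_cont hd) (q2_cs hd)))
    (Eventually.of_forall fun x => S2_sq d x)

/-! ## the core -/

theorem test_lp {f : E n → ℝ} (hf : Test f) : ∃ K : ℝ, 0 ≤ K ∧ Lp f K := by
  obtain ⟨C, hC⟩ := hf.1.lipschitzWith_of_hasCompactSupport hf.2 (by simp)
  refine ⟨C, C.2, fun x y => ?_⟩
  have := hC.dist_le_mul x y
  rwa [Real.dist_eq, dist_eq_norm] at this

theorem lp_sub {f g : E n → ℝ} {K K' : ℝ} (hf : Lp f K) (hg : Lp g K') : Lp (fun x => f x - g x) (K + K') := by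
  intro x y
  have h1 := hf x y
  have h2 := hg x y
  have e : f x - g x - (f y - g y) = (f x - f y) - (g x - g y) := by ring
  rw [e]
  calc |(f x - f y) - (g x - g y)| ≤ |f x - f y| + |g x - g y| := abs_sub _ _
    _ ≤ (K + K') * ‖x - y‖ := by linarith

/-- the hypothesis of `Lop_lip` -/
def LipHyp (ψ : E n → ℝ) : Prop :=
  ∀ f : E n → ℝ, Test f → Continuous (Lop ψ f) ∧ HasCompactSupport (Lop ψ f) ∧ ∃ K, Lp (Lop ψ f) K

theorem gg_props {ψ : E n → ℝ} (hL : LipHyp ψ) {w f : E n → ℝ} (hw : Test w) (hf : Test f) :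
    Continuous (gg ψ w f) ∧ HasCompactSupport (gg ψ w f) ∧ ∃ K, Lp (gg ψ w f) K := by
  obtain ⟨h1, h2, K, h3⟩ := hL f hf
  obtain ⟨Kf, _, hKf⟩ := test_lp hf
  obtain ⟨Kw, _, hKw⟩ := test_lp hw
  refine ⟨((test_cont hf).sub h1).sub (test_cont hw), (hf.2.sub h2).sub hw.2, ⟨_, lp_sub (lp_sub hKf h3) hKw⟩⟩

theorem sq3 (a b c : ℝ) : (a + b + c) ^ 2 ≤ 3 * a ^ 2 + 3 * b ^ 2 + 3 * c ^ 2 := by
  nlinarith [sq_nonneg (a - b), sq_nonneg (a - c), sq_nonneg (b - c)]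

theorem sq4 (a b c d : ℝ) : (a + b + c + d) ^ 2 ≤ 4 * a ^ 2 + 4 * b ^ 2 + 4 * c ^ 2 + 4 * d ^ 2 := by
  nlinarith [sq_nonneg (a - b), sq_nonneg (a - c), sq_nonneg (b - c), sq_nonneg (a - d), sq_nonneg (b - d),
    sq_nonneg (c - d)]

theorem avR_nonneg (m : ℕ) (R : ℝ) (g : E n → ℝ) (x : E n) : 0 ≤ avR m R g x := by
  unfold avR
  refine indicator_nonneg (fun x _ => ?_) x
  unfold av
  have := dl_pos m
  exact mul_nonneg (by positivity) (integral_nonneg (fun t => abs_nonneg _))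

/-- dominating function for `∑ (∂_b gg)²` -/
noncomputable def Dom1 (ψ w v0 v : E n → ℝ) (T1 R : ℝ) (m : ℕ) (x : E n) : ℝ :=
  3 * (∑ b, (pd b (gg ψ w v0) x - mo m (pd b (gg ψ w v0)) x) ^ 2)
    + (3 * n * (T1 * (dl m)⁻¹) ^ 2) * (avR m R (gg ψ w v) x) ^ 2
    + (3 * n * T1 ^ 2) * (avR m R (S2 (fun y => v y - v0 y)) x) ^ 2

theorem dom1_le {ψ w v0 v : E n → ℝ} {T1 R : ℝ} {χ : E n → ℝ} (hpt : PtBound ψ T1 R χ)
    (hw : Test w) (hv0 : Test v0) (hv : Test v) (hR : ∀ x, R - 1 ≤ ‖x‖ → gg ψ w v0 x = 0) (m : ℕ) :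
    ∀ᵐ x, ∑ b, (pd b (gg ψ w (FF m χ v0 v)) x) ^ 2 ≤ Dom1 ψ w v0 v T1 R m x := by
  filter_upwards [(hpt m v0 v w hv0 hv hw hR).1] with x hx
  have h1 : ∀ b, (pd b (gg ψ w (FF m χ v0 v)) x) ^ 2 ≤
      3 * (pd b (gg ψ w v0) x - mo m (pd b (gg ψ w v0)) x) ^ 2 + 3 * (T1 * (dl m)⁻¹ * avR m R (gg ψ w v) x) ^ 2
        + 3 * (T1 * avR m R (S2 (fun y => v y - v0 y)) x) ^ 2 := by
    intro b
    have h2 := hx b
    have h3 : |pd b (gg ψ w (FF m χ v0 v)) x| ^ 2 ≤ (|pd b (gg ψ w v0) x - mo m (pd b (gg ψ w v0)) x|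
        + T1 * (dl m)⁻¹ * avR m R (gg ψ w v) x + T1 * avR m R (S2 (fun y => v y - v0 y)) x) ^ 2 :=
      pow_le_pow_left₀ (abs_nonneg _) h2 2
    rw [sq_abs] at h3
    refine h3.trans ((sq3 _ _ _).trans ?_)
    rw [sq_abs]
  refine (Finset.sum_le_sum fun b _ => h1 b).trans (le_of_eq ?_)
  unfold Dom1
  rw [Finset.sum_add_distrib, Finset.sum_add_distrib, ← Finset.mul_sum]
  simp only [Finset.sum_const, Finset.card_univ, Fintype.card_fin, nsmul_eq_mul]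
  ring

theorem FF_test {χ v0 v : E n → ℝ} (hmo : ∀ (m : ℕ) (g : E n → ℝ), Test g → Test (mo m g)) (hχ : Test χ)
    (hv0 : Test v0) (hv : Test v) (m : ℕ) : Test (fun z => χ z * mo m (fun y => v y - v0 y) z) ∧
      Test (FF m χ v0 v) := by
  have h1 : Test (fun z => χ z * mo m (fun y => v y - v0 y) z) :=
    test_mul hχ (hmo m _ (test_sub hv hv0))
  exact ⟨h1, test_add hv0 h1⟩

theorem dF_le {ψ w v0 v u : E n → ℝ} {T1 R : ℝ} {χ : E n → ℝ} (hpt : PtBound ψ T1 R χ)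
    (hG : Test (fun z => χ z * mo m (fun y => v y - v0 y) z))
    (hw : Test w) (hv0 : Test v0) (hv : Test v) (hu : Test u)
    (hR : ∀ x, R - 1 ≤ ‖x‖ → gg ψ w v0 x = 0) (x : E n) :
    ∑ b, (pd b (FF m χ v0 v) x - pd b u x) ^ 2 ≤ 2 * q2 (fun y => v0 y - u y) x
      + (2 * n * T1 ^ 2) * (avR m R (S2 (fun y => v y - v0 y)) x) ^ 2 := by
  have hb := (hpt m v0 v w hv0 hv hw hR).2.1 x
  have h1 : ∀ b, (pd b (FF m χ v0 v) x - pd b u x) ^ 2 ≤ 2 * (pd b (fun y => v0 y - u y) x) ^ 2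
      + 2 * (T1 * avR m R (S2 (fun y => v y - v0 y)) x) ^ 2 := by
    intro b
    have e1 : pd b (FF m χ v0 v) x = pd b v0 x + pd b (fun z => χ z * mo m (fun y => v y - v0 y) z) x :=
      pd_add (test_diff hv0 x) (test_diff hG x) b
    have e2 : pd b (fun y => v0 y - u y) x = pd b v0 x - pd b u x :=
      pd_sub (test_diff hv0 x) (test_diff hu x) b
    rw [e1, e2]
    have h3 : |pd b (fun z => χ z * mo m (fun y => v y - v0 y) z) x| ^ 2 ≤
        (T1 * avR m R (S2 (fun y => v y - v0 y)) x) ^ 2 := pow_le_pow_left₀ (abs_nonneg _) (hb b) 2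
    rw [sq_abs] at h3
    nlinarith [sq_nonneg (pd b v0 x - pd b u x - pd b (fun z => χ z * mo m (fun y => v y - v0 y) z) x)]
  refine (Finset.sum_le_sum fun b _ => h1 b).trans ?_
  rw [Finset.sum_add_distrib, ← Finset.mul_sum]
  simp only [Finset.sum_const, Finset.card_univ, Fintype.card_fin, nsmul_eq_mul]
  have h4 : ∑ b, (pd b (fun y => v0 y - u y) x) ^ 2 ≤ q2 (fun y => v0 y - u y) x := by
    unfold q2
    have : 0 ≤ ∑ a, ∑ b, (hess (fun y => v0 y - u y) x a b) ^ 2 :=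
      Finset.sum_nonneg fun _ _ => Finset.sum_nonneg fun _ _ => sq_nonneg _
    nlinarith [sq_nonneg (v0 x - u x)]
  nlinarith

/-- gradient and Hessian part -/
noncomputable def qd (f : E n → ℝ) (x : E n) : ℝ :=
  (∑ a, (pd a f x) ^ 2) + ∑ a, ∑ b, (hess f x a b) ^ 2

theorem qd_le {ψ w v0 v : E n → ℝ} {T1 R : ℝ} {χ : E n → ℝ} (hpt : PtBound ψ T1 R χ)
    (hG : Test (fun z => χ z * mo m (fun y => v y - v0 y) z))
    (hw : Test w) (hv0 : Test v0) (hv : Test v)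
    (hR : ∀ x, R - 1 ≤ ‖x‖ → gg ψ w v0 x = 0) (x : E n) :
    qd (FF m χ v0 v) x ≤ 2 * q2 v0 x
      + (2 * (n + n * n) * T1 ^ 2) * (avR m R (S2 (fun y => v y - v0 y)) x) ^ 2 := by
  obtain ⟨-, hb, hc⟩ := hpt m v0 v w hv0 hv hw hR
  have h1 : ∀ b, (pd b (FF m χ v0 v) x) ^ 2 ≤ 2 * (pd b v0 x) ^ 2
      + 2 * (T1 * avR m R (S2 (fun y => v y - v0 y)) x) ^ 2 := by
    intro b
    have e1 : pd b (FF m χ v0 v) x = pd b v0 x + pd b (fun z => χ z * mo m (fun y => v y - v0 y) z) x :=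
      pd_add (test_diff hv0 x) (test_diff hG x) b
    rw [e1]
    have h3 : |pd b (fun z => χ z * mo m (fun y => v y - v0 y) z) x| ^ 2 ≤
        (T1 * avR m R (S2 (fun y => v y - v0 y)) x) ^ 2 := pow_le_pow_left₀ (abs_nonneg _) (hb x b) 2
    rw [sq_abs] at h3
    nlinarith [sq_nonneg (pd b v0 x - pd b (fun z => χ z * mo m (fun y => v y - v0 y) z) x)]
  have h2 : ∀ a b, (hess (FF m χ v0 v) x a b) ^ 2 ≤ 2 * (hess v0 x a b) ^ 2
      + 2 * (T1 * avR m R (S2 (fun y => v y - v0 y)) x) ^ 2 := by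
    intro a b
    have e1 : hess (FF m χ v0 v) x a b
        = hess v0 x a b + hess (fun z => χ z * mo m (fun y => v y - v0 y) z) x a b :=
      hess_add hv0 hG x a b
    rw [e1]
    have h3 : |hess (fun z => χ z * mo m (fun y => v y - v0 y) z) x a b| ^ 2 ≤
        (T1 * avR m R (S2 (fun y => v y - v0 y)) x) ^ 2 := pow_le_pow_left₀ (abs_nonneg _) (hc x a b) 2
    rw [sq_abs] at h3
    nlinarith [sq_nonneg (hess v0 x a b - hess (fun z => χ z * mo m (fun y => v y - v0 y) z) x a b)]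
  have h3 := Finset.sum_le_sum (s := Finset.univ) fun b _ => h1 b
  have h4 := Finset.sum_le_sum (s := Finset.univ) fun a _ => Finset.sum_le_sum (s := Finset.univ) fun b _ => h2 a b
  simp only [Finset.sum_add_distrib, ← Finset.mul_sum, Finset.sum_const, Finset.card_univ, Fintype.card_fin,
    nsmul_eq_mul] at h3 h4
  unfold qd q2
  nlinarith [sq_nonneg (v0 x)]

/-- the hypothesis of `Lop_pd` -/
def ComHyp (ψ : E n → ℝ) (Tc : ℝ) : Prop :=
  ∀ F : E n → ℝ, Test F → ∀ᵐ x, ∀ b, |Lop ψ (pd b F) x| ≤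
      |pd b (Lop ψ F) x| + Tc * (∑ i, ∑ j, |hess F x i j|) + |pd b F x|

/-- constant -/
noncomputable def K3 (n : ℕ) (Tc : ℝ) : ℝ := 16 + 4 * n * Tc ^ 2 * (n * n)

theorem third_le {ψ w F : E n → ℝ} {Tc : ℝ} (hTc : 0 < Tc) (hL : LipHyp ψ)
    (hae : ∀ (g : E n → ℝ) (K : ℝ), Lp g K → ∀ᵐ x, DifferentiableAt ℝ g x) (hcom : ComHyp ψ Tc)
    (hw : Test w) (hF : Test F) :
    ∀ᵐ x, ∑ b, (Lop ψ (pd b F) x) ^ 2 ≤ K3 n Tc * qd F x + 4 * (∑ b, (pd b w x) ^ 2)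
      + 4 * ∑ b, (pd b (gg ψ w F) x) ^ 2 := by
  obtain ⟨-, -, K, hK⟩ := hL F hF
  filter_upwards [hcom F hF, hae _ K hK] with x hx hd
  have h1 : ∀ b, (Lop ψ (pd b F) x) ^ 2 ≤ 16 * (pd b F x) ^ 2 + 4 * (pd b w x) ^ 2
      + 4 * (pd b (gg ψ w F) x) ^ 2 + 4 * Tc ^ 2 * (∑ i, ∑ j, |hess F x i j|) ^ 2 := by
    intro b
    have e1 : pd b (gg ψ w F) x = pd b F x - pd b (Lop ψ F) x - pd b w x := by
      have e2 : pd b (gg ψ w F) x = pd b (fun z => F z - Lop ψ F z) x - pd b w x :=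
        pd_sub ((test_diff hF x).sub hd) (test_diff hw x) b
      rw [e2, pd_sub (test_diff hF x) hd b]
    have h2 : |pd b (Lop ψ F) x| ≤ |pd b F x| + |pd b w x| + |pd b (gg ψ w F) x| := by
      have e3 : pd b (Lop ψ F) x = pd b F x - pd b w x - pd b (gg ψ w F) x := by rw [e1]; ring
      rw [e3]
      calc |pd b F x - pd b w x - pd b (gg ψ w F) x| ≤ |pd b F x - pd b w x| + |pd b (gg ψ w F) x| := abs_sub _ _
        _ ≤ _ := by have := abs_sub (pd b F x) (pd b w x); linarith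
    have h3 := hx b
    have h4 : |Lop ψ (pd b F) x| ≤ 2 * |pd b F x| + |pd b w x| + |pd b (gg ψ w F) x|
        + Tc * (∑ i, ∑ j, |hess F x i j|) := by linarith
    have h5 := pow_le_pow_left₀ (abs_nonneg _) h4 2
    rw [sq_abs] at h5
    refine h5.trans ((sq4 _ _ _ _).trans (le_of_eq ?_))
    rw [mul_pow, mul_pow, sq_abs, sq_abs, sq_abs]; ring
  have h6 : (∑ a, ∑ b, |hess F x a b|) ^ 2 ≤ n * n * ∑ a, ∑ b, (hess F x a b) ^ 2 := by
    have h3 := sq_sum_le (fun a => ∑ b, |hess F x a b|)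
    have h4 : ∀ a, abs (∑ b, |hess F x a b|) = ∑ b, |hess F x a b| := fun a =>
      abs_of_nonneg (Finset.sum_nonneg fun b _ => abs_nonneg _)
    simp only [h4] at h3
    refine h3.trans ?_
    rw [mul_assoc]
    refine mul_le_mul_of_nonneg_left ?_ (Nat.cast_nonneg n)
    rw [Finset.mul_sum]
    exact Finset.sum_le_sum fun a _ => sq_sum_le (fun b => hess F x a b)
  have h7 := Finset.sum_le_sum (s := Finset.univ) fun b _ => h1 b
  simp only [Finset.sum_add_distrib, ← Finset.mul_sum, Finset.sum_const, Finset.card_univ, Fintype.card_fin,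
    nsmul_eq_mul] at h7
  refine h7.trans ?_
  unfold K3 qd
  have hn : (0 : ℝ) ≤ n := Nat.cast_nonneg n
  have hp : 0 ≤ ∑ a, (pd a F x) ^ 2 := Finset.sum_nonneg fun _ _ => sq_nonneg _
  have hq : 0 ≤ ∑ a, ∑ b, (hess F x a b) ^ 2 := Finset.sum_nonneg fun _ _ => Finset.sum_nonneg fun _ _ => sq_nonneg _
  have h8 : n * (4 * Tc ^ 2 * (∑ a, ∑ b, |hess F x a b|) ^ 2)
      ≤ n * (4 * Tc ^ 2 * (n * n * ∑ a, ∑ b, (hess F x a b) ^ 2)) := by gcongr
  have h9 : 0 ≤ 4 * (n : ℝ) * Tc ^ 2 * (n * n) := by positivity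
  nlinarith [mul_nonneg h9 hp]

theorem q2_J {V f g : E n → ℝ} (hV : Continuous V) (hf : Test f) (hg : Test g) :
    J V (q2 f) ≤ 2 * J V (q2 g) + 2 * J V (q2 (fun y => f y - g y)) := by
  have hd1 : Test (fun y => f y - g y) := test_sub hf hg
  have e : f = fun y => g y + (f y - g y) := by funext y; ring
  have h3 : ∀ x, q2 f x ≤ 2 * q2 g x + 2 * q2 (fun y => f y - g y) x := by
    intro x
    have h4 := q2_add_le hg hd1 x
    rwa [← e] at h4
  have i5 := int_w hV (q2_cont hg) (q2_cs hg)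
  have i6 := int_w hV (q2_cont hd1) (q2_cs hd1)
  have h7 := J_mono (V := V) (Eventually.of_forall fun x => q2_nonneg f x)
    (iadd (ismul 2 i5) (ismul 2 i6)) (Eventually.of_forall h3)
  rwa [J_add (ismul 2 i5) (ismul 2 i6), J_smul, J_smul] at h7

theorem D1_int {ψ V w v0 v : E n → ℝ} {T1 R : ℝ}
    (ib : ∀ b, Integrable (fun x => (pd b (gg ψ w v0) x - mo m (pd b (gg ψ w v0)) x) ^ 2 * Real.exp (-V x)))
    (iG : Integrable (fun x => (avR m R (gg ψ w v) x) ^ 2 * Real.exp (-V x)))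
    (iS : Integrable (fun x => (avR m R (S2 (fun y => v y - v0 y)) x) ^ 2 * Real.exp (-V x))) :
    Integrable (fun x => Dom1 ψ w v0 v T1 R m x * Real.exp (-V x)) := by
  unfold Dom1
  exact iadd (iadd (ismul _ (isum _ fun b _ => ib b)) (ismul _ iG)) (ismul _ iS)

theorem D1_J {ψ V w v0 v : E n → ℝ} {T1 R : ℝ}
    (ib : ∀ b, Integrable (fun x => (pd b (gg ψ w v0) x - mo m (pd b (gg ψ w v0)) x) ^ 2 * Real.exp (-V x)))
    (iG : Integrable (fun x => (avR m R (gg ψ w v) x) ^ 2 * Real.exp (-V x)))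
    (iS : Integrable (fun x => (avR m R (S2 (fun y => v y - v0 y)) x) ^ 2 * Real.exp (-V x))) :
    J V (Dom1 ψ w v0 v T1 R m)
        = 3 * (∑ b, J V (fun x => (pd b (gg ψ w v0) x - mo m (pd b (gg ψ w v0)) x) ^ 2))
          + (3 * n * (T1 * (dl m)⁻¹) ^ 2) * J V (fun x => (avR m R (gg ψ w v) x) ^ 2)
          + (3 * n * T1 ^ 2) * J V (fun x => (avR m R (S2 (fun y => v y - v0 y)) x) ^ 2) := by
  unfold Dom1
  rw [J_add (iadd (ismul _ (isum _ fun b _ => ib b)) (ismul _ iG)) (ismul _ iS),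
    J_add (ismul _ (isum _ fun b _ => ib b)) (ismul _ iG), J_smul, J_smul, J_smul,
    J_sum _ fun b _ => ib b]

theorem dF_J {ψ V w v0 v u : E n → ℝ} {T1 R : ℝ} {χ : E n → ℝ} (hV : Continuous V) (hpt : PtBound ψ T1 R χ)
    (hG : Test (fun z => χ z * mo m (fun y => v y - v0 y) z))
    (hw : Test w) (hv0 : Test v0) (hv : Test v) (hu : Test u)
    (hR : ∀ x, R - 1 ≤ ‖x‖ → gg ψ w v0 x = 0)
    (iS : Integrable (fun x => (avR m R (S2 (fun y => v y - v0 y)) x) ^ 2 * Real.exp (-V x))) :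
    J V (fun x => ∑ b, (pd b (FF m χ v0 v) x - pd b u x) ^ 2) ≤ 2 * J V (q2 (fun y => v0 y - u y))
      + (2 * n * T1 ^ 2) * J V (fun x => (avR m R (S2 (fun y => v y - v0 y)) x) ^ 2) := by
  have hdk : Test (fun y => v0 y - u y) := test_sub hv0 hu
  have iq := int_w hV (q2_cont hdk) (q2_cs hdk)
  have b1 : J V (fun x => ∑ b, (pd b (FF m χ v0 v) x - pd b u x) ^ 2)
      ≤ J V (fun x => 2 * q2 (fun y => v0 y - u y) x
        + (2 * n * T1 ^ 2) * (avR m R (S2 (fun y => v y - v0 y)) x) ^ 2) :=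
    J_mono (Eventually.of_forall fun x => Finset.sum_nonneg fun _ _ => sq_nonneg _)
      (iadd (ismul _ iq) (ismul _ iS))
      (Eventually.of_forall fun x => dF_le hpt hG hw hv0 hv hu hR x)
  rwa [J_add (ismul _ iq) (ismul _ iS), J_smul, J_smul] at b1

theorem third_J {ψ V w v0 v : E n → ℝ} {T1 Tc R : ℝ} {χ : E n → ℝ} (hV : Continuous V) (hpt : PtBound ψ T1 R χ)
    (hTc : 0 < Tc) (hL : LipHyp ψ)
    (hae : ∀ (g : E n → ℝ) (K : ℝ), Lp g K → ∀ᵐ x, DifferentiableAt ℝ g x) (hcom : ComHyp ψ Tc)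
    (hG : Test (fun z => χ z * mo m (fun y => v y - v0 y) z)) (hF : Test (FF m χ v0 v))
    (hw : Test w) (hv0 : Test v0) (hv : Test v)
    (hR : ∀ x, R - 1 ≤ ‖x‖ → gg ψ w v0 x = 0)
    (iD1 : Integrable (fun x => Dom1 ψ w v0 v T1 R m x * Real.exp (-V x)))
    (iS : Integrable (fun x => (avR m R (S2 (fun y => v y - v0 y)) x) ^ 2 * Real.exp (-V x))) :
    J V (fun x => ∑ b, (Lop ψ (pd b (FF m χ v0 v)) x) ^ 2)
        ≤ K3 n Tc * (2 * J V (q2 v0)
            + (2 * (n + n * n) * T1 ^ 2) * J V (fun x => (avR m R (S2 (fun y => v y - v0 y)) x) ^ 2))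
            + 4 * J V (fun x => ∑ b, (pd b w x) ^ 2) + 4 * J V (Dom1 ψ w v0 v T1 R m) := by
  have hK3 : 0 ≤ K3 n Tc := by unfold K3; positivity
  have iq0 := int_w hV (q2_cont hv0) (q2_cs hv0)
  have ipw : Integrable (fun x => (∑ b, (pd b w x) ^ 2) * Real.exp (-V x)) :=
    isum _ fun b _ => by
      refine int_w hV ((test_cont (test_pd hw b)).pow 2) ?_
      obtain ⟨R', hR'⟩ := cs_eventually (test_pd hw b).2
      exact cs_of_zero (R := R') fun x hx => by simp [hR' x hx]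
  have iqd : Integrable (fun x => (2 * q2 v0 x
      + (2 * (n + n * n) * T1 ^ 2) * (avR m R (S2 (fun y => v y - v0 y)) x) ^ 2) * Real.exp (-V x)) :=
    iadd (ismul _ iq0) (ismul _ iS)
  have b1 : J V (fun x => ∑ b, (Lop ψ (pd b (FF m χ v0 v)) x) ^ 2)
      ≤ J V (fun x => (K3 n Tc * (2 * q2 v0 x
          + (2 * (n + n * n) * T1 ^ 2) * (avR m R (S2 (fun y => v y - v0 y)) x) ^ 2)
          + 4 * (∑ b, (pd b w x) ^ 2)) + 4 * Dom1 ψ w v0 v T1 R m x) := by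
    refine J_mono (Eventually.of_forall fun x => Finset.sum_nonneg fun _ _ => sq_nonneg _)
      (iadd (iadd (ismul _ iqd) (ismul _ ipw)) (ismul _ iD1)) ?_
    filter_upwards [third_le hTc hL hae hcom hw hF, dom1_le hpt hw hv0 hv hR m] with x hx hy
    have hz := mul_le_mul_of_nonneg_left (qd_le hpt hG hw hv0 hv hR x) hK3
    linarith
  rwa [J_add (iadd (ismul _ iqd) (ismul _ ipw)) (ismul _ iD1), J_add (ismul _ iqd) (ismul _ ipw), J_smul, J_smul,
    J_smul, J_add (ismul _ iq0) (ismul _ iS), J_smul, J_smul] at b1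

/-- the hypothesis of `leb` -/
def LebHyp (V : E n → ℝ) : Prop :=
  ∀ (g : E n → ℝ) (K : ℝ), Lp g K → HasCompactSupport g → ∀ b : Fin n,
    (∀ m, Integrable (fun x => (pd b g x - mo m (pd b g) x) ^ 2 * Real.exp (-V x))) ∧
    Tendsto (fun m => ∫ x, (pd b g x - mo m (pd b g) x) ^ 2 * Real.exp (-V x)) atTop (𝓝 0)

theorem numA {k C2 N η δ Z X A1 : ℝ} (hk : 0 ≤ k) (hA : A1 = k * C2 * N) (hη : 9 * (1 + A1) * η = δ) (hη0 : 0 < η)
    (hZ : 0 < Z) (hX : X ≤ C2 * N * (η * Z)) : 3 * k * X ≤ δ * Z / 3 := by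
  have h1 : 3 * k * X ≤ 3 * k * (C2 * N * (η * Z)) := mul_le_mul_of_nonneg_left hX (by positivity)
  have h2 : 3 * k * (C2 * N * (η * Z)) = 3 * (A1 * η) * Z := by rw [hA]; ring
  have h3 : A1 * η ≤ δ / 9 := by linarith [hη]
  have h4 : 3 * (A1 * η) * Z ≤ 3 * (δ / 9) * Z := mul_le_mul_of_nonneg_right (by linarith) hZ.le
  linarith

theorem numB {k C2 N η δ δ' Z X A1 q : ℝ} (hk : 0 ≤ k) (hA : A1 = k * C2 * N) (hη : 9 * (1 + A1) * η = δ)
    (hη0 : 0 < η) (hA0 : 0 ≤ A1)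
    (hZ : 0 < Z) (hX : X ≤ C2 * N * (η * Z)) (hq : q ≤ η * Z) (hδ : δ ≤ δ') : 2 * q + 2 * k * X ≤ δ' * Z := by
  have h1 : 2 * k * X ≤ 2 * k * (C2 * N * (η * Z)) := mul_le_mul_of_nonneg_left hX (by positivity)
  have h2 : 2 * k * (C2 * N * (η * Z)) = 2 * (A1 * η) * Z := by rw [hA]; ring
  have h5 : 0 ≤ A1 * η := by positivity
  have h3 : 2 * η + 2 * (A1 * η) ≤ δ' := by linarith [hη]
  have h4 : (2 * η + 2 * (A1 * η)) * Z ≤ δ' * Z := mul_le_mul_of_nonneg_right h3 hZ.le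
  linarith

theorem numC {K A C2 N η Z X J0 B0 Bw D : ℝ} (hK : 0 ≤ K) (hA : 0 ≤ A) (hN : 0 ≤ C2 * N) (hη1 : η ≤ 1)
    (hZ : 0 < Z) (hX : X ≤ C2 * N * (η * Z)) (hJ : J0 ≤ B0) (hD : D ≤ Z) :
    K * (2 * J0 + A * X) + 4 * Bw + 4 * D ≤ K * (2 * B0 + A * (C2 * N) * Z) + 4 * Bw + 4 * Z := by
  have h0 : η * Z ≤ 1 * Z := mul_le_mul_of_nonneg_right hη1 hZ.le
  have h1 : C2 * N * (η * Z) ≤ C2 * N * (1 * Z) := mul_le_mul_of_nonneg_left h0 hN
  have h2 : A * X ≤ A * (C2 * N * (1 * Z)) := mul_le_mul_of_nonneg_left (hX.trans h1) hA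
  have h3 : K * (2 * J0 + A * X) ≤ K * (2 * B0 + A * (C2 * N) * Z) :=
    mul_le_mul_of_nonneg_left (by linarith) hK
  linarith

theorem numG {Km C2 δ Z X : ℝ} (hK : 0 ≤ Km) (hC : 0 < C2) (hδ : 0 < δ) (hZ : 0 < Z)
    (hX : X ≤ C2 * (δ * Z / (3 * (Km * C2 + 1)))) : Km * X ≤ δ * Z / 3 := by
  have h1 : Km * X ≤ Km * (C2 * (δ * Z / (3 * (Km * C2 + 1)))) := mul_le_mul_of_nonneg_left hX hK
  have h2 : Km * (C2 * (δ * Z / (3 * (Km * C2 + 1)))) = (δ * Z / 3) * ((Km * C2) / (Km * C2 + 1)) := by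
    field_simp
  have h3 : (δ * Z / 3) * ((Km * C2) / (Km * C2 + 1)) ≤ (δ * Z / 3) * 1 := by
    refine mul_le_mul_of_nonneg_left ?_ (by positivity)
    rw [div_le_one (by positivity)]; linarith
  linarith

/-- all estimates for fixed parameters -/
theorem step {ψ V : E n → ℝ} {T1 C2 Tc : ℝ} (hV : Continuous V) {Z : ℝ} (hZ : 0 < Z)
    (hC2 : 0 < C2) (hav : ∀ g : E n → ℝ, Continuous g → HasCompactSupport g →
      Integrable (fun x => (avR m R g x) ^ 2 * Real.exp (-V x)) ∧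
      J V (fun x => (avR m R g x) ^ 2) ≤ C2 * J V (fun x => g x ^ 2))
    (hL : LipHyp ψ) (hTc : 0 < Tc) (hcom : ComHyp ψ Tc)
    (hae : ∀ (g : E n → ℝ) (K : ℝ), Lp g K → ∀ᵐ x, DifferentiableAt ℝ g x)
    (hmo : ∀ (m : ℕ) (g : E n → ℝ), Test g → Test (mo m g))
    {χ w v0 v : E n → ℝ} (hχ : Test χ) (hP : PtBound ψ T1 R χ) (hw : Test w) (hv0 : Test v0) (hv : Test v)
    (hR : ∀ x, R - 1 ≤ ‖x‖ → gg ψ w v0 x = 0)
    (ib : ∀ b, Integrable (fun x => (pd b (gg ψ w v0) x - mo m (pd b (gg ψ w v0)) x) ^ 2 * Real.exp (-V x)))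
    {A1 η δ B0 : ℝ} (hA1 : A1 = n * T1 ^ 2 * C2 * NS n) (hη0 : 0 < η) (hη1 : η ≤ 1) (hδ : 0 < δ) (hδ1 : δ ≤ 1)
    (hη : 9 * (1 + A1) * η = δ)
    (hbs : ∑ b, J V (fun x => (pd b (gg ψ w v0) x - mo m (pd b (gg ψ w v0)) x) ^ 2) ≤ δ * Z / 9)
    (hrs : J V (fun x => (gg ψ w v x) ^ 2) ≤ δ * Z / (3 * (3 * n * (T1 * (dl m)⁻¹) ^ 2 * C2 + 1)))
    (hJd : J V (q2 (fun y => v y - v0 y)) ≤ η * Z) (hB0 : J V (q2 v0) ≤ B0) :
    J V (fun x => ∑ b, (pd b (gg ψ w (FF m χ v0 v)) x) ^ 2) ≤ δ * Z ∧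
    (∀ u, Test u → J V (q2 (fun y => v0 y - u y)) ≤ η * Z → ∀ δ', δ ≤ δ' →
      J V (fun x => ∑ b, (pd b (FF m χ v0 v) x - pd b u x) ^ 2) ≤ δ' * Z) ∧
    J V (fun x => ∑ b, (Lop ψ (pd b (FF m χ v0 v)) x) ^ 2) ≤
      K3 n Tc * (2 * B0 + (2 * (n + n * n) * T1 ^ 2) * (C2 * NS n) * Z)
        + 4 * J V (fun x => ∑ b, (pd b w x) ^ 2) + 4 * Z := by
  have hn : (0 : ℝ) ≤ n := Nat.cast_nonneg n
  have hNS : 0 < NS n := NS_pos
  have hA1' : 0 ≤ A1 := by rw [hA1]; positivity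
  have hK3 : 0 ≤ K3 n Tc := by unfold K3; positivity
  have hd : Test (fun y => v y - v0 y) := test_sub hv hv0
  obtain ⟨iS, jS⟩ := hav _ (S2_cont hd) (S2_cs hd)
  obtain ⟨hgic, hgis, -⟩ := gg_props hL hw hv
  obtain ⟨iG, jG⟩ := hav _ hgic hgis
  have jS2 : J V (fun x => (avR m R (S2 (fun y => v y - v0 y)) x) ^ 2) ≤ C2 * NS n * (η * Z) := by
    refine jS.trans ?_
    have h4 : NS n * J V (q2 (fun y => v y - v0 y)) ≤ NS n * (η * Z) := mul_le_mul_of_nonneg_left hJd hNS.le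
    have h5 : C2 * J V (fun x => S2 (fun y => v y - v0 y) x ^ 2) ≤ C2 * (NS n * (η * Z)) :=
      mul_le_mul_of_nonneg_left ((S2_J hV hd).trans h4) hC2.le
    rw [mul_assoc]; exact h5
  obtain ⟨hG, hF⟩ := FF_test (m := m) hmo hχ hv0 hv
  have hk : (0 : ℝ) ≤ n * T1 ^ 2 := by positivity
  have iD1 := D1_int (T1 := T1) ib iG iS
  have jD1 : J V (Dom1 ψ w v0 v T1 R m) ≤ δ * Z := by
    rw [D1_J ib iG iS]
    have hKm : (0 : ℝ) ≤ 3 * n * (T1 * (dl m)⁻¹) ^ 2 := by positivity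
    have g1 := numG hKm hC2 hδ hZ (jG.trans (mul_le_mul_of_nonneg_left hrs hC2.le))
    have g3 := numA hk hA1 hη hη0 hZ jS2
    have g4 : (3 * n * T1 ^ 2) * J V (fun x => (avR m R (S2 (fun y => v y - v0 y)) x) ^ 2)
        = 3 * (n * T1 ^ 2) * J V (fun x => (avR m R (S2 (fun y => v y - v0 y)) x) ^ 2) := by ring
    rw [g4]
    linarith
  refine ⟨?_, ?_, ?_⟩
  · exact (J_mono (Eventually.of_forall fun x => Finset.sum_nonneg fun _ _ => sq_nonneg _) iD1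
      (dom1_le hP hw hv0 hv hR m)).trans jD1
  · intro u hu jk δ' hδ'
    have b1 := dF_J hV hP hG hw hv0 hv hu hR iS
    have b2 := numB hk hA1 hη hη0 hA1' hZ jS2 jk hδ'
    have g4 : (2 * n * T1 ^ 2) * J V (fun x => (avR m R (S2 (fun y => v y - v0 y)) x) ^ 2)
        = 2 * (n * T1 ^ 2) * J V (fun x => (avR m R (S2 (fun y => v y - v0 y)) x) ^ 2) := by ring
    rw [g4] at b1
    exact b1.trans b2
  · have b1 := third_J hV hP hTc hL hae hcom hG hF hw hv0 hv hR iD1 iS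
    refine b1.trans (numC hK3 (by positivity) (by positivity) hη1 hZ jS2 hB0 (jD1.trans ?_))
    have : δ * Z ≤ 1 * Z := mul_le_mul_of_nonneg_right hδ1 hZ.le
    linarith

theorem core {ψ V : E n → ℝ} {T1 C2 Tc : ℝ} (hV : Continuous V) (hZ : 0 < ∫ x, Real.exp (-V x))
    (hT1 : 0 < T1) (hpt : ∀ R : ℝ, 1 ≤ R → ∃ χ : E n → ℝ, Test χ ∧ PtBound ψ T1 R χ)
    (hC2 : 0 < C2) (hav : AvHyp V C2) (hleb : LebHyp V) (hL : LipHyp ψ) (hTc : 0 < Tc) (hcom : ComHyp ψ Tc)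
    (hae : ∀ (g : E n → ℝ) (K : ℝ), Lp g K → ∀ᵐ x, DifferentiableAt ℝ g x)
    (hmo : ∀ (m : ℕ) (g : E n → ℝ), Test g → Test (mo m g))
    (w : E n → ℝ) (v : ℕ → E n → ℝ) (hw : Test w) (hv : ∀ i, Test (v i))
    (h1 : Tendsto (fun i => Ex V (fun x => (v i x - Lop ψ (v i) x - w x) ^ 2)) atTop (𝓝 0))
    (h2 : ∀ ε > 0, ∃ N : ℕ, ∀ i ≥ N, ∀ j ≥ N, Ex V (fun x => (v i x - v j x) ^ 2
      + (∑ a, (pd a (v i) x - pd a (v j) x) ^ 2)
      + ∑ a, ∑ b, (hess (v i) x a b - hess (v j) x a b) ^ 2) ≤ ε) :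
    ∃ B : ℝ, ∀ δ > 0, ∃ (F : E n → ℝ) (N : ℕ), Test F ∧
      Ex V (fun x => ∑ b, (pd b (fun z => F z - Lop ψ F z - w z) x) ^ 2) ≤ δ ∧
      (∀ i ≥ N, Ex V (fun x => ∑ b, (pd b F x - pd b (v i) x) ^ 2) ≤ δ) ∧
      Ex V (fun x => ∑ b, (Lop ψ (pd b F) x) ^ 2) ≤ B := by
  set Z := ∫ x, Real.exp (-V x) with hZdef
  have hEx : ∀ f : E n → ℝ, Ex V f = J V f / Z := fun f => rfl
  -- Cauchy in `J`
  have hC : ∀ ε > 0, ∃ N : ℕ, ∀ i ≥ N, ∀ j ≥ N, J V (q2 (fun y => v i y - v j y)) ≤ ε * Z := by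
    intro ε hε
    obtain ⟨N, hN⟩ := h2 ε hε
    refine ⟨N, fun i hi j hj => ?_⟩
    have h3 := hN i hi j hj
    rw [hEx, div_le_iff₀ hZ] at h3
    have e : q2 (fun y => v i y - v j y) = fun x => (v i x - v j x) ^ 2
      + (∑ a, (pd a (v i) x - pd a (v j) x) ^ 2)
      + ∑ a, ∑ b, (hess (v i) x a b - hess (v j) x a b) ^ 2 := by
      funext x
      unfold q2
      congr 1
      · congr 1
        exact Finset.sum_congr rfl fun a _ => by rw [pd_sub (test_diff (hv i) x) (test_diff (hv j) x)]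
      · exact Finset.sum_congr rfl fun a _ => Finset.sum_congr rfl fun b _ => by rw [hess_sub (hv i) (hv j)]
    rw [e]; exact h3
  -- residual
  have hr : Tendsto (fun i => J V (fun x => (gg ψ w (v i) x) ^ 2)) atTop (𝓝 0) := by
    have h3 := h1.mul_const Z
    rw [zero_mul] at h3
    refine h3.congr fun i => ?_
    rw [hEx, div_mul_cancel₀ _ hZ.ne']
    rfl
  obtain ⟨j1, hj1⟩ := hC 1 one_pos
  obtain ⟨B0, hB0⟩ : ∃ B0, B0 = 2 * J V (q2 (v j1)) + 2 * Z := ⟨_, rfl⟩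
  obtain ⟨A1, hA1⟩ : ∃ A1, A1 = (n : ℝ) * T1 ^ 2 * C2 * NS n := ⟨_, rfl⟩
  have hn : (0 : ℝ) ≤ n := Nat.cast_nonneg n
  have hNS : 0 < NS n := NS_pos
  have hA1' : 0 ≤ A1 := by rw [hA1]; positivity
  refine ⟨(K3 n Tc * (2 * B0 + (2 * (n + n * n) * T1 ^ 2) * (C2 * NS n) * Z)
        + 4 * J V (fun x => ∑ b, (pd b w x) ^ 2) + 4 * Z) / Z, fun δ' hδ' => ?_⟩
  -- reduce to `δ ≤ 1`
  obtain ⟨δ, hδ0, hδ1, hδδ⟩ : ∃ δ : ℝ, 0 < δ ∧ δ ≤ 1 ∧ δ ≤ δ' :=
    ⟨min δ' 1, lt_min hδ' one_pos, min_le_right _ _, min_le_left _ _⟩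
  obtain ⟨η, hη⟩ : ∃ η, η = δ / (9 * (1 + A1)) := ⟨_, rfl⟩
  have hη0 : 0 < η := by rw [hη]; positivity
  have hηA : 9 * (1 + A1) * η = δ := by rw [hη]; field_simp
  have hη1 : η ≤ 1 := by
    have h3 : 0 ≤ A1 * η := by positivity
    linarith [hηA]
  obtain ⟨i1, hi1⟩ := hC η hη0
  obtain ⟨i0, hi0i1, hi0j1⟩ : ∃ i0, i1 ≤ i0 ∧ j1 ≤ i0 := ⟨max i1 j1, le_max_left _ _, le_max_right _ _⟩
  have hi0v := hv i0
  -- radius
  obtain ⟨hgc, hgs, Kg, hKg⟩ := gg_props hL hw hi0v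
  obtain ⟨R1, hR1⟩ := cs_eventually hgs
  obtain ⟨R, hRa, hRb⟩ : ∃ R : ℝ, 1 ≤ R ∧ R1 + 1 ≤ R := ⟨max 1 (R1 + 1), le_max_left _ _, le_max_right _ _⟩
  have hRx : ∀ x, R - 1 ≤ ‖x‖ → gg ψ w (v i0) x = 0 := fun x hx => hR1 x (by linarith)
  obtain ⟨χ, hχ, hP⟩ := hpt R hRa
  obtain ⟨m0, hm0⟩ := avR_J hav R
  -- choice of `m`
  have hlebg := fun b => hleb _ _ hKg hgs b
  have hsum : Tendsto (fun m => ∑ b, J V (fun x => (pd b (gg ψ w (v i0)) x - mo m (pd b (gg ψ w (v i0))) x) ^ 2))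
      atTop (𝓝 0) := by
    have := tendsto_finsetSum (Finset.univ : Finset (Fin n)) fun b _ => (hlebg b).2
    simpa [J] using this
  have hsmall : ∀ᶠ m in atTop, ∑ b, J V (fun x => (pd b (gg ψ w (v i0)) x - mo m (pd b (gg ψ w (v i0))) x) ^ 2)
      < δ * Z / 9 := hsum.eventually (gt_mem_nhds (by positivity))
  obtain ⟨m, hm1, hm2⟩ := (hsmall.and (eventually_ge_atTop m0)).exists
  have hdl := dl_pos m
  -- choice of `i`
  have hri : ∀ᶠ i in atTop, J V (fun x => (gg ψ w (v i) x) ^ 2)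
      < δ * Z / (3 * (3 * n * (T1 * (dl m)⁻¹) ^ 2 * C2 + 1)) :=
    hr.eventually (gt_mem_nhds (by positivity))
  obtain ⟨i, hi2, hi3⟩ := (hri.and (eventually_ge_atTop i0)).exists
  have hiv := hv i
  have b0 : J V (q2 (v i0)) ≤ B0 := by
    have h7 := q2_J hV hi0v (hv j1)
    have h8 := hj1 i0 hi0j1 j1 le_rfl
    rw [hB0]; linarith
  obtain ⟨c1, c2, c3⟩ := step hV hZ hC2 (hm0 m hm2) hL hTc hcom hae hmo hχ hP hw hi0v hiv hRx
    (fun b => (hlebg b).1 m) hA1 hη0 hη1 hδ0 hδ1 hηA hm1.le hi2.le (hi1 i (hi0i1.trans hi3) i0 hi0i1) b0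
  refine ⟨FF m χ (v i0) (v i), i0, (FF_test (m := m) hmo hχ hi0v hiv).2, ?_, ?_, ?_⟩
  · rw [hEx, div_le_iff₀ hZ]
    exact c1.trans (mul_le_mul_of_nonneg_right hδδ hZ.le)
  · intro k hk
    rw [hEx, div_le_iff₀ hZ]
    exact c2 (v k) (hv k) (hi1 i0 hi0i1 k (hi0i1.trans hk)) δ' hδδ
  · rw [hEx, div_le_div_iff_of_pos_right hZ]
    exact c3

end Vale.Agent.P227.M.LIN.H1M
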