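import Vale.Agent.P227.M.LIN.H1Defs

/-! # P227/M/LIN: definitions for the pointwise bound and its exact statement (helper479). -/

open MeasureTheory Filter Metric Set
open scoped Topology

namespace Vale.Agent.P227.M.LIN

/-- sum of the absolute values of the derivatives of order `≤ 2` -/
noncomputable def S2 {n : ℕ} (d : E n → ℝ) (y : E n) : ℝ :=
  |d y| + (∑ a, |pd a d y|) + ∑ a, ∑ b, |hess d y a b|

/-- averaged function cut to the ball of radius `2R` -/
noncomputable def avR {n : ℕ} (m : ℕ) (R : ℝ) (g : E n → ℝ) (x : E n) : ℝ :=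
  (closedBall (0 : E n) (2 * R)).indicator (fun x => av m (fun y => |g y|) x) x

/-- `F = v0 + χ · mo m (v - v0)` -/
noncomputable def FF {n : ℕ} (m : ℕ) (χ v0 v : E n → ℝ) (z : E n) : ℝ :=
  v0 z + χ z * mo m (fun y => v y - v0 y) z

/-- `g = f - L f - w` -/
noncomputable def gg {n : ℕ} (ψ w f : E n → ℝ) (z : E n) : ℝ := f z - Lop ψ f z - w z

/-- exact statement of the pointwise bound (proved in `H1Pt.lean`) -/
def PtBound {n : ℕ} (ψ : E n → ℝ) (T1 R : ℝ) (χ : E n → ℝ) : Prop :=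
  ∀ (m : ℕ) (v0 v w : E n → ℝ), Test v0 → Test v → Test w →
    (∀ x, R - 1 ≤ ‖x‖ → gg ψ w v0 x = 0) →
    (∀ᵐ x, ∀ b, |pd b (gg ψ w (FF m χ v0 v)) x| ≤ |pd b (gg ψ w v0) x - mo m (pd b (gg ψ w v0)) x|
        + T1 * (dl m)⁻¹ * avR m R (gg ψ w v) x + T1 * avR m R (S2 (fun y => v y - v0 y)) x) ∧
    (∀ x b, |pd b (fun z => χ z * mo m (fun y => v y - v0 y) z) x| ≤ T1 * avR m R (S2 (fun y => v y - v0 y)) x) ∧
    (∀ x a b, |hess (fun z => χ z * mo m (fun y => v y - v0 y) z) x a b|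
        ≤ T1 * avR m R (S2 (fun y => v y - v0 y)) x)

end Vale.Agent.P227.M.LIN
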