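import Vale.Agent.P227.M.LIN.H1Defs

/-! # skeleton of `StmtH1`: exact statements of the sub-lemmas (never import this file). -/

open MeasureTheory Filter Metric Set
open scoped Topology

namespace Vale.Agent.P227.M.LIN

/-! ## KER (479), file LIN/H1Ker.lean -/

theorem ker_bounds (n : ℕ) : ∃ C0 : ℝ, 0 < C0 ∧ ∀ m : ℕ, (∀ x : E n, 0 ≤ rk m x ∧ rk m x ≤ C0 * (dl m ^ n)⁻¹) ∧
    (∀ x y : E n, |rk m x - rk m y| ≤ C0 * (dl m ^ n)⁻¹ * (dl m)⁻¹ * ‖x - y‖) := sorry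

theorem mo_bound (n : ℕ) : ∃ C0 : ℝ, 0 < C0 ∧ ∀ (m : ℕ) (g : E n → ℝ), Continuous g → ∀ x,
    |mo m g x| ≤ C0 * av m (fun y => |g y|) x := sorry

theorem mo_locB (n : ℕ) : ∃ C0 : ℝ, 0 < C0 ∧ ∀ (m : ℕ) (g : E n → ℝ), Continuous g → ∀ x b,
    LocB b (mo m g) x (C0 * (dl m)⁻¹ * av m (fun y => |g y|) x) := sorry

theorem cm_bound (n : ℕ) : ∃ C0 : ℝ, 0 < C0 ∧ ∀ (m : ℕ) (a G : E n → ℝ) (K : ℝ), 0 ≤ K → Lp a K → Continuous a → Continuous G → ∀ x,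
    |cm m a G x| ≤ C0 * K * av m (fun y => |G y|) x := sorry

theorem cm_locB (n : ℕ) : ∃ C0 : ℝ, 0 < C0 ∧ ∀ (m : ℕ) (a G : E n → ℝ) (K : ℝ), 0 ≤ K → Lp a K → Continuous a → Continuous G → ∀ x b,
    LocB b (cm m a G) x (C0 * K * av m (fun y => |G y|) x) := sorry

theorem mo_test {n : ℕ} (m : ℕ) {g : E n → ℝ} (hg : Test g) : Test (mo m g) := sorry

theorem pd_mo {n : ℕ} (m : ℕ) {g : E n → ℝ} (hg : Test g) (b : Fin n) (x : E n) :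
    pd b (mo m g) x = mo m (pd b g) x := sorry

/-! ## LEB (700), file LIN/H1Leb.lean -/

/-- the mollification of a Lipschitz function with compact support is differentiable, and `∂_b` commutes -/
theorem lip_mo {n : ℕ} {g : E n → ℝ} {K : ℝ} (hg : Lp g K) (hs : HasCompactSupport g) (m : ℕ) (x : E n) :
    DifferentiableAt ℝ (mo m g) x ∧ ∀ b, pd b (mo m g) x = mo m (pd b g) x := sorry

theorem lip_ae {n : ℕ} {g : E n → ℝ} {K : ℝ} (hg : Lp g K) : ∀ᵐ x, DifferentiableAt ℝ g x := sorry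

/-- integrability of the square and convergence, `V` continuous -/
theorem leb {n : ℕ} {V g : E n → ℝ} {K : ℝ} (hV : Continuous V) (hg : Lp g K) (hs : HasCompactSupport g) (b : Fin n) :
    (∀ m, Integrable (fun x => (pd b g x - mo m (pd b g) x) ^ 2 * Real.exp (-V x))) ∧
    Tendsto (fun m => ∫ x, (pd b g x - mo m (pd b g) x) ^ 2 * Real.exp (-V x)) atTop (𝓝 0) := sorry

/-! ## AV (414), file LIN/H1Av.lean -/

/-- weighted `L²` bound of the averages, constant independent of `R` -/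
theorem av_L2 {n : ℕ} {V : E n → ℝ} (hV : Continuous V)
    (hVl : ∃ A : ℝ, ∀ x y : E n, ‖x - y‖ ≤ 2 → |V x - V y| ≤ A * (1 + ‖x‖) * ‖x - y‖) :
    ∃ C2 : ℝ, 0 < C2 ∧ ∀ R : ℝ, ∃ m0 : ℕ, ∀ m ≥ m0, ∀ g : E n → ℝ, Continuous g → HasCompactSupport g →
      Integrable (fun x => (closedBall (0 : E n) R).indicator (fun x => (av m (fun y => |g y|) x) ^ 2 * Real.exp (-V x)) x) ∧
      ∫ x in closedBall (0 : E n) R, (av m (fun y => |g y|) x) ^ 2 * Real.exp (-V x)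
        ≤ C2 * ∫ x, g x ^ 2 * Real.exp (-V x) := sorry

/-- the hypothesis of `av_L2` for `Nice` potentials -/
theorem nice_lip {n : ℕ} {V : E n → ℝ} {c C : ℝ} (hV : Nice V c C) :
    ∃ A : ℝ, ∀ x y : E n, ‖x - y‖ ≤ 2 → |V x - V y| ≤ A * (1 + ‖x‖) * ‖x - y‖ := sorry

/-! ## CUT (966), file LIN/H1Cut.lean -/

/-- cut-offs with constants independent of `R` -/
theorem cutoff (n : ℕ) : ∃ C3 : ℝ, 0 < C3 ∧ ∀ R : ℝ, 1 ≤ R → ∃ χ : E n → ℝ, Test χ ∧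
    (∀ x, |χ x| ≤ 1) ∧ (∀ x, ‖x‖ < R → χ x = 1) ∧ (∀ x, 2 * R < ‖x‖ → χ x = 0) ∧
    (∀ x a, |pd a χ x| ≤ C3 ∧ ‖x‖ * |pd a χ x| ≤ C3) ∧
    (∀ x a b, |pd a (pd b χ) x| ≤ C3 ∧ ‖x‖ * |pd a (pd b χ) x| ≤ C3) ∧
    (∀ x a b d, |pd a (pd b (pd d χ)) x| ≤ C3) := sorry

/-- `τ` is bounded and Lipschitz -/
theorem tau_bdd {n : ℕ} {ψ V : E n → ℝ} {c C M : ℝ} (hM : MM ψ V c C M) :
    ∃ T : ℝ, 0 < T ∧ (∀ x i j, |tau ψ x i j| ≤ T) ∧ ∀ i j, Lp (fun x => tau ψ x i j) T := sorry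

/-! ## ALG (47), file LIN/H1Alg.lean -/

/-- product rule -/
theorem Lop_mul {n : ℕ} {ψ V : E n → ℝ} {c C M : ℝ} (hM : MM ψ V c C M) {χ f : E n → ℝ} (hχ : Test χ) (hf : Test f) (x : E n) :
    Lop ψ (fun z => χ z * f z) x = χ x * Lop ψ f x + f x * Lop ψ χ x
      + 2 * ∑ i, ∑ j, tau ψ x i j * pd i χ x * pd j f x := sorry

theorem Lop_add {n : ℕ} (ψ : E n → ℝ) {χ f : E n → ℝ} (hχ : Test χ) (hf : Test f) (x : E n) :
    Lop ψ (fun z => χ z + f z) x = Lop ψ χ x + Lop ψ f x := sorry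

/-- `L (mo m d) = mo m (L d) + commutators` -/
theorem Lop_mo {n : ℕ} {ψ V : E n → ℝ} {c C M : ℝ} (hM : MM ψ V c C M) {d : E n → ℝ} (hd : Test d) (m : ℕ) (x : E n) :
    Lop ψ (mo m d) x = mo m (Lop ψ d) x
      + (∑ i, ∑ j, cm m (fun y => tau ψ y i j) (fun y => hess d y i j) x)
      - ∑ i, cm m (fun y => y i) (pd i d) x := sorry

/-- support and regularity of `L f` -/
theorem Lop_lip {n : ℕ} {ψ V : E n → ℝ} {c C M : ℝ} (hM : MM ψ V c C M) {f : E n → ℝ} (hf : Test f) :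
    Continuous (Lop ψ f) ∧ HasCompactSupport (Lop ψ f) ∧ ∃ K, Lp (Lop ψ f) K := sorry

/-! ## COM (717), file LIN/H1Com.lean : the commutator `L ∂_b F` -/

theorem Lop_pd {n : ℕ} {ψ V : E n → ℝ} {c C M : ℝ} (hM : MM ψ V c C M) :
    ∃ T : ℝ, 0 < T ∧ ∀ F : E n → ℝ, Test F → ∀ᵐ x, ∀ b, |Lop ψ (pd b F) x| ≤
      |pd b (Lop ψ F) x| + T * (∑ i, ∑ j, |hess F x i j|) + |pd b F x| := sorry

/-! ## LOC (479), file LIN/H1Loc.lean -/

theorem LocB.add {n : ℕ} {b : Fin n} {f g : E n → ℝ} {x : E n} {K K' : ℝ} (hf : LocB b f x K) (hg : LocB b g x K') :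
    LocB b (fun y => f y + g y) x (K + K') := sorry

theorem LocB.mul {n : ℕ} {b : Fin n} {f g : E n → ℝ} {x : E n} {K K' : ℝ} (hf : LocB b f x K) (hg : LocB b g x K')
    (hK : 0 ≤ K) (hK' : 0 ≤ K') : LocB b (fun y => f y * g y) x (|f x| * K' + |g x| * K) := sorry

theorem LocB.pd_le {n : ℕ} {b : Fin n} {f : E n → ℝ} {x : E n} {K : ℝ} (hf : LocB b f x K) (hK : 0 ≤ K) :
    |pd b f x| ≤ K := sorry

theorem LocB.of_diff {n : ℕ} {b : Fin n} {f : E n → ℝ} {x : E n} (hf : DifferentiableAt ℝ f x) :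
    LocB b f x |pd b f x| := sorry

end Vale.Agent.P227.M.LIN
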