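import Vale.Agent.P227.M.LIN.H1Pt0
import Vale.Agent.P227.M.Bas

/-! # P227/M/LIN: `StmtH1`, preparations for the final step (helper792). -/

open MeasureTheory Filter Metric Set
open scoped Topology

namespace Vale.Agent.P227.M.LIN.H1T

variable {n : ℕ}

/-- sum of squares of dominated functions -/
theorem key_sum (V : E n → ℝ) {ι : Type*} [Fintype ι] (f : Fin n → ι → E n → ℝ) (c : Fin n → ι → ℝ)
    (hf : ∀ b k, Integrable (fun x => (f b k x) ^ 2 * Real.exp (-V x)) ∧
      ∫ x, (f b k x) ^ 2 * Real.exp (-V x) ≤ c b k)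
    (g : Fin n → E n → ℝ) (hg : ∀ᵐ x, ∀ b, |g b x| ≤ ∑ k, |f b k x|) :
    ∫ x, (∑ b, (g b x) ^ 2) * Real.exp (-V x) ≤ ∑ b, (Fintype.card ι : ℝ) * ∑ k, c b k := by
  have hU : Integrable (fun x => ∑ b, (Fintype.card ι : ℝ) * ∑ k, (f b k x) ^ 2 * Real.exp (-V x)) := by
    refine integrable_finsetSum _ (fun b _ => Integrable.const_mul ?_ _)
    exact integrable_finsetSum _ (fun k _ => (hf b k).1)
  have h1 : ∫ x, (∑ b, (g b x) ^ 2) * Real.exp (-V x) ≤
      ∫ x, ∑ b, (Fintype.card ι : ℝ) * ∑ k, (f b k x) ^ 2 * Real.exp (-V x) := by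
    refine integral_mono_of_nonneg (Eventually.of_forall (fun x => ?_)) hU ?_
    · exact mul_nonneg (Finset.sum_nonneg (fun b _ => sq_nonneg _)) (Real.exp_pos _).le
    · filter_upwards [hg] with x hx
      show (∑ b, (g b x) ^ 2) * Real.exp (-V x) ≤
        ∑ b, (Fintype.card ι : ℝ) * ∑ k, (f b k x) ^ 2 * Real.exp (-V x)
      rw [Finset.sum_mul]
      refine Finset.sum_le_sum (fun b _ => ?_)
      rw [← Finset.sum_mul, ← mul_assoc]
      refine mul_le_mul_of_nonneg_right ?_ (Real.exp_pos _).le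
      have h2 : (g b x) ^ 2 ≤ (∑ k, |f b k x|) ^ 2 := by
        rw [← sq_abs]
        exact pow_le_pow_left₀ (abs_nonneg _) (hx b) 2
      have h3 : (∑ k, |f b k x|) ^ 2 ≤ (Fintype.card ι : ℝ) * ∑ k, |f b k x| ^ 2 := by
        have := sq_sum_le_card_mul_sum_sq (s := (Finset.univ : Finset ι)) (f := fun k => |f b k x|)
        simpa using this
      simp only [sq_abs] at h3
      exact h2.trans h3
  refine h1.trans ?_
  rw [integral_finsetSum _ (fun b _ => Integrable.const_mul
    (integrable_finsetSum _ (fun k _ => (hf b k).1)) _)]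
  refine Finset.sum_le_sum (fun b _ => ?_)
  rw [integral_const_mul, integral_finsetSum _ (fun k _ => (hf b k).1)]
  refine mul_le_mul_of_nonneg_left ?_ (Nat.cast_nonneg _)
  exact Finset.sum_le_sum (fun k _ => (hf b k).2)

theorem test_sub {f g : E n → ℝ} (hf : Test f) (hg : Test g) : Test (fun y => f y - g y) :=
  ⟨hf.1.sub hg.1, hf.2.sub hg.2⟩

theorem test_diff {f : E n → ℝ} (hf : Test f) : Differentiable ℝ f :=
  hf.1.differentiable (by simp)

theorem pd_sub {f g : E n → ℝ} {x : E n} (hf : DifferentiableAt ℝ f x) (hg : DifferentiableAt ℝ g x)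
    (a : Fin n) : pd a (fun y => f y - g y) x = pd a f x - pd a g x := by
  simp only [pd]
  rw [fderiv_fun_sub hf hg]
  rfl

theorem pd_add {f g : E n → ℝ} {x : E n} (hf : DifferentiableAt ℝ f x) (hg : DifferentiableAt ℝ g x)
    (a : Fin n) : pd a (fun y => f y + g y) x = pd a f x + pd a g x := by
  simp only [pd]
  rw [fderiv_fun_add hf hg]
  rfl

theorem pd_test {f : E n → ℝ} (hf : Test f) (i : Fin n) : Test (pd i f) := by
  refine ⟨contDiff_pd_top hf.1 i, ?_⟩
  have h := (hf.2.fderiv (𝕜 := ℝ)).comp_left (g := fun L : E n →L[ℝ] ℝ => L (ei i)) (by simp)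
  exact h

theorem hess_sub {f g : E n → ℝ} (hf : Test f) (hg : Test g) (x : E n) (a b : Fin n) :
    hess (fun y => f y - g y) x a b = hess f x a b - hess g x a b := by
  simp only [hess]
  have : pd b (fun y => f y - g y) = fun y => pd b f y - pd b g y := by
    funext y
    exact pd_sub (test_diff hf y) (test_diff hg y) b
  rw [this]
  exact pd_sub (test_diff (pd_test hf b) x) (test_diff (pd_test hg b) x) a

theorem hess_add {f g : E n → ℝ} (hf : Test f) (hg : Test g) (x : E n) (a b : Fin n) :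
    hess (fun y => f y + g y) x a b = hess f x a b + hess g x a b := by
  simp only [hess]
  have : pd b (fun y => f y + g y) = fun y => pd b f y + pd b g y := by
    funext y
    exact pd_add (test_diff hf y) (test_diff hg y) b
  rw [this]
  exact pd_add (test_diff (pd_test hf b) x) (test_diff (pd_test hg b) x) a

theorem S2_nonneg (d : E n → ℝ) (x : E n) : 0 ≤ S2 d x := by
  unfold S2
  have h1 : 0 ≤ ∑ a, |pd a d x| := Finset.sum_nonneg (fun a _ => abs_nonneg _)
  have h2 : 0 ≤ ∑ a, ∑ b, |hess d x a b| :=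
    Finset.sum_nonneg (fun a _ => Finset.sum_nonneg (fun b _ => abs_nonneg _))
  have := abs_nonneg (d x)
  linarith

theorem S2_cont {d : E n → ℝ} (hd : Test d) : Continuous (S2 d) := by
  have h1 : ∀ a, Continuous (pd a d) := fun a => (pd_test hd a).1.continuous
  have h2 : ∀ a b, Continuous (fun x => hess d x a b) := fun a b => (pd_test (pd_test hd b) a).1.continuous
  unfold S2
  refine (hd.1.continuous.abs.add (continuous_finsetSum _ (fun a _ => (h1 a).abs))).add ?_
  exact continuous_finsetSum _ (fun a _ => continuous_finsetSum _ (fun b _ => (h2 a b).abs))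

theorem S2_supp {d : E n → ℝ} (hd : Test d) : HasCompactSupport (S2 d) := by
  obtain ⟨R, hR⟩ := hd.2.isCompact.isBounded.subset_closedBall (0 : E n)
  refine HasCompactSupport.of_support_subset_isCompact (isCompact_closedBall (0 : E n) R) ?_
  intro x hx
  by_contra hcon
  apply hx
  have hxs : x ∉ tsupport d := fun h => hcon (hR h)
  have e0 : d x = 0 := image_eq_zero_of_notMem_tsupport hxs
  have e1 : ∀ a, x ∉ tsupport (pd a d) := by
    intro a h
    exact hxs (((closure_mono (fun y hy => by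
      have h3 : y ∈ Function.support (fderiv ℝ d) := by
        intro h4
        apply hy
        simp only [pd]
        rw [h4]
        rfl
      exact support_fderiv_subset ℝ h3)) h : x ∈ closure (tsupport d)) |> fun h5 => by
        rwa [(isClosed_tsupport d).closure_eq] at h5)
  have e2 : ∀ a, pd a d x = 0 := fun a => image_eq_zero_of_notMem_tsupport (e1 a)
  have e3 : ∀ a b, hess d x a b = 0 := by
    intro a b
    simp only [hess]
    have : x ∉ Function.support (fderiv ℝ (pd b d)) := fun h => e1 b (support_fderiv_subset ℝ h)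
    have h5 : fderiv ℝ (pd b d) x = 0 := by
      by_contra h6
      exact this h6
    simp only [pd] at h5 ⊢
    rw [h5]
    rfl
  simp only [S2, e0, e2, e3, abs_zero, Finset.sum_const_zero, add_zero]

theorem S2_sq_le (d : E n → ℝ) (x : E n) : (S2 d x) ^ 2 ≤ 3 * (1 + (n : ℝ) + (n : ℝ) ^ 2) *
    ((d x) ^ 2 + (∑ a, (pd a d x) ^ 2) + ∑ a, ∑ b, (hess d x a b) ^ 2) := by
  set A : ℝ := |d x| with hA
  set B : ℝ := ∑ a, |pd a d x| with hB
  set C : ℝ := ∑ a, ∑ b, |hess d x a b| with hC
  have hA2 : A ^ 2 = (d x) ^ 2 := sq_abs _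
  have hB2 : B ^ 2 ≤ (n : ℝ) * ∑ a, (pd a d x) ^ 2 := by
    have := sq_sum_le_card_mul_sum_sq (s := (Finset.univ : Finset (Fin n))) (f := fun a => |pd a d x|)
    simpa [sq_abs] using this
  have hC2 : C ^ 2 ≤ (n : ℝ) ^ 2 * ∑ a, ∑ b, (hess d x a b) ^ 2 := by
    have h1 := sq_sum_le_card_mul_sum_sq (s := (Finset.univ : Finset (Fin n)))
      (f := fun a => ∑ b, |hess d x a b|)
    have h2 : ∀ a, (∑ b, |hess d x a b|) ^ 2 ≤ (n : ℝ) * ∑ b, (hess d x a b) ^ 2 := by
      intro a
      have := sq_sum_le_card_mul_sum_sq (s := (Finset.univ : Finset (Fin n)))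
        (f := fun b => |hess d x a b|)
      simpa [sq_abs] using this
    simp only [Finset.card_univ, Fintype.card_fin] at h1
    calc C ^ 2 ≤ (n : ℝ) * ∑ a, (∑ b, |hess d x a b|) ^ 2 := h1
      _ ≤ (n : ℝ) * ∑ a, (n : ℝ) * ∑ b, (hess d x a b) ^ 2 :=
          mul_le_mul_of_nonneg_left (Finset.sum_le_sum (fun a _ => h2 a)) (Nat.cast_nonneg n)
      _ = (n : ℝ) ^ 2 * ∑ a, ∑ b, (hess d x a b) ^ 2 := by rw [← Finset.mul_sum]; ring
  have hP : 0 ≤ (d x) ^ 2 := sq_nonneg _
  have hQ : 0 ≤ ∑ a, (pd a d x) ^ 2 := Finset.sum_nonneg (fun a _ => sq_nonneg _)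
  have hR : 0 ≤ ∑ a, ∑ b, (hess d x a b) ^ 2 :=
    Finset.sum_nonneg (fun a _ => Finset.sum_nonneg (fun b _ => sq_nonneg _))
  have hn : (0 : ℝ) ≤ n := Nat.cast_nonneg n
  have h3 : (S2 d x) ^ 2 ≤ 3 * (A ^ 2 + B ^ 2 + C ^ 2) := by
    have : S2 d x = A + B + C := rfl
    rw [this]
    nlinarith [sq_nonneg (A - B), sq_nonneg (A - C), sq_nonneg (B - C)]
  have hn2 : (0 : ℝ) ≤ (n : ℝ) ^ 2 := by positivity
  have f1 := mul_nonneg hn hP
  have f2 := mul_nonneg hn hR
  have f3 := mul_nonneg hn2 hP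
  have f4 := mul_nonneg hn2 hQ
  nlinarith

theorem integrable_cs {f V : E n → ℝ} (hV : Continuous V) (hf : Continuous f) (hs : HasCompactSupport f) :
    Integrable (fun x => f x ^ 2 * Real.exp (-V x)) := by
  have h1 : Continuous (fun x => f x ^ 2 * Real.exp (-V x)) := by fun_prop
  refine h1.integrable_of_hasCompactSupport ?_
  have : HasCompactSupport (fun x => f x ^ 2) := hs.comp_left (g := fun t => t ^ 2) (by simp)
  exact this.mul_right

end Vale.Agent.P227.M.LIN.H1T
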