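import Vale.Agent.P227.M.LIN.H1Top
import Vale.Agent.P227.M.LIN.H1Pt

/-! # P227/M/LIN: `StmtH1` (assembly of H1Top and H1Pt, helper62). -/

namespace Vale.Agent.P227.M.LIN.Z62

theorem stmtH1 : StmtH1 := H1T.stmtH1_of fun n ψ V c C M hM => by
  obtain ⟨T1, h1, h2⟩ := pt_bound hM
  exact ⟨T1, h1, fun R hR => h2 R (by linarith)⟩

end Vale.Agent.P227.M.LIN.Z62
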