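import Vale.Agent.P227.M.Defs

/-! P227 / LIN-4 (helper768): mollification of Lipschitz functions with compact support. -/

open MeasureTheory Filter Topology
open scoped Convolution

namespace Vale.Agent.P227.M.LIN.H768

variable {n : ℕ}

/-- scaled bump function, `rIn = d`, `rOut = 2 d` -/
noncomputable def bmp (n : ℕ) (d : ℝ) (hd : 0 < d) : ContDiffBump (0 : E n) :=
  ⟨d, 2 * d, hd, by linarith⟩

/-- mollification -/
noncomputable def mol (φ : ContDiffBump (0 : E n)) (f : E n → ℝ) (x : E n) : ℝ :=
  ∫ t, φ.normed volume t * f (x - t)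

lemma mol_eq_conv (φ : ContDiffBump (0 : E n)) (f : E n → ℝ) :
    mol φ f = (φ.normed volume ⋆[ContinuousLinearMap.lsmul ℝ ℝ, volume] f) := by
  funext x
  simp [mol, convolution_def]

lemma normed_int (φ : ContDiffBump (0 : E n)) : Integrable (φ.normed volume) volume :=
  φ.integrable_normed

lemma normed_cont (φ : ContDiffBump (0 : E n)) : Continuous (φ.normed (volume : Measure (E n))) :=
  φ.continuous_normed

lemma normed_nn (φ : ContDiffBump (0 : E n)) (t : E n) : 0 ≤ φ.normed volume t :=
  φ.nonneg_normed t

lemma normed_zero (φ : ContDiffBump (0 : E n)) {t : E n} (ht : φ.rOut ≤ ‖t‖) :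
    φ.normed volume t = 0 := by
  have : t ∉ Function.support (φ.normed volume) := by
    rw [φ.support_normed_eq]
    simpa using ht
  simpa using this

/-- the mollification is smooth -/
lemma mol_smooth (φ : ContDiffBump (0 : E n)) {f : E n → ℝ} (hf : Continuous f) :
    ContDiff ℝ (⊤ : ℕ∞) (mol φ f) := by
  rw [mol_eq_conv]
  exact φ.hasCompactSupport_normed.contDiff_convolution_left _ φ.contDiff_normed
    hf.locallyIntegrable

lemma mol_compact (φ : ContDiffBump (0 : E n)) {f : E n → ℝ} (hf : HasCompactSupport f) :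
    HasCompactSupport (mol φ f) := by
  rw [mol_eq_conv]
  exact φ.hasCompactSupport_normed.convolution _ hf

/-- integrability of the mollification integrand -/
lemma mol_integrable (φ : ContDiffBump (0 : E n)) {F : Type*} [NormedAddCommGroup F]
    [NormedSpace ℝ F] {f : E n → F} (hf : AEStronglyMeasurable f volume) {B : ℝ}
    (hB : ∀ x, ‖f x‖ ≤ B) (x : E n) :
    Integrable (fun t => φ.normed volume t • f (x - t)) volume := by
  refine Integrable.mono' ((normed_int φ).mul_const B) ?_ ?_
  · refine (normed_int φ).aestronglyMeasurable.smul ?_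
    exact hf.comp_quasiMeasurePreserving
      (quasiMeasurePreserving_sub_left volume x)
  · filter_upwards with t
    rw [norm_smul, Real.norm_eq_abs, abs_of_nonneg (normed_nn φ t)]
    exact mul_le_mul_of_nonneg_left (hB _) (normed_nn φ t)

/-- derivative of the mollification of a Lipschitz function -/
theorem hasFDerivAt_mol (φ : ContDiffBump (0 : E n)) {f : E n → ℝ} {K : NNReal}
    (hf : LipschitzWith K f) (hc : HasCompactSupport f) (x : E n) :
    HasFDerivAt (mol φ f) (∫ t, φ.normed volume t • fderiv ℝ f (x - t)) x := by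
  obtain ⟨B, hB⟩ := hc.exists_bound_of_continuous hf.continuous
  have hmeas : ∀ y : E n, AEStronglyMeasurable (fun t => φ.normed volume t * f (y - t)) volume := by
    intro y
    exact (normed_cont φ).aestronglyMeasurable.mul
      ((hf.continuous.comp (continuous_const.sub continuous_id)).aestronglyMeasurable)
  have hd : ∀ᵐ t : E n, DifferentiableAt ℝ f (x - t) := by
    have h := hf.ae_differentiableAt (μ := (volume : Measure (E n)))
    exact (quasiMeasurePreserving_sub_left volume x).ae h
  have := hasFDerivAt_integral_of_dominated_loc_of_lip (μ := (volume : Measure (E n)))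
    (F := fun (y t : E n) => φ.normed volume t * f (y - t))
    (F' := fun t => φ.normed volume t • fderiv ℝ f (x - t))
    (x₀ := x) (s := Set.univ) (bound := fun t => φ.normed volume t * K) Filter.univ_mem
    (Eventually.of_forall hmeas) ?_ ?_ ?_ ((normed_int φ).mul_const _) ?_
  · exact this.2
  · exact mol_integrable φ hf.continuous.aestronglyMeasurable hB x
  · refine (normed_int φ).aestronglyMeasurable.smul ?_
    exact ((measurable_fderiv ℝ f).comp (measurable_const.sub measurable_id)).aestronglyMeasurable
  · filter_upwards with t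
    rw [lipschitzOnWith_univ]
    refine LipschitzWith.of_dist_le_mul ?_
    intro y z
    have hK : |φ.normed volume t * (K : ℝ)| = φ.normed volume t * K :=
      abs_of_nonneg (mul_nonneg (normed_nn φ t) K.coe_nonneg)
    rw [Real.dist_eq, ← mul_sub, abs_mul, abs_of_nonneg (normed_nn φ t), Real.coe_nnabs,
      hK, mul_assoc]
    refine mul_le_mul_of_nonneg_left ?_ (normed_nn φ t)
    have := hf.dist_le_mul (y - t) (z - t)
    rwa [Real.dist_eq, dist_sub_right] at this
  · filter_upwards [hd] with t ht
    have h1 : HasFDerivAt (fun y : E n => f (y - t)) (fderiv ℝ f (x - t)) x :=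
      (hasFDerivAt_comp_sub (f := f) t).2 ht.hasFDerivAt
    exact h1.const_smul (φ.normed volume t)


lemma mol_eq (φ : ContDiffBump (0 : E n)) (f : E n → ℝ) (x : E n) :
    mol φ f x = ∫ z, φ.normed volume (x - z) * f z := by
  have := integral_sub_left_eq_self (fun z => φ.normed volume (x - z) * f z)
    (volume : Measure (E n)) x
  rw [← this]
  simp [mol]

lemma bmp_apply (d : ℝ) (hd : 0 < d) (t : E n) :
    (bmp n d hd : E n → ℝ) t = (bmp n 1 one_pos : E n → ℝ) (d⁻¹ • t) := by
  rw [ContDiffBump.apply, ContDiffBump.apply]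
  simp only [bmp, sub_zero, inv_one, one_smul]
  congr 1
  field_simp

lemma bmp_integral (d : ℝ) (hd : 0 < d) :
    ∫ t : E n, (bmp n d hd : E n → ℝ) t = d ^ n * ∫ t : E n, (bmp n 1 one_pos : E n → ℝ) t := by
  simp_rw [bmp_apply d hd]
  rw [Measure.integral_comp_smul]
  simp [abs_of_pos, hd]

/-- kernel bounds for the scaled bumps -/
theorem kern (n : ℕ) : ∃ C₀ : ℝ, 0 ≤ C₀ ∧ ∀ (d : ℝ) (hd : 0 < d) (h3 : 0 < 3 * d) (t h : E n), ‖h‖ ≤ d →
    (bmp n d hd).normed volume (t + h) ≤ C₀ * (bmp n (3 * d) h3).normed volume t ∧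
    |(bmp n d hd).normed volume (t + h) - (bmp n d hd).normed volume t| ≤
      C₀ * (‖h‖ / d) * (bmp n (3 * d) h3).normed volume t := by
  obtain ⟨L, hL⟩ := ContDiff.lipschitzWith_of_hasCompactSupport (𝕂 := ℝ) (n := 1)
    (bmp n 1 one_pos).hasCompactSupport (bmp n 1 one_pos).contDiff one_ne_zero
  have hI : 0 < ∫ t : E n, (bmp n 1 one_pos : E n → ℝ) t := (bmp n 1 one_pos).integral_pos
  set I := ∫ t : E n, (bmp n 1 one_pos : E n → ℝ) t with hIdef
  have hL0 : (0 : ℝ) ≤ L := L.coe_nonneg
  refine ⟨3 ^ n * (1 + L), by positivity, ?_⟩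
  intro d hd h3 t h hh
  have hψ0 : 0 ≤ (bmp n (3 * d) h3).normed volume t := normed_nn _ _
  by_cases ht : ‖t‖ ≤ 3 * d
  · have hψ : (bmp n (3 * d) h3).normed volume t = 1 / ((3 * d) ^ n * I) := by
      rw [ContDiffBump.normed_def, bmp_integral, ContDiffBump.one_of_mem_closedBall]
      simpa [bmp] using ht
    have hφ : ∀ s : E n, (bmp n d hd).normed volume s =
        (bmp n 1 one_pos : E n → ℝ) (d⁻¹ • s) / (d ^ n * I) := by
      intro s
      rw [ContDiffBump.normed_def, bmp_integral, bmp_apply]
    have h3n : 1 / (d ^ n * I) = 3 ^ n * (1 / ((3 * d) ^ n * I)) := by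
      rw [mul_pow]; field_simp
    have hpos : 0 < d ^ n * I := by positivity
    constructor
    · rw [hφ, hψ]
      calc (bmp n 1 one_pos : E n → ℝ) (d⁻¹ • (t + h)) / (d ^ n * I) ≤ 1 / (d ^ n * I) := by
            gcongr; exact (bmp n 1 one_pos).le_one
        _ = 3 ^ n * (1 / ((3 * d) ^ n * I)) := h3n
        _ ≤ 3 ^ n * (1 + L) * (1 / ((3 * d) ^ n * I)) := by
            refine mul_le_mul_of_nonneg_right ?_ (by positivity)
            have : (0:ℝ) < 3 ^ n := by positivity
            nlinarith
    · rw [hφ, hφ, hψ, ← sub_div, abs_div, abs_of_pos hpos]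
      have h1 : |(bmp n 1 one_pos : E n → ℝ) (d⁻¹ • (t + h)) - (bmp n 1 one_pos : E n → ℝ) (d⁻¹ • t)| ≤
          L * (‖h‖ / d) := by
        have := hL.dist_le_mul (d⁻¹ • (t + h)) (d⁻¹ • t)
        rw [Real.dist_eq, dist_eq_norm, ← smul_sub, add_sub_cancel_left, norm_smul, norm_inv,
          Real.norm_eq_abs, abs_of_pos hd] at this
        calc _ ≤ _ := this
          _ = _ := by ring
      calc _ ≤ L * (‖h‖ / d) / (d ^ n * I) := by gcongr
        _ = L * (‖h‖ / d) * (1 / (d ^ n * I)) := by ring
        _ = L * (‖h‖ / d) * (3 ^ n * (1 / ((3 * d) ^ n * I))) := by rw [h3n]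
        _ = 3 ^ n * L * (‖h‖ / d) * (1 / ((3 * d) ^ n * I)) := by ring
        _ ≤ 3 ^ n * (1 + L) * (‖h‖ / d) * (1 / ((3 * d) ^ n * I)) := by
            gcongr; linarith
  · push Not at ht
    have h1 : (bmp n d hd).normed volume (t + h) = 0 := by
      apply normed_zero
      have h2 : ‖t‖ ≤ ‖t + h‖ + ‖h‖ := by
        have := norm_sub_le (t + h) h
        simpa using this
      simp only [bmp]; linarith
    have h2 : (bmp n d hd).normed volume t = 0 := by
      apply normed_zero
      simp only [bmp]; linarith
    rw [h1, h2]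
    constructor
    · positivity
    · simp; positivity

/-- commutator of the mollification with multiplication by `g` -/
noncomputable def com (φ : ContDiffBump (0 : E n)) (g G : E n → ℝ) (x : E n) : ℝ :=
  ∫ z, φ.normed volume (x - z) * ((g x - g z) * G z)

lemma com_integrable {k : E n → ℝ} (hk : Continuous k) {G : E n → ℝ} (hG : Continuous G)
    (hGc : HasCompactSupport G) : Integrable (fun z => k z * G z) volume :=
  (hk.mul hG).integrable_of_hasCompactSupport hGc.mul_left

lemma mol_abs_nn (φ : ContDiffBump (0 : E n)) (G : E n → ℝ) (x : E n) :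
    0 ≤ mol φ (fun z => |G z|) x :=
  integral_nonneg fun t => mul_nonneg (normed_nn φ t) (abs_nonneg _)

/-- the pointwise bounds of the commutator -/
theorem com_bound {C₀ : ℝ} (hC₀ : 0 ≤ C₀) {d : ℝ} (hd : 0 < d) (h3 : 0 < 3 * d)
    (hk : ∀ t h : E n, ‖h‖ ≤ d →
      (bmp n d hd).normed volume (t + h) ≤ C₀ * (bmp n (3 * d) h3).normed volume t ∧
      |(bmp n d hd).normed volume (t + h) - (bmp n d hd).normed volume t| ≤
        C₀ * (‖h‖ / d) * (bmp n (3 * d) h3).normed volume t)
    {g : E n → ℝ} {K : NNReal} (hg : LipschitzWith K g) {G : E n → ℝ} (hG : Continuous G)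
    (hGc : HasCompactSupport G) (x : E n) :
    |com (bmp n d hd) g G x| ≤ C₀ * K * (6 * d) * mol (bmp n (3 * d) h3) (fun z => |G z|) x ∧
    ‖fderiv ℝ (com (bmp n d hd) g G) x‖ ≤ 7 * C₀ * K * mol (bmp n (3 * d) h3) (fun z => |G z|) x := by
  set φ := bmp n d hd with hφ
  set ψ := bmp n (3 * d) h3 with hψ
  have hK : (0 : ℝ) ≤ K := K.coe_nonneg
  have hGa : Continuous fun z => |G z| := hG.abs
  have hGac : HasCompactSupport fun z => |G z| := hGc.comp_left (g := fun r : ℝ => |r|) abs_zero
  -- weights with `ψ`
  have hw : ∀ x z : E n, ψ.normed volume (x - z) * |g x - g z| ≤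
      ψ.normed volume (x - z) * (K * (6 * d)) := by
    intro x z
    by_cases hz : 6 * d ≤ ‖x - z‖
    · have : ψ.normed volume (x - z) = 0 := by
        apply normed_zero; simp only [hψ, bmp]; linarith
      rw [this]; simp
    · push Not at hz
      refine mul_le_mul_of_nonneg_left ?_ (normed_nn ψ _)
      have := hg.dist_le_mul x z
      rw [Real.dist_eq, dist_eq_norm] at this
      exact this.trans (mul_le_mul_of_nonneg_left hz.le hK)
  have hkc : ∀ (θ : ContDiffBump (0 : E n)) (y : E n), Continuous fun z => θ.normed volume (y - z) :=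
    fun θ y => (normed_cont θ).comp (continuous_const.sub continuous_id)
  have hIψ : ∀ c : ℝ, Integrable (fun z => c * (ψ.normed volume (x - z) * |G z|)) volume :=
    fun c => (com_integrable (hkc ψ x) hGa hGac).const_mul c
  have hmol : ∀ c : ℝ, ∫ z, c * (ψ.normed volume (x - z) * |G z|) = c * mol ψ (fun z => |G z|) x := by
    intro c
    rw [integral_const_mul, mol_eq]
  constructor
  · rw [← hmol, com, ← Real.norm_eq_abs]
    refine (norm_integral_le_integral_norm _).trans ?_
    refine integral_mono_of_nonneg (Eventually.of_forall fun z => norm_nonneg _) (hIψ _)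
      (Eventually.of_forall fun z => ?_)
    simp only [Real.norm_eq_abs, abs_mul, abs_of_nonneg (normed_nn φ _)]
    have h1 : φ.normed volume (x - z) ≤ C₀ * ψ.normed volume (x - z) := by
      simpa using (hk (x - z) 0 (by simpa using hd.le)).1
    calc φ.normed volume (x - z) * (|g x - g z| * |G z|)
        ≤ (C₀ * ψ.normed volume (x - z)) * (|g x - g z| * |G z|) := by
          gcongr
      _ = C₀ * (ψ.normed volume (x - z) * |g x - g z|) * |G z| := by ring
      _ ≤ C₀ * (ψ.normed volume (x - z) * (K * (6 * d))) * |G z| := by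
          have := hw x z
          gcongr
      _ = _ := by ring
  · have h0 : 0 ≤ 7 * C₀ * K * mol ψ (fun z => |G z|) x := by
      have := mol_abs_nn ψ G x; positivity
    refine norm_fderiv_le_of_lip' (𝕜 := ℝ) (E := E n) (F := ℝ) h0 ?_
    have hev : ∀ᶠ y in 𝓝 x, ‖y - x‖ < d := by
      have := Metric.ball_mem_nhds x hd
      filter_upwards [this] with y hy
      rwa [mem_ball_iff_norm] at hy
    filter_upwards [hev] with y hy
    have hi1 : ∀ y : E n, Integrable (fun z => φ.normed volume (y - z) * ((g y - g z) * G z)) volume := by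
      intro y
      have := com_integrable ((hkc φ y).mul (continuous_const.sub hg.continuous)) hG hGc
        (k := fun z => φ.normed volume (y - z) * (g y - g z))
      simpa [mul_assoc] using this
    rw [com, com, ← integral_sub (hi1 y) (hi1 x)]
    have e1 : 7 * C₀ * K * mol ψ (fun z => |G z|) x * ‖y - x‖ =
        ∫ z, (7 * C₀ * K * ‖y - x‖) * (ψ.normed volume (x - z) * |G z|) := by
      rw [hmol]; ring
    rw [e1]
    refine (norm_integral_le_integral_norm _).trans ?_
    refine integral_mono_of_nonneg (Eventually.of_forall fun z => norm_nonneg _) (hIψ _)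
      (Eventually.of_forall fun z => ?_)
    have hyz : y - z = (x - z) + (y - x) := by abel
    obtain ⟨k1, k2⟩ := hk (x - z) (y - x) hy.le
    rw [← hyz] at k1 k2
    have hgy : |g y - g x| ≤ K * ‖y - x‖ := by
      have := hg.dist_le_mul y x
      rwa [Real.dist_eq, dist_eq_norm] at this
    simp only [Real.norm_eq_abs]
    have e2 : φ.normed volume (y - z) * ((g y - g z) * G z) - φ.normed volume (x - z) * ((g x - g z) * G z)
        = (φ.normed volume (y - z) * (g y - g x) +
          (φ.normed volume (y - z) - φ.normed volume (x - z)) * (g x - g z)) * G z := by ring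
    rw [e2, abs_mul]
    have h4 : |φ.normed volume (y - z) * (g y - g x) +
          (φ.normed volume (y - z) - φ.normed volume (x - z)) * (g x - g z)| ≤
        C₀ * ψ.normed volume (x - z) * (K * ‖y - x‖) +
        C₀ * (‖y - x‖ / d) * (ψ.normed volume (x - z) * (K * (6 * d))) := by
      refine (abs_add_le _ _).trans ?_
      rw [abs_mul, abs_mul, abs_of_nonneg (normed_nn φ _)]
      refine add_le_add ?_ ?_
      · have := normed_nn ψ (x - z)
        gcongr
      · calc |φ.normed volume (y - z) - φ.normed volume (x - z)| * |g x - g z|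
            ≤ (C₀ * (‖y - x‖ / d) * ψ.normed volume (x - z)) * |g x - g z| := by gcongr
          _ = C₀ * (‖y - x‖ / d) * (ψ.normed volume (x - z) * |g x - g z|) := by ring
          _ ≤ _ := by
            have := hw x z
            gcongr
    have e3 : C₀ * ψ.normed volume (x - z) * (K * ‖y - x‖) +
        C₀ * (‖y - x‖ / d) * (ψ.normed volume (x - z) * (K * (6 * d))) =
        7 * C₀ * K * ‖y - x‖ * ψ.normed volume (x - z) := by
      field_simp; ring
    rw [e3] at h4
    calc _ ≤ 7 * C₀ * K * ‖y - x‖ * ψ.normed volume (x - z) * |G z| := by gcongr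
      _ = _ := by ring

/-- bounded measurable functions with compact support -/
structure BC (g : E n → ℝ) : Prop where
  meas : Measurable g
  cpt : HasCompactSupport g
  bdd : ∃ B : ℝ, ∀ x, |g x| ≤ B

lemma BC.of_cont {g : E n → ℝ} (hg : Continuous g) (hc : HasCompactSupport g) : BC g :=
  ⟨hg.measurable, hc, by
    obtain ⟨B, hB⟩ := hc.exists_bound_of_continuous hg
    exact ⟨B, fun x => hB x⟩⟩

lemma BC.add {g h : E n → ℝ} (hg : BC g) (hh : BC h) : BC (fun x => g x + h x) := by
  obtain ⟨B, hB⟩ := hg.bdd
  obtain ⟨C, hC⟩ := hh.bdd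
  exact ⟨hg.meas.add hh.meas, hg.cpt.add hh.cpt, B + C, fun x =>
    (abs_add_le _ _).trans (add_le_add (hB x) (hC x))⟩

lemma BC.abs {g : E n → ℝ} (hg : BC g) : BC (fun x => |g x|) := by
  obtain ⟨B, hB⟩ := hg.bdd
  exact ⟨hg.meas.abs, hg.cpt.comp_left (g := fun r : ℝ => |r|) abs_zero, B, fun x => by
    rw [abs_abs]; exact hB x⟩

lemma BC.mulc {g h : E n → ℝ} (hg : BC g) (hh : Continuous h) : BC (fun x => g x * h x) := by
  obtain ⟨B, hB⟩ := hg.bdd
  obtain ⟨C, hC⟩ := hg.cpt.isCompact.exists_bound_of_continuousOn hh.continuousOn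
  refine ⟨hg.meas.mul hh.measurable, hg.cpt.mul_right, |B| * |C|, fun x => ?_⟩
  by_cases hx : x ∈ tsupport g
  · rw [abs_mul]
    exact mul_le_mul ((hB x).trans (le_abs_self B)) ((hC x hx).trans (le_abs_self C)) (abs_nonneg _)
      (abs_nonneg _)
  · rw [image_eq_zero_of_notMem_tsupport hx]; simp; positivity

lemma BC.constmul {g : E n → ℝ} (hg : BC g) (c : ℝ) : BC (fun x => c * g x) := by
  have := hg.mulc (continuous_const (y := c))
  simpa [mul_comm] using this

lemma BC.sq {g : E n → ℝ} (hg : BC g) : BC (fun x => g x ^ 2) := by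
  obtain ⟨B, hB⟩ := hg.bdd
  refine ⟨hg.meas.pow_const 2, hg.cpt.comp_left (g := fun r : ℝ => r ^ 2) (by simp), B ^ 2, fun x => ?_⟩
  rw [abs_pow]
  exact pow_le_pow_left₀ (abs_nonneg _) (hB x) 2

lemma BC.integrable {g : E n → ℝ} (hg : BC g) : Integrable g volume := by
  obtain ⟨B, hB⟩ := hg.bdd
  refine Integrable.mono' (g := (tsupport g).indicator fun _ => B) ?_ hg.meas.aestronglyMeasurable
    (Eventually.of_forall fun x => ?_)
  · rw [integrable_indicator_iff hg.cpt.isCompact.isClosed.measurableSet]
    exact integrableOn_const hg.cpt.isCompact.measure_lt_top.ne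
  · by_cases hx : x ∈ tsupport g
    · rw [Set.indicator_of_mem hx]; exact hB x
    · rw [Set.indicator_of_notMem hx, image_eq_zero_of_notMem_tsupport hx]; simp

lemma BC.int_mul {g ρ : E n → ℝ} (hg : BC g) (hρ : Continuous ρ) :
    Integrable (fun x => g x * ρ x) volume := (hg.mulc hρ).integrable

/-- Jensen -/
lemma mol_sq_le (φ : ContDiffBump (0 : E n)) {g : E n → ℝ} (hg : BC g) (x : E n) :
    (mol φ g x) ^ 2 ≤ mol φ (fun z => g z ^ 2) x := by
  obtain ⟨B, hB⟩ := hg.bdd
  obtain ⟨B2, hB2⟩ := hg.sq.bdd
  have i1 : Integrable (fun t => φ.normed volume t * g (x - t)) volume :=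
    mol_integrable φ hg.meas.aestronglyMeasurable hB x
  have i2 : Integrable (fun t => φ.normed volume t * (g (x - t)) ^ 2) volume :=
    mol_integrable φ hg.sq.meas.aestronglyMeasurable hB2 x
  set m := mol φ g x with hm
  have h0 : 0 ≤ ∫ t, φ.normed volume t * (g (x - t) - m) ^ 2 :=
    integral_nonneg fun t => mul_nonneg (normed_nn φ t) (sq_nonneg _)
  have e : ∀ t, φ.normed volume t * (g (x - t) - m) ^ 2 =
      φ.normed volume t * (g (x - t)) ^ 2 - 2 * m * (φ.normed volume t * g (x - t)) +
        m ^ 2 * φ.normed volume t := fun t => by ring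
  have h1 : ∫ t, φ.normed volume t * (g (x - t) - m) ^ 2 =
      mol φ (fun z => g z ^ 2) x - 2 * m * m + m ^ 2 := by
    have i3 : Integrable (fun t => φ.normed volume t * (g (x - t)) ^ 2 -
        2 * m * (φ.normed volume t * g (x - t))) volume := i2.sub (i1.const_mul _)
    simp_rw [e]
    rw [integral_add i3 ((normed_int φ).const_mul _),
      integral_sub i2 (i1.const_mul _), integral_const_mul, integral_const_mul,
      φ.integral_normed]
    have e4 : ∫ t, φ.normed volume t * g (x - t) = m := rfl
    rw [e4, mul_one]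
    rfl
  rw [h1] at h0
  nlinarith

/-- averages are bounded on weighted `L²` -/
theorem avg_le (φ : ContDiffBump (0 : E n)) {g ρ : E n → ℝ} (hg : BC g) (hρ : Continuous ρ)
    (hρ0 : ∀ x, 0 ≤ ρ x)
    (hc : ∀ x t, ‖t‖ < φ.rOut → g x ≠ 0 → ρ (x + t) ≤ 2 * ρ x) :
    ∫ x, (mol φ g x) ^ 2 * ρ x ≤ 2 * ∫ x, (g x) ^ 2 * ρ x := by
  obtain ⟨B, hB⟩ := hg.bdd
  obtain ⟨B2, hB2⟩ := hg.sq.bdd
  -- support of the mollification
  obtain ⟨R, hR⟩ := hg.cpt.isCompact.isBounded.subset_closedBall (0 : E n)
  have hsupp : ∀ x t : E n, R + φ.rOut < ‖x‖ → φ.normed volume t * g (x - t) ^ 2 = 0 := by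
    intro x t hx
    by_cases ht : φ.rOut ≤ ‖t‖
    · rw [normed_zero φ ht, zero_mul]
    · push Not at ht
      have : x - t ∉ tsupport g := by
        intro hmem
        have h1 := hR hmem
        rw [mem_closedBall_zero_iff] at h1
        have h2 : ‖x‖ ≤ ‖x - t‖ + ‖t‖ := by simpa using norm_add_le (x - t) t
        linarith
      rw [image_eq_zero_of_notMem_tsupport this]; simp
  obtain ⟨D, hD⟩ := (isCompact_closedBall (0 : E n) (R + φ.rOut)).exists_bound_of_continuousOn
    hρ.continuousOn
  -- integrability on the product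
  have hprod : Integrable (fun p : E n × E n => φ.normed volume p.2 * g (p.1 - p.2) ^ 2 * ρ p.1)
      (volume.prod volume) := by
    have hb : Integrable (fun p : E n × E n =>
        ((Metric.closedBall (0 : E n) (R + φ.rOut)).indicator (fun _ => |B2| * |D|) p.1) *
          φ.normed volume p.2) (volume.prod volume) := by
      refine Integrable.mul_prod (f := fun x => (Metric.closedBall (0 : E n) (R + φ.rOut)).indicator
        (fun _ => |B2| * |D|) x) ?_ (normed_int φ)
      rw [integrable_indicator_iff measurableSet_closedBall]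
      exact integrableOn_const (isCompact_closedBall _ _).measure_lt_top.ne
    refine hb.mono' ?_ (Eventually.of_forall fun p => ?_)
    · refine Measurable.aestronglyMeasurable ?_
      have h1 : Measurable fun p : E n × E n => φ.normed volume p.2 :=
        (normed_cont φ).measurable.comp measurable_snd
      have h2 : Measurable fun p : E n × E n => g (p.1 - p.2) :=
        hg.meas.comp (measurable_fst.sub measurable_snd)
      exact (h1.mul (h2.pow_const 2)).mul (hρ.measurable.comp measurable_fst)
    · by_cases hx : ‖p.1‖ ≤ R + φ.rOut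
      · rw [Set.indicator_of_mem (by simpa using hx)]
        have hx' := hD p.1 (by simpa using hx)
        rw [Real.norm_eq_abs, abs_mul, abs_mul, abs_of_nonneg (normed_nn φ _)]
        have h1 : |g (p.1 - p.2) ^ 2| ≤ |B2| := (hB2 _).trans (le_abs_self _)
        have h2 : |ρ p.1| ≤ |D| := hx'.trans (le_abs_self _)
        calc φ.normed volume p.2 * |g (p.1 - p.2) ^ 2| * |ρ p.1|
            ≤ φ.normed volume p.2 * |B2| * |D| := by
              have := normed_nn φ p.2
              gcongr
          _ = _ := by ring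
      · push Not at hx
        rw [hsupp p.1 p.2 hx, zero_mul, norm_zero]
        have := normed_nn φ p.2
        exact mul_nonneg (Set.indicator_nonneg (fun _ _ => by positivity) _) this
  have hmeas1 : ∫ x, mol φ (fun z => g z ^ 2) x * ρ x =
      ∫ x, ∫ t, φ.normed volume t * g (x - t) ^ 2 * ρ x := by
    refine integral_congr_ae (Eventually.of_forall fun x => ?_)
    simp only [mol]
    rw [integral_mul_const]
  have hint : Integrable (fun x => mol φ (fun z => g z ^ 2) x * ρ x) volume := by
    have := hprod.integral_prod_left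
    refine this.congr (Eventually.of_forall fun x => ?_)
    simp only [mol]
    rw [integral_mul_const]
  calc ∫ x, (mol φ g x) ^ 2 * ρ x ≤ ∫ x, mol φ (fun z => g z ^ 2) x * ρ x := by
        refine integral_mono_of_nonneg (Eventually.of_forall fun x => by
          have := hρ0 x; positivity) hint (Eventually.of_forall fun x => ?_)
        exact mul_le_mul_of_nonneg_right (mol_sq_le φ hg x) (hρ0 x)
    _ = ∫ t, ∫ x, φ.normed volume t * g (x - t) ^ 2 * ρ x := by
        rw [hmeas1]
        exact integral_integral_swap hprod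
    _ ≤ ∫ t : E n, φ.normed volume t * (2 * ∫ x, (g x) ^ 2 * ρ x) := by
        refine integral_mono_of_nonneg (Eventually.of_forall fun t => integral_nonneg fun x => by
          have := hρ0 x; have := normed_nn φ t; positivity) ((normed_int φ).mul_const _)
          (Eventually.of_forall fun t => ?_)
        simp only
        have e1 : ∫ x, φ.normed volume t * g (x - t) ^ 2 * ρ x =
            φ.normed volume t * ∫ z, g z ^ 2 * ρ (z + t) := by
          rw [← integral_const_mul, ← integral_add_right_eq_self
            (fun x => φ.normed volume t * g (x - t) ^ 2 * ρ x) t]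
          refine integral_congr_ae (Eventually.of_forall fun x => ?_)
          simp only [add_sub_cancel_right]; ring
        rw [e1]
        by_cases ht : φ.rOut ≤ ‖t‖
        · rw [normed_zero φ ht]; simp
        · push Not at ht
          refine mul_le_mul_of_nonneg_left ?_ (normed_nn φ t)
          rw [← integral_const_mul]
          refine integral_mono_of_nonneg (Eventually.of_forall fun z => by
            have := hρ0 (z + t); positivity) ((hg.sq.int_mul hρ).const_mul 2)
            (Eventually.of_forall fun z => ?_)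
          by_cases hz : g z = 0
          · simp [hz]
          · have := hc z t ht hz
            simp only
            nlinarith [sq_nonneg (g z)]
    _ = 2 * ∫ x, (g x) ^ 2 * ρ x := by
        rw [integral_mul_const, φ.integral_normed, one_mul]

end Vale.Agent.P227.M.LIN.H768
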