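import Vale.Agent.P227.M.LIN.H768

/-! P227 / LIN-4 (helper768), part 2: `H¹` convergence of the mollification of Lipschitz functions. -/

open MeasureTheory Filter Topology
open scoped Convolution

namespace Vale.Agent.P227.M.LIN.H768

variable {n : ℕ}

/-- the sequence of bumps -/
noncomputable def dj (j : ℕ) : ℝ := 1 / ((j : ℝ) + 1)

lemma dj_pos (j : ℕ) : 0 < dj j := by unfold dj; positivity

lemma dj_le_one (j : ℕ) : dj j ≤ 1 := by
  unfold dj
  rw [div_le_one (by positivity)]
  have : (0 : ℝ) ≤ j := Nat.cast_nonneg j
  linarith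

lemma dj_tendsto : Tendsto dj atTop (𝓝 0) := tendsto_one_div_add_atTop_nhds_zero_nat

noncomputable def φj (n j : ℕ) : ContDiffBump (0 : E n) := bmp n (dj j) (dj_pos j)

section
variable {F : Type*} [NormedAddCommGroup F] [NormedSpace ℝ F] [CompleteSpace F]

theorem conv_L2 {g : E n → F} (hg : AEStronglyMeasurable g volume) {B R : ℝ}
    (hB : ∀ x, ‖g x‖ ≤ B) (hR : ∀ x, R < ‖x‖ → g x = 0) {ρ : E n → ℝ} (hρ : Continuous ρ) :
    Tendsto (fun j => ∫ x, ‖(∫ t, (φj n j).normed volume t • g (x - t)) - g x‖ ^ 2 * ρ x)
      atTop (𝓝 0) := by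
  have hgi : Integrable g volume := by
    refine Integrable.mono' (g := (Metric.closedBall (0 : E n) R).indicator fun _ => B) ?_ hg
      (Eventually.of_forall fun x => ?_)
    · rw [integrable_indicator_iff measurableSet_closedBall]
      exact integrableOn_const (isCompact_closedBall _ _).measure_lt_top.ne
    · by_cases hx : ‖x‖ ≤ R
      · rw [Set.indicator_of_mem (by simpa using hx)]; exact hB x
      · rw [Set.indicator_of_notMem (by simpa using hx), hR x (not_le.1 hx)]; simp
  have hrw : ∀ j : ℕ, (fun x => ∫ t, (φj n j).normed volume t • g (x - t)) =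
      ((φj n j).normed volume ⋆[ContinuousLinearMap.lsmul ℝ ℝ, volume] g) := by
    intro j; funext x; simp [convolution_def]
  have hae := ContDiffBump.ae_convolution_tendsto_right_of_locallyIntegrable (μ := (volume : Measure (E n)))
    (φ := fun j => φj n j) (l := atTop) (K := 2) (g := g) (by
      have := dj_tendsto.const_mul 2
      simpa [φj, bmp] using this) (Eventually.of_forall fun j => by simp [φj, bmp])
      hgi.locallyIntegrable
  have hmeas : ∀ j, AEStronglyMeasurable
      (fun x => ‖(∫ t, (φj n j).normed volume t • g (x - t)) - g x‖ ^ 2 * ρ x) volume := by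
    intro j
    have h1 : AEStronglyMeasurable (fun x => ∫ t, (φj n j).normed volume t • g (x - t)) volume := by
      rw [hrw j]
      exact ((normed_int (φj n j)).integrable_convolution (L := ContinuousLinearMap.lsmul ℝ ℝ) hgi).aestronglyMeasurable
    exact ((h1.sub hg).norm.pow 2).mul hρ.aestronglyMeasurable
  have hB0 : 0 ≤ B := (norm_nonneg _).trans (hB 0)
  have hmb : ∀ j x, ‖∫ t, (φj n j).normed volume t • g (x - t)‖ ≤ B := by
    intro j x
    refine (norm_integral_le_integral_norm _).trans ?_
    calc ∫ t, ‖(φj n j).normed volume t • g (x - t)‖ ≤ ∫ t, (φj n j).normed volume t * B := by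
          refine integral_mono_of_nonneg (Eventually.of_forall fun z => norm_nonneg _)
            ((normed_int _).mul_const _) (Eventually.of_forall fun t => ?_)
          simp only [norm_smul, Real.norm_eq_abs, abs_of_nonneg (normed_nn (φj n j) t)]
          exact mul_le_mul_of_nonneg_left (hB _) (normed_nn _ t)
      _ = B := by rw [integral_mul_const, (φj n j).integral_normed, one_mul]
  have hms : ∀ j x, R + 2 < ‖x‖ → ∫ t, (φj n j).normed volume t • g (x - t) = 0 := by
    intro j x hx
    rw [← integral_zero (E n) F (μ := volume)]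
    refine integral_congr_ae (Eventually.of_forall fun t => ?_)
    simp only
    by_cases ht : (φj n j).rOut ≤ ‖t‖
    · rw [normed_zero _ ht, zero_smul]
    · push Not at ht
      have h2 : ‖x‖ ≤ ‖x - t‖ + ‖t‖ := by simpa using norm_add_le (x - t) t
      have h3 : (φj n j).rOut ≤ 2 := by
        have := dj_le_one j
        simp only [φj, bmp]; linarith
      rw [hR (x - t) (by linarith), smul_zero]
  have hlim : Tendsto (fun j => ∫ x, ‖(∫ t, (φj n j).normed volume t • g (x - t)) - g x‖ ^ 2 * ρ x)
      atTop (𝓝 (∫ x : E n, (0 : ℝ))) := by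
    refine tendsto_integral_of_dominated_convergence
      (fun x => (Metric.closedBall (0 : E n) (R + 2)).indicator (fun x => (2 * B) ^ 2 * |ρ x|) x)
      hmeas ?_ ?_ ?_
    · rw [integrable_indicator_iff measurableSet_closedBall]
      exact (Continuous.continuousOn (by fun_prop)).integrableOn_compact (isCompact_closedBall _ _)
    · intro j
      refine Eventually.of_forall fun x => ?_
      by_cases hx : ‖x‖ ≤ R + 2
      · rw [Set.indicator_of_mem (by simpa using hx), norm_mul, norm_pow, norm_norm, Real.norm_eq_abs]
        have : ‖(∫ t, (φj n j).normed volume t • g (x - t)) - g x‖ ≤ 2 * B := by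
          refine (norm_sub_le _ _).trans ?_
          linarith [hmb j x, hB x]
        gcongr
      · push Not at hx
        rw [hms j x hx, hR x (by linarith)]
        simp only [sub_self, norm_zero]
        rw [zero_pow two_ne_zero, zero_mul, norm_zero]
        exact Set.indicator_nonneg (fun _ _ => by positivity) _
    · filter_upwards [hae] with x hx
      have h1 : Tendsto (fun j => ∫ t, (φj n j).normed volume t • g (x - t)) atTop (𝓝 (g x)) := by
        refine hx.congr fun j => ?_
        rw [← hrw j]
      have h2 := ((h1.sub_const (g x)).norm.pow 2).mul_const (ρ x)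
      simpa using h2
  simpa using hlim
end

/-- value convergence -/
theorem mol_tendsto {f : E n → ℝ} (hf : Continuous f) (hc : HasCompactSupport f) {ρ : E n → ℝ}
    (hρ : Continuous ρ) :
    Tendsto (fun j => ∫ x, (mol (φj n j) f x - f x) ^ 2 * ρ x) atTop (𝓝 0) := by
  obtain ⟨B, hB⟩ := hc.exists_bound_of_continuous hf
  obtain ⟨R, hR⟩ := hc.isCompact.isBounded.subset_closedBall (0 : E n)
  have := conv_L2 (R := R) hf.aestronglyMeasurable hB (fun x hx => by
    refine image_eq_zero_of_notMem_tsupport fun h => ?_
    have := hR h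
    rw [mem_closedBall_zero_iff] at this; linarith) hρ
  simpa [mol] using this

/-- gradient convergence -/
theorem fderiv_mol_tendsto {f : E n → ℝ} {K : NNReal} (hf : LipschitzWith K f)
    (hc : HasCompactSupport f) {ρ : E n → ℝ} (hρ : Continuous ρ) :
    Tendsto (fun j => ∫ x, ‖fderiv ℝ (mol (φj n j) f) x - fderiv ℝ f x‖ ^ 2 * ρ x) atTop (𝓝 0) := by
  obtain ⟨R, hR⟩ := hc.isCompact.isBounded.subset_closedBall (0 : E n)
  have := conv_L2 (R := R) (g := fderiv ℝ f) (B := K)
    (measurable_fderiv ℝ f).aestronglyMeasurable (fun x => norm_fderiv_le_of_lipschitz ℝ hf)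
    (fun x hx => by
    have h1 : x ∉ tsupport (fderiv ℝ f) := fun h => by
      have := hR (tsupport_fderiv_subset ℝ h)
      rw [mem_closedBall_zero_iff] at this; linarith
    exact image_eq_zero_of_notMem_tsupport h1) hρ
  refine this.congr fun j => ?_
  refine integral_congr_ae (Eventually.of_forall fun x => ?_)
  simp only
  rw [(hasFDerivAt_mol (φj n j) hf hc x).fderiv]

end Vale.Agent.P227.M.LIN.H768
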