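import Vale.Agent.P227.M.LIN.H768b

/-! P227 / LIN-4 (helper768), part 3: algebra of `L`, mollification, cut-off. -/

open MeasureTheory Filter Topology

namespace Vale.Agent.P227.M.LIN.H768

variable {n : ℕ}

lemma test_diff {f : E n → ℝ} (hf : Test f) : Differentiable ℝ f :=
  hf.1.differentiable (by simp)

lemma test_pd {f : E n → ℝ} (hf : Test f) (i : Fin n) : Test (pd i f) := by
  constructor
  · have h : ContDiff ℝ (⊤ : ℕ∞) (fderiv ℝ f) := hf.1.fderiv_right (m := (⊤ : ℕ∞)) (by simp)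
    exact h.clm_apply contDiff_const
  · exact (hf.2.fderiv ℝ).comp_left (g := fun l : E n →L[ℝ] ℝ => l (ei i)) (by simp)

lemma test_lip {f : E n → ℝ} (hf : Test f) : ∃ K, LipschitzWith K f :=
  ContDiff.lipschitzWith_of_hasCompactSupport (𝕂 := ℝ) (n := (⊤ : ℕ∞)) hf.2 hf.1 (by simp)

lemma test_cont {f : E n → ℝ} (hf : Test f) : Continuous f := hf.1.continuous

lemma test_add {f g : E n → ℝ} (hf : Test f) (hg : Test g) : Test (fun x => f x + g x) :=
  ⟨hf.1.add hg.1, hf.2.add hg.2⟩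

lemma test_sub {f g : E n → ℝ} (hf : Test f) (hg : Test g) : Test (fun x => f x - g x) :=
  ⟨hf.1.sub hg.1, hf.2.sub hg.2⟩

lemma test_mul {f g : E n → ℝ} (hf : Test f) (hg : Test g) : Test (fun x => f x * g x) :=
  ⟨hf.1.mul hg.1, hf.2.mul_right⟩

lemma pd_add {f g : E n → ℝ} (hf : Differentiable ℝ f) (hg : Differentiable ℝ g) (i : Fin n) :
    pd i (fun x => f x + g x) = fun x => pd i f x + pd i g x := by
  funext x
  simp only [pd]
  rw [fderiv_fun_add (hf x) (hg x)]; rfl

lemma pd_sub {f g : E n → ℝ} (hf : Differentiable ℝ f) (hg : Differentiable ℝ g) (i : Fin n) :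
    pd i (fun x => f x - g x) = fun x => pd i f x - pd i g x := by
  funext x
  simp only [pd]
  rw [fderiv_fun_sub (hf x) (hg x)]; rfl

lemma pd_mul {f g : E n → ℝ} (hf : Differentiable ℝ f) (hg : Differentiable ℝ g) (i : Fin n) :
    pd i (fun x => f x * g x) = fun x => f x * pd i g x + g x * pd i f x := by
  funext x
  simp only [pd]
  rw [fderiv_fun_mul (hf x) (hg x)]; simp

lemma pd_mol (φ : ContDiffBump (0 : E n)) {f : E n → ℝ} (hf : Test f) (i : Fin n) :
    pd i (mol φ f) = mol φ (pd i f) := by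
  obtain ⟨K, hK⟩ := test_lip hf
  funext x
  have hb : ∀ x, ‖fderiv ℝ f x‖ ≤ K := fun x => norm_fderiv_le_of_lipschitz ℝ hK
  simp only [pd]
  rw [(hasFDerivAt_mol φ hK hf.2 x).fderiv, ContinuousLinearMap.integral_apply
    (mol_integrable φ (measurable_fderiv ℝ f).aestronglyMeasurable hb x)]
  simp [mol, pd]

lemma test_mol (φ : ContDiffBump (0 : E n)) {f : E n → ℝ} (hf : Test f) : Test (mol φ f) :=
  ⟨mol_smooth φ (test_cont hf), mol_compact φ hf.2⟩

lemma hess_mol (φ : ContDiffBump (0 : E n)) {f : E n → ℝ} (hf : Test f) (i j : Fin n) (x : E n) :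
    hess (mol φ f) x i j = mol φ (fun z => hess f z i j) x := by
  simp only [hess]
  rw [pd_mol φ hf, pd_mol φ (test_pd hf j)]

lemma com_eq (φ : ContDiffBump (0 : E n)) {g G : E n → ℝ} (hg : Continuous g) (hG : Continuous G)
    (hGc : HasCompactSupport G) (x : E n) :
    com φ g G x = g x * mol φ G x - mol φ (fun z => g z * G z) x := by
  have hkc : Continuous fun z => φ.normed volume (x - z) :=
    (normed_cont φ).comp (continuous_const.sub continuous_id)
  rw [com, mol_eq, mol_eq, ← integral_const_mul, ← integral_sub]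
  · refine integral_congr_ae (Eventually.of_forall fun z => ?_)
    simp only; ring
  · exact (com_integrable hkc hG hGc).const_mul _
  · have := com_integrable (hkc.mul hg) hG hGc
    simpa [mul_assoc] using this

lemma mol_sum (φ : ContDiffBump (0 : E n)) {ι : Type*} (s : Finset ι) {f : ι → E n → ℝ}
    (hf : ∀ i ∈ s, Continuous (f i)) (hc : ∀ i ∈ s, HasCompactSupport (f i)) (x : E n) :
    mol φ (fun z => ∑ i ∈ s, f i z) x = ∑ i ∈ s, mol φ (f i) x := by
  simp only [mol_eq, Finset.mul_sum]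
  rw [integral_finsetSum]
  intro i hi
  exact com_integrable ((normed_cont φ).comp (continuous_const.sub continuous_id)) (hf i hi) (hc i hi)

lemma mol_sub' (φ : ContDiffBump (0 : E n)) {f g : E n → ℝ}
    (hf : Continuous f) (hfc : HasCompactSupport f) (hg : Continuous g) (hgc : HasCompactSupport g)
    (x : E n) : mol φ (fun z => f z - g z) x = mol φ f x - mol φ g x := by
  have hkc : Continuous fun z => φ.normed volume (x - z) :=
    (normed_cont φ).comp (continuous_const.sub continuous_id)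
  rw [mol_eq, mol_eq, mol_eq, ← integral_sub (com_integrable hkc hf hfc) (com_integrable hkc hg hgc)]
  refine integral_congr_ae (Eventually.of_forall fun z => ?_)
  simp only; ring

lemma mol_add' (φ : ContDiffBump (0 : E n)) {f g : E n → ℝ}
    (hf : Continuous f) (hfc : HasCompactSupport f) (hg : Continuous g) (hgc : HasCompactSupport g)
    (x : E n) : mol φ (fun z => f z + g z) x = mol φ f x + mol φ g x := by
  have hkc : Continuous fun z => φ.normed volume (x - z) :=
    (normed_cont φ).comp (continuous_const.sub continuous_id)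
  rw [mol_eq, mol_eq, mol_eq, ← integral_add (com_integrable hkc hf hfc) (com_integrable hkc hg hgc)]
  refine integral_congr_ae (Eventually.of_forall fun z => ?_)
  simp only; ring

lemma hcs_sum {ι : Type*} (s : Finset ι) {f : ι → E n → ℝ} (h : ∀ i ∈ s, HasCompactSupport (f i)) :
    HasCompactSupport (fun x => ∑ i ∈ s, f i x) := by
  classical
  induction s using Finset.induction_on with
  | empty =>
    simp only [Finset.sum_empty]
    exact (HasCompactSupport.zero : HasCompactSupport (0 : E n → ℝ))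
  | insert a s ha ih =>
    simp_rw [Finset.sum_insert ha]
    exact (h a (Finset.mem_insert_self _ _)).add (ih fun i hi => h i (Finset.mem_insert_of_mem hi))

/-- the commutator of `L` and the mollification -/
noncomputable def Com (ψ : E n → ℝ) (φ : ContDiffBump (0 : E n)) (G : E n → ℝ) (x : E n) : ℝ :=
  (∑ i, ∑ j, com φ (fun z => tau ψ z i j) (fun z => hess G z i j) x) -
    ∑ i, com φ (fun z => z i) (pd i G) x

lemma coord_cont (i : Fin n) : Continuous fun z : E n => z i := by fun_prop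

theorem Lop_mol {ψ : E n → ℝ} (hτ : ∀ i j, Continuous fun z => tau ψ z i j)
    (φ : ContDiffBump (0 : E n)) {G : E n → ℝ} (hG : Test G) (x : E n) :
    Lop ψ (mol φ G) x = mol φ (Lop ψ G) x + Com ψ φ G x := by
  have hc : ∀ i j : Fin n, Test (fun z => hess G z i j) := fun i j => test_pd (test_pd hG j) i
  have h1 : mol φ (Lop ψ G) x = (∑ i, ∑ j, mol φ (fun z => tau ψ z i j * hess G z i j) x) -
      ∑ i, mol φ (fun z => z i * pd i G z) x := by
    have e : (Lop ψ G) = fun z => (∑ i, ∑ j, tau ψ z i j * hess G z i j) - ∑ i, z i * pd i G z := rfl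
    have k1 : ∀ i j : Fin n, Continuous fun z => tau ψ z i j * hess G z i j :=
      fun i j => (hτ i j).mul (test_cont (hc i j))
    have k2 : ∀ i j : Fin n, HasCompactSupport fun z => tau ψ z i j * hess G z i j :=
      fun i j => (hc i j).2.mul_left
    have k3 : ∀ i : Fin n, Continuous fun z => z i * pd i G z :=
      fun i => (coord_cont i).mul (test_cont (test_pd hG i))
    have k4 : ∀ i : Fin n, HasCompactSupport fun z => z i * pd i G z :=
      fun i => (test_pd hG i).2.mul_left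
    have k5 : ∀ i : Fin n, HasCompactSupport fun z => ∑ j, tau ψ z i j * hess G z i j :=
      fun i => hcs_sum _ fun j _ => k2 i j
    rw [e, mol_sub' φ (by fun_prop) (hcs_sum _ fun i _ => k5 i) (by fun_prop)
      (hcs_sum _ fun i _ => k4 i), mol_sum, mol_sum]
    · congr 1
      refine Finset.sum_congr rfl fun i _ => ?_
      rw [mol_sum]
      · exact fun j _ => k1 i j
      · exact fun j _ => k2 i j
    · exact fun i _ => k3 i
    · exact fun i _ => k4 i
    · exact fun i _ => by fun_prop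
    · exact fun i _ => k5 i
  have h2 : Com ψ φ G x = (∑ i, ∑ j, (tau ψ x i j * mol φ (fun z => hess G z i j) x -
        mol φ (fun z => tau ψ z i j * hess G z i j) x)) -
      ∑ i, (x i * mol φ (pd i G) x - mol φ (fun z => z i * pd i G z) x) := by
    unfold Com
    congr 1
    · refine Finset.sum_congr rfl fun i _ => Finset.sum_congr rfl fun j _ => ?_
      exact com_eq φ (hτ i j) (test_cont (hc i j)) (hc i j).2 x
    · refine Finset.sum_congr rfl fun i _ => ?_
      exact com_eq φ (coord_cont i) (test_cont (test_pd hG i)) (test_pd hG i).2 x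
  rw [h1, h2]
  unfold Lop
  simp_rw [hess_mol φ hG, pd_mol φ hG, Finset.sum_sub_distrib]
  ring

/-! ### bounded Lipschitz coefficients -/

/-- bounded by `C` and `C`-Lipschitz -/
def BL (C : ℝ) (m : E n → ℝ) : Prop := (∀ x, |m x| ≤ C) ∧ ∀ x y, |m x - m y| ≤ C * ‖x - y‖

lemma BL.nn {C : ℝ} {m : E n → ℝ} (h : BL C m) : 0 ≤ C := (abs_nonneg _).trans (h.1 0)

lemma BL.mono {C C' : ℝ} {m : E n → ℝ} (h : BL C m) (hc : C ≤ C') : BL C' m :=
  ⟨fun x => (h.1 x).trans hc, fun x y => (h.2 x y).trans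
    (mul_le_mul_of_nonneg_right hc (norm_nonneg _))⟩

lemma BL.lip {C : ℝ} {m : E n → ℝ} (h : BL C m) : LipschitzWith (Real.toNNReal C) m := by
  refine LipschitzWith.of_dist_le_mul fun x y => ?_
  rw [Real.dist_eq, dist_eq_norm, Real.coe_toNNReal _ h.nn]
  exact h.2 x y

lemma BL.cont {C : ℝ} {m : E n → ℝ} (h : BL C m) : Continuous m := h.lip.continuous

lemma BL.add {C D : ℝ} {f g : E n → ℝ} (hf : BL C f) (hg : BL D g) :
    BL (C + D) (fun x => f x + g x) :=
  ⟨fun x => (abs_add_le _ _).trans (add_le_add (hf.1 x) (hg.1 x)), fun x y => by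
    have : f x + g x - (f y + g y) = (f x - f y) + (g x - g y) := by ring
    rw [this, add_mul]
    exact (abs_add_le _ _).trans (add_le_add (hf.2 x y) (hg.2 x y))⟩

lemma BL.neg {C : ℝ} {f : E n → ℝ} (hf : BL C f) : BL C (fun x => - f x) :=
  ⟨fun x => by rw [abs_neg]; exact hf.1 x, fun x y => by
    have : - f x - - f y = -(f x - f y) := by ring
    rw [this, abs_neg]; exact hf.2 x y⟩

lemma BL.sub {C D : ℝ} {f g : E n → ℝ} (hf : BL C f) (hg : BL D g) :
    BL (C + D) (fun x => f x - g x) := by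
  simpa [sub_eq_add_neg] using hf.add hg.neg

lemma BL.mul {C D : ℝ} {f g : E n → ℝ} (hf : BL C f) (hg : BL D g) :
    BL (2 * (C * D)) (fun x => f x * g x) := by
  have h1 := hf.nn
  have h2 := hg.nn
  constructor
  · intro x
    rw [abs_mul]
    have := mul_le_mul (hf.1 x) (hg.1 x) (abs_nonneg _) h1
    nlinarith [mul_nonneg h1 h2]
  · intro x y
    have : f x * g x - f y * g y = f x * (g x - g y) + (f x - f y) * g y := by ring
    rw [this]
    refine (abs_add_le _ _).trans ?_
    rw [abs_mul, abs_mul]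
    have a1 := mul_le_mul (hf.1 x) (hg.2 x y) (abs_nonneg _) h1
    have a2 := mul_le_mul (hf.2 x y) (hg.1 y) (abs_nonneg _) (mul_nonneg h1 (norm_nonneg _))
    nlinarith

lemma BL.const_mul {C : ℝ} {f : E n → ℝ} (hf : BL C f) {c : ℝ} (hc : |c| ≤ 1) :
    BL C (fun x => c * f x) := by
  constructor
  · intro x
    rw [abs_mul]
    have := hf.1 x
    nlinarith [abs_nonneg c, abs_nonneg (f x)]
  · intro x y
    rw [← mul_sub, abs_mul]
    have := hf.2 x y
    nlinarith [abs_nonneg c, abs_nonneg (f x - f y)]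

lemma BL.sum {ι : Type*} (s : Finset ι) {C : ι → ℝ} {f : ι → E n → ℝ} (h : ∀ i ∈ s, BL (C i) (f i)) :
    BL (∑ i ∈ s, C i) (fun x => ∑ i ∈ s, f i x) := by
  classical
  induction s using Finset.induction_on with
  | empty => simp [BL]
  | insert a s ha ih =>
    simp_rw [Finset.sum_insert ha]
    exact (h a (Finset.mem_insert_self _ _)).add (ih fun i hi => h i (Finset.mem_insert_of_mem hi))

lemma BL.of_test {f : E n → ℝ} (hf : Test f) : ∃ C, BL C f := by
  obtain ⟨K, hK⟩ := test_lip hf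
  obtain ⟨B, hB⟩ := hf.2.exists_bound_of_continuous (test_cont hf)
  refine ⟨max B K, fun x => (hB x).trans (le_max_left _ _), fun x y => ?_⟩
  have := hK.dist_le_mul x y
  rw [Real.dist_eq, dist_eq_norm] at this
  exact this.trans (mul_le_mul_of_nonneg_right (le_max_right _ _) (norm_nonneg _))

lemma BL.scale {C : ℝ} {f : E n → ℝ} (hf : BL C f) {R : ℝ} (hR : 1 ≤ R) :
    BL C (fun x => f (R⁻¹ • x)) := by
  refine ⟨fun x => hf.1 _, fun x y => (hf.2 _ _).trans ?_⟩
  rw [← smul_sub, norm_smul, norm_inv, Real.norm_eq_abs, abs_of_pos (by linarith)]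
  refine mul_le_mul_of_nonneg_left ?_ hf.nn
  have : R⁻¹ ≤ 1 := inv_le_one_of_one_le₀ hR
  nlinarith [norm_nonneg (x - y)]

lemma pd_scale {f : E n → ℝ} (hf : Differentiable ℝ f) (c : ℝ) (i : Fin n) :
    pd i (fun x => f (c • x)) = fun x => c * pd i f (c • x) := by
  funext x
  simp only [pd]
  have h1 : HasFDerivAt (fun x : E n => c • x) (c • ContinuousLinearMap.id ℝ (E n)) x :=
    (hasFDerivAt_id x).const_smul c
  have h2 := (hf (c • x)).hasFDerivAt.comp x h1
  have h3 : fderiv ℝ (fun x => f (c • x)) x = (fderiv ℝ f (c • x)).comp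
    (c • ContinuousLinearMap.id ℝ (E n)) := h2.fderiv
  rw [h3]; simp

/-- the base cut-off -/
noncomputable def χ1 (n : ℕ) : E n → ℝ := fun x => (bmp n 1 one_pos : E n → ℝ) x

lemma χ1_test : Test (χ1 n) :=
  ⟨(bmp n 1 one_pos).contDiff, (bmp n 1 one_pos).hasCompactSupport⟩

noncomputable def χ (n : ℕ) (R : ℝ) : E n → ℝ := fun x => χ1 n (R⁻¹ • x)

lemma χ_eq {R : ℝ} (hR : 0 < R) (x : E n) : χ n R x = (bmp n R hR : E n → ℝ) x := by
  rw [bmp_apply]; rfl

lemma χ_test {R : ℝ} (hR : 0 < R) : Test (χ n R) := by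
  have : χ n R = fun x => (bmp n R hR : E n → ℝ) x := funext fun x => χ_eq hR x
  rw [this]
  exact ⟨(bmp n R hR).contDiff, (bmp n R hR).hasCompactSupport⟩

lemma χ_one {R : ℝ} (hR : 0 < R) {x : E n} (hx : ‖x‖ ≤ R) : χ n R x = 1 := by
  rw [χ_eq hR]
  apply ContDiffBump.one_of_mem_closedBall
  simpa [bmp] using hx

lemma χ_zero {R : ℝ} (hR : 0 < R) {x : E n} (hx : 2 * R ≤ ‖x‖) : χ n R x = 0 := by
  rw [χ_eq hR]
  apply ContDiffBump.zero_of_le_dist
  simpa [bmp] using hx

lemma χ_abs {R : ℝ} (hR : 0 < R) (x : E n) : |χ n R x| ≤ 1 := by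
  rw [χ_eq hR, abs_of_nonneg (ContDiffBump.nonneg _)]
  exact ContDiffBump.le_one _

lemma pd_χ (R : ℝ) (i : Fin n) : pd i (χ n R) = fun x => R⁻¹ * pd i (χ1 n) (R⁻¹ • x) :=
  pd_scale (test_diff χ1_test) _ i

lemma hess_χ (R : ℝ) (i j : Fin n) (x : E n) :
    hess (χ n R) x i j = R⁻¹ * (R⁻¹ * hess (χ1 n) (R⁻¹ • x) i j) := by
  simp only [hess]
  rw [pd_χ]
  have h1 := pd_scale (test_diff (test_pd χ1_test j)) R⁻¹ i
  have h2 : pd i (fun x => R⁻¹ * pd j (χ1 n) (R⁻¹ • x)) =
      fun x => R⁻¹ * pd i (fun x => pd j (χ1 n) (R⁻¹ • x)) x := by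
    funext x
    simp only [pd]
    have hd : DifferentiableAt ℝ (fun x => fderiv ℝ (χ1 n) (R⁻¹ • x) (ei j)) x := by
      have h5 : Differentiable ℝ fun x : E n => R⁻¹ • x := by fun_prop
      have := (test_diff (test_pd (χ1_test (n := n)) j)).comp h5
      exact this x
    rw [fderiv_const_mul hd]; simp
  rw [h2, h1]

/-- the cut-off: all coefficients are bounded Lipschitz uniformly in `R ≥ 1` -/
theorem cutoff_exists {ψ : E n → ℝ} {T : ℝ} (hT : ∀ i j, BL T (fun z => tau ψ z i j)) :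
    ∃ C, 0 ≤ C ∧ ∀ R : ℝ, 1 ≤ R → (∀ i, BL C (pd i (χ n R))) ∧
      (∀ i j, BL C (fun x => hess (χ n R) x i j)) ∧ BL C (Lop ψ (χ n R)) ∧
      ∀ j, BL C (fun x => ∑ i, (tau ψ x i j + tau ψ x j i) * pd i (χ n R) x) := by
  have k1 : ∀ i : Fin n, ∃ C, BL C (pd i (χ1 n)) := fun i => BL.of_test (test_pd χ1_test i)
  have k2 : ∀ i j : Fin n, ∃ C, BL C (fun x => hess (χ1 n) x i j) :=
    fun i j => BL.of_test (test_pd (test_pd χ1_test j) i)
  have k3 : ∀ i : Fin n, ∃ C, BL C (fun x => x i * pd i (χ1 n) x) := fun i =>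
    BL.of_test ⟨(by fun_prop : ContDiff ℝ (⊤ : ℕ∞) fun x : E n => x i).mul (test_pd χ1_test i).1,
      (test_pd χ1_test i).2.mul_left⟩
  choose C1 h1 using k1
  choose C2 h2 using k2
  choose C3 h3 using k3
  have c1 : ∀ i, 0 ≤ C1 i := fun i => (h1 i).nn
  have c2 : ∀ i j, 0 ≤ C2 i j := fun i j => (h2 i j).nn
  have c3 : ∀ i, 0 ≤ C3 i := fun i => (h3 i).nn
  have hR' : ∀ R : ℝ, 1 ≤ R → |R⁻¹| ≤ 1 := fun R hR => by
    rw [abs_of_nonneg (by positivity)]; exact inv_le_one_of_one_le₀ hR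
  have b1 : ∀ R : ℝ, 1 ≤ R → ∀ i, BL (C1 i) (pd i (χ n R)) := fun R hR i => by
    rw [pd_χ]; exact ((h1 i).scale hR).const_mul (hR' R hR)
  have b2 : ∀ R : ℝ, 1 ≤ R → ∀ i j, BL (C2 i j) (fun x => hess (χ n R) x i j) := fun R hR i j => by
    have e : (fun x : E n => hess (χ n R) x i j) =
        fun x => R⁻¹ * (R⁻¹ * hess (χ1 n) (R⁻¹ • x) i j) := funext fun x => hess_χ R i j x
    rw [e]
    exact (((h2 i j).scale hR).const_mul (hR' R hR)).const_mul (hR' R hR)
  have b3 : ∀ R : ℝ, 1 ≤ R → ∀ i, BL (C3 i) (fun x => x i * pd i (χ n R) x) := fun R hR i => by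
    have := (h3 i).scale hR
    have e : (fun x : E n => x i * pd i (χ n R) x) =
        fun x => (R⁻¹ • x) i * pd i (χ1 n) (R⁻¹ • x) := by
      funext x; rw [pd_χ]; simp; ring
    rw [e]; exact this
  have b4 : ∀ R : ℝ, 1 ≤ R → BL ((∑ i, ∑ j, 2 * (T * C2 i j)) + ∑ i, C3 i) (Lop ψ (χ n R)) := by
    intro R hR
    have := (BL.sum Finset.univ fun i _ => BL.sum Finset.univ fun j _ =>
      (hT i j).mul (b2 R hR i j)).sub (BL.sum Finset.univ fun i _ => b3 R hR i)
    exact this
  have b5 : ∀ R : ℝ, 1 ≤ R → ∀ j, BL (∑ i, 2 * ((T + T) * C1 i))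
      (fun x => ∑ i, (tau ψ x i j + tau ψ x j i) * pd i (χ n R) x) := by
    intro R hR j
    exact BL.sum Finset.univ fun i _ => ((hT i j).add (hT j i)).mul (b1 R hR i)
  by_cases hn : n = 0
  · subst hn
    exact ⟨_, (b4 1 le_rfl).nn, fun R hR =>
      ⟨fun i => i.elim0, fun i => i.elim0, b4 R hR, fun j => j.elim0⟩⟩
  have hT0 : 0 ≤ T := (hT ⟨0, Nat.pos_of_ne_zero hn⟩ ⟨0, Nat.pos_of_ne_zero hn⟩).nn
  set A := (∑ i, C1 i) + (∑ i, ∑ j, C2 i j) + ((∑ i, ∑ j, 2 * (T * C2 i j)) + ∑ i, C3 i) +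
    (∑ i, 2 * ((T + T) * C1 i)) with hA
  have p1 : 0 ≤ ∑ i, C1 i := Finset.sum_nonneg fun i _ => c1 i
  have p2 : 0 ≤ ∑ i, ∑ j, C2 i j := Finset.sum_nonneg fun i _ => Finset.sum_nonneg fun j _ => c2 i j
  have p3 : 0 ≤ ∑ i, ∑ j, 2 * (T * C2 i j) := Finset.sum_nonneg fun i _ =>
    Finset.sum_nonneg fun j _ => by have := c2 i j; positivity
  have p4 : 0 ≤ ∑ i, C3 i := Finset.sum_nonneg fun i _ => c3 i
  have p5 : 0 ≤ ∑ i, 2 * ((T + T) * C1 i) := Finset.sum_nonneg fun i _ => by
    have := c1 i; positivity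
  refine ⟨A, by positivity, fun R hR => ⟨fun i => (b1 R hR i).mono ?_, fun i j =>
    (b2 R hR i j).mono ?_, (b4 R hR).mono (by linarith), fun j => (b5 R hR j).mono (by linarith)⟩⟩
  · have := Finset.single_le_sum (f := C1) (fun i _ => c1 i) (Finset.mem_univ i)
    linarith
  · have q1 : C2 i j ≤ ∑ j, C2 i j :=
      Finset.single_le_sum (f := fun j => C2 i j) (fun j _ => c2 i j) (Finset.mem_univ j)
    have q2 : ∑ j, C2 i j ≤ ∑ i, ∑ j, C2 i j :=
      Finset.single_le_sum (f := fun i => ∑ j, C2 i j)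
      (fun i _ => Finset.sum_nonneg fun j _ => c2 i j) (Finset.mem_univ i)
    linarith

/-- the product rule for `L` -/
theorem Lop_mul (ψ : E n → ℝ) {c z : E n → ℝ} (hc : Test c) (hz : Test z) (x : E n) :
    Lop ψ (fun y => c y * z y) x = c x * Lop ψ z x + z x * Lop ψ c x +
      ∑ j, (∑ i, (tau ψ x i j + tau ψ x j i) * pd i c x) * pd j z x := by
  have h1 : ∀ j, pd j (fun y => c y * z y) = fun y => c y * pd j z y + z y * pd j c y :=
    fun j => pd_mul (test_diff hc) (test_diff hz) j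
  have h2 : ∀ i j, hess (fun y => c y * z y) x i j =
      c x * hess z x i j + pd j z x * pd i c x + (z x * hess c x i j + pd j c x * pd i z x) := by
    intro i j
    simp only [hess]
    have d1 : Differentiable ℝ fun y => c y * pd j z y := (test_diff hc).mul (test_diff (test_pd hz j))
    have d2 : Differentiable ℝ fun y => z y * pd j c y := (test_diff hz).mul (test_diff (test_pd hc j))
    rw [h1, pd_add d1 d2]
    simp only
    rw [pd_mul (test_diff hc) (test_diff (test_pd hz j)), pd_mul (test_diff hz) (test_diff (test_pd hc j))]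
  unfold Lop
  simp_rw [h2, h1]
  have e1 : ∑ j, (∑ i, (tau ψ x i j + tau ψ x j i) * pd i c x) * pd j z x =
      (∑ i, ∑ j, tau ψ x i j * (pd j z x * pd i c x)) +
      ∑ i, ∑ j, tau ψ x i j * (pd j c x * pd i z x) := by
    simp_rw [add_mul, Finset.sum_add_distrib, add_mul, Finset.sum_add_distrib, Finset.sum_mul]
    congr 1
    · rw [Finset.sum_comm]
      exact Finset.sum_congr rfl fun i _ => Finset.sum_congr rfl fun j _ => by ring
    · exact Finset.sum_congr rfl fun i _ => Finset.sum_congr rfl fun j _ => by ring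
  rw [e1]
  simp_rw [mul_sub, Finset.mul_sum, mul_add, Finset.sum_add_distrib]
  have e2 : ∀ i j, tau ψ x i j * (c x * hess z x i j) = c x * (tau ψ x i j * hess z x i j) :=
    fun i j => by ring
  have e3 : ∀ i j, tau ψ x i j * (z x * hess c x i j) = z x * (tau ψ x i j * hess c x i j) :=
    fun i j => by ring
  have e4 : ∀ i, x i * (c x * pd i z x) = c x * (x i * pd i z x) := fun i => by ring
  have e5 : ∀ i, x i * (z x * pd i c x) = z x * (x i * pd i c x) := fun i => by ring
  simp_rw [e2, e3, e4, e5]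
  ring

end Vale.Agent.P227.M.LIN.H768
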