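import Vale.Agent.P227.M.LIN.H768c

/-! P227 / LIN-4 (helper768), part 4: error bounds. -/

open MeasureTheory Filter Topology

namespace Vale.Agent.P227.M.LIN.H768

variable {n : ℕ}

/-- size of the 2-jet -/
noncomputable def P (z : E n → ℝ) (x : E n) : ℝ :=
  |z x| + ∑ i, |pd i z x| + ∑ i, ∑ j, |hess z x i j|

lemma test_hess {f : E n → ℝ} (hf : Test f) (i j : Fin n) : Test (fun z => hess f z i j) :=
  test_pd (test_pd hf j) i

lemma P_nn (z : E n → ℝ) (x : E n) : 0 ≤ P z x := by unfold P; positivity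

lemma P_bc {z : E n → ℝ} (hz : Test z) : BC (P z) := by
  have h1 : BC (fun x => |z x|) := (BC.of_cont (test_cont hz) hz.2).abs
  have h2 : Continuous fun x => ∑ i, |pd i z x| :=
    continuous_finsetSum _ fun i _ => (test_cont (test_pd hz i)).abs
  have h3 : HasCompactSupport fun x => ∑ i, |pd i z x| :=
    hcs_sum _ fun i _ => ((BC.of_cont (test_cont (test_pd hz i)) (test_pd hz i).2).abs).cpt
  have h4 : Continuous fun x => ∑ i, ∑ j, |hess z x i j| :=
    continuous_finsetSum _ fun i _ => continuous_finsetSum _ fun j _ =>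
      (test_cont (test_hess hz i j)).abs
  have h5 : HasCompactSupport fun x => ∑ i, ∑ j, |hess z x i j| :=
    hcs_sum _ fun i _ => hcs_sum _ fun j _ =>
      ((BC.of_cont (test_cont (test_hess hz i j)) (test_hess hz i j).2).abs).cpt
  exact (h1.add (BC.of_cont h2 h3)).add (BC.of_cont h4 h5)

lemma P_val (z : E n → ℝ) (x : E n) : |z x| ≤ P z x := by
  unfold P
  have h1 : 0 ≤ ∑ i, |pd i z x| := by positivity
  have h2 : 0 ≤ ∑ i, ∑ j, |hess z x i j| := by positivity
  linarith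

lemma P_grad (z : E n → ℝ) (x : E n) : ∑ i, |pd i z x| ≤ P z x := by
  unfold P
  have h2 : 0 ≤ ∑ i, ∑ j, |hess z x i j| := by positivity
  linarith [abs_nonneg (z x)]

lemma P_hess (z : E n → ℝ) (x : E n) : ∑ i, ∑ j, |hess z x i j| ≤ P z x := by
  unfold P
  have h1 : 0 ≤ ∑ i, |pd i z x| := by positivity
  linarith [abs_nonneg (z x)]

lemma P_pd (z : E n → ℝ) (x : E n) (i : Fin n) : |pd i z x| ≤ P z x :=
  (Finset.single_le_sum (f := fun i => |pd i z x|) (fun i _ => abs_nonneg _)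
    (Finset.mem_univ i)).trans (P_grad z x)

lemma P_hs (z : E n → ℝ) (x : E n) (i j : Fin n) : |hess z x i j| ≤ P z x :=
  ((Finset.single_le_sum (f := fun j => |hess z x i j|) (fun i _ => abs_nonneg _)
    (Finset.mem_univ j)).trans (Finset.single_le_sum (f := fun i => ∑ j, |hess z x i j|)
      (fun i _ => by positivity) (Finset.mem_univ i))).trans (P_hess z x)

/-- the norm of the derivative is at most the sum of the partial derivatives -/
lemma norm_fderiv_le (f : E n → ℝ) (x : E n) : ‖fderiv ℝ f x‖ ≤ ∑ i, |pd i f x| := by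
  refine ContinuousLinearMap.opNorm_le_bound _ (by positivity) fun v => ?_
  have hv : v = ∑ i, v i • ei i := by
    have := (EuclideanSpace.basisFun (Fin n) ℝ).sum_repr v
    simpa [ei] using this.symm
  conv_lhs => rw [hv]
  rw [map_sum, Finset.sum_mul]
  refine (norm_sum_le _ _).trans (Finset.sum_le_sum fun i _ => ?_)
  rw [map_smul, norm_smul]
  have h1 : ‖v i‖ ≤ ‖v‖ := EuclideanSpace.norm_eq v ▸ PiLp.norm_apply_le v i
  have : ‖fderiv ℝ f x (ei i)‖ = |pd i f x| := rfl
  rw [this, mul_comm]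
  exact mul_le_mul_of_nonneg_left h1 (abs_nonneg _)

/-- the error term of the cut-off -/
noncomputable def err (ψ : E n → ℝ) (c z : E n → ℝ) (x : E n) : ℝ :=
  z x * Lop ψ c x + ∑ j, (∑ i, (tau ψ x i j + tau ψ x j i) * pd i c x) * pd j z x

section
variable {ψ : E n → ℝ} {T : ℝ}

lemma BL_Lop (hT : ∀ i j, BL T (fun z => tau ψ z i j)) {f : E n → ℝ} (hf : Test f) :
    ∃ C, BL C (Lop ψ f) := by
  have h1 : ∀ i j : Fin n, ∃ C, BL C (fun x => hess f x i j) := fun i j => BL.of_test (test_hess hf i j)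
  have h2 : ∀ i : Fin n, ∃ C, BL C (fun x => x i * pd i f x) := fun i =>
    BL.of_test ⟨(by fun_prop : ContDiff ℝ (⊤ : ℕ∞) fun x : E n => x i).mul (test_pd hf i).1,
      (test_pd hf i).2.mul_left⟩
  choose C1 h1 using h1
  choose C2 h2 using h2
  exact ⟨_, (BL.sum Finset.univ fun i _ => BL.sum Finset.univ fun j _ =>
      (hT i j).mul (h1 i j)).sub (BL.sum Finset.univ fun i _ => h2 i)⟩

lemma Lop_cpt (ψ : E n → ℝ) {f : E n → ℝ} (hf : Test f) : HasCompactSupport (Lop ψ f) := by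
  have h1 : HasCompactSupport fun x => ∑ i, ∑ j, tau ψ x i j * hess f x i j :=
    hcs_sum _ fun i _ => hcs_sum _ fun j _ => (test_hess hf i j).2.mul_left
  have h2 : HasCompactSupport fun x : E n => ∑ i, x i * pd i f x :=
    hcs_sum _ fun i _ => (test_pd hf i).2.mul_left
  exact h1.sub h2

lemma err_cpt (ψ : E n → ℝ) (c : E n → ℝ) {z : E n → ℝ} (hz : Test z) :
    HasCompactSupport (err ψ c z) := by
  have h1 : HasCompactSupport fun x => z x * Lop ψ c x := hz.2.mul_right
  have h2 : HasCompactSupport fun x =>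
      ∑ j, (∑ i, (tau ψ x i j + tau ψ x j i) * pd i c x) * pd j z x :=
    hcs_sum _ fun j _ => (test_pd hz j).2.mul_left
  exact h1.add h2

lemma err_BL {C : ℝ} {c : E n → ℝ} (hL : BL C (Lop ψ c))
    (hm : ∀ j, BL C (fun x => ∑ i, (tau ψ x i j + tau ψ x j i) * pd i c x)) {z : E n → ℝ}
    (hz : Test z) : ∃ D, BL D (err ψ c z) := by
  obtain ⟨D0, h0⟩ := BL.of_test hz
  have h1 : ∀ j : Fin n, ∃ D, BL D (pd j z) := fun j => BL.of_test (test_pd hz j)
  choose D1 h1 using h1
  exact ⟨_, (h0.mul hL).add (BL.sum Finset.univ fun j _ => (hm j).mul (h1 j))⟩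

lemma err_le {C : ℝ} {c : E n → ℝ} (hL : BL C (Lop ψ c))
    (hm : ∀ j, BL C (fun x => ∑ i, (tau ψ x i j + tau ψ x j i) * pd i c x)) (z : E n → ℝ)
    (x : E n) : |err ψ c z x| ≤ C * P z x := by
  have hC := hL.nn
  unfold err
  refine (abs_add_le _ _).trans ?_
  have h1 : |z x * Lop ψ c x| ≤ C * |z x| := by
    rw [abs_mul, mul_comm]
    exact mul_le_mul_of_nonneg_right (hL.1 x) (abs_nonneg _)
  have h2 : |∑ j, (∑ i, (tau ψ x i j + tau ψ x j i) * pd i c x) * pd j z x| ≤
      C * ∑ j, |pd j z x| := by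
    rw [Finset.mul_sum]
    refine (Finset.abs_sum_le_sum_abs _ _).trans (Finset.sum_le_sum fun j _ => ?_)
    rw [abs_mul]
    exact mul_le_mul_of_nonneg_right ((hm j).1 x) (abs_nonneg _)
  have h3 : |z x| + ∑ j, |pd j z x| ≤ P z x := by
    unfold P
    have h2 : 0 ≤ ∑ i, ∑ j, |hess z x i j| := by positivity
    linarith
  nlinarith

lemma err_fderiv {C : ℝ} {c : E n → ℝ} (hL : BL C (Lop ψ c))
    (hm : ∀ j, BL C (fun x => ∑ i, (tau ψ x i j + tau ψ x j i) * pd i c x)) {z : E n → ℝ}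
    (hz : Test z) : ∀ᵐ x : E n, ‖fderiv ℝ (err ψ c z) x‖ ≤ 2 * C * P z x := by
  have hC := hL.nn
  have d1 := hL.lip.ae_differentiableAt (μ := (volume : Measure (E n)))
  have d2 : ∀ᵐ x : E n, ∀ j, DifferentiableAt ℝ
      (fun x => ∑ i, (tau ψ x i j + tau ψ x j i) * pd i c x) x := by
    rw [ae_all_iff]
    exact fun j => (hm j).lip.ae_differentiableAt
  filter_upwards [d1, d2] with x h1 h2
  have key : ∀ {m f : E n → ℝ}, BL C m → DifferentiableAt ℝ m x → Test f →
      ‖fderiv ℝ (fun y => m y * f y) x‖ ≤ C * (∑ i, |pd i f x|) + C * |f x| := by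
    intro m f hm hd hf
    rw [fderiv_fun_mul hd (test_diff hf x)]
    refine (norm_add_le _ _).trans (add_le_add ?_ ?_)
    · rw [norm_smul]
      exact mul_le_mul (hm.1 x) (norm_fderiv_le f x) (norm_nonneg _) hC
    · rw [norm_smul, mul_comm, Real.norm_eq_abs]
      refine mul_le_mul_of_nonneg_right ?_ (abs_nonneg _)
      have := norm_fderiv_le_of_lipschitz ℝ hm.lip (x₀ := x)
      rwa [Real.coe_toNNReal _ hC] at this
  have hd1 : DifferentiableAt ℝ (fun y => Lop ψ c y * z y) x := h1.mul (test_diff hz x)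
  have hd2 : ∀ j ∈ (Finset.univ : Finset (Fin n)), DifferentiableAt ℝ (fun y =>
      (∑ i, (tau ψ y i j + tau ψ y j i) * pd i c y) * pd j z y) x :=
    fun j _ => (h2 j).mul (test_diff (test_pd hz j) x)
  have e1 : err ψ c z = fun y => Lop ψ c y * z y +
      ∑ j, (∑ i, (tau ψ y i j + tau ψ y j i) * pd i c y) * pd j z y := by
    funext y; unfold err; ring
  rw [e1, fderiv_fun_add hd1 (DifferentiableAt.fun_sum hd2), fderiv_fun_sum hd2]
  refine (norm_add_le _ _).trans ?_
  have b1 := key hL h1 hz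
  have b2 : ‖∑ j, fderiv ℝ (fun y => (∑ i, (tau ψ y i j + tau ψ y j i) * pd i c y) * pd j z y) x‖ ≤
      ∑ j, (C * (∑ i, |pd i (pd j z) x|) + C * |pd j z x|) :=
    (norm_sum_le _ _).trans (Finset.sum_le_sum fun j _ => key (hm j) (h2 j) (test_pd hz j))
  have e2 : ∑ j, (C * (∑ i, |pd i (pd j z) x|) + C * |pd j z x|) =
      C * (∑ i, ∑ j, |hess z x i j|) + C * ∑ j, |pd j z x| := by
    rw [Finset.sum_add_distrib, ← Finset.mul_sum, ← Finset.mul_sum]
    congr 2
    rw [Finset.sum_comm]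
    rfl
  rw [e2] at b2
  unfold P
  have q1 : 0 ≤ C * |z x| := by positivity
  have q2 : 0 ≤ C * ∑ i, ∑ j, |hess z x i j| := by positivity
  nlinarith

end

end Vale.Agent.P227.M.LIN.H768
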