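import Vale.Agent.P227.M.LIN.H768d

/-! P227 / LIN-4 (helper768), part 5: bounds of mollified terms and of the commutator. -/

open MeasureTheory Filter Topology

namespace Vale.Agent.P227.M.LIN.H768

variable {n : ℕ}

/-- local comparability of the weight -/
lemma weight_cmp {V : E n → ℝ} (hV : Continuous V) (R : ℝ) :
    ∃ d₀ > 0, ∀ x t : E n, ‖x‖ ≤ R → ‖t‖ ≤ d₀ → Real.exp (-V (x + t)) ≤ 2 * Real.exp (-V x) := by
  have hu : UniformContinuousOn V (Metric.closedBall (0 : E n) (R + 1)) :=
    (isCompact_closedBall _ _).uniformContinuousOn_of_continuous hV.continuousOn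
  rw [Metric.uniformContinuousOn_iff] at hu
  obtain ⟨δ, hδ, h⟩ := hu (Real.log 2) (Real.log_pos (by norm_num))
  refine ⟨min (δ / 2) 1, by positivity, fun x t hx ht => ?_⟩
  have ht1 : ‖t‖ ≤ δ / 2 := ht.trans (min_le_left _ _)
  have ht2 : ‖t‖ ≤ 1 := ht.trans (min_le_right _ _)
  have h1 := h (x + t) (by
    rw [mem_closedBall_zero_iff]
    exact (norm_add_le _ _).trans (by linarith)) x (by
    rw [mem_closedBall_zero_iff]; linarith) (by
    rw [dist_eq_norm, add_sub_cancel_left]; linarith)
  rw [Real.dist_eq] at h1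
  have h2 := (abs_lt.1 h1).1
  calc Real.exp (-V (x + t)) ≤ Real.exp (-V x + Real.log 2) := by
        apply Real.exp_le_exp.2; linarith
    _ = 2 * Real.exp (-V x) := by
        rw [Real.exp_add, Real.exp_log (by norm_num)]; ring

lemma mol_mono (φ : ContDiffBump (0 : E n)) {f g : E n → ℝ} (hf : BC f) (hg : BC g)
    (h : ∀ x, f x ≤ g x) (x : E n) : mol φ f x ≤ mol φ g x := by
  obtain ⟨B, hB⟩ := hf.bdd
  obtain ⟨C, hC⟩ := hg.bdd
  refine integral_mono (mol_integrable φ hf.meas.aestronglyMeasurable hB x)
    (mol_integrable φ hg.meas.aestronglyMeasurable hC x) fun t => ?_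
  exact mul_le_mul_of_nonneg_left (h _) (normed_nn φ t)

/-- the derivative of the mollification -/
lemma norm_fderiv_mol_le (φ : ContDiffBump (0 : E n)) {f : E n → ℝ} {K : NNReal}
    (hf : LipschitzWith K f) (hc : HasCompactSupport f) (x : E n) :
    ‖fderiv ℝ (mol φ f) x‖ ≤ mol φ (fun y => ‖fderiv ℝ f y‖) x := by
  rw [(hasFDerivAt_mol φ hf hc x).fderiv]
  refine (norm_integral_le_integral_norm _).trans (le_of_eq ?_)
  refine integral_congr_ae (Eventually.of_forall fun t => ?_)
  simp only [norm_smul, Real.norm_eq_abs, abs_of_nonneg (normed_nn φ t)]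

lemma bc_fderiv {f : E n → ℝ} {K : NNReal} (hf : LipschitzWith K f) (hc : HasCompactSupport f) :
    BC (fun y => ‖fderiv ℝ f y‖) :=
  ⟨(measurable_fderiv ℝ f).norm, (hc.fderiv ℝ).norm, K, fun x => by
    rw [abs_norm]; exact norm_fderiv_le_of_lipschitz ℝ hf⟩

lemma mol_bc (φ : ContDiffBump (0 : E n)) {f : E n → ℝ} (hf : BC f) : BC (mol φ f) := by
  obtain ⟨B, hB⟩ := hf.bdd
  have h1 : Continuous (mol φ f) := by
    rw [mol_eq_conv]
    exact φ.hasCompactSupport_normed.continuous_convolution_left _ φ.continuous_normed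
      hf.integrable.locallyIntegrable
  exact BC.of_cont h1 (mol_compact φ hf.cpt)

lemma P_cont {z : E n → ℝ} (hz : Test z) : Continuous (P z) := by
  have h2 : Continuous fun x => ∑ i, |pd i z x| :=
    continuous_finsetSum _ fun i _ => (test_cont (test_pd hz i)).abs
  have h4 : Continuous fun x => ∑ i, ∑ j, |hess z x i j| :=
    continuous_finsetSum _ fun i _ => continuous_finsetSum _ fun j _ =>
      (test_cont (test_hess hz i j)).abs
  exact ((test_cont hz).abs.add h2).add h4

section
variable {ψ : E n → ℝ} {T : ℝ}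

lemma coord_lip (i : Fin n) : LipschitzWith 1 fun z : E n => z i := by
  refine LipschitzWith.of_dist_le_mul fun x y => ?_
  rw [Real.dist_eq, dist_eq_norm]
  have := PiLp.norm_apply_le (x - y) i
  simpa using this

/-- pointwise bounds of the commutator -/
theorem Com_bound (hT : ∀ i j, BL T (fun z => tau ψ z i j)) {C₀ : ℝ} (hC₀ : 0 ≤ C₀) {d : ℝ}
    (hd : 0 < d) (hd1 : d ≤ 1) (h3 : 0 < 3 * d)
    (hk : ∀ t h : E n, ‖h‖ ≤ d →
      (bmp n d hd).normed volume (t + h) ≤ C₀ * (bmp n (3 * d) h3).normed volume t ∧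
      |(bmp n d hd).normed volume (t + h) - (bmp n d hd).normed volume t| ≤
        C₀ * (‖h‖ / d) * (bmp n (3 * d) h3).normed volume t)
    {G : E n → ℝ} (hG : Test G) :
    (∀ x, |Com ψ (bmp n d hd) G x| ≤ 7 * C₀ * (|T| + 1) * mol (bmp n (3 * d) h3) (P G) x) ∧
    ∀ᵐ x : E n, ‖fderiv ℝ (Com ψ (bmp n d hd) G) x‖ ≤
      7 * C₀ * (|T| + 1) * mol (bmp n (3 * d) h3) (P G) x := by
  set θ := bmp n (3 * d) h3 with hθ
  have hT' : ∀ i j : Fin n, ((Real.toNNReal T : NNReal) : ℝ) ≤ |T| := fun i j => by
    rw [Real.coe_toNNReal _ (hT i j).nn]; exact le_abs_self T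
  have bh : ∀ i j : Fin n, BC (fun z => |hess G z i j|) := fun i j =>
    (BC.of_cont (test_cont (test_hess hG i j)) (test_hess hG i j).2).abs
  have bp : ∀ i : Fin n, BC (fun z => |pd i G z|) := fun i =>
    (BC.of_cont (test_cont (test_pd hG i)) (test_pd hG i).2).abs
  have nn : ∀ (f : E n → ℝ) (x : E n), 0 ≤ mol θ (fun z => |f z|) x := fun f x => mol_abs_nn θ f x
  -- the sum of the pieces
  have hsum : ∀ x, (∑ i, ∑ j, mol θ (fun z => |hess G z i j|) x) + ∑ i, mol θ (fun z => |pd i G z|) x ≤
      mol θ (P G) x := by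
    intro x
    have c1 : ∀ i j : Fin n, Continuous fun z => |hess G z i j| := fun i j =>
      (test_cont (test_hess hG i j)).abs
    have c2 : ∀ i : Fin n, Continuous fun z => |pd i G z| := fun i => (test_cont (test_pd hG i)).abs
    have e1 : mol θ (fun z => ∑ i, ∑ j, |hess G z i j|) x = ∑ i, ∑ j, mol θ (fun z => |hess G z i j|) x := by
      rw [mol_sum θ _ (fun i _ => continuous_finsetSum _ fun j _ => c1 i j)
        (fun i _ => hcs_sum _ fun j _ => (bh i j).cpt)]
      refine Finset.sum_congr rfl fun i _ => ?_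
      rw [mol_sum θ _ (fun j _ => c1 i j) (fun j _ => (bh i j).cpt)]
    have e2 : mol θ (fun z => ∑ i, |pd i G z|) x = ∑ i, mol θ (fun z => |pd i G z|) x :=
      mol_sum θ _ (fun i _ => c2 i) (fun i _ => (bp i).cpt) x
    rw [← e1, ← e2, ← mol_add' θ (continuous_finsetSum _ fun i _ => continuous_finsetSum _ fun j _ =>
      c1 i j) (hcs_sum _ fun i _ => hcs_sum _ fun j _ => (bh i j).cpt)
      (continuous_finsetSum _ fun i _ => c2 i) (hcs_sum _ fun i _ => (bp i).cpt)]
    refine mol_mono θ ?_ (P_bc hG) (fun z => ?_) x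
    · exact BC.of_cont ((continuous_finsetSum _ fun i _ => continuous_finsetSum _ fun j _ =>
        c1 i j).add (continuous_finsetSum _ fun i _ => c2 i))
        ((hcs_sum _ fun i _ => hcs_sum _ fun j _ => (bh i j).cpt).add (hcs_sum _ fun i _ => (bp i).cpt))
    · unfold P
      linarith [abs_nonneg (G z)]
  have cb1 := fun (i j : Fin n) (x : E n) => com_bound hC₀ hd h3 hk (hT i j).lip
    (test_cont (test_hess hG i j)) (test_hess hG i j).2 x
  have cb2 := fun (i : Fin n) (x : E n) => com_bound hC₀ hd h3 hk (coord_lip i)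
    (test_cont (test_pd hG i)) (test_pd hG i).2 x
  have fin : ∀ x, (∑ i, ∑ j, 7 * C₀ * (|T| + 1) * mol θ (fun z => |hess G z i j|) x) +
      ∑ i, 7 * C₀ * (|T| + 1) * mol θ (fun z => |pd i G z|) x ≤
      7 * C₀ * (|T| + 1) * mol θ (P G) x := by
    intro x
    simp_rw [← Finset.mul_sum, ← mul_add]
    exact mul_le_mul_of_nonneg_left (hsum x) (by positivity)
  constructor
  · intro x
    refine le_trans ?_ (fin x)
    unfold Com
    refine (abs_sub _ _).trans (add_le_add ?_ ?_)
    · refine (Finset.abs_sum_le_sum_abs _ _).trans (Finset.sum_le_sum fun i _ => ?_)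
      refine (Finset.abs_sum_le_sum_abs _ _).trans (Finset.sum_le_sum fun j _ => ?_)
      refine (cb1 i j x).1.trans (mul_le_mul_of_nonneg_right ?_ (nn _ x))
      have h7 : C₀ * (Real.toNNReal T : NNReal) * (6 * d) ≤ C₀ * |T| * 7 :=
        mul_le_mul (mul_le_mul_of_nonneg_left (hT' i j) hC₀) (by linarith) (by positivity)
          (by positivity)
      nlinarith [abs_nonneg T]
    · refine (Finset.abs_sum_le_sum_abs _ _).trans (Finset.sum_le_sum fun i _ => ?_)
      refine (cb2 i x).1.trans (mul_le_mul_of_nonneg_right ?_ (nn _ x))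
      have : C₀ * (6 * d) ≤ C₀ * 7 := mul_le_mul_of_nonneg_left (by linarith) hC₀
      push_cast
      nlinarith [abs_nonneg T, mul_nonneg hC₀ (abs_nonneg T)]
  · have hdiff : ∀ᵐ x : E n, ∀ i j, DifferentiableAt ℝ (fun z => tau ψ z i j) x := by
      rw [ae_all_iff]; intro i
      rw [ae_all_iff]; intro j
      exact (hT i j).lip.ae_differentiableAt
    filter_upwards [hdiff] with x hx
    have D1 : ∀ i j : Fin n, DifferentiableAt ℝ
        (com (bmp n d hd) (fun z => tau ψ z i j) (fun z => hess G z i j)) x := by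
      intro i j
      have e : com (bmp n d hd) (fun z => tau ψ z i j) (fun z => hess G z i j) = fun x =>
          tau ψ x i j * mol (bmp n d hd) (fun z => hess G z i j) x -
          mol (bmp n d hd) (fun z => tau ψ z i j * hess G z i j) x := by
        funext x
        exact com_eq _ (hT i j).cont (test_cont (test_hess hG i j)) (test_hess hG i j).2 x
      rw [e]
      refine ((hx i j).mul ?_).sub ?_
      · exact ((mol_smooth _ (test_cont (test_hess hG i j))).differentiable (by simp)) x
      · exact ((mol_smooth _ ((hT i j).cont.mul (test_cont (test_hess hG i j)))).differentiable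
          (by simp)) x
    have D2 : ∀ i : Fin n, DifferentiableAt ℝ
        (com (bmp n d hd) (fun z => z i) (pd i G)) x := by
      intro i
      have e : com (bmp n d hd) (fun z => z i) (pd i G) = fun x =>
          x i * mol (bmp n d hd) (pd i G) x - mol (bmp n d hd) (fun z => z i * pd i G z) x := by
        funext x
        exact com_eq _ (coord_cont i) (test_cont (test_pd hG i)) (test_pd hG i).2 x
      rw [e]
      refine (DifferentiableAt.mul (by fun_prop) ?_).sub ?_
      · exact ((mol_smooth _ (test_cont (test_pd hG i))).differentiable (by simp)) x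
      · exact ((mol_smooth _ ((coord_cont i).mul (test_cont (test_pd hG i)))).differentiable
          (by simp)) x
    refine le_trans ?_ (fin x)
    have D3 : ∀ i ∈ (Finset.univ : Finset (Fin n)), DifferentiableAt ℝ (fun y => ∑ j,
        com (bmp n d hd) (fun z => tau ψ z i j) (fun z => hess G z i j) y) x :=
      fun i _ => DifferentiableAt.fun_sum fun j _ => D1 i j
    have e0 : Com ψ (bmp n d hd) G = fun y => (∑ i, ∑ j,
        com (bmp n d hd) (fun z => tau ψ z i j) (fun z => hess G z i j) y) -
        ∑ i, com (bmp n d hd) (fun z => z i) (pd i G) y := rfl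
    rw [e0, fderiv_fun_sub (DifferentiableAt.fun_sum D3) (DifferentiableAt.fun_sum fun i _ => D2 i),
      fderiv_fun_sum D3, fderiv_fun_sum fun i _ => D2 i]
    refine (norm_sub_le _ _).trans (add_le_add ?_ ?_)
    · refine (norm_sum_le _ _).trans (Finset.sum_le_sum fun i _ => ?_)
      rw [fderiv_fun_sum fun j _ => D1 i j]
      refine (norm_sum_le _ _).trans (Finset.sum_le_sum fun j _ => ?_)
      refine (cb1 i j x).2.trans (mul_le_mul_of_nonneg_right ?_ (nn _ x))
      have := mul_le_mul_of_nonneg_left (hT' i j) hC₀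
      nlinarith [abs_nonneg T]
    · refine (norm_sum_le _ _).trans (Finset.sum_le_sum fun i _ => ?_)
      refine (cb2 i x).2.trans (mul_le_mul_of_nonneg_right ?_ (nn _ x))
      push_cast
      nlinarith [abs_nonneg T, mul_nonneg hC₀ (abs_nonneg T)]

/-- a crude bound for a fixed mollifier -/
theorem mol_crude (φ : ContDiffBump (0 : E n)) {V : E n → ℝ} (hV : Continuous V) (R : ℝ) :
    ∃ C, 0 ≤ C ∧ ∀ g : E n → ℝ, Continuous g → (∀ x, R < ‖x‖ → g x = 0) →
      ∫ x, (mol φ g x) ^ 2 * Real.exp (-V x) ≤ C * ∫ x, (g x) ^ 2 * Real.exp (-V x) ∧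
      ∫ x, ‖fderiv ℝ (mol φ g) x‖ ^ 2 * Real.exp (-V x) ≤
        C * ∫ x, (g x) ^ 2 * Real.exp (-V x) := by
  classical
  obtain ⟨S, hS⟩ := (φ.hasCompactSupport_normed (μ := (volume : Measure (E n)))).exists_bound_of_continuous
    (normed_cont φ)
  obtain ⟨L, hL⟩ := ContDiff.lipschitzWith_of_hasCompactSupport (𝕂 := ℝ) (n := 1)
    (φ.hasCompactSupport_normed (μ := (volume : Measure (E n)))) φ.contDiff_normed one_ne_zero
  set k : E n → ℝ := (Metric.closedBall (0 : E n) R).indicator fun x => Real.exp (V x) with hk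
  set w : E n → ℝ := (Metric.closedBall (0 : E n) (R + φ.rOut)).indicator
    fun x => Real.exp (-V x) with hw
  have ik : Integrable k volume := by
    rw [hk, integrable_indicator_iff measurableSet_closedBall]
    exact (Continuous.continuousOn (by fun_prop)).integrableOn_compact (isCompact_closedBall _ _)
  have iw : Integrable w volume := by
    rw [hw, integrable_indicator_iff measurableSet_closedBall]
    exact (Continuous.continuousOn (by fun_prop)).integrableOn_compact (isCompact_closedBall _ _)
  have hk0 : ∀ x, 0 ≤ k x := fun x => Set.indicator_nonneg (fun _ _ => (Real.exp_pos _).le) _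
  have hw0 : ∀ x, 0 ≤ w x := fun x => Set.indicator_nonneg (fun _ _ => (Real.exp_pos _).le) _
  set J := ∫ x, k x with hJ
  set W := ∫ x, w x with hW
  have hJ0 : 0 ≤ J := integral_nonneg hk0
  have hW0 : 0 ≤ W := integral_nonneg hw0
  refine ⟨(S ^ 2 + (L : ℝ) ^ 2) * (J + 1) * W, by positivity, fun g hg hgR => ?_⟩
  have hgc : HasCompactSupport g := HasCompactSupport.intro (isCompact_closedBall (0 : E n) R)
    fun x hx => hgR x (by simpa using hx)
  have hbc : BC g := BC.of_cont hg hgc
  set I := ∫ x, |g x| with hI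
  set Q := ∫ x, (g x) ^ 2 * Real.exp (-V x) with hQ
  have hI0 : 0 ≤ I := integral_nonneg fun x => abs_nonneg _
  have hce : Continuous fun x => Real.exp (-V x) := by fun_prop
  have iQ : Integrable (fun x => (g x) ^ 2 * Real.exp (-V x)) volume := hbc.sq.int_mul hce
  have iI : Integrable (fun x => |g x|) volume := hbc.abs.integrable
  have hIQ : I ^ 2 ≤ (J + 1) * Q := by
    have h : ∀ a : ℝ, 0 ≤ Q - 2 * a * I + a ^ 2 * J := by
      intro a
      have h0 : 0 ≤ ∫ x, (|g x| - a * k x) ^ 2 * Real.exp (-V x) :=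
        integral_nonneg fun x => by positivity
      have e : ∀ x, (|g x| - a * k x) ^ 2 * Real.exp (-V x) =
          (g x) ^ 2 * Real.exp (-V x) - 2 * a * |g x| + a ^ 2 * k x := by
        intro x
        by_cases hx : ‖x‖ ≤ R
        · have hkx : k x = Real.exp (V x) := by
            rw [hk, Set.indicator_of_mem (by simpa using hx)]
          have h1 : Real.exp (V x) * Real.exp (-V x) = 1 := by
            rw [← Real.exp_add]; simp
          rw [hkx]
          have h2 : |g x| ^ 2 = g x ^ 2 := sq_abs _
          calc (|g x| - a * Real.exp (V x)) ^ 2 * Real.exp (-V x)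
              = |g x| ^ 2 * Real.exp (-V x) - 2 * a * |g x| * (Real.exp (V x) * Real.exp (-V x)) +
                a ^ 2 * Real.exp (V x) * (Real.exp (V x) * Real.exp (-V x)) := by ring
            _ = _ := by rw [h1, h2]; ring
        · have hkx : k x = 0 := by
            rw [hk, Set.indicator_of_notMem (by simpa using hx)]
          rw [hkx, hgR x (not_le.1 hx)]; simp
      simp_rw [e] at h0
      have i3 : Integrable (fun x => (g x) ^ 2 * Real.exp (-V x) - 2 * a * |g x|) volume :=
        iQ.sub (iI.const_mul _)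
      rwa [integral_add i3 (ik.const_mul _), integral_sub iQ (iI.const_mul _), integral_const_mul,
        integral_const_mul] at h0
    have h1 := h (I / (J + 1))
    have hJ1 : 0 < J + 1 := by linarith
    have e1 : Q - 2 * (I / (J + 1)) * I + (I / (J + 1)) ^ 2 * J =
        Q - I ^ 2 / (J + 1) - I ^ 2 / (J + 1) ^ 2 := by
      field_simp; ring
    rw [e1] at h1
    have h2 : 0 ≤ I ^ 2 / (J + 1) ^ 2 := by positivity
    have h3 : I ^ 2 / (J + 1) ≤ Q := by linarith
    rw [div_le_iff₀ hJ1] at h3
    linarith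
  have hQ0 : 0 ≤ Q := integral_nonneg fun x => by positivity
  -- support
  have hsupp : ∀ x : E n, R + φ.rOut < ‖x‖ → mol φ g x = 0 := by
    intro x hx
    unfold mol
    rw [← integral_zero (E n) ℝ (μ := volume)]
    refine integral_congr_ae (Eventually.of_forall fun t => ?_)
    simp only
    by_cases ht : φ.rOut ≤ ‖t‖
    · rw [normed_zero φ ht, zero_mul]
    · push Not at ht
      have h2 : ‖x‖ ≤ ‖x - t‖ + ‖t‖ := by simpa using norm_add_le (x - t) t
      rw [hgR (x - t) (by linarith), mul_zero]
  have hsupp' : ∀ x : E n, R + φ.rOut < ‖x‖ → fderiv ℝ (mol φ g) x = 0 := by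
    intro x hx
    have : mol φ g =ᶠ[𝓝 x] fun _ => 0 := by
      have : ∀ᶠ y : E n in 𝓝 x, R + φ.rOut < ‖y‖ := continuous_norm.continuousAt.eventually (lt_mem_nhds hx)
      filter_upwards [this] with y hy using hsupp y hy
    rw [this.fderiv_eq]; simp
  have hkc : ∀ y : E n, Continuous fun z => φ.normed volume (y - z) :=
    fun y => (normed_cont φ).comp (continuous_const.sub continuous_id)
  have bound1 : ∀ x, (mol φ g x) ^ 2 ≤ S ^ 2 * I ^ 2 := by
    intro x
    have h1 : |mol φ g x| ≤ S * I := by
      rw [mol_eq, ← Real.norm_eq_abs, hI, ← integral_const_mul]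
      refine (norm_integral_le_integral_norm _).trans ?_
      refine integral_mono_of_nonneg (Eventually.of_forall fun z => norm_nonneg _) (iI.const_mul _)
        (Eventually.of_forall fun z => ?_)
      simp only [norm_mul, Real.norm_eq_abs]
      exact mul_le_mul_of_nonneg_right (hS _) (abs_nonneg _)
    rw [← mul_pow, ← sq_abs]
    exact pow_le_pow_left₀ (abs_nonneg _) h1 2
  have bound2 : ∀ x, ‖fderiv ℝ (mol φ g) x‖ ^ 2 ≤ (L : ℝ) ^ 2 * I ^ 2 := by
    intro x
    have h1 : ‖fderiv ℝ (mol φ g) x‖ ≤ L * I := by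
      refine norm_fderiv_le_of_lip' (𝕜 := ℝ) (E := E n) (F := ℝ) (by positivity)
        (Eventually.of_forall fun y => ?_)
      rw [mol_eq, mol_eq, ← integral_sub (com_integrable (hkc y) hg hgc) (com_integrable (hkc x) hg hgc)]
      have e1 : L * I * ‖y - x‖ = ∫ z, (L * ‖y - x‖) * |g z| := by
        rw [integral_const_mul, hI]; ring
      rw [e1]
      refine (norm_integral_le_integral_norm _).trans ?_
      refine integral_mono_of_nonneg (Eventually.of_forall fun z => norm_nonneg _) (iI.const_mul _)
        (Eventually.of_forall fun z => ?_)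
      simp only
      rw [← sub_mul, norm_mul, Real.norm_eq_abs, Real.norm_eq_abs]
      refine mul_le_mul_of_nonneg_right ?_ (abs_nonneg _)
      have := hL.dist_le_mul (y - z) (x - z)
      rwa [Real.dist_eq, dist_sub_right, dist_eq_norm] at this
    rw [← mul_pow]
    exact pow_le_pow_left₀ (norm_nonneg _) h1 2
  constructor
  · calc ∫ x, (mol φ g x) ^ 2 * Real.exp (-V x) ≤ ∫ x, (S ^ 2 * I ^ 2) * w x := by
          refine integral_mono_of_nonneg (Eventually.of_forall fun x => by positivity)
            (iw.const_mul _) (Eventually.of_forall fun x => ?_)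
          by_cases hx : ‖x‖ ≤ R + φ.rOut
          · simp only
            rw [hw, Set.indicator_of_mem (by simpa using hx)]
            exact mul_le_mul_of_nonneg_right (bound1 x) (Real.exp_pos _).le
          · simp only
            rw [hsupp x (not_le.1 hx)]
            have := hw0 x
            simp only [ne_eq, OfNat.ofNat_ne_zero, not_false_eq_true, zero_pow, zero_mul]
            positivity
      _ = S ^ 2 * I ^ 2 * W := by rw [integral_const_mul]
      _ ≤ (S ^ 2 + (L : ℝ) ^ 2) * ((J + 1) * Q) * W := by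
          have : S ^ 2 ≤ S ^ 2 + (L : ℝ) ^ 2 := by nlinarith [sq_nonneg (L : ℝ)]
          gcongr
      _ = _ := by ring
  · calc ∫ x, ‖fderiv ℝ (mol φ g) x‖ ^ 2 * Real.exp (-V x) ≤ ∫ x, ((L : ℝ) ^ 2 * I ^ 2) * w x := by
          refine integral_mono_of_nonneg (Eventually.of_forall fun x => by positivity)
            (iw.const_mul _) (Eventually.of_forall fun x => ?_)
          by_cases hx : ‖x‖ ≤ R + φ.rOut
          · simp only
            rw [hw, Set.indicator_of_mem (by simpa using hx)]
            exact mul_le_mul_of_nonneg_right (bound2 x) (Real.exp_pos _).le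
          · simp only
            rw [hsupp' x (not_le.1 hx)]
            have := hw0 x
            simp only [norm_zero, ne_eq, OfNat.ofNat_ne_zero, not_false_eq_true, zero_pow, zero_mul]
            positivity
      _ = (L : ℝ) ^ 2 * I ^ 2 * W := by rw [integral_const_mul]
      _ ≤ (S ^ 2 + (L : ℝ) ^ 2) * ((J + 1) * Q) * W := by
          have : (L : ℝ) ^ 2 ≤ S ^ 2 + (L : ℝ) ^ 2 := by nlinarith [sq_nonneg S]
          gcongr
      _ = _ := by ring

end

end Vale.Agent.P227.M.LIN.H768
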