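import Vale.Agent.P227.M.LIN.H768e

/-! P227 / LIN-4 (helper768), part 6: the second Friedrichs step, final theorem `h1appr`. -/

open MeasureTheory Filter Topology

namespace Vale.Agent.P227.M.LIN.H768

variable {n : ℕ}

lemma hess_add {f g : E n → ℝ} (hf : Test f) (hg : Test g) (x : E n) (i j : Fin n) :
    hess (fun y => f y + g y) x i j = hess f x i j + hess g x i j := by
  simp only [hess]
  rw [pd_add (test_diff hf) (test_diff hg), pd_add (test_diff (test_pd hf j)) (test_diff (test_pd hg j))]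

lemma hess_sub {f g : E n → ℝ} (hf : Test f) (hg : Test g) (x : E n) (i j : Fin n) :
    hess (fun y => f y - g y) x i j = hess f x i j - hess g x i j := by
  simp only [hess]
  rw [pd_sub (test_diff hf) (test_diff hg), pd_sub (test_diff (test_pd hf j)) (test_diff (test_pd hg j))]

lemma Lop_add (ψ : E n → ℝ) {f g : E n → ℝ} (hf : Test f) (hg : Test g) (x : E n) :
    Lop ψ (fun y => f y + g y) x = Lop ψ f x + Lop ψ g x := by
  unfold Lop
  simp_rw [hess_add hf hg, pd_add (test_diff hf) (test_diff hg), mul_add, Finset.sum_add_distrib]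
  ring

lemma Lop_sub (ψ : E n → ℝ) {f g : E n → ℝ} (hf : Test f) (hg : Test g) (x : E n) :
    Lop ψ (fun y => f y - g y) x = Lop ψ f x - Lop ψ g x := by
  unfold Lop
  simp_rw [hess_sub hf hg, pd_sub (test_diff hf) (test_diff hg), mul_sub, Finset.sum_sub_distrib]
  ring

lemma pd_zero_ev {f : E n → ℝ} {x : E n} (h : ∀ᶠ y in 𝓝 x, f y = 0) (i : Fin n) :
    ∀ᶠ y in 𝓝 x, pd i f y = 0 := by
  filter_upwards [h.eventually_nhds] with y hy
  have : f =ᶠ[𝓝 y] fun _ => 0 := hy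
  simp only [pd]
  rw [this.fderiv_eq]; simp

lemma P_zero {z : E n → ℝ} {x : E n} (h : ∀ᶠ y in 𝓝 x, z y = 0) : P z x = 0 := by
  unfold P
  have h1 : ∀ i, pd i z x = 0 := fun i => (pd_zero_ev h i).self_of_nhds
  have h2 : ∀ i j, hess z x i j = 0 := fun i j => (pd_zero_ev (pd_zero_ev h j) i).self_of_nhds
  simp [h.self_of_nhds, h1, h2]

lemma norm_gt_ev {R : ℝ} {x : E n} (hx : R < ‖x‖) : ∀ᶠ y : E n in 𝓝 x, R < ‖y‖ :=
  continuous_norm.continuousAt.eventually (lt_mem_nhds hx)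

lemma χ_ev {R : ℝ} (hR : 0 < R) {x : E n} (hx : 2 * R < ‖x‖) : ∀ᶠ y in 𝓝 x, χ n R y = 0 := by
  filter_upwards [norm_gt_ev hx] with y hy using χ_zero hR hy.le

lemma err_ev (ψ : E n → ℝ) {R : ℝ} (hR : 0 < R) (z : E n → ℝ) {x : E n} (hx : 2 * R < ‖x‖) :
    ∀ᶠ y in 𝓝 x, err ψ (χ n R) z y = 0 := by
  have h0 := χ_ev hR hx
  have h1 : ∀ᶠ y in 𝓝 x, ∀ i, pd i (χ n R) y = 0 := by
    rw [eventually_all]; exact fun i => pd_zero_ev h0 i
  have h2 : ∀ᶠ y in 𝓝 x, ∀ i j, hess (χ n R) y i j = 0 := by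
    rw [eventually_all]; intro i
    rw [eventually_all]; intro j
    exact pd_zero_ev (pd_zero_ev h0 j) i
  filter_upwards [h1, h2] with y hy1 hy2
  simp [err, Lop, hy1, hy2]

/-- the 2-jet of the cut-off function times `z` -/
lemma P_cut {C R : ℝ} (hC : 0 ≤ C) (hR : 0 < R) (h1 : ∀ i, BL C (pd i (χ n R)))
    (h2 : ∀ i j, BL C (fun x => hess (χ n R) x i j)) {z : E n → ℝ} (hz : Test z) (x : E n) :
    P (fun y => χ n R y * z y) x ≤ (1 + n * (1 + C) + n * (n * (1 + 3 * C))) * P z x := by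
  have hχ := χ_test (n := n) hR
  have p0 := P_nn z x
  have b0 : |χ n R x * z x| ≤ 1 * P z x := by
    rw [abs_mul]
    exact mul_le_mul (χ_abs hR x) (P_val z x) (abs_nonneg _) zero_le_one
  have e1 : ∀ j, pd j (fun y => χ n R y * z y) = fun y => χ n R y * pd j z y + z y * pd j (χ n R) y :=
    fun j => pd_mul (test_diff hχ) (test_diff hz) j
  have b1 : ∀ i, |pd i (fun y => χ n R y * z y) x| ≤ (1 + C) * P z x := by
    intro i
    rw [e1]
    refine (abs_add_le _ _).trans ?_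
    rw [abs_mul, abs_mul, add_mul]
    refine add_le_add (mul_le_mul (χ_abs hR x) (P_pd z x i) (abs_nonneg _) zero_le_one) ?_
    rw [mul_comm]
    exact mul_le_mul ((h1 i).1 x) (P_val z x) (abs_nonneg _) hC
  have b2 : ∀ i j, |hess (fun y => χ n R y * z y) x i j| ≤ (1 + 3 * C) * P z x := by
    intro i j
    have e2 : hess (fun y => χ n R y * z y) x i j =
        χ n R x * hess z x i j + pd j z x * pd i (χ n R) x +
          (z x * hess (χ n R) x i j + pd j (χ n R) x * pd i z x) := by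
      simp only [hess]
      have d1 : Differentiable ℝ fun y => χ n R y * pd j z y :=
        (test_diff hχ).mul (test_diff (test_pd hz j))
      have d2 : Differentiable ℝ fun y => z y * pd j (χ n R) y :=
        (test_diff hz).mul (test_diff (test_pd hχ j))
      rw [e1, pd_add d1 d2]
      simp only
      rw [pd_mul (test_diff hχ) (test_diff (test_pd hz j)),
        pd_mul (test_diff hz) (test_diff (test_pd hχ j))]
    rw [e2]
    have q1 : |χ n R x * hess z x i j| ≤ 1 * P z x := by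
      rw [abs_mul]
      exact mul_le_mul (χ_abs hR x) (P_hs z x i j) (abs_nonneg _) zero_le_one
    have q2 : |pd j z x * pd i (χ n R) x| ≤ C * P z x := by
      rw [abs_mul, mul_comm]
      exact mul_le_mul ((h1 i).1 x) (P_pd z x j) (abs_nonneg _) hC
    have q3 : |z x * hess (χ n R) x i j| ≤ C * P z x := by
      rw [abs_mul, mul_comm]
      exact mul_le_mul ((h2 i j).1 x) (P_val z x) (abs_nonneg _) hC
    have q4 : |pd j (χ n R) x * pd i z x| ≤ C * P z x := by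
      rw [abs_mul]
      exact mul_le_mul ((h1 j).1 x) (P_pd z x i) (abs_nonneg _) hC
    have r1 := abs_add_le (χ n R x * hess z x i j + pd j z x * pd i (χ n R) x)
      (z x * hess (χ n R) x i j + pd j (χ n R) x * pd i z x)
    have r2 := abs_add_le (χ n R x * hess z x i j) (pd j z x * pd i (χ n R) x)
    have r3 := abs_add_le (z x * hess (χ n R) x i j) (pd j (χ n R) x * pd i z x)
    linarith
  have s1 : ∑ i, |pd i (fun y => χ n R y * z y) x| ≤ n * ((1 + C) * P z x) := by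
    refine (Finset.sum_le_sum fun i _ => b1 i).trans ?_
    simp
  have s2 : ∑ i, ∑ j, |hess (fun y => χ n R y * z y) x i j| ≤ n * (n * ((1 + 3 * C) * P z x)) := by
    refine (Finset.sum_le_sum fun i _ => Finset.sum_le_sum fun j _ => b2 i j).trans ?_
    simp
  have : P (fun y => χ n R y * z y) x = |χ n R x * z x| + ∑ i, |pd i (fun y => χ n R y * z y) x| +
    ∑ i, ∑ j, |hess (fun y => χ n R y * z y) x i j| := rfl
  rw [this]
  nlinarith

lemma five {a b c d e : ℝ} : (a + b + c + d + e) ^ 2 ≤ 5 * (a ^ 2 + b ^ 2 + c ^ 2 + d ^ 2 + e ^ 2) := by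
  nlinarith [sq_nonneg (a - b), sq_nonneg (a - c), sq_nonneg (a - d), sq_nonneg (a - e),
    sq_nonneg (b - c), sq_nonneg (b - d), sq_nonneg (b - e), sq_nonneg (c - d), sq_nonneg (c - e),
    sq_nonneg (d - e)]

lemma five_int {V : E n → ℝ} (hV : Continuous V) {h a b c d e : E n → ℝ} (ha : BC a) (hb : BC b)
    (hc : BC c) (hd : BC d) (he : BC e)
    (hle : ∀ᵐ x : E n, |h x| ≤ |a x| + |b x| + |c x| + |d x| + |e x|) :
    ∫ x, (h x) ^ 2 * Real.exp (-V x) ≤ 5 * (∫ x, (a x) ^ 2 * Real.exp (-V x)) +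
      5 * (∫ x, (b x) ^ 2 * Real.exp (-V x)) + 5 * (∫ x, (c x) ^ 2 * Real.exp (-V x)) +
      5 * (∫ x, (d x) ^ 2 * Real.exp (-V x)) + 5 * (∫ x, (e x) ^ 2 * Real.exp (-V x)) := by
  have hce : Continuous fun x => Real.exp (-V x) := by fun_prop
  have ia := (ha.sq.int_mul hce).const_mul 5
  have ib := (hb.sq.int_mul hce).const_mul 5
  have ic := (hc.sq.int_mul hce).const_mul 5
  have id := (hd.sq.int_mul hce).const_mul 5
  have ie := (he.sq.int_mul hce).const_mul 5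
  have i2 : Integrable (fun x => 5 * (a x ^ 2 * Real.exp (-V x)) + 5 * (b x ^ 2 * Real.exp (-V x)))
    volume := ia.add ib
  have i3 : Integrable (fun x => 5 * (a x ^ 2 * Real.exp (-V x)) + 5 * (b x ^ 2 * Real.exp (-V x)) +
    5 * (c x ^ 2 * Real.exp (-V x))) volume := i2.add ic
  have i4 : Integrable (fun x => 5 * (a x ^ 2 * Real.exp (-V x)) + 5 * (b x ^ 2 * Real.exp (-V x)) +
    5 * (c x ^ 2 * Real.exp (-V x)) + 5 * (d x ^ 2 * Real.exp (-V x))) volume := i3.add id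
  have i5 : Integrable (fun x => 5 * (a x ^ 2 * Real.exp (-V x)) + 5 * (b x ^ 2 * Real.exp (-V x)) +
    5 * (c x ^ 2 * Real.exp (-V x)) + 5 * (d x ^ 2 * Real.exp (-V x)) +
    5 * (e x ^ 2 * Real.exp (-V x))) volume := i4.add ie
  rw [← integral_const_mul, ← integral_const_mul, ← integral_const_mul, ← integral_const_mul,
    ← integral_const_mul, ← integral_add ia ib, ← integral_add i2 ic,
    ← integral_add i3 id, ← integral_add i4 ie]
  refine integral_mono_of_nonneg (Eventually.of_forall fun x => by positivity) i5 ?_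
  filter_upwards [hle] with x hx
  have h1 : (h x) ^ 2 ≤ 5 * ((a x) ^ 2 + (b x) ^ 2 + (c x) ^ 2 + (d x) ^ 2 + (e x) ^ 2) := by
    have h2 : |h x| ^ 2 ≤ (|a x| + |b x| + |c x| + |d x| + |e x|) ^ 2 :=
      pow_le_pow_left₀ (abs_nonneg _) hx 2
    have h3 := five (a := |a x|) (b := |b x|) (c := |c x|) (d := |d x|) (e := |e x|)
    simp only [sq_abs] at h2 h3
    linarith
  have h4 : 0 < Real.exp (-V x) := Real.exp_pos _
  nlinarith

/-- the final summation, in abstract form -/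
theorem sum_bound {V : E n → ℝ} (hV : Continuous V) (φ : ContDiffBump (0 : E n))
    {A w g er Cm Av dE h : E n → ℝ} {KA Kw Kg Ke KC : NNReal} {η : ℝ}
    (hA : LipschitzWith KA A) (hAc : HasCompactSupport A)
    (hw : LipschitzWith Kw w) (hwc : HasCompactSupport w)
    (hg : LipschitzWith Kg g) (hgc : HasCompactSupport g)
    (he : LipschitzWith Ke er) (hec : HasCompactSupport er)
    (hC : LipschitzWith KC Cm) (bAv : BC Av)
    (hdE : dE = fun y => ‖fderiv ℝ er y‖)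
    (hid : ∀ x, h x = -(mol φ A x - A x) + (mol φ w x - w x) + mol φ g x + (-mol φ er x) + (-Cm x))
    (hC1 : ∀ x, |Cm x| ≤ Av x) (hC2 : ∀ᵐ x : E n, ‖fderiv ℝ Cm x‖ ≤ Av x)
    (i1 : ∫ x, (mol φ A x - A x) ^ 2 * Real.exp (-V x) ≤ η)
    (i2 : ∫ x, ‖fderiv ℝ (mol φ A) x - fderiv ℝ A x‖ ^ 2 * Real.exp (-V x) ≤ η)
    (i3 : ∫ x, (mol φ w x - w x) ^ 2 * Real.exp (-V x) ≤ η)
    (i4 : ∫ x, ‖fderiv ℝ (mol φ w) x - fderiv ℝ w x‖ ^ 2 * Real.exp (-V x) ≤ η)
    (i5 : ∫ x, (mol φ g x) ^ 2 * Real.exp (-V x) ≤ η)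
    (i6 : ∫ x, ‖fderiv ℝ (mol φ g) x‖ ^ 2 * Real.exp (-V x) ≤ η)
    (i7 : ∫ x, (mol φ er x) ^ 2 * Real.exp (-V x) ≤ η)
    (i8 : ∫ x, (mol φ dE x) ^ 2 * Real.exp (-V x) ≤ η)
    (i9 : ∫ x, (Av x) ^ 2 * Real.exp (-V x) ≤ η) :
    ∫ x, (h x) ^ 2 * Real.exp (-V x) ≤ 25 * η ∧
    ∫ x, ‖fderiv ℝ h x‖ ^ 2 * Real.exp (-V x) ≤ 25 * η := by
  have bA : BC A := BC.of_cont hA.continuous hAc
  have bw : BC w := BC.of_cont hw.continuous hwc
  have bg : BC g := BC.of_cont hg.continuous hgc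
  have be : BC er := BC.of_cont he.continuous hec
  have bneg : ∀ {f : E n → ℝ}, BC f → BC (fun x => - f x) := fun {f} hf => by
    have := hf.constmul (-1)
    simpa using this
  have bsub : ∀ {f g : E n → ℝ}, BC f → BC g → BC (fun x => f x - g x) := fun {f g} hf hg => by
    have := hf.add (bneg hg)
    simpa [sub_eq_add_neg] using this
  constructor
  · have key := five_int hV (h := h) (bsub (mol_bc φ bA) bA) (bsub (mol_bc φ bw) bw) (mol_bc φ bg)
      (mol_bc φ be) bAv (Eventually.of_forall fun x => by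
        rw [hid x]
        have k1 := abs_add_le (-(mol φ A x - A x) + (mol φ w x - w x) + mol φ g x + (-mol φ er x)) (-Cm x)
        have k2 := abs_add_le (-(mol φ A x - A x) + (mol φ w x - w x) + mol φ g x) (-mol φ er x)
        have k3 := abs_add_le (-(mol φ A x - A x) + (mol φ w x - w x)) (mol φ g x)
        have k4 := abs_add_le (-(mol φ A x - A x)) (mol φ w x - w x)
        have k5 := (hC1 x).trans (le_abs_self _)
        rw [abs_neg] at k1 k2 k4
        linarith)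
    linarith
  · have d1 := hA.ae_differentiableAt (μ := (volume : Measure (E n)))
    have d2 := hC.ae_differentiableAt (μ := (volume : Measure (E n)))
    have d3 := hw.ae_differentiableAt (μ := (volume : Measure (E n)))
    have fh : h = fun x => -(mol φ A x - A x) + (mol φ w x - w x) + mol φ g x + (-mol φ er x) +
      (-Cm x) := funext hid
    have L : ∀ {f : E n → ℝ}, Continuous f → HasCompactSupport f → ∃ l, LipschitzWith l (mol φ f) :=
      fun {f} h1 h2 => test_lip (f := mol φ f) ⟨mol_smooth φ h1, mol_compact φ h2⟩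
    have bb : ∀ {f : E n → ℝ} {K : NNReal}, LipschitzWith K f → HasCompactSupport f →
        BC (fun x => ‖fderiv ℝ (mol φ f) x - fderiv ℝ f x‖) := by
      intro f K hf hfc
      obtain ⟨l, hl⟩ := L hf.continuous hfc
      refine ⟨((measurable_fderiv ℝ _).sub (measurable_fderiv ℝ _)).norm,
        (((mol_compact φ hfc).fderiv ℝ).sub (hfc.fderiv ℝ)).norm, l + K, fun x => ?_⟩
      rw [abs_norm]
      exact (norm_sub_le _ _).trans (add_le_add (norm_fderiv_le_of_lipschitz ℝ hl)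
        (norm_fderiv_le_of_lipschitz ℝ hf))
    have bb3 : BC (fun x => ‖fderiv ℝ (mol φ g) x‖) := by
      obtain ⟨l, hl⟩ := L hg.continuous hgc
      exact bc_fderiv hl (mol_compact φ hgc)
    have bb4 : BC (mol φ dE) := by rw [hdE]; exact mol_bc φ (bc_fderiv he hec)
    have key := five_int hV (h := fun x => ‖fderiv ℝ h x‖) (bb hA hAc) (bb hw hwc) bb3 bb4 bAv (by
      filter_upwards [d1, d2, hC2, d3] with x hx1 hx2 hx3 Dw
      have D : ∀ {f : E n → ℝ}, Continuous f → DifferentiableAt ℝ (mol φ f) x := fun {f} hf =>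
        ((mol_smooth φ hf).differentiable (by simp)) x
      have q1 : DifferentiableAt ℝ (fun x => -(mol φ A x - A x)) x := ((D hA.continuous).sub hx1).neg
      have q2 : DifferentiableAt ℝ (fun x => mol φ w x - w x) x := (D hw.continuous).sub Dw
      have q3 := D hg.continuous
      have q4 : DifferentiableAt ℝ (fun x => -mol φ er x) x := (D he.continuous).neg
      have q5 : DifferentiableAt ℝ (fun x => -Cm x) x := hx2.neg
      rw [fh, fderiv_fun_add (((q1.fun_add q2).fun_add q3).fun_add q4) q5,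
        fderiv_fun_add ((q1.fun_add q2).fun_add q3) q4, fderiv_fun_add (q1.fun_add q2) q3,
        fderiv_fun_add q1 q2, fderiv_fun_neg, fderiv_fun_sub (D hA.continuous) hx1,
        fderiv_fun_sub (D hw.continuous) Dw, fderiv_fun_neg, fderiv_fun_neg]
      have r4 : ‖fderiv ℝ (mol φ er) x‖ ≤ mol φ dE x := by
        rw [hdE]; exact norm_fderiv_mol_le φ he hec x
      have r4' := le_abs_self (mol φ dE x)
      have r5 := hx3.trans (le_abs_self _)
      simp only [abs_norm]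
      refine (norm_add_le _ _).trans (add_le_add ((norm_add_le _ _).trans (add_le_add
        ((norm_add_le _ _).trans (add_le_add ((norm_add_le _ _).trans (add_le_add ?_ le_rfl)) le_rfl)) ?_)) ?_)
      · rw [norm_neg]
      · rw [norm_neg]; exact r4.trans r4'
      · rw [norm_neg]; exact r5)
    linarith

/-- bounds of the cut-off error terms -/
theorem err_bounds {ψ V : E n → ℝ} (hV : Continuous V) {C R : ℝ} (hR : 0 < R)
    (hc3 : BL C (Lop ψ (χ n R)))
    (hc4 : ∀ j, BL C (fun x => ∑ i, (tau ψ x i j + tau ψ x j i) * pd i (χ n R) x))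
    (φ : ContDiffBump (0 : E n)) {d₀ : ℝ} (hφ : φ.rOut ≤ d₀)
    (hcmp : ∀ x t : E n, ‖x‖ ≤ 2 * R → ‖t‖ ≤ d₀ → Real.exp (-V (x + t)) ≤ 2 * Real.exp (-V x))
    {z : E n → ℝ} (hz : Test z) :
    ∫ x, (mol φ (err ψ (χ n R) z) x) ^ 2 * Real.exp (-V x) ≤
      2 * (C ^ 2 * ∫ x, (P z x) ^ 2 * Real.exp (-V x)) ∧
    ∫ x, (mol φ (fun y => ‖fderiv ℝ (err ψ (χ n R) z) y‖) x) ^ 2 * Real.exp (-V x) ≤
      2 * ((2 * C) ^ 2 * ∫ x, (P z x) ^ 2 * Real.exp (-V x)) := by
  have hce : Continuous fun x => Real.exp (-V x) := by fun_prop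
  have hρ0 : ∀ x : E n, 0 ≤ Real.exp (-V x) := fun x => (Real.exp_pos _).le
  obtain ⟨B6, hB6⟩ := err_BL hc3 hc4 hz
  have herc : HasCompactSupport (err ψ (χ n R) z) := err_cpt ψ _ hz
  have ber : BC (err ψ (χ n R) z) := BC.of_cont hB6.cont herc
  have iPz := (P_bc hz).sq.int_mul hce
  constructor
  · have h1 := avg_le φ ber hce hρ0 (fun x t ht hx => by
      have hx2 : ‖x‖ ≤ 2 * R := by
        by_contra hcon
        push Not at hcon
        exact hx (err_ev ψ hR z hcon).self_of_nhds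
      exact hcmp x t hx2 (ht.le.trans hφ))
    refine h1.trans (mul_le_mul_of_nonneg_left ?_ zero_le_two)
    rw [← integral_const_mul]
    refine integral_mono (ber.sq.int_mul hce) (iPz.const_mul _) fun x => ?_
    simp only
    have h1 := err_le hc3 hc4 z x
    have h2 : |err ψ (χ n R) z x| ^ 2 ≤ (C * P z x) ^ 2 := pow_le_pow_left₀ (abs_nonneg _) h1 2
    rw [sq_abs] at h2
    have h3 := hρ0 x
    calc (err ψ (χ n R) z x) ^ 2 * Real.exp (-V x) ≤ (C * P z x) ^ 2 * Real.exp (-V x) := by gcongr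
      _ = _ := by ring
  · have bF := bc_fderiv hB6.lip herc
    have h1 := avg_le φ bF hce hρ0 (fun x t ht hx => by
      have hx2 : ‖x‖ ≤ 2 * R := by
        by_contra hcon
        push Not at hcon
        refine hx ?_
        have : err ψ (χ n R) z =ᶠ[𝓝 x] fun _ => 0 := err_ev ψ hR z hcon
        rw [this.fderiv_eq]; simp
      exact hcmp x t hx2 (ht.le.trans hφ))
    refine h1.trans (mul_le_mul_of_nonneg_left ?_ zero_le_two)
    rw [← integral_const_mul]
    refine integral_mono_ae (bF.sq.int_mul hce) (iPz.const_mul _) ?_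
    filter_upwards [err_fderiv hc3 hc4 hz] with x h1
    have h2 : ‖fderiv ℝ (err ψ (χ n R) z) x‖ ^ 2 ≤ (2 * C * P z x) ^ 2 :=
      pow_le_pow_left₀ (norm_nonneg _) h1 2
    have h3 := hρ0 x
    calc ‖fderiv ℝ (err ψ (χ n R) z) x‖ ^ 2 * Real.exp (-V x) ≤
        (2 * C * P z x) ^ 2 * Real.exp (-V x) := by gcongr
      _ = _ := by ring

/-- bound of the averages of `P G` -/
theorem avg_PG {V : E n → ℝ} (hV : Continuous V) {C R : ℝ} (hC : 0 ≤ C) (hR : 0 < R)
    (hc1 : ∀ i, BL C (pd i (χ n R))) (hc2 : ∀ i j, BL C (fun x => hess (χ n R) x i j))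
    (θ : ContDiffBump (0 : E n)) {d₀ : ℝ} (hθ : θ.rOut ≤ d₀)
    (hcmp : ∀ x t : E n, ‖x‖ ≤ 2 * R → ‖t‖ ≤ d₀ → Real.exp (-V (x + t)) ≤ 2 * Real.exp (-V x))
    {z : E n → ℝ} (hz : Test z) (A5 : ℝ) :
    ∫ x, (A5 * mol θ (P (fun y => χ n R y * z y)) x) ^ 2 * Real.exp (-V x) ≤
      2 * A5 ^ 2 * (1 + n * (1 + C) + n * (n * (1 + 3 * C))) ^ 2 *
        ∫ x, (P z x) ^ 2 * Real.exp (-V x) := by
  have hce : Continuous fun x => Real.exp (-V x) := by fun_prop
  have hρ0 : ∀ x : E n, 0 ≤ Real.exp (-V x) := fun x => (Real.exp_pos _).le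
  have hGt : Test (fun y => χ n R y * z y) := test_mul (χ_test (n := n) hR) hz
  have bPG := P_bc hGt
  have iPz := (P_bc hz).sq.int_mul hce
  set C6 : ℝ := 1 + n * (1 + C) + n * (n * (1 + 3 * C)) with hC6
  have hPG : ∫ x, (P (fun y => χ n R y * z y) x) ^ 2 * Real.exp (-V x) ≤
      C6 ^ 2 * ∫ x, (P z x) ^ 2 * Real.exp (-V x) := by
    rw [← integral_const_mul]
    refine integral_mono (bPG.sq.int_mul hce) (iPz.const_mul _) fun x => ?_
    simp only
    have h1 := P_cut hC hR hc1 hc2 hz x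
    have h2 : (P (fun y => χ n R y * z y) x) ^ 2 ≤ (C6 * P z x) ^ 2 :=
      pow_le_pow_left₀ (P_nn _ _) h1 2
    have h3 := hρ0 x
    calc (P (fun y => χ n R y * z y) x) ^ 2 * Real.exp (-V x) ≤
        (C6 * P z x) ^ 2 * Real.exp (-V x) := by gcongr
      _ = _ := by ring
  have e : ∀ x, (A5 * mol θ (P (fun y => χ n R y * z y)) x) ^ 2 * Real.exp (-V x) =
      A5 ^ 2 * ((mol θ (P (fun y => χ n R y * z y)) x) ^ 2 * Real.exp (-V x)) := fun x => by ring
  simp_rw [e]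
  rw [integral_const_mul]
  have h1 := avg_le θ bPG hce hρ0 (fun x t ht hx => by
    have hx2 : ‖x‖ ≤ 2 * R := by
      by_contra hcon
      push Not at hcon
      refine hx (P_zero ?_)
      filter_upwards [χ_ev hR hcon] with y hy
      simp [hy]
    exact hcmp x t hx2 (ht.le.trans hθ))
  have h2 := h1.trans (mul_le_mul_of_nonneg_left hPG zero_le_two)
  have h3 := mul_le_mul_of_nonneg_left h2 (sq_nonneg A5)
  refine h3.trans (le_of_eq (by ring))

/-- the algebraic identity -/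
theorem identity {ψ : E n → ℝ} {T : ℝ} (hT : ∀ i j, BL T (fun z => tau ψ z i j))
    (φ : ContDiffBump (0 : E n)) {R : ℝ} (hR : 0 < R) {v0 vi w : E n → ℝ} (hv0 : Test v0)
    (hvi : Test vi) (hw : Test w) (zA : ∀ x : E n, R < ‖x‖ → v0 x - Lop ψ v0 x = 0)
    (zw : ∀ x : E n, R < ‖x‖ → w x = 0) {D : ℝ}
    (her : BL D (err ψ (χ n R) (fun y => vi y - v0 y))) (x : E n) :
    (v0 x + mol φ (fun y => χ n R y * (vi y - v0 y)) x) -
      Lop ψ (fun y => v0 y + mol φ (fun y => χ n R y * (vi y - v0 y)) y) x - w x =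
      -(mol φ (fun y => v0 y - Lop ψ v0 y) x - (v0 x - Lop ψ v0 x)) + (mol φ w x - w x) +
      mol φ (fun y => χ n R y * (vi y - Lop ψ vi y - w y)) x +
      (-mol φ (err ψ (χ n R) (fun y => vi y - v0 y)) x) +
      (-Com ψ φ (fun y => χ n R y * (vi y - v0 y)) x) := by
  have hχ := χ_test (n := n) hR
  have hzt : Test (fun y => vi y - v0 y) := test_sub hvi hv0
  have hGt : Test (fun y => χ n R y * (vi y - v0 y)) := test_mul hχ hzt
  obtain ⟨B0, hB0⟩ := BL.of_test hv0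
  obtain ⟨B1, hB1⟩ := BL_Lop hT hv0
  have hA0 : BL (B0 + B1) (fun y => v0 y - Lop ψ v0 y) := hB0.sub hB1
  have hLv0 : HasCompactSupport (fun y => v0 y - Lop ψ v0 y) := hv0.2.sub (Lop_cpt ψ hv0)
  obtain ⟨B2, hB2⟩ := BL.of_test hvi
  obtain ⟨B3, hB3⟩ := BL_Lop hT hvi
  obtain ⟨B4, hB4⟩ := BL.of_test hw
  obtain ⟨B5, hB5⟩ := BL.of_test hχ
  have hg3BL := hB5.mul ((hB2.sub hB3).sub hB4)
  have hg3c : HasCompactSupport (fun y => χ n R y * (vi y - Lop ψ vi y - w y)) := hχ.2.mul_right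
  have herc : HasCompactSupport (err ψ (χ n R) (fun y => vi y - v0 y)) := err_cpt ψ _ hzt
  obtain ⟨B7, hB7⟩ := BL_Lop hT hGt
  have hτc : ∀ i j, Continuous fun z => tau ψ z i j := fun i j => (hT i j).cont
  set z : E n → ℝ := fun y => vi y - v0 y with hz
  set G : E n → ℝ := fun y => χ n R y * z y with hG
  set g3 : E n → ℝ := fun y => χ n R y * (vi y - Lop ψ vi y - w y) with hg3
  set er : E n → ℝ := err ψ (χ n R) z with herd
  have hAG : ∀ y, G y - Lop ψ G y = g3 y + w y - (v0 y - Lop ψ v0 y) - er y := by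
    intro y
    have e1 : Lop ψ G y = χ n R y * Lop ψ z y + er y := by
      rw [hG, Lop_mul ψ hχ hzt y, herd]; unfold err; ring
    have e2 : Lop ψ z y = Lop ψ vi y - Lop ψ v0 y := Lop_sub ψ hvi hv0 y
    have e3 : χ n R y * w y = w y := by
      by_cases hy : ‖y‖ ≤ R
      · rw [χ_one hR hy, one_mul]
      · rw [zw y (not_le.1 hy), mul_zero]
    have e4 : χ n R y * (v0 y - Lop ψ v0 y) = v0 y - Lop ψ v0 y := by
      by_cases hy : ‖y‖ ≤ R
      · rw [χ_one hR hy, one_mul]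
      · rw [zA y (not_le.1 hy), mul_zero]
    rw [e1, e2]
    have : g3 y = χ n R y * (vi y - Lop ψ vi y) - χ n R y * w y := by rw [hg3]; ring
    rw [this, e3, ← e4]
    simp only [hG, hz]; ring
  have hmolAG : mol φ G x - mol φ (Lop ψ G) x = mol φ g3 x + mol φ w x -
      mol φ (fun y => v0 y - Lop ψ v0 y) x - mol φ er x := by
    rw [← mol_sub' φ (test_cont hGt) hGt.2 hB7.cont (Lop_cpt ψ hGt)]
    have e : (fun z => G z - Lop ψ G z) = fun y => g3 y + w y - (v0 y - Lop ψ v0 y) - er y :=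
      funext hAG
    have c1 : Continuous fun y => g3 y + w y := (hg3BL.cont).add (test_cont hw)
    have c2 : Continuous fun y => g3 y + w y - (v0 y - Lop ψ v0 y) := c1.sub hA0.cont
    have k1 : HasCompactSupport fun y => g3 y + w y := hg3c.add hw.2
    have k2 : HasCompactSupport fun y => g3 y + w y - (v0 y - Lop ψ v0 y) := k1.sub hLv0
    rw [e, mol_sub' φ c2 k2 her.cont herc, mol_sub' φ c1 k1 hA0.cont hLv0,
      mol_add' φ hg3BL.cont hg3c (test_cont hw) hw.2]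
  rw [Lop_add ψ hv0 (test_mol φ hGt), Lop_mol hτc φ hGt]
  linarith

/-- the core estimate, all parameters fixed -/
theorem core {ψ V : E n → ℝ} (hV : Continuous V) {T : ℝ} (hT : ∀ i j, BL T (fun z => tau ψ z i j))
    {C C₀ K η d₀ R C3 : ℝ} (hC : 0 ≤ C) (hC₀ : 0 ≤ C₀)
    (hK1 : 8 * C ^ 2 ≤ K)
    (hK2 : 2 * (7 * C₀ * (|T| + 1)) ^ 2 * (1 + n * (1 + C) + n * (n * (1 + 3 * C))) ^ 2 ≤ K)
    (hR : 0 < R) (hc1 : ∀ i, BL C (pd i (χ n R))) (hc2 : ∀ i j, BL C (fun x => hess (χ n R) x i j))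
    (hc3 : BL C (Lop ψ (χ n R)))
    (hc4 : ∀ j, BL C (fun x => ∑ i, (tau ψ x i j + tau ψ x j i) * pd i (χ n R) x))
    (hcmp : ∀ x t : E n, ‖x‖ ≤ 2 * R → ‖t‖ ≤ d₀ → Real.exp (-V (x + t)) ≤ 2 * Real.exp (-V x))
    {j : ℕ} (hj0 : dj j < d₀ / 6) (h3d : 0 < 3 * dj j)
    (hkern : ∀ t h : E n, ‖h‖ ≤ dj j →
      (bmp n (dj j) (dj_pos j)).normed volume (t + h) ≤
        C₀ * (bmp n (3 * dj j) h3d).normed volume t ∧
      |(bmp n (dj j) (dj_pos j)).normed volume (t + h) - (bmp n (dj j) (dj_pos j)).normed volume t| ≤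
        C₀ * (‖h‖ / dj j) * (bmp n (3 * dj j) h3d).normed volume t)
    {v0 vi w : E n → ℝ} (hv0 : Test v0) (hvi : Test vi) (hw : Test w)
    (zA : ∀ x : E n, R < ‖x‖ → v0 x - Lop ψ v0 x = 0) (zw : ∀ x : E n, R < ‖x‖ → w x = 0)
    (hC3 : 0 ≤ C3)
    (hcrude : ∀ g : E n → ℝ, Continuous g → (∀ x, 2 * R < ‖x‖ → g x = 0) →
      ∫ x, (mol (φj n j) g x) ^ 2 * Real.exp (-V x) ≤ C3 * ∫ x, (g x) ^ 2 * Real.exp (-V x) ∧
      ∫ x, ‖fderiv ℝ (mol (φj n j) g) x‖ ^ 2 * Real.exp (-V x) ≤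
        C3 * ∫ x, (g x) ^ 2 * Real.exp (-V x))
    (hj1 : ∫ x, (mol (φj n j) (fun y => v0 y - Lop ψ v0 y) x - (v0 x - Lop ψ v0 x)) ^ 2 *
      Real.exp (-V x) ≤ η)
    (hj2 : ∫ x, ‖fderiv ℝ (mol (φj n j) (fun y => v0 y - Lop ψ v0 y)) x -
      fderiv ℝ (fun y => v0 y - Lop ψ v0 y) x‖ ^ 2 * Real.exp (-V x) ≤ η)
    (hj3 : ∫ x, (mol (φj n j) w x - w x) ^ 2 * Real.exp (-V x) ≤ η)
    (hj4 : ∫ x, ‖fderiv ℝ (mol (φj n j) w) x - fderiv ℝ w x‖ ^ 2 * Real.exp (-V x) ≤ η)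
    (hi1 : C3 * ∫ x, (vi x - Lop ψ vi x - w x) ^ 2 * Real.exp (-V x) ≤ η)
    (hKQ : K * ∫ x, (P (fun y => vi y - v0 y) x) ^ 2 * Real.exp (-V x) ≤ η) :
    ∫ x, ((v0 x + mol (φj n j) (fun y => χ n R y * (vi y - v0 y)) x) -
      Lop ψ (fun y => v0 y + mol (φj n j) (fun y => χ n R y * (vi y - v0 y)) y) x - w x) ^ 2 *
        Real.exp (-V x) ≤ 25 * η ∧
    ∫ x, ‖fderiv ℝ (fun x => (v0 x + mol (φj n j) (fun y => χ n R y * (vi y - v0 y)) x) -
      Lop ψ (fun y => v0 y + mol (φj n j) (fun y => χ n R y * (vi y - v0 y)) y) x - w x) x‖ ^ 2 *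
        Real.exp (-V x) ≤ 25 * η := by
  have hce : Continuous fun x => Real.exp (-V x) := by fun_prop
  have hχ := χ_test (n := n) hR
  have hLv0 : HasCompactSupport (fun y => v0 y - Lop ψ v0 y) := hv0.2.sub (Lop_cpt ψ hv0)
  obtain ⟨B0, hB0⟩ := BL.of_test hv0
  obtain ⟨B1, hB1⟩ := BL_Lop hT hv0
  have hA0 : BL (B0 + B1) (fun y => v0 y - Lop ψ v0 y) := hB0.sub hB1
  obtain ⟨Kw, hKw⟩ := test_lip hw
  have hzt : Test (fun y => vi y - v0 y) := test_sub hvi hv0
  have hGt : Test (fun y => χ n R y * (vi y - v0 y)) := test_mul hχ hzt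
  obtain ⟨B2, hB2⟩ := BL.of_test hvi
  obtain ⟨B3, hB3⟩ := BL_Lop hT hvi
  obtain ⟨B4, hB4⟩ := BL.of_test hw
  obtain ⟨B5, hB5⟩ := BL.of_test hχ
  have hg3BL := hB5.mul ((hB2.sub hB3).sub hB4)
  have hg3c : HasCompactSupport (fun y => χ n R y * (vi y - Lop ψ vi y - w y)) := hχ.2.mul_right
  obtain ⟨B6, hB6⟩ := err_BL hc3 hc4 hzt
  have herc := err_cpt ψ (χ n R) hzt
  obtain ⟨B7, hB7⟩ := BL_Lop hT hGt
  obtain ⟨B8, hB8⟩ := BL_Lop hT (test_mol (φj n j) hGt)
  have hτc : ∀ i j, Continuous fun z => tau ψ z i j := fun i j => (hT i j).cont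
  have hComBL : ∃ KC, LipschitzWith KC (Com ψ (φj n j) (fun y => χ n R y * (vi y - v0 y))) := by
    obtain ⟨l, hl⟩ := test_lip (f := mol (φj n j) (Lop ψ (fun y => χ n R y * (vi y - v0 y))))
      ⟨mol_smooth _ hB7.cont, mol_compact _ (Lop_cpt ψ hGt)⟩
    have hComeq : Com ψ (φj n j) (fun y => χ n R y * (vi y - v0 y)) = fun x =>
        Lop ψ (mol (φj n j) (fun y => χ n R y * (vi y - v0 y))) x -
          mol (φj n j) (Lop ψ (fun y => χ n R y * (vi y - v0 y))) x := by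
      funext x; rw [Lop_mol hτc (φj n j) hGt]; ring
    rw [hComeq]
    exact ⟨_, hB8.lip.sub hl⟩
  obtain ⟨KC, hKC⟩ := hComBL
  obtain ⟨hCb1, hCb2⟩ := Com_bound hT hC₀ (dj_pos j) (dj_le_one j) h3d hkern hGt
  have hQ0 : 0 ≤ ∫ x, (P (fun y => vi y - v0 y) x) ^ 2 * Real.exp (-V x) :=
    integral_nonneg fun x => by positivity
  have hAv := (avg_PG hV hC hR hc1 hc2 (bmp n (3 * dj j) h3d) (d₀ := d₀) (by
    have : (bmp n (3 * dj j) h3d).rOut = 2 * (3 * dj j) := rfl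
    linarith) hcmp hzt (7 * C₀ * (|T| + 1))).trans
      ((mul_le_mul_of_nonneg_right hK2 hQ0).trans hKQ)
  obtain ⟨hE1, hE2⟩ := err_bounds hV hR hc3 hc4 (φj n j) (d₀ := d₀) (by
    have : (φj n j).rOut = 2 * dj j := rfl
    have := dj_pos j
    linarith) hcmp hzt
  have hCQ := mul_nonneg (sq_nonneg C) hQ0
  have hKQ1 := mul_le_mul_of_nonneg_right hK1 hQ0
  have bAv : BC (fun x => (7 * C₀ * (|T| + 1)) *
      mol (bmp n (3 * dj j) h3d) (P (fun y => χ n R y * (vi y - v0 y))) x) :=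
    (mol_bc _ (P_bc hGt)).constmul _
  have e1 : 2 * (C ^ 2 * ∫ x, (P (fun y => vi y - v0 y) x) ^ 2 * Real.exp (-V x)) ≤ η := by
    refine le_trans ?_ (hKQ1.trans hKQ)
    rw [mul_assoc]
    linarith
  have e2 : 2 * ((2 * C) ^ 2 * ∫ x, (P (fun y => vi y - v0 y) x) ^ 2 * Real.exp (-V x)) ≤ η := by
    refine le_trans (le_of_eq ?_) (hKQ1.trans hKQ)
    ring
  obtain ⟨hcr1, hcr2⟩ := hcrude (fun y => χ n R y * (vi y - Lop ψ vi y - w y)) hg3BL.cont
    (fun x hx => by rw [χ_zero hR hx.le, zero_mul])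
  have hg3le : C3 * ∫ x, (χ n R x * (vi x - Lop ψ vi x - w x)) ^ 2 * Real.exp (-V x) ≤ η := by
    refine le_trans (mul_le_mul_of_nonneg_left ?_ hC3) hi1
    refine integral_mono ((BC.of_cont hg3BL.cont hg3c).sq.int_mul hce) ((BC.of_cont
      ((hB2.sub hB3).sub hB4).cont ((hvi.2.sub (Lop_cpt ψ hvi)).sub hw.2)).sq.int_mul hce)
      fun x => ?_
    have h1 : χ n R x ^ 2 ≤ 1 := by
      have := χ_abs hR x
      rw [← sq_abs]; nlinarith [abs_nonneg (χ n R x)]
    have : χ n R x ^ 2 * (vi x - Lop ψ vi x - w x) ^ 2 ≤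
        1 * (vi x - Lop ψ vi x - w x) ^ 2 := by gcongr
    rw [one_mul, ← mul_pow] at this
    exact mul_le_mul_of_nonneg_right this (Real.exp_pos _).le
  exact sum_bound hV (φj n j) hA0.lip hLv0 hKw hw.2 hg3BL.lip hg3c hB6.lip herc hKC bAv rfl
    (identity hT (φj n j) hR hv0 hvi hw zA zw hB6) hCb1 hCb2 hj1 hj2
    hj3 hj4 (hcr1.trans hg3le) (hcr2.trans hg3le) (hE1.trans e1) (hE2.trans e2) hAv

/-- SECOND FRIEDRICHS STEP (LIN-4, H1APPR): if `(1-L) v_i → w` in `L²(μ)` and the 2-jets of `v_i` are Cauchy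
in `L²(μ)`, then `w` is the limit in `H¹(μ)` of `(1-L) F`, `F` a test function. -/
theorem h1appr {ψ V : E n → ℝ} (hV : Continuous V) {T : ℝ} (hT : ∀ i j, BL T (fun z => tau ψ z i j))
    {w : E n → ℝ} (hw : Test w) {v : ℕ → E n → ℝ} (hv : ∀ i, Test (v i))
    (h1 : Tendsto (fun i => ∫ x, (v i x - Lop ψ (v i) x - w x) ^ 2 * Real.exp (-V x)) atTop (𝓝 0))
    (h2 : ∀ ε > 0, ∃ N, ∀ i ≥ N, ∫ x, (P (fun y => v i y - v N y) x) ^ 2 * Real.exp (-V x) ≤ ε) :
    ∀ δ > 0, ∃ F : E n → ℝ, Test F ∧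
      ∫ x, (F x - Lop ψ F x - w x) ^ 2 * Real.exp (-V x) ≤ δ ∧
      ∫ x, ‖fderiv ℝ (fun y => F y - Lop ψ F y - w y) x‖ ^ 2 * Real.exp (-V x) ≤ δ := by
  intro δ hδ
  obtain ⟨C, hC, hcut⟩ := cutoff_exists hT
  obtain ⟨C₀, hC₀, hkern⟩ := kern n
  obtain ⟨K, hK0, hK1, hK2⟩ : ∃ K : ℝ, 0 < K ∧ 8 * C ^ 2 ≤ K ∧
      2 * (7 * C₀ * (|T| + 1)) ^ 2 * (1 + n * (1 + C) + n * (n * (1 + 3 * C))) ^ 2 ≤ K :=
    ⟨8 * C ^ 2 + 2 * (7 * C₀ * (|T| + 1)) ^ 2 * (1 + n * (1 + C) + n * (n * (1 + 3 * C))) ^ 2 + 1,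
      by positivity, by
        have : 0 ≤ 2 * (7 * C₀ * (|T| + 1)) ^ 2 * (1 + n * (1 + C) + n * (n * (1 + 3 * C))) ^ 2 := by
          positivity
        linarith, by
        have : 0 ≤ 8 * C ^ 2 := by positivity
        linarith⟩
  have hce : Continuous fun x => Real.exp (-V x) := by fun_prop
  obtain ⟨N, hN⟩ := h2 (δ / (25 * K)) (by positivity)
  have hv0 : Test (v N) := hv N
  have hLv0 : HasCompactSupport (fun y => v N y - Lop ψ (v N) y) := hv0.2.sub (Lop_cpt ψ hv0)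
  -- the radius
  obtain ⟨R1, hR1⟩ := hLv0.isCompact.isBounded.subset_closedBall (0 : E n)
  obtain ⟨R2, hR2⟩ := hw.2.isCompact.isBounded.subset_closedBall (0 : E n)
  obtain ⟨R, hR1', hRR1, hRR2⟩ : ∃ R : ℝ, 1 ≤ R ∧ R1 ≤ R ∧ R2 ≤ R :=
    ⟨max 1 (max R1 R2), le_max_left _ _, (le_max_left _ _).trans (le_max_right _ _),
      (le_max_right _ _).trans (le_max_right _ _)⟩
  have hR : 0 < R := by linarith
  have zA : ∀ x : E n, R < ‖x‖ → v N x - Lop ψ (v N) x = 0 := fun x hx => by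
    have : x ∉ tsupport (fun y => v N y - Lop ψ (v N) y) := fun h => by
      have := hR1 h
      rw [mem_closedBall_zero_iff] at this
      linarith
    exact image_eq_zero_of_notMem_tsupport (f := fun y => v N y - Lop ψ (v N) y) this
  have zw : ∀ x : E n, R < ‖x‖ → w x = 0 := fun x hx => by
    have : x ∉ tsupport w := fun h => by
      have := hR2 h
      rw [mem_closedBall_zero_iff] at this
      linarith
    exact image_eq_zero_of_notMem_tsupport this
  obtain ⟨hc1, hc2, hc3, hc4⟩ := hcut R hR1'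
  have hχ := χ_test (n := n) hR
  obtain ⟨d₀, hd₀, hcmp⟩ := weight_cmp hV (2 * R)
  obtain ⟨B0, hB0⟩ := BL.of_test hv0
  obtain ⟨B1, hB1⟩ := BL_Lop hT hv0
  have hA0 : BL (B0 + B1) (fun y => v N y - Lop ψ (v N) y) := hB0.sub hB1
  obtain ⟨Kw, hKw⟩ := test_lip hw
  have hδ25 : 0 < δ / 25 := by positivity
  obtain ⟨j, hj0, hj1, hj2, hj3, hj4⟩ := ((dj_tendsto.eventually (gt_mem_nhds (by positivity :
    (0 : ℝ) < d₀ / 6))).and
      (((mol_tendsto hA0.cont hLv0 hce).eventually (gt_mem_nhds hδ25)).and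
      (((fderiv_mol_tendsto hA0.lip hLv0 hce).eventually (gt_mem_nhds hδ25)).and
        (((mol_tendsto (test_cont hw) hw.2 hce).eventually (gt_mem_nhds hδ25)).and
        ((fderiv_mol_tendsto hKw hw.2 hce).eventually (gt_mem_nhds hδ25)))))).exists
  have hdpos : 0 < dj j := dj_pos j
  have h3d : 0 < 3 * dj j := by linarith
  obtain ⟨C3, hC3, hcrude⟩ := mol_crude (φj n j) hV (2 * R)
  -- the index
  have ev2 : ∀ᶠ i in atTop, C3 * ∫ x, (v i x - Lop ψ (v i) x - w x) ^ 2 * Real.exp (-V x) < δ / 25 := by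
    have := h1.const_mul C3
    rw [mul_zero] at this
    exact this.eventually (gt_mem_nhds hδ25)
  obtain ⟨i, hi1, hi2⟩ := (ev2.and (eventually_ge_atTop N)).exists
  have hQ := hN i hi2
  have hGt : Test (fun y => χ n R y * (v i y - v N y)) := test_mul hχ (test_sub (hv i) hv0)
  refine ⟨fun y => v N y + mol (φj n j) (fun y => χ n R y * (v i y - v N y)) y,
    test_add hv0 (test_mol (φj n j) hGt), ?_⟩
  have hKQ : K * ∫ x, (P (fun y => v i y - v N y) x) ^ 2 * Real.exp (-V x) ≤ δ / 25 := by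
    calc _ ≤ K * (δ / (25 * K)) := mul_le_mul_of_nonneg_left hQ hK0.le
      _ = δ / 25 := by field_simp
  have fin := core hV hT hC hC₀ hK1 hK2 hR hc1 hc2 hc3 hc4 hcmp hj0 h3d
    (fun t h hh => hkern (dj j) hdpos h3d t h hh) hv0 (hv i) hw zA zw hC3 hcrude hj1.le hj2.le
    hj3.le hj4.le hi1.le hKQ
  have e25 : 25 * (δ / 25) = δ := by ring
  rw [e25] at fin
  exact fin

end Vale.Agent.P227.M.LIN.H768
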