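import Mathlib

/-! P227 block LIN, abstract Hilbert space part.
`H` real Hilbert space, `D` a submodule (test functions), `L : D →ₗ[ℝ] H` symmetric and
`≤ 0`, with `{F - L F}` dense (essential self-adjointness).  Then `R = (1 - L)⁻¹` is a bounded
symmetric operator and the vectors `(R - 1)(2R - 1)(w - L w)` are dense in the orthogonal
complement of `Z`. -/

open Filter Topology
open scoped RealInnerProductSpace

namespace Vale.Agent.P227.M.LIN.Hilb

variable {H : Type*} [NormedAddCommGroup H] [InnerProductSpace ℝ H] [CompleteSpace H]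

/-- The data: `R` is the bounded inverse of `1 - L`. -/
theorem exists_resolvent (D : Submodule ℝ H) (L : D →ₗ[ℝ] H)
    (hsym : ∀ F G : D, ⟪L F, (G : H)⟫ = ⟪(F : H), L G⟫)
    (hneg : ∀ F : D, ⟪L F, (F : H)⟫ ≤ 0)
    (hdense : Dense (Set.range fun F : D => (F : H) - L F)) :
    ∃ R : H →L[ℝ] H, (∀ F : D, R ((F : H) - L F) = F) ∧
      (∀ x y : H, ⟪R x, y⟫ = ⟪x, R y⟫) := by
  classical
  -- the map `T = 1 - L`
  let T : D →ₗ[ℝ] H := D.subtype - L
  have hT : ∀ F : D, T F = (F : H) - L F := fun F => rfl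
  have hbound : ∀ F : D, ‖(F : H)‖ ≤ ‖T F‖ := by
    intro F
    have h1 : ‖(F : H)‖ ^ 2 ≤ ‖T F‖ ^ 2 := by
      rw [hT, @norm_sub_sq_real]
      have h2 := hneg F
      rw [real_inner_comm] at h2
      nlinarith [sq_nonneg ‖L F‖]
    exact (sq_le_sq₀ (norm_nonneg _) (norm_nonneg _)).1 h1
  have hinj : Function.Injective T := by
    rw [← LinearMap.ker_eq_bot, LinearMap.ker_eq_bot']
    intro F hF
    have := hbound F
    rw [hF, norm_zero] at this
    exact Subtype.ext (norm_le_zero_iff.1 this)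
  let e : D ≃ₗ[ℝ] (LinearMap.range T) := LinearEquiv.ofInjective T hinj
  have he : ∀ F : D, ((e F : LinearMap.range T) : H) = T F := fun F => by
    simp [e]
  let R0 : (LinearMap.range T) →ₗ[ℝ] H := D.subtype ∘ₗ (e.symm : LinearMap.range T →ₗ[ℝ] D)
  have hR0 : ∀ z : LinearMap.range T, ‖R0 z‖ ≤ 1 * ‖z‖ := by
    intro z
    have h1 := hbound (e.symm z)
    rw [← he, LinearEquiv.apply_symm_apply] at h1
    simpa [R0] using h1
  let R1 : (LinearMap.range T) →L[ℝ] H := LinearMap.mkContinuous R0 1 hR0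
  have hdr : DenseRange ((LinearMap.range T).subtypeL) := by
    have : Set.range ((LinearMap.range T).subtypeL) = Set.range fun F : D => (F : H) - L F := by
      ext x
      constructor
      · rintro ⟨⟨y, F, rfl⟩, rfl⟩
        exact ⟨F, rfl⟩
      · rintro ⟨F, rfl⟩
        exact ⟨⟨T F, F, rfl⟩, rfl⟩
    rw [DenseRange, this]
    exact hdense
  have hui : IsUniformInducing ((LinearMap.range T).subtypeL) :=
    isUniformEmbedding_subtype_val.isUniformInducing
  let R : H →L[ℝ] H := R1.extend (LinearMap.range T).subtypeL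
  have hR : ∀ F : D, R ((F : H) - L F) = F := by
    intro F
    have h1 : R ((LinearMap.range T).subtypeL (e F)) = R1 (e F) :=
      ContinuousLinearMap.extend_eq _ hdr hui _
    have h2 : ((LinearMap.range T).subtypeL (e F)) = (F : H) - L F := by
      change ((e F : LinearMap.range T) : H) = _
      rw [he, hT]
    rw [h2] at h1
    rw [h1]
    change R0 (e F) = F
    simp [R0]
  refine ⟨R, hR, ?_⟩
  -- symmetry: first on the dense set
  have hs1 : ∀ F G : D, ⟪R ((F : H) - L F), (G : H) - L G⟫ = ⟪(F : H) - L F, R ((G : H) - L G)⟫ := by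
    intro F G
    rw [hR, hR, inner_sub_right, inner_sub_left, hsym]
  have hs2 : ∀ (F : D) (y : H), ⟪R ((F : H) - L F), y⟫ = ⟪(F : H) - L F, R y⟫ := by
    intro F
    have hc1 : Continuous fun y : H => ⟪R ((F : H) - L F), y⟫ := by fun_prop
    have hc2 : Continuous fun y : H => ⟪(F : H) - L F, R y⟫ := by fun_prop
    have := Continuous.ext_on hdense hc1 hc2 (by
      rintro _ ⟨G, rfl⟩
      exact hs1 F G)
    exact fun y => congrFun this y
  intro x y
  have hc1 : Continuous fun x : H => ⟪R x, y⟫ := by fun_prop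
  have hc2 : Continuous fun x : H => ⟪x, R y⟫ := by fun_prop
  have := Continuous.ext_on hdense hc1 hc2 (by
    rintro _ ⟨F, rfl⟩
    exact hs2 F y)
  exact congrFun this x

omit [CompleteSpace H] in
/-- Approximation of `R z`: there are `F i ∈ D` with `F i → R z` and `L (F i) → R z - z`. -/
theorem approx (D : Submodule ℝ H) (L : D →ₗ[ℝ] H)
    (hdense : Dense (Set.range fun F : D => (F : H) - L F))
    (R : H →L[ℝ] H) (hR : ∀ F : D, R ((F : H) - L F) = F) (z : H) :
    ∃ F : ℕ → D, Tendsto (fun i => (F i : H) - L (F i)) atTop (𝓝 z) ∧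
      Tendsto (fun i => (F i : H)) atTop (𝓝 (R z)) ∧
      Tendsto (fun i => L (F i)) atTop (𝓝 (R z - z)) := by
  have hz : z ∈ closure (Set.range fun F : D => (F : H) - L F) := hdense z
  obtain ⟨u, hu, hlim⟩ := mem_closure_iff_seq_limit.1 hz
  choose F hF using hu
  have h1 : Tendsto (fun i => (F i : H) - L (F i)) atTop (𝓝 z) := by
    have : (fun i => (F i : H) - L (F i)) = u := funext hF
    rw [this]
    exact hlim
  have h2 : Tendsto (fun i => (F i : H)) atTop (𝓝 (R z)) := by
    have h3 := (R.continuous.tendsto z).comp h1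
    refine h3.congr fun i => ?_
    exact hR (F i)
  refine ⟨F, h1, h2, ?_⟩
  have h4 := h2.sub h1
  refine h4.congr fun i => ?_
  abel

/-- **Abstract density lemma.** -/
theorem dense_range (D : Submodule ℝ H) (L : D →ₗ[ℝ] H)
    (hsym : ∀ F G : D, ⟪L F, (G : H)⟫ = ⟪(F : H), L G⟫)
    (hneg : ∀ F : D, ⟪L F, (F : H)⟫ ≤ 0)
    (hdense : Dense (Set.range fun F : D => (F : H) - L F))
    (Z : Submodule ℝ H)
    (hK1 : ∀ (h : H) (F : ℕ → D), Tendsto (fun i => (F i : H)) atTop (𝓝 h) →
      Tendsto (fun i => L (F i)) atTop (𝓝 0) → h ∈ Z)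
    (hK2 : ∀ (h : H) (F : ℕ → D), Tendsto (fun i => (F i : H)) atTop (𝓝 h) →
      Tendsto (fun i => L (F i)) atTop (𝓝 (-h)) → h ∈ Z)
    (f : H) (hf : ∀ z ∈ Z, ⟪f, z⟫ = 0) {ε : ℝ} (hε : 0 < ε) :
    ∃ (w : D) (F0 : H) (v : ℕ → D),
      Tendsto (fun i => (v i : H) - L (v i)) atTop (𝓝 (w : H)) ∧
      Tendsto (fun i => (v i : H)) atTop (𝓝 F0) ∧
      Tendsto (fun i => L (v i)) atTop (𝓝 (F0 - w)) ∧
      ‖f + (L w - (2 : ℝ) • (F0 - (w : H)))‖ ≤ ε := by
  obtain ⟨R, hR, hRs⟩ := exists_resolvent D L hsym hneg hdense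
  -- the operator `B = (R - 1)(2R - 1)`
  let B : H →L[ℝ] H := (2 : ℝ) • (R ∘L R) - (3 : ℝ) • R + ContinuousLinearMap.id ℝ H
  have hB : ∀ z, B z = (2 : ℝ) • R (R z) - (3 : ℝ) • R z + z := fun z => rfl
  have hBs : ∀ x y : H, ⟪B x, y⟫ = ⟪x, B y⟫ := by
    intro x y
    rw [hB, hB]
    simp only [inner_add_left, inner_sub_left, inner_smul_left, inner_add_right,
      inner_sub_right, inner_smul_right, hRs]
    simp
  -- the kernel of `B`
  have hker : ∀ z, B z = 0 → z ∈ Z := by
    intro z hz
    rw [hB] at hz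
    -- `z1 = 2 R z - z`, `z2 = R z - z`
    have e1 : R ((2 : ℝ) • R z - z) = (2 : ℝ) • R z - z := by
      rw [map_sub, map_smul]
      have : (2 : ℝ) • R (R z) = (3 : ℝ) • R z - z := by
        have h := hz
        rw [sub_add_eq_add_sub, sub_eq_zero] at h
        rw [← h]
        abel
      rw [this]
      module
    have e2 : (2 : ℝ) • R (R z - z) = R z - z := by
      rw [map_sub, smul_sub]
      have : (2 : ℝ) • R (R z) = (3 : ℝ) • R z - z := by
        have h := hz
        rw [sub_add_eq_add_sub, sub_eq_zero] at h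
        rw [← h]
        abel
      rw [this]
      module
    have m1 : (2 : ℝ) • R z - z ∈ Z := by
      obtain ⟨F, -, h2, h3⟩ := approx D L hdense R hR ((2 : ℝ) • R z - z)
      rw [e1] at h2 h3
      rw [sub_self] at h3
      exact hK1 _ F h2 h3
    have m2 : R z - z ∈ Z := by
      obtain ⟨F, -, h2, h3⟩ := approx D L hdense R hR (R z - z)
      have h4 : R (R z - z) ∈ Z := by
        refine hK2 _ F h2 ?_
        have : R (R z - z) - (R z - z) = - R (R z - z) := by
          nth_rewrite 2 [← e2]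
          module
        rw [this] at h3
        exact h3
      have h5 := Z.smul_mem (2 : ℝ) h4
      rwa [e2] at h5
    have m3 : ((2 : ℝ) • R z - z) - (2 : ℝ) • (R z - z) ∈ Z :=
      Z.sub_mem m1 (Z.smul_mem 2 m2)
    have : ((2 : ℝ) • R z - z) - (2 : ℝ) • (R z - z) = z := by module
    rwa [this] at m3
  -- `f` is in the closure of the range of `B`
  have hcl : f ∈ (LinearMap.range (B : H →ₗ[ℝ] H)).topologicalClosure := by
    rw [← Submodule.orthogonal_orthogonal_eq_closure]
    rw [Submodule.mem_orthogonal]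
    intro z hz
    have hz' : B z = 0 := by
      rw [Submodule.mem_orthogonal] at hz
      have h1 : ∀ x, ⟪x, B z⟫ = 0 := by
        intro x
        rw [← hBs]
        exact hz (B x) ⟨x, rfl⟩
      exact inner_self_eq_zero.1 (h1 (B z))
    rw [real_inner_comm]
    exact hf z (hker z hz')
  have hcl' : f ∈ closure (Set.range B) := by
    have : ((LinearMap.range (B : H →ₗ[ℝ] H)).topologicalClosure : Set H)
        = closure (Set.range B) := by
      rw [Submodule.topologicalClosure_coe]
      rfl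
    rw [← this]
    exact hcl
  obtain ⟨_, ⟨z, rfl⟩, hz⟩ := Metric.mem_closure_iff.1 hcl' (ε / 2) (by positivity)
  -- approximate `z` by `w - L w`
  have hcont : Continuous fun z => B z := B.continuous
  have hBd : B z ∈ closure (Set.range fun w : D => B ((w : H) - L w)) := by
    have h1 : z ∈ closure (Set.range fun F : D => (F : H) - L F) := hdense z
    have h2 := image_closure_subset_closure_image hcont (s := Set.range fun F : D => (F : H) - L F)
      ⟨z, h1, rfl⟩
    rw [← Set.range_comp] at h2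
    exact h2
  obtain ⟨_, ⟨w, rfl⟩, hw⟩ := Metric.mem_closure_iff.1 hBd (ε / 2) (by positivity)
  obtain ⟨v, hv1, hv2, hv3⟩ := approx D L hdense R hR (w : H)
  refine ⟨w, R w, v, hv1, hv2, hv3, ?_⟩
  have hBw : B ((w : H) - L w) = (2 : ℝ) • (R w - (w : H)) - L w := by
    rw [hB, hR]
    module
  have hBw' : f + (L w - (2 : ℝ) • (R (w : H) - (w : H))) = f - B ((w : H) - L w) := by
    rw [hBw]
    abel
  rw [hBw', ← dist_eq_norm]
  calc dist f (B ((w : H) - L w)) ≤ dist f (B z) + dist (B z) (B ((w : H) - L w)) :=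
        dist_triangle _ _ _
    _ ≤ ε / 2 + ε / 2 := add_le_add hz.le hw.le
    _ = ε := by ring

end Vale.Agent.P227.M.LIN.Hilb
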