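import Vale.Agent.P227.M.LIN.Iface

open Filter Topology
open scoped InnerProductSpace

namespace Vale.Agent.P227.M.LIN.H879

variable {V H : Type*} [AddCommGroup V] [Module ℝ V] [NormedAddCommGroup H]
  [InnerProductSpace ℝ H]

/-- The a-priori bound `|iF| <= |iF - lF|`. -/
theorem abs_apriori (i l : V →ₗ[ℝ] H) (hneg : ∀ F, ⟪l F, i F⟫_ℝ ≤ 0) (F : V) :
    ‖i F‖ ≤ ‖i F - l F‖ := by
  have h1 : ‖i F‖ * ‖i F‖ ≤ ‖i F - l F‖ * ‖i F‖ := by
    calc ‖i F‖ * ‖i F‖ = ⟪i F, i F⟫_ℝ := (real_inner_self_eq_norm_mul_norm _).symm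
      _ ≤ ⟪i F, i F⟫_ℝ - ⟪l F, i F⟫_ℝ := by linarith [hneg F]
      _ = ⟪i F - l F, i F⟫_ℝ := (inner_sub_left _ _ _).symm
      _ ≤ ‖i F - l F‖ * ‖i F‖ := real_inner_le_norm _ _
  rcases (norm_nonneg (i F)).eq_or_lt with h0 | h0
  · rw [← h0]; exact norm_nonneg _
  · exact le_of_mul_le_mul_right h1 h0

/-- The resolvent in sequence form. -/
theorem abs_resolvent [CompleteSpace H] (i l : V →ₗ[ℝ] H) (hneg : ∀ F, ⟪l F, i F⟫_ℝ ≤ 0)
    (hdense : DenseRange (fun F => i F - l F)) (h : H) :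
    ∃ r : H, ∃ v : ℕ → V, Tendsto (fun n => i (v n) - l (v n)) atTop (𝓝 h) ∧
      Tendsto (fun n => i (v n)) atTop (𝓝 r) ∧
      Tendsto (fun n => l (v n)) atTop (𝓝 (r - h)) := by
  have hv : ∀ n : ℕ, ∃ v : V, ‖(i v - l v) - h‖ < 1 / ((n : ℝ) + 1) := by
    intro n
    obtain ⟨v, hv⟩ := hdense.exists_dist_lt h (show (0 : ℝ) < 1 / ((n : ℝ) + 1) by positivity)
    refine ⟨v, ?_⟩
    rw [dist_comm, dist_eq_norm] at hv
    exact hv
  choose v hv using hv
  have hT : Tendsto (fun n => i (v n) - l (v n)) atTop (𝓝 h) := by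
    rw [tendsto_iff_norm_sub_tendsto_zero]
    exact squeeze_zero (fun n => norm_nonneg _) (fun n => (hv n).le)
      tendsto_one_div_add_atTop_nhds_zero_nat
  have hC : CauchySeq (fun n => i (v n)) := by
    have hTC := hT.cauchySeq
    rw [Metric.cauchySeq_iff] at hTC ⊢
    intro e he
    obtain ⟨N, hN⟩ := hTC e he
    refine ⟨N, fun m hm n hn => ?_⟩
    have := hN m hm n hn
    rw [dist_eq_norm] at this ⊢
    have h2 := abs_apriori i l hneg (v m - v n)
    rw [map_sub, map_sub] at h2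
    have h3 : i (v m) - i (v n) - (l (v m) - l (v n)) =
        i (v m) - l (v m) - (i (v n) - l (v n)) := by abel
    rw [h3] at h2
    exact lt_of_le_of_lt h2 this
  obtain ⟨r, hr⟩ := cauchySeq_tendsto_of_complete hC
  refine ⟨r, v, hT, hr, ?_⟩
  have := hr.sub hT
  refine this.congr (fun n => ?_)
  abel

/-- Uniqueness of the resolvent. -/
theorem abs_unique (i l : V →ₗ[ℝ] H) (hneg : ∀ F, ⟪l F, i F⟫_ℝ ≤ 0) {h r r' : H}
    {v v' : ℕ → V} (hT : Tendsto (fun n => i (v n) - l (v n)) atTop (𝓝 h))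
    (hT' : Tendsto (fun n => i (v' n) - l (v' n)) atTop (𝓝 h))
    (hr : Tendsto (fun n => i (v n)) atTop (𝓝 r))
    (hr' : Tendsto (fun n => i (v' n)) atTop (𝓝 r')) : r = r' := by
  have h1 : Tendsto (fun n => i (v n) - i (v' n)) atTop (𝓝 (r - r')) := hr.sub hr'
  have h2 : Tendsto (fun n => i (v n) - i (v' n)) atTop (𝓝 0) := by
    have h3 : Tendsto (fun n => (i (v n) - l (v n)) - (i (v' n) - l (v' n))) atTop (𝓝 (h - h)) :=
      hT.sub hT'
    rw [sub_self] at h3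
    have h4 := h3.norm
    rw [norm_zero] at h4
    refine squeeze_zero_norm (fun n => ?_) h4
    have h2 := abs_apriori i l hneg (v n - v' n)
    rw [map_sub, map_sub] at h2
    have h5 : i (v n) - i (v' n) - (l (v n) - l (v' n)) =
        i (v n) - l (v n) - (i (v' n) - l (v' n)) := by abel
    rw [h5] at h2
    exact h2
  have := tendsto_nhds_unique h1 h2
  exact sub_eq_zero.mp this

/-- The range submodule. -/
def absRange (i l : V →ₗ[ℝ] H) : Submodule ℝ H where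
  carrier := {g | ∃ w : V, ∃ v : ℕ → V,
    Tendsto (fun n => i (v n) - l (v n)) atTop (𝓝 (i w)) ∧
    Tendsto (fun n => -(l (w - (2 : ℝ) • v n))) atTop (𝓝 g)}
  add_mem' := by
    rintro a b ⟨w, v, h1, h2⟩ ⟨w', v', h1', h2'⟩
    refine ⟨w + w', fun n => v n + v' n, ?_, ?_⟩
    · rw [map_add]
      refine (h1.add h1').congr (fun n => ?_)
      rw [map_add, map_add]; abel
    · refine (h2.add h2').congr (fun n => ?_)
      simp only [map_sub, map_add, map_smul, smul_add]; abel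
  zero_mem' := by
    refine ⟨0, fun _ => 0, ?_, ?_⟩
    · simp
    · simp
  smul_mem' := by
    rintro c a ⟨w, v, h1, h2⟩
    refine ⟨c • w, fun n => c • v n, ?_, ?_⟩
    · rw [map_smul]
      refine (h1.const_smul c).congr (fun n => ?_)
      rw [map_smul, map_smul, smul_sub]
    · refine (h2.const_smul c).congr (fun n => ?_)
      simp only [map_sub, map_smul, smul_neg, smul_sub]
      rw [smul_comm c (2 : ℝ)]


theorem abs_orth [CompleteSpace H] (i l : V →ₗ[ℝ] H)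
    (hsym : ∀ F G, ⟪l F, i G⟫_ℝ = ⟪i F, l G⟫_ℝ)
    (hneg : ∀ F, ⟪l F, i F⟫_ℝ ≤ 0)
    (hdense : DenseRange (fun F => i F - l F)) (f : H)
    (hK0 : ∀ (h : H) (F : ℕ → V), Tendsto (fun n => i (F n)) atTop (𝓝 h) →
      Tendsto (fun n => l (F n)) atTop (𝓝 0) → ⟪f, h⟫_ℝ = 0)
    (hK1 : ∀ (h : H) (F : ℕ → V), Tendsto (fun n => i (F n)) atTop (𝓝 h) →
      Tendsto (fun n => l (F n)) atTop (𝓝 (-h)) → ⟪f, h⟫_ℝ = 0)
    (h0 : H) (hh0 : h0 ∈ (absRange i l)ᗮ) : ⟪f, h0⟫_ℝ = 0 := by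
  choose R v hT hi hl using abs_resolvent i l hneg hdense
  -- symmetry of the resolvent
  have hRs : ∀ a b : H, ⟪R a, b⟫_ℝ = ⟪a, R b⟫_ℝ := by
    intro a b
    have h1 : Tendsto (fun n => ⟪i (v a n), i (v b n) - l (v b n)⟫_ℝ) atTop
        (𝓝 ⟪R a, b⟫_ℝ) := (hi a).inner (hT b)
    have h2 : Tendsto (fun n => ⟪i (v a n) - l (v a n), i (v b n)⟫_ℝ) atTop
        (𝓝 ⟪a, R b⟫_ℝ) := (hT a).inner (hi b)
    refine tendsto_nhds_unique h1 (h2.congr (fun n => ?_))
    rw [inner_sub_left, inner_sub_right, hsym]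
  -- R (c a + d b) = c R a + d R b
  have hRl : ∀ (c d : ℝ) (a b : H), R (c • a + d • b) = c • R a + d • R b := by
    intro c d a b
    refine abs_unique i l hneg (hT _) (v' := fun n => c • v a n + d • v b n) ?_ (hi _) ?_
    · refine (((hT a).const_smul c).add ((hT b).const_smul d)).congr (fun n => ?_)
      simp only [map_add, map_smul, smul_sub]; abel
    · refine (((hi a).const_smul c).add ((hi b).const_smul d)).congr (fun n => ?_)
      simp only [map_add, map_smul]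
  -- the resolvent of (i - l) w
  have hRw : ∀ w : V, R (i w - l w) = i w := by
    intro w
    exact abs_unique i l hneg (hT _) (v' := fun _ => w) tendsto_const_nhds (hi _)
      tendsto_const_nhds
  have hort : ∀ w : V, ⟪h0 - (3 : ℝ) • R h0 + (2 : ℝ) • R (R h0), i w - l w⟫_ℝ = 0 := by
    intro w
    have hmem : (i w - l w) - (3 : ℝ) • i w + (2 : ℝ) • R (i w) ∈ absRange i l := by
      refine ⟨w, v (i w), hT (i w), ?_⟩
      have h1 := ((hl (i w)).const_smul (2 : ℝ)).sub (tendsto_const_nhds (x := l w))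
      have h2 : (2 : ℝ) • (R (i w) - i w) - l w =
          (i w - l w) - (3 : ℝ) • i w + (2 : ℝ) • R (i w) := by
        module
      rw [h2] at h1
      refine h1.congr (fun n => ?_)
      simp only [map_sub, map_smul]; abel
    have h3 := (Submodule.mem_orthogonal' _ _).mp hh0 _ hmem
    have h4 : ⟪R h0, i w - l w⟫_ℝ = ⟪h0, i w⟫_ℝ := by rw [hRs, hRw]
    have h5 : ⟪R (R h0), i w - l w⟫_ℝ = ⟪h0, R (i w)⟫_ℝ := by rw [hRs, hRw, hRs]
    rw [inner_add_left, inner_sub_left, inner_smul_left, inner_smul_left, h4, h5]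
    rw [inner_add_right, inner_sub_right, inner_smul_right, inner_smul_right] at h3
    simpa using h3
  have hz : h0 - (3 : ℝ) • R h0 + (2 : ℝ) • R (R h0) = 0 := by
    set q := h0 - (3 : ℝ) • R h0 + (2 : ℝ) • R (R h0) with hq
    have h1 : ∀ x : H, ⟪q, x⟫_ℝ = 0 := by
      intro x
      have hcl : IsClosed {x : H | ⟪q, x⟫_ℝ = 0} :=
        isClosed_eq (continuous_const.inner continuous_id) continuous_const
      have := hdense.closure_range
      have hsub : closure (Set.range (fun F => i F - l F)) ⊆ {x : H | ⟪q, x⟫_ℝ = 0} := by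
        refine closure_minimal ?_ hcl
        rintro _ ⟨w, rfl⟩
        exact hort w
      rw [this] at hsub
      exact hsub (Set.mem_univ x)
    exact inner_self_eq_zero.mp (h1 q)
  have hRR : R (R h0) = (3 / 2 : ℝ) • R h0 + (-1 / 2 : ℝ) • h0 := by
    have h6 : (2 : ℝ) • R (R h0) =
        (h0 - (3 : ℝ) • R h0 + (2 : ℝ) • R (R h0)) - (h0 - (3 : ℝ) • R h0) := by abel
    rw [hz] at h6
    have h7 : R (R h0) = (1 / 2 : ℝ) • ((2 : ℝ) • R (R h0)) := by module
    rw [h7, h6]; module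
  have hk1 : ⟪f, (2 : ℝ) • R h0 + (-1 : ℝ) • h0⟫_ℝ = 0 := by
    have hRk : R ((2 : ℝ) • R h0 + (-1 : ℝ) • h0) = (2 : ℝ) • R h0 + (-1 : ℝ) • h0 := by
      rw [hRl, hRR]; module
    refine hK0 _ (v ((2 : ℝ) • R h0 + (-1 : ℝ) • h0)) ?_ ?_
    · have := hi ((2 : ℝ) • R h0 + (-1 : ℝ) • h0)
      rwa [hRk] at this
    · have := hl ((2 : ℝ) • R h0 + (-1 : ℝ) • h0)
      rwa [hRk, sub_self] at this
  have hk2 : ⟪f, (1 / 2 : ℝ) • ((1 : ℝ) • R h0 + (-1 : ℝ) • h0)⟫_ℝ = 0 := by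
    have hRk : R ((1 : ℝ) • R h0 + (-1 : ℝ) • h0) =
        (1 / 2 : ℝ) • ((1 : ℝ) • R h0 + (-1 : ℝ) • h0) := by
      rw [hRl, hRR]; module
    refine hK1 _ (v ((1 : ℝ) • R h0 + (-1 : ℝ) • h0)) ?_ ?_
    · have := hi ((1 : ℝ) • R h0 + (-1 : ℝ) • h0)
      rwa [hRk] at this
    · have := hl ((1 : ℝ) • R h0 + (-1 : ℝ) • h0)
      rw [hRk] at this
      have h8 : (1 / 2 : ℝ) • ((1 : ℝ) • R h0 + (-1 : ℝ) • h0) -
          ((1 : ℝ) • R h0 + (-1 : ℝ) • h0) =
          -((1 / 2 : ℝ) • ((1 : ℝ) • R h0 + (-1 : ℝ) • h0)) := by module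
      rwa [h8] at this
  have hdec : h0 = ((2 : ℝ) • R h0 + (-1 : ℝ) • h0) +
      (-4 : ℝ) • ((1 / 2 : ℝ) • ((1 : ℝ) • R h0 + (-1 : ℝ) • h0)) := by module
  rw [hdec, inner_add_right, hk1, inner_smul_right, hk2]; simp

end Vale.Agent.P227.M.LIN.H879

namespace Vale.Agent.P227.M.LIN

open H879

/-- The abstract Hilbert space part of the block LIN. -/
theorem stmtHilb879 : StmtHilb := by
  intro W H _ _ _ _ _ J A hsym hneg hdense r hK0 hK1 ε hε
  have hf : r ∈ closure ((absRange J A : Submodule ℝ H) : Set H) := by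
    rw [← Submodule.topologicalClosure_coe, SetLike.mem_coe,
      ← Submodule.orthogonal_orthogonal_eq_closure, Submodule.mem_orthogonal']
    intro u hu
    exact abs_orth J A hsym hneg hdense r hK0 hK1 u hu
  obtain ⟨g, hg, hfg⟩ := Metric.mem_closure_iff.mp hf (ε / 2) (by positivity)
  obtain ⟨w, v, h1, h2⟩ := hg
  have h3 : ∀ᶠ n in atTop, ‖-(A (w - (2 : ℝ) • v n)) - g‖ < ε / 2 := by
    have := (tendsto_iff_norm_sub_tendsto_zero.mp h2)
    exact this.eventually_lt_const (by positivity)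
  obtain ⟨N, hN⟩ := eventually_atTop.mp h3
  refine ⟨w, fun n => v (n + N), h1.comp (tendsto_add_atTop_nat N), fun n => ?_⟩
  have h4 := hN (n + N) (Nat.le_add_left _ _)
  rw [dist_eq_norm] at hfg
  calc ‖r + A (w - (2 : ℝ) • v (n + N))‖
      = ‖(r - g) - (-(A (w - (2 : ℝ) • v (n + N))) - g)‖ := by congr 1; abel
    _ ≤ ‖r - g‖ + ‖-(A (w - (2 : ℝ) • v (n + N))) - g‖ := norm_sub_le _ _
    _ ≤ ε := by linarith

end Vale.Agent.P227.M.LIN
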