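import Mathlib.Analysis.InnerProductSpace.Adjoint
import Mathlib.Analysis.Normed.Operator.Extend

/-! P227, block LIN, abstract Hilbert space part (helper671). -/

namespace Vale.Agent.P227.M.LIN.X671

open Filter Topology

variable {H : Type*} [NormedAddCommGroup H] [InnerProductSpace ℝ H] [CompleteSpace H]
  {D : Type*} [AddCommGroup D] [Module ℝ D]

omit [CompleteSpace H] in
theorem norm_i_le (i L : D →ₗ[ℝ] H) (neg : ∀ u, inner ℝ (L u) (i u) ≤ 0) (v : D) :
    ‖i v‖ ≤ ‖(i - L) v‖ ∧ ‖L v‖ ≤ ‖(i - L) v‖ := by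
  have h1 : ‖(i - L) v‖ ^ 2 = ‖i v‖ ^ 2 - 2 * inner ℝ (L v) (i v) + ‖L v‖ ^ 2 := by
    rw [LinearMap.sub_apply, norm_sub_sq_real, real_inner_comm]
  have h2 := neg v
  constructor
  · refine le_of_sq_le_sq ?_ (norm_nonneg _)
    nlinarith [sq_nonneg ‖L v‖]
  · refine le_of_sq_le_sq ?_ (norm_nonneg _)
    nlinarith [sq_nonneg ‖i v‖]

theorem lin_abs (i L : D →ₗ[ℝ] H)
    (sym : ∀ u v, inner ℝ (L u) (i v) = inner ℝ (i u) (L v))
    (neg : ∀ u, inner ℝ (L u) (i u) ≤ 0)
    (hd : DenseRange (i - L)) (f : H)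
    (K0 : ∀ (h : H) (v : ℕ → D), Tendsto (fun n => i (v n)) atTop (𝓝 h) →
      Tendsto (fun n => L (v n)) atTop (𝓝 0) → inner ℝ f h = 0)
    (K1 : ∀ (h : H) (v : ℕ → D), Tendsto (fun n => i (v n)) atTop (𝓝 h) →
      Tendsto (fun n => L (v n)) atTop (𝓝 (-h)) → inner ℝ f h = 0)
    {ε : ℝ} (hε : 0 < ε) :
    ∃ w : D, ∃ v : ℕ → D, Tendsto (fun n => (i - L) (v n)) atTop (𝓝 (i w)) ∧
      ∀ᶠ n in atTop, ‖f + L (w - (2 : ℝ) • v n)‖ ≤ ε := by
  classical
  have hn : ∃ C, ∀ x, ‖i x‖ ≤ C * ‖(i - L) x‖ := ⟨1, fun x => by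
    rw [one_mul]; exact (norm_i_le i L neg x).1⟩
  set R : H →L[ℝ] H := i.extendOfNorm (i - L) with hRdef
  have hR : ∀ v, R ((i - L) v) = i v := fun v => LinearMap.extendOfNorm_eq hd hn v
  -- sequences
  have hseq : ∀ x : H, ∃ v : ℕ → D, Tendsto (fun n => (i - L) (v n)) atTop (𝓝 x) ∧
      Tendsto (fun n => i (v n)) atTop (𝓝 (R x)) ∧
      Tendsto (fun n => L (v n)) atTop (𝓝 (R x - x)) := by
    intro x
    have hx : x ∈ closure (Set.range (i - L)) := hd x
    rw [mem_closure_iff_seq_limit] at hx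
    obtain ⟨y, hy, hyx⟩ := hx
    choose v hv using hy
    have h1 : Tendsto (fun n => (i - L) (v n)) atTop (𝓝 x) := by
      simpa only [hv] using hyx
    have h2 : Tendsto (fun n => i (v n)) atTop (𝓝 (R x)) := by
      have h3 := (R.continuous.tendsto x).comp h1
      refine h3.congr fun n => ?_
      exact hR (v n)
    refine ⟨v, h1, h2, ?_⟩
    refine (h2.sub h1).congr fun n => ?_
    rw [LinearMap.sub_apply]
    abel
  -- symmetry
  have hsym : ∀ x y : H, inner ℝ (R x) y = inner ℝ x (R y) := by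
    intro x y
    obtain ⟨u, hu1, hu2, -⟩ := hseq x
    obtain ⟨v, hv1, hv2, -⟩ := hseq y
    have h1 : Tendsto (fun n => inner ℝ (i (u n)) ((i - L) (v n))) atTop
        (𝓝 (inner ℝ (R x) y)) := hu2.inner hv1
    have h2 : Tendsto (fun n => inner ℝ ((i - L) (u n)) (i (v n))) atTop
        (𝓝 (inner ℝ x (R y))) := hu1.inner hv2
    refine tendsto_nhds_unique h1 (h2.congr fun n => ?_)
    rw [LinearMap.sub_apply, LinearMap.sub_apply, inner_sub_left, inner_sub_right, sym]
  set B : H →L[ℝ] H := 1 - (3 : ℝ) • R + (2 : ℝ) • (R * R) with hBdef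
  have hBx : ∀ x, B x = x - (3 : ℝ) • R x + (2 : ℝ) • R (R x) := fun x => by
    simp [hBdef]
  have hBsym : ∀ x y : H, inner ℝ (B x) y = inner ℝ x (B y) := by
    intro x y
    rw [hBx, hBx]
    simp only [inner_add_left, inner_sub_left, inner_add_right, inner_sub_right,
      inner_smul_left, inner_smul_right, hsym]
    simp
  -- f orthogonal to the kernel of B
  have hker : ∀ h : H, B h = 0 → inner ℝ f h = 0 := by
    intro h hh
    rw [hBx] at hh
    -- h1 = h - 2 R h in ker (1 - R)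
    have e1 : R (h - (2 : ℝ) • R h) = h - (2 : ℝ) • R h := by
      rw [map_sub, map_smul]
      have : R h - (2 : ℝ) • R (R h) - (h - (2 : ℝ) • R h)
          = -(h - (3 : ℝ) • R h + (2 : ℝ) • R (R h)) := by module
      rw [hh, neg_zero] at this
      exact sub_eq_zero.1 this
    have e2 : (2 : ℝ) • R (h - R h) = h - R h := by
      rw [map_sub, smul_sub]
      have : (2 : ℝ) • R h - (2 : ℝ) • R (R h) - (h - R h)
          = -(h - (3 : ℝ) • R h + (2 : ℝ) • R (R h)) := by module
      rw [hh, neg_zero] at this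
      exact sub_eq_zero.1 this
    have f1 : inner ℝ f (h - (2 : ℝ) • R h) = 0 := by
      obtain ⟨v, -, h2, h3⟩ := hseq (h - (2 : ℝ) • R h)
      rw [e1] at h2 h3
      rw [sub_self] at h3
      exact K0 _ v h2 h3
    have f2 : inner ℝ f (R (h - R h)) = 0 := by
      obtain ⟨v, -, h2, h3⟩ := hseq (h - R h)
      have h4 : R (h - R h) - (h - R h) = -(R (h - R h)) := by
        have h5 : R (h - R h) - (h - R h) = R (h - R h) - (2 : ℝ) • R (h - R h) := by rw [e2]
        rw [h5]
        module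
      rw [h4] at h3
      exact K1 _ v h2 h3
    have f3 : inner ℝ f (h - R h) = 0 := by
      rw [← e2, inner_smul_right, f2, mul_zero]
    have : h = (2 : ℝ) • (h - R h) - (h - (2 : ℝ) • R h) := by module
    rw [this, inner_sub_right, inner_smul_right, f3, f1]
    simp
  -- f in the closure of the range of B
  have hcl : f ∈ (LinearMap.range B.toLinearMap).topologicalClosure := by
    rw [← Submodule.orthogonal_orthogonal_eq_closure]
    rw [Submodule.mem_orthogonal]
    intro h hh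
    rw [real_inner_comm]
    refine hker h ?_
    have : ∀ y, inner ℝ (B h) y = 0 := by
      intro y
      rw [hBsym]
      rw [real_inner_comm]
      exact (Submodule.mem_orthogonal _ _).1 hh _ ⟨y, rfl⟩
    exact inner_self_eq_zero.1 (this (B h))
  have hcl2 : f ∈ closure (Set.range B) := by
    have h := hcl
    rw [← SetLike.mem_coe, Submodule.topologicalClosure_coe, LinearMap.coe_range] at h
    exact h
  obtain ⟨g0, ⟨g, rfl⟩, hg⟩ := Metric.mem_closure_iff.1 hcl2 (ε / 4) (by positivity)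
  -- approximate g by (i-L) w
  obtain ⟨w', hw1, -, -⟩ := hseq g
  have hBw : Tendsto (fun n => B ((i - L) (w' n))) atTop (𝓝 (B g)) :=
    (B.continuous.tendsto g).comp hw1
  obtain ⟨m, hm⟩ := ((Metric.tendsto_nhds.1 hBw (ε / 4) (by positivity))).exists
  refine ⟨w' m, ?_⟩
  set w := w' m with hw
  obtain ⟨v, hv1, hv2, hv3⟩ := hseq (i w)
  refine ⟨v, hv1, ?_⟩
  have hlim : Tendsto (fun n => f + L (w - (2 : ℝ) • v n)) atTop
      (𝓝 (f + (L w - (2 : ℝ) • (R (i w) - i w)))) := by
    refine tendsto_const_nhds.add ?_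
    refine (tendsto_const_nhds.sub (hv3.const_smul (2 : ℝ))).congr fun n => ?_
    rw [map_sub, map_smul]
  have hval : f + (L w - (2 : ℝ) • (R (i w) - i w)) = f - B ((i - L) w) := by
    rw [hBx, hR, LinearMap.sub_apply]
    module
  have hnorm : ‖f - B ((i - L) w)‖ < ε := by
    have h1 : dist f (B ((i - L) w)) ≤ dist f (B g) + dist (B g) (B ((i - L) w)) :=
      dist_triangle _ _ _
    have h2 : dist (B g) (B ((i - L) w)) < ε / 4 := by rw [dist_comm]; exact hm
    rw [← dist_eq_norm]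
    linarith
  have hn2 := hlim.norm
  rw [hval] at hn2
  filter_upwards [hn2.eventually_lt_const hnorm] with n hn
  exact hn.le

end Vale.Agent.P227.M.LIN.X671
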