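import Vale.Agent.P227.M.LIN.Iface
import Vale.Agent.P227.M.LIN.HilbX671

/-! P227, block LIN: the abstract lemma in the form of the interface (helper671). -/

namespace Vale.Agent.P227.M.LIN.X671

open Filter Topology

theorem stmtHilb : Vale.Agent.P227.M.LIN.StmtHilb := by
  intro W H _ _ _ _ _ J A hsym hneg hd r K0 K1 ε hε
  have hd' : DenseRange (J - A) := by
    have : (fun f => J f - A f) = (J - A) := by ext f; rfl
    rwa [this] at hd
  obtain ⟨w, v, h1, h2⟩ := lin_abs J A hsym hneg hd' r K0 K1 hε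
  obtain ⟨N, hN⟩ := eventually_atTop.1 h2
  refine ⟨w, fun i => v (i + N), ?_, fun i => hN _ (by omega)⟩
  exact (tendsto_add_atTop_iff_nat N).2 h1

end Vale.Agent.P227.M.LIN.X671
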