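import Mathlib

/-! # P227/M/LIN: the resolvent argument, by sequences only -/

open Filter Topology
open scoped RealInnerProductSpace

namespace Vale.Agent.P227.M.LIN.Hs650

variable {H : Type*} [NormedAddCommGroup H] [InnerProductSpace ℝ H]
variable {D : Type*} [AddCommGroup D] [Module ℝ D]

/-- `p = (1 - L)⁻¹ h` in the sense of sequences -/
def Res (J A : D →ₗ[ℝ] H) (h p : H) : Prop :=
  ∃ f : ℕ → D, Tendsto (fun i => J (f i) - A (f i)) atTop (𝓝 h) ∧
    Tendsto (fun i => J (f i)) atTop (𝓝 p)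

theorem Res.comb {J A : D →ₗ[ℝ] H} {h p h' p' : H} (a b : ℝ) (h1 : Res J A h p)
    (h2 : Res J A h' p') : Res J A (a • h + b • h') (a • p + b • p') := by
  obtain ⟨f, hf1, hf2⟩ := h1
  obtain ⟨g, hg1, hg2⟩ := h2
  refine ⟨fun i => a • f i + b • g i, ?_, ?_⟩
  · refine ((hf1.const_smul a).add (hg1.const_smul b)).congr fun i => ?_
    simp only [map_add, map_smul, smul_sub]
    abel
  · refine ((hf2.const_smul a).add (hg2.const_smul b)).congr fun i => ?_
    simp only [map_add, map_smul]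

theorem Res.symm {J A : D →ₗ[ℝ] H} (sym : ∀ f g, ⟪A f, J g⟫ = ⟪J f, A g⟫) {h p z y : H}
    (h1 : Res J A h p) (h2 : Res J A z y) : ⟪h, y⟫ = ⟪p, z⟫ := by
  obtain ⟨f, hf1, hf2⟩ := h1
  obtain ⟨g, hg1, hg2⟩ := h2
  have e1 : Tendsto (fun i => ⟪J (f i) - A (f i), J (g i)⟫) atTop (𝓝 ⟪h, y⟫) :=
    hf1.inner hg2
  have e2 : Tendsto (fun i => ⟪J (f i), J (g i) - A (g i)⟫) atTop (𝓝 ⟪p, z⟫) :=
    hf2.inner hg1
  refine tendsto_nhds_unique e1 (e2.congr fun i => ?_)
  rw [inner_sub_right, inner_sub_left, sym]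

theorem bound {J A : D →ₗ[ℝ] H} (neg : ∀ f, ⟪A f, J f⟫ ≤ 0) (f : D) :
    ‖J f‖ ≤ ‖J f - A f‖ := by
  have h1 := norm_sub_sq_real (J f) (A f)
  have h2 := neg f
  rw [real_inner_comm] at h2
  have h3 := norm_nonneg (J f)
  have h4 := norm_nonneg (J f - A f)
  have h5 : 0 ≤ ‖A f‖ ^ 2 := sq_nonneg _
  nlinarith [h1, h2]

theorem Res.uniq {J A : D →ₗ[ℝ] H} (neg : ∀ f, ⟪A f, J f⟫ ≤ 0) {h p p' : H}
    (h1 : Res J A h p) (h2 : Res J A h p') : p = p' := by
  have h3 := Res.comb 1 (-1) h1 h2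
  obtain ⟨f, hf1, hf2⟩ := h3
  have e1 : Tendsto (fun i => ‖J (f i) - A (f i)‖) atTop (𝓝 0) := by
    have := hf1.norm
    simpa using this
  have e2 : Tendsto (fun i => ‖J (f i)‖) atTop (𝓝 0) :=
    squeeze_zero (fun i => norm_nonneg _) (fun i => bound neg (f i)) e1
  have e3 := tendsto_nhds_unique hf2.norm e2
  have e4 : (1 : ℝ) • p + (-1 : ℝ) • p' = 0 := norm_eq_zero.1 e3
  rw [one_smul, neg_one_smul, ← sub_eq_add_neg, sub_eq_zero] at e4
  exact e4

theorem Res.exists [CompleteSpace H] {J A : D →ₗ[ℝ] H} (neg : ∀ f, ⟪A f, J f⟫ ≤ 0)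
    (esa : ∀ h : H, (∀ f, ⟪h, J f - A f⟫ = 0) → h = 0) (h : H) : ∃ p, Res J A h p := by
  have hd : (LinearMap.range (J - A)).topologicalClosure = ⊤ := by
    rw [Submodule.topologicalClosure_eq_top_iff, Submodule.eq_bot_iff]
    intro x hx
    refine esa x fun f => ?_
    rw [real_inner_comm]
    exact (Submodule.mem_orthogonal _ _).1 hx _ ⟨f, rfl⟩
  have hm : h ∈ closure ((LinearMap.range (J - A) : Submodule ℝ H) : Set H) := by
    have : h ∈ (LinearMap.range (J - A)).topologicalClosure := by rw [hd]; trivial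
    exact this
  obtain ⟨x, hx, hx2⟩ := mem_closure_iff_seq_limit.1 hm
  choose f hf using hx
  have e1 : Tendsto (fun i => J (f i) - A (f i)) atTop (𝓝 h) :=
    hx2.congr fun i => by rw [← hf i]; rfl
  have hc : CauchySeq fun i => J (f i) := by
    have hc0 := e1.cauchySeq
    rw [Metric.cauchySeq_iff] at hc0 ⊢
    intro ε hε
    obtain ⟨N, hN⟩ := hc0 ε hε
    refine ⟨N, fun m hm k hk => lt_of_le_of_lt ?_ (hN m hm k hk)⟩
    rw [dist_eq_norm, dist_eq_norm]
    have hb := bound neg (f m - f k)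
    rw [map_sub, map_sub] at hb
    refine hb.trans (le_of_eq ?_)
    congr 1
    abel
  obtain ⟨p, hp⟩ := cauchySeq_tendsto_of_complete hc
  exact ⟨p, f, e1, hp⟩

theorem bound2 {J A : D →ₗ[ℝ] H} (neg : ∀ f, ⟪A f, J f⟫ ≤ 0) (f : D) :
    ‖A f‖ ≤ ‖J f - A f‖ := by
  have h1 := norm_sub_sq_real (J f) (A f)
  have h2 := neg f
  rw [real_inner_comm] at h2
  have h3 := norm_nonneg (A f)
  have h4 := norm_nonneg (J f - A f)
  have h5 : 0 ≤ ‖J f‖ ^ 2 := sq_nonneg _
  nlinarith [h1, h2]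

/-- the abstract density statement: `w` is fixed first, then every approximate solution `F` of
`F - L F = w` gives `u = w - 2 F` with `r + L u` small -/
theorem main [CompleteSpace H] (J A : D →ₗ[ℝ] H) (sym : ∀ f g, ⟪A f, J g⟫ = ⟪J f, A g⟫)
    (neg : ∀ f, ⟪A f, J f⟫ ≤ 0) (esa : ∀ h : H, (∀ f, ⟪h, J f - A f⟫ = 0) → h = 0) (r : H)
    (k0 : ∀ (f : ℕ → D) (h : H), Tendsto (fun i => J (f i)) atTop (𝓝 h) →
      Tendsto (fun i => A (f i)) atTop (𝓝 0) → ⟪h, r⟫ = 0)
    (k1 : ∀ (f : ℕ → D) (h : H), Tendsto (fun i => J (f i)) atTop (𝓝 h) →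
      Tendsto (fun i => A (f i)) atTop (𝓝 (-h)) → ⟪h, r⟫ = 0) (ε : ℝ) (hε : 0 < ε) :
    ∃ (w : D) (δ : ℝ), 0 < δ ∧ ∀ F : D, ‖J F - A F - J w‖ ≤ δ →
      ‖r + A (w - (2 : ℝ) • F)‖ ≤ ε := by
  let S : Submodule ℝ H :=
    { carrier := {g | ∃ (w : D) (q : H), Res J A (J w) q ∧
        g = A w + (2 : ℝ) • J w - (2 : ℝ) • q}
      add_mem' := by
        rintro a b ⟨w, q, h1, rfl⟩ ⟨w', q', h1', rfl⟩
        refine ⟨w + w', q + q', ?_, ?_⟩
        · have := Res.comb 1 1 h1 h1'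
          simpa using this
        · simp only [map_add, smul_add]
          abel
      zero_mem' := by
        refine ⟨0, 0, ⟨fun _ => 0, ?_, ?_⟩, by simp⟩
        · simp
        · simp
      smul_mem' := by
        rintro c x ⟨w, q, h1, rfl⟩
        refine ⟨c • w, c • q, ?_, ?_⟩
        · have := Res.comb c 0 h1 h1
          simpa using this
        · simp only [map_smul, smul_sub, smul_add]
          rw [smul_comm c (2 : ℝ) (J w), smul_comm c (2 : ℝ) q] }
  have key : ∀ h : H, (∀ g ∈ S, ⟪h, g⟫ = 0) → ⟪h, r⟫ = 0 := by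
    intro h hS
    obtain ⟨p, hp⟩ := Res.exists neg esa h
    obtain ⟨q, hq⟩ := Res.exists neg esa p
    obtain ⟨y, hy⟩ := Res.exists neg esa ((3 : ℝ) • h + (-2 : ℝ) • p)
    -- h = y
    have e1 : h = y := by
      rw [← sub_eq_zero]
      refine esa _ fun w => ?_
      obtain ⟨qw, hqw⟩ := Res.exists neg esa (J w)
      have a1 := hS _ ⟨w, qw, hqw, rfl⟩
      have a2 := Res.symm sym hp hqw
      have a3 : ⟪y, J w - A w⟫ = ⟪(3 : ℝ) • h + (-2 : ℝ) • p, J w⟫ := by
        have hw : Res J A (J w - A w) (J w) := ⟨fun _ => w, tendsto_const_nhds, tendsto_const_nhds⟩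
        exact (Res.symm sym hy hw).symm
      rw [inner_sub_left, a3]
      simp only [inner_add_left, inner_smul_left, inner_sub_right, inner_add_right,
        inner_smul_right] at a1 a2 ⊢
      simp only [conj_trivial] at a1 ⊢
      linarith
    have e2 : h = (3 : ℝ) • p + (-2 : ℝ) • q := by
      have h3 := Res.comb 3 (-2) hp hq
      rw [← Res.uniq neg hy h3]
      exact e1
    -- the two kernels
    have hm : Res J A (h - (2 : ℝ) • p) (h - (2 : ℝ) • p) := by
      have h3 := Res.comb 1 (-2) hp hq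
      have e3 : (1 : ℝ) • h + (-2 : ℝ) • p = h - (2 : ℝ) • p := by
        rw [one_smul, neg_smul, ← sub_eq_add_neg]
      have e4 : (1 : ℝ) • p + (-2 : ℝ) • q = h - (2 : ℝ) • p := by
        rw [e2]
        module
      rwa [e3, e4] at h3
    have hn : Res J A (h - p) ((1 / 2 : ℝ) • (h - p)) := by
      have h3 := Res.comb 1 (-1) hp hq
      have e3 : (1 : ℝ) • h + (-1 : ℝ) • p = h - p := by module
      have e4 : (1 : ℝ) • p + (-1 : ℝ) • q = (1 / 2 : ℝ) • (h - p) := by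
        rw [e2]
        module
      rwa [e3, e4] at h3
    have f1 : ⟪h - (2 : ℝ) • p, r⟫ = 0 := by
      obtain ⟨f, hf1, hf2⟩ := hm
      refine k0 f _ hf2 ?_
      have := hf2.sub hf1
      simpa using this
    have f2 : ⟪(1 / 2 : ℝ) • (h - p), r⟫ = 0 := by
      obtain ⟨f, hf1, hf2⟩ := hn
      refine k1 f _ hf2 ?_
      have := hf2.sub hf1
      have e5 : (1 / 2 : ℝ) • (h - p) - (h - p) = -((1 / 2 : ℝ) • (h - p)) := by module
      rw [e5] at this
      refine this.congr fun i => ?_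
      abel
    simp only [inner_sub_left, inner_smul_left, conj_trivial] at f1 f2
    linarith
  have hr : r ∈ S.topologicalClosure := by
    have hcl : S.topologicalClosure = Sᗮᗮ := (Submodule.orthogonal_orthogonal_eq_closure S).symm
    rw [hcl, Submodule.mem_orthogonal]
    intro h hh
    refine key h fun g hg => ?_
    rw [real_inner_comm]
    exact (Submodule.mem_orthogonal _ _).1 hh g hg
  have hr' : -r ∈ closure (S : Set H) := by
    have : -r ∈ S.topologicalClosure := S.topologicalClosure.neg_mem hr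
    exact this
  obtain ⟨g, hg, hg2⟩ := Metric.mem_closure_iff.1 hr' ε hε
  obtain ⟨w, q, ⟨v, hv1, hv2⟩, rfl⟩ := hg
  have hA : Tendsto (fun i => r + A (w - (2 : ℝ) • v i)) atTop
      (𝓝 (r + (A w + (2 : ℝ) • J w - (2 : ℝ) • q))) := by
    have h3 : Tendsto (fun i => A (v i)) atTop (𝓝 (q - J w)) := by
      refine (hv2.sub hv1).congr fun i => ?_
      abel
    have h4 := ((h3.const_smul (2 : ℝ)).const_sub (A w)).const_add r
    have e6 : r + (A w - (2 : ℝ) • (q - J w)) = r + (A w + (2 : ℝ) • J w - (2 : ℝ) • q) := by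
      module
    rw [e6] at h4
    refine h4.congr fun i => ?_
    rw [map_sub, map_smul]
  have hlt : ‖r + (A w + (2 : ℝ) • J w - (2 : ℝ) • q)‖ < ε := by
    rw [dist_eq_norm] at hg2
    rw [← norm_neg]
    have e7 : -(r + (A w + (2 : ℝ) • J w - (2 : ℝ) • q)) =
        -r - (A w + (2 : ℝ) • J w - (2 : ℝ) • q) := by abel
    rwa [e7]
  set t : ℝ := ‖r + (A w + (2 : ℝ) • J w - (2 : ℝ) • q)‖ with ht
  have hpos : 0 < (ε - t) / 8 := by linarith
  have hev1 : ∀ᶠ i in atTop, ‖r + A (w - (2 : ℝ) • v i)‖ < t + (ε - t) / 2 :=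
    hA.norm.eventually_lt_const (by linarith)
  have hev2 : ∀ᶠ i in atTop, ‖(J (v i) - A (v i)) - J w‖ < (ε - t) / 8 := by
    have h8 := (hv1.sub_const (J w)).norm
    rw [sub_self, norm_zero] at h8
    exact h8.eventually_lt_const hpos
  obtain ⟨i, hi1, hi2⟩ := (hev1.and hev2).exists
  refine ⟨w, (ε - t) / 8, hpos, fun F hF => ?_⟩
  have b1 : ‖A (F - v i)‖ ≤ (ε - t) / 4 := by
    refine (bound2 neg (F - v i)).trans ?_
    have e8 : J (F - v i) - A (F - v i) =
        (J F - A F - J w) - ((J (v i) - A (v i)) - J w) := by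
      rw [map_sub, map_sub]
      abel
    rw [e8]
    refine (norm_sub_le _ _).trans ?_
    linarith
  have e9 : r + A (w - (2 : ℝ) • F) = (r + A (w - (2 : ℝ) • v i)) - (2 : ℝ) • A (F - v i) := by
    simp only [map_sub, map_smul, smul_sub]
    abel
  rw [e9]
  refine (norm_sub_le _ _).trans ?_
  rw [norm_smul, Real.norm_of_nonneg (by norm_num : (0 : ℝ) ≤ 2)]
  linarith

end Vale.Agent.P227.M.LIN.Hs650
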