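import Vale.Agent.P227.M.Bas

/-! # P227/M/LIN: the bound of `L ∇F` (LAPB)

`∫ ∑_b (L (∂_b F))² e^{-V} ≤ K ∫ (∑_b (∂_b (F - LF))² + |∇F|² + |D²F|²) e^{-V}` for test functions. -/

open MeasureTheory
open scoped Topology

namespace Vale.Agent.P227.M.LIN.Lapb

variable {n : ℕ} {ψ V : E n → ℝ} {c C M : ℝ}

theorem test_pd {F : E n → ℝ} (hF : Test F) (b : Fin n) : Test (pd b F) := by
  refine ⟨contDiff_pd_top hF.1 b, ?_⟩
  have h := hF.2.fderiv (𝕜 := ℝ)
  exact h.comp_left (g := fun T : E n →L[ℝ] ℝ => T (ei b)) (by simp)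

/-- `D²ψ` applied to a vector -/
theorem mulVec_inner {ψ : E n → ℝ} (x u : E n) :
    ∑ i, ((hess ψ x).mulVec (fun j => u j)) i * u i = qf (hess ψ x) u := by
  unfold qf Matrix.mulVec dotProduct
  refine Finset.sum_congr rfl fun i _ => ?_
  rw [Finset.sum_mul]
  exact Finset.sum_congr rfl fun j _ => by ring

theorem isUnit_det (h : MM ψ V c C M) (x : E n) : IsUnit (hess ψ x).det := by
  rw [isUnit_iff_ne_zero]
  intro h0
  obtain ⟨v, hv, hv2⟩ := Matrix.exists_mulVec_eq_zero_iff.2 h0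
  have h1 := h.lower x (WithLp.toLp 2 v)
  have h2 := mulVec_inner (ψ := ψ) x (WithLp.toLp 2 v)
  have h3 : (hess ψ x).mulVec (fun j => (WithLp.toLp 2 v : E n) j) = 0 := hv2
  rw [h3] at h2
  simp only [Pi.zero_apply, zero_mul, Finset.sum_const_zero] at h2
  rw [← h2] at h1
  have h4 : 0 < ‖(WithLp.toLp 2 v : E n)‖ := by
    rw [norm_pos_iff]
    intro h5
    apply hv
    have : (WithLp.toLp 2 v : E n).ofLp = (0 : E n).ofLp := by rw [h5]
    simpa using this
  have h5 := h.c_pos
  have : 0 < c * ‖(WithLp.toLp 2 v : E n)‖ ^ 2 := by positivity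
  linarith

theorem hess_mul_tau (h : MM ψ V c C M) (x : E n) : hess ψ x * tau ψ x = 1 :=
  Matrix.mul_nonsing_inv _ (isUnit_det h x)

theorem tau_mul_hess (h : MM ψ V c C M) (x : E n) : tau ψ x * hess ψ x = 1 :=
  Matrix.nonsing_inv_mul _ (isUnit_det h x)

/-- entries of `τ` are bounded by `1/c` -/
theorem abs_tau_le (h : MM ψ V c C M) (x : E n) (i j : Fin n) : |tau ψ x i j| ≤ 1 / c := by
  have hc := h.c_pos
  set u : E n := WithLp.toLp 2 (fun i => tau ψ x i j) with hu
  have h1 := h.lower x u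
  have h2 := mulVec_inner (ψ := ψ) x u
  have h3 : (hess ψ x).mulVec (fun i => u i) = fun i => if i = j then 1 else 0 := by
    ext k
    have h4 : (hess ψ x * tau ψ x) k j = (1 : Matrix (Fin n) (Fin n) ℝ) k j := by
      rw [hess_mul_tau h]
    rw [Matrix.mul_apply, Matrix.one_apply] at h4
    exact h4
  rw [h3] at h2
  simp only [ite_mul, one_mul, zero_mul, Finset.sum_ite_eq', Finset.mem_univ, if_true] at h2
  rw [← h2] at h1
  have h5 : u j ≤ ‖u‖ := (le_abs_self _).trans (abs_coord_le u j)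
  have h6 : ‖u‖ ≤ 1 / c := by
    rw [le_div_iff₀ hc]
    by_contra hcon
    push Not at hcon
    have h7 := norm_nonneg u
    have h8 : 0 < ‖u‖ := by
      by_contra h9
      have : ‖u‖ = 0 := by linarith
      rw [this] at hcon
      linarith
    nlinarith
  exact (abs_coord_le u i).trans h6

theorem tau_sub (h : MM ψ V c C M) (x y : E n) :
    tau ψ x - tau ψ y = tau ψ x * (hess ψ y - hess ψ x) * tau ψ y := by
  rw [mul_sub, sub_mul, tau_mul_hess h, one_mul, mul_assoc, hess_mul_tau h, mul_one]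

theorem M_nonneg_mul (h : MM ψ V c C M) (i j : Fin n) (x y : E n) : 0 ≤ M * ‖x - y‖ :=
  (abs_nonneg _).trans (h.lip i j x y)

/-- Lipschitz constant of the entries of `τ` -/
noncomputable def Kt (n : ℕ) (c M : ℝ) : ℝ := (n : ℝ) ^ 2 * (1 / c) ^ 2 * |M|

theorem Kt_nonneg : 0 ≤ Kt n c M := by
  unfold Kt
  positivity

theorem tau_lip (h : MM ψ V c C M) (i j : Fin n) (x y : E n) :
    |tau ψ x i j - tau ψ y i j| ≤ Kt n c M * ‖x - y‖ := by
  have hc := h.c_pos
  have h1 : tau ψ x i j - tau ψ y i j =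
      ∑ l, (∑ k, tau ψ x i k * (hess ψ y k l - hess ψ x k l)) * tau ψ y l j := by
    have := congrFun (congrFun (tau_sub h x y) i) j
    rw [Matrix.sub_apply] at this
    rw [this, Matrix.mul_apply]
    refine Finset.sum_congr rfl fun l _ => ?_
    rw [Matrix.mul_apply]
    rfl
  rw [h1]
  refine (Finset.abs_sum_le_sum_abs _ _).trans ?_
  have h2 : ∀ l ∈ (Finset.univ : Finset (Fin n)),
      |(∑ k, tau ψ x i k * (hess ψ y k l - hess ψ x k l)) * tau ψ y l j| ≤
        (n : ℝ) * ((1 / c) * (|M| * ‖x - y‖)) * (1 / c) := by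
    intro l _
    rw [abs_mul]
    refine mul_le_mul ?_ (abs_tau_le h y l j) (abs_nonneg _) (by positivity)
    refine (Finset.abs_sum_le_sum_abs _ _).trans ?_
    have h3 : ∀ k ∈ (Finset.univ : Finset (Fin n)),
        |tau ψ x i k * (hess ψ y k l - hess ψ x k l)| ≤ (1 / c) * (|M| * ‖x - y‖) := by
      intro k _
      rw [abs_mul]
      refine mul_le_mul (abs_tau_le h x i k) ?_ (abs_nonneg _) (by positivity)
      rw [abs_sub_comm]
      exact (h.lip k l x y).trans (mul_le_mul_of_nonneg_right (le_abs_self _) (norm_nonneg _))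
    refine (Finset.sum_le_sum h3).trans ?_
    rw [Finset.sum_const, Finset.card_univ, Fintype.card_fin, nsmul_eq_mul]
  refine (Finset.sum_le_sum h2).trans ?_
  rw [Finset.sum_const, Finset.card_univ, Fintype.card_fin, nsmul_eq_mul]
  unfold Kt
  apply le_of_eq
  ring

theorem tau_lipschitz (h : MM ψ V c C M) (i j : Fin n) :
    LipschitzWith (Real.toNNReal (Kt n c M)) (fun x => tau ψ x i j) := by
  refine LipschitzWith.of_dist_le_mul fun x y => ?_
  rw [Real.dist_eq, dist_eq_norm, Real.coe_toNNReal _ Kt_nonneg]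
  exact tau_lip h i j x y

theorem continuous_tau (h : MM ψ V c C M) (i j : Fin n) : Continuous fun x => tau ψ x i j :=
  (tau_lipschitz h i j).continuous

theorem ae_diff (h : MM ψ V c C M) :
    ∀ᵐ x : E n, ∀ i j, DifferentiableAt ℝ (fun x => tau ψ x i j) x := by
  rw [ae_all_iff]
  intro i
  rw [ae_all_iff]
  intro j
  exact (tau_lipschitz h i j).ae_differentiableAt

theorem abs_pd_tau_le (h : MM ψ V c C M) (i j b : Fin n) (x : E n) :
    |pd b (fun x => tau ψ x i j) x| ≤ Kt n c M := by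
  refine (abs_pd_le_norm _ _ _).trans ?_
  have := norm_fderiv_le_of_lipschitz ℝ (tau_lipschitz h i j) (x₀ := x)
  rwa [Real.coe_toNNReal _ Kt_nonneg] at this

theorem hess_pd {F : E n → ℝ} (hF : ContDiff ℝ (⊤ : ℕ∞) F) (b i j : Fin n) (x : E n) :
    hess (pd b F) x i j = pd b (fun z => hess F z i j) x := by
  have h2 : ContDiff ℝ 2 F := hF.of_le (by norm_cast)
  have e1 : pd j (pd b F) = pd b (pd j F) := by
    ext z
    exact hess_symm h2 z j b
  have h3 : ContDiff ℝ 2 (pd j F) := (contDiff_pd_top hF j).of_le (by norm_cast)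
  have e2 : hess (pd j F) x i b = hess (pd j F) x b i := hess_symm h3 x i b
  change pd i (pd j (pd b F)) x = _
  rw [e1]
  exact e2

/-- derivative of `LF` at a point where `τ` is differentiable -/
theorem pd_Lop {F : E n → ℝ} (hF : ContDiff ℝ (⊤ : ℕ∞) F) {x : E n}
    (hx : ∀ i j, DifferentiableAt ℝ (fun x => tau ψ x i j) x) (b : Fin n) :
    pd b (fun z => Lop ψ F z) x =
      Lop ψ (pd b F) x + (∑ i, ∑ j, pd b (fun z => tau ψ z i j) x * hess F x i j) - pd b F x := by
  have hh : ∀ i j, DifferentiableAt ℝ (fun z => hess F z i j) x := fun i j =>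
    ((contDiff_hess_top hF i j).differentiable (by simp)) x
  have hp : ∀ i, DifferentiableAt ℝ (pd i F) x := fun i =>
    ((contDiff_pd_top hF i).differentiable (by simp)) x
  have hc : ∀ i : Fin n, DifferentiableAt ℝ (fun z : E n => z i) x := fun i => by fun_prop
  have h1 : HasFDerivAt (fun z => Lop ψ F z)
      ((∑ i, ∑ j, (tau ψ x i j • fderiv ℝ (fun z => hess F z i j) x +
        hess F x i j • fderiv ℝ (fun z => tau ψ z i j) x)) -
        ∑ i, (x i • fderiv ℝ (pd i F) x + pd i F x • fderiv ℝ (fun z : E n => z i) x)) x := by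
    unfold Lop
    refine HasFDerivAt.sub (HasFDerivAt.fun_sum fun i _ => HasFDerivAt.fun_sum fun j _ => ?_)
      (HasFDerivAt.fun_sum fun i _ => ?_)
    · exact (hx i j).hasFDerivAt.mul (hh i j).hasFDerivAt
    · exact (hc i).hasFDerivAt.mul (hp i).hasFDerivAt
  have h2 : ∀ i : Fin n, fderiv ℝ (fun z : E n => z i) x (ei b) = if i = b then 1 else 0 := by
    intro i
    have h3 : (fun z : E n => z i) = (EuclideanSpace.proj i : E n →L[ℝ] ℝ) := by
      ext z; rfl
    rw [h3, ContinuousLinearMap.fderiv]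
    simp [ei_apply]
  unfold pd at *
  rw [h1.fderiv]
  simp only [sub_apply, sum_apply, add_apply, smul_apply, smul_eq_mul, h2]
  unfold Lop
  simp only [Finset.sum_add_distrib, mul_ite, mul_one, mul_zero, Finset.sum_ite_eq',
    Finset.mem_univ, if_true]
  have h4 : ∀ i j, hess (fun z => fderiv ℝ F z (ei b)) x i j =
      fderiv ℝ (fun z => hess F z i j) x (ei b) := fun i j => hess_pd hF b i j x
  have h5 : ∀ i, pd i (fun z => fderiv ℝ F z (ei b)) x =
      fderiv ℝ (fun z => fderiv ℝ F z (ei i)) x (ei b) := fun i =>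
    hess_symm (hF.of_le (by norm_cast)) x i b
  simp only [h4, h5]
  have h6 : ∑ i, ∑ j, hess F x i j * fderiv ℝ (fun z => tau ψ z i j) x (ei b) =
      ∑ i, ∑ j, fderiv ℝ (fun z => tau ψ z i j) x (ei b) * hess F x i j :=
    Finset.sum_congr rfl fun i _ => Finset.sum_congr rfl fun j _ => mul_comm _ _
  rw [h6]
  ring

/-- the third order term `∑ (∂_b τ_ij) F_ij` -/
noncomputable def sb (ψ F : E n → ℝ) (b : Fin n) (x : E n) : ℝ :=
  ∑ i, ∑ j, pd b (fun z => tau ψ z i j) x * hess F x i j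

theorem sb_sq_le (h : MM ψ V c C M) (F : E n → ℝ) (b : Fin n) (x : E n) :
    (sb ψ F b x) ^ 2 ≤ (Kt n c M) ^ 2 * (n : ℝ) ^ 2 * ∑ i, ∑ j, (hess F x i j) ^ 2 := by
  have h1 : (sb ψ F b x) ^ 2 ≤ (n : ℝ) * ∑ i, (∑ j, pd b (fun z => tau ψ z i j) x * hess F x i j) ^ 2 := by
    have := sq_sum_le_card_mul_sum_sq (s := (Finset.univ : Finset (Fin n)))
      (f := fun i => ∑ j, pd b (fun z => tau ψ z i j) x * hess F x i j)
    simpa [sb] using this
  have h2 : ∀ i, (∑ j, pd b (fun z => tau ψ z i j) x * hess F x i j) ^ 2 ≤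
      (n : ℝ) * ∑ j, (Kt n c M) ^ 2 * (hess F x i j) ^ 2 := by
    intro i
    have := sq_sum_le_card_mul_sum_sq (s := (Finset.univ : Finset (Fin n)))
      (f := fun j => pd b (fun z => tau ψ z i j) x * hess F x i j)
    simp only [Finset.card_univ, Fintype.card_fin] at this
    refine this.trans (mul_le_mul_of_nonneg_left (Finset.sum_le_sum fun j _ => ?_) (by positivity))
    rw [mul_pow]
    refine mul_le_mul_of_nonneg_right ?_ (sq_nonneg _)
    have h3 := abs_pd_tau_le h i j b x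
    rw [← sq_abs (pd b (fun z => tau ψ z i j) x)]
    exact pow_le_pow_left₀ (abs_nonneg _) h3 2
  refine h1.trans ?_
  calc (n : ℝ) * ∑ i, (∑ j, pd b (fun z => tau ψ z i j) x * hess F x i j) ^ 2
      ≤ (n : ℝ) * ∑ i, (n : ℝ) * ∑ j, (Kt n c M) ^ 2 * (hess F x i j) ^ 2 :=
        mul_le_mul_of_nonneg_left (Finset.sum_le_sum fun i _ => h2 i) (by positivity)
    _ = _ := by
        rw [← Finset.mul_sum]
        simp_rw [← Finset.mul_sum]
        ring

/-- pointwise formula `L(∂_b F) = -∂_b (F - LF) - S_b + 2 ∂_b F` -/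
theorem Lop_pd_eq {F : E n → ℝ} (hF : ContDiff ℝ (⊤ : ℕ∞) F) {x : E n}
    (hx : ∀ i j, DifferentiableAt ℝ (fun x => tau ψ x i j) x)
    (b : Fin n) :
    pd b (fun z => F z - Lop ψ F z) x = 2 * pd b F x - sb ψ F b x - Lop ψ (pd b F) x := by
  have h1 := pd_Lop hF hx b
  have hd : DifferentiableAt ℝ F x := (hF.differentiable (by simp)) x
  have hL : DifferentiableAt ℝ (fun z => Lop ψ F z) x := by
    unfold Lop
    refine DifferentiableAt.sub (DifferentiableAt.fun_sum fun i _ =>
      DifferentiableAt.fun_sum fun j _ => ?_) (DifferentiableAt.fun_sum fun i _ => ?_)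
    · exact (hx i j).mul (((contDiff_hess_top hF i j).differentiable (by simp)) x)
    · exact DifferentiableAt.mul (by fun_prop) (((contDiff_pd_top hF i).differentiable (by simp)) x)
  have h2 : pd b (fun z => F z - Lop ψ F z) x = pd b F x - pd b (fun z => Lop ψ F z) x := by
    unfold pd
    rw [fderiv_fun_sub hd hL]
    simp
  rw [h2, h1]
  unfold sb
  ring

theorem cont_Lop (h : MM ψ V c C M) {F : E n → ℝ} (hF : Test F) : Continuous (Lop ψ F) := by
  unfold Lop
  refine Continuous.sub (continuous_finsetSum _ fun i _ => continuous_finsetSum _ fun j _ => ?_)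
    (continuous_finsetSum _ fun i _ => ?_)
  · exact (continuous_tau h i j).mul (contDiff_hess_top hF.1 i j).continuous
  · exact Continuous.mul (by fun_prop) (contDiff_pd_top hF.1 i).continuous

theorem zero_of_notMem {F : E n → ℝ} (hF : Test F) {x : E n} (hx : x ∉ tsupport F) :
    (∀ b, pd b F x = 0) ∧ (∀ i j, hess F x i j = 0) ∧ Lop ψ F x = 0 := by
  have h1 : ∀ {G : E n → ℝ}, x ∉ tsupport G → ∀ b, x ∉ tsupport (pd b G) := by
    intro G hG b hb
    apply hG
    have : tsupport (pd b G) ⊆ tsupport G := by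
      refine closure_minimal (fun y hy => ?_) (isClosed_tsupport G)
      by_contra hcon
      apply hy
      have h2 : fderiv ℝ G y = 0 := by
        by_contra h3
        exact hcon (support_fderiv_subset ℝ (Function.mem_support.2 h3))
      change fderiv ℝ G y (ei b) = 0
      rw [h2]
      simp
    exact this hb
  have h2 : ∀ b, pd b F x = 0 := fun b => image_eq_zero_of_notMem_tsupport (h1 hx b)
  have h3 : ∀ i j, hess F x i j = 0 := fun i j =>
    (image_eq_zero_of_notMem_tsupport (f := pd i (pd j F)) (h1 (h1 hx j) i) :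
      pd i (pd j F) x = 0)
  refine ⟨h2, h3, ?_⟩
  unfold Lop
  simp [h2, h3]

theorem cs_Lop {F : E n → ℝ} (hF : Test F) : HasCompactSupport (Lop ψ F) :=
  HasCompactSupport.intro hF.2 fun _ hx => (zero_of_notMem hF hx).2.2

theorem cs_hess {F : E n → ℝ} (hF : Test F) (i j : Fin n) :
    HasCompactSupport (fun x => hess F x i j) :=
  HasCompactSupport.intro hF.2 fun _ hx => (zero_of_notMem (ψ := F) hF hx).2.1 i j

theorem aesm_pd (g : E n → ℝ) (b : Fin n) : AEStronglyMeasurable (pd b g) volume :=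
  (measurable_fderiv_apply_const ℝ g (ei b)).aestronglyMeasurable

/-- continuous functions with compact support are integrable against `e^{-V}` -/
theorem integrable_cs (hV : Continuous V) {g : E n → ℝ} (hg : Continuous g)
    (hs : HasCompactSupport g) : Integrable (fun x => g x * Real.exp (-V x)) := by
  refine Continuous.integrable_of_hasCompactSupport ?_ hs.mul_right
  exact hg.mul (Real.continuous_exp.comp hV.neg)

/-- the integrand of the right hand side -/
noncomputable def rhs (ψ F : E n → ℝ) (x : E n) : ℝ :=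
  (∑ b, (pd b (fun z => F z - Lop ψ F z) x) ^ 2) + (∑ b, (pd b F x) ^ 2)
    + ∑ a, ∑ b, (hess F x a b) ^ 2

/-- a continuous bound of `∂_b (F - LF)` -/
noncomputable def Gb (ψ F : E n → ℝ) (c M : ℝ) (b : Fin n) (x : E n) : ℝ :=
  2 * |pd b F x| + (∑ i, ∑ j, Kt n c M * |hess F x i j|) + |Lop ψ (pd b F) x|

theorem cont_Gb (h : MM ψ V c C M) {F : E n → ℝ} (hF : Test F) (b : Fin n) :
    Continuous (Gb ψ F c M b) := by
  have h1 : Continuous (pd b F) := (contDiff_pd_top hF.1 b).continuous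
  have h2 : Continuous (Lop ψ (pd b F)) := cont_Lop h (test_pd hF b)
  have h3 : Continuous fun x => ∑ i, ∑ j, Kt n c M * |hess F x i j| :=
    continuous_finsetSum _ fun i _ => continuous_finsetSum _ fun j _ =>
      continuous_const.mul (contDiff_hess_top hF.1 i j).continuous.abs
  exact ((continuous_const.mul h1.abs).add h3).add h2.abs

theorem cs_Gb {F : E n → ℝ} (hF : Test F) (b : Fin n) :
    HasCompactSupport (Gb ψ F c M b) := by
  refine HasCompactSupport.intro (hF.2.isCompact.union (test_pd hF b).2.isCompact) fun x hx => ?_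
  have h1 := zero_of_notMem (ψ := ψ) hF (fun h' => hx (Or.inl h'))
  have h2 := zero_of_notMem (ψ := ψ) (test_pd hF b) (fun h' => hx (Or.inr h'))
  unfold Gb
  simp [h1.1, h1.2.1, h2.2.2]

theorem le_Gb (h : MM ψ V c C M) {F : E n → ℝ} (hF : Test F) {x : E n}
    (hx : ∀ i j, DifferentiableAt ℝ (fun x => tau ψ x i j) x) (b : Fin n) :
    |pd b (fun z => F z - Lop ψ F z) x| ≤ Gb ψ F c M b x := by
  rw [Lop_pd_eq hF.1 hx b]
  have h3 : |sb ψ F b x| ≤ ∑ i, ∑ j, Kt n c M * |hess F x i j| := by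
    unfold sb
    refine (Finset.abs_sum_le_sum_abs _ _).trans (Finset.sum_le_sum fun i _ => ?_)
    refine (Finset.abs_sum_le_sum_abs _ _).trans (Finset.sum_le_sum fun j _ => ?_)
    rw [abs_mul]
    exact mul_le_mul_of_nonneg_right (abs_pd_tau_le h i j b x) (abs_nonneg _)
  have h4 : |2 * pd b F x - sb ψ F b x - Lop ψ (pd b F) x| ≤
      |2 * pd b F x - sb ψ F b x| + |Lop ψ (pd b F) x| := abs_sub _ _
  have h5 : |2 * pd b F x - sb ψ F b x| ≤ |2 * pd b F x| + |sb ψ F b x| := abs_sub _ _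
  have h6 : |2 * pd b F x| = 2 * |pd b F x| := by rw [abs_mul, abs_two]
  unfold Gb
  linarith

theorem integrable_grad (hV : Continuous V) (h : MM ψ V c C M) {F : E n → ℝ} (hF : Test F)
    (b : Fin n) :
    Integrable (fun x => (pd b (fun z => F z - Lop ψ F z) x) ^ 2 * Real.exp (-V x)) := by
  have hs : HasCompactSupport fun x => (Gb ψ F c M b x) ^ 2 :=
    (cs_Gb hF b).comp_left (g := fun t : ℝ => t ^ 2) (by simp)
  have hi : Integrable fun x => (Gb ψ F c M b x) ^ 2 * Real.exp (-V x) :=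
    integrable_cs hV ((cont_Gb h hF b).pow 2) hs
  refine hi.mono' ?_ ?_
  · exact ((aesm_pd _ b).pow 2).mul (Real.continuous_exp.comp hV.neg).aestronglyMeasurable
  · filter_upwards [ae_diff h] with x hx
    have h1 := le_Gb h hF hx b
    have h2 : (pd b (fun z => F z - Lop ψ F z) x) ^ 2 ≤ (Gb ψ F c M b x) ^ 2 := by
      rw [← sq_abs (pd b (fun z => F z - Lop ψ F z) x)]
      exact pow_le_pow_left₀ (abs_nonneg _) h1 2
    rw [Real.norm_of_nonneg (mul_nonneg (sq_nonneg _) (Real.exp_pos _).le)]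
    exact mul_le_mul_of_nonneg_right h2 (Real.exp_pos _).le

theorem integrable_rhs (hV : Continuous V) (h : MM ψ V c C M) {F : E n → ℝ} (hF : Test F) :
    Integrable (fun x => rhs ψ F x * Real.exp (-V x)) := by
  have h1 : Integrable (fun x => (∑ b, (pd b (fun z => F z - Lop ψ F z) x) ^ 2) *
      Real.exp (-V x)) := by
    simp only [Finset.sum_mul]
    exact integrable_finsetSum _ fun b _ => integrable_grad hV h hF b
  have h2 : Integrable (fun x => (∑ b, (pd b F x) ^ 2) * Real.exp (-V x)) := by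
    simp only [Finset.sum_mul]
    refine integrable_finsetSum _ fun b _ => integrable_cs hV ?_ ?_
    · exact (contDiff_pd_top hF.1 b).continuous.pow 2
    · exact (test_pd hF b).2.comp_left (g := fun t : ℝ => t ^ 2) (by simp)
  have h3 : Integrable (fun x => (∑ a, ∑ b, (hess F x a b) ^ 2) * Real.exp (-V x)) := by
    simp only [Finset.sum_mul]
    refine integrable_finsetSum _ fun a _ => integrable_finsetSum _ fun b _ =>
      integrable_cs hV ?_ ?_
    · exact (contDiff_hess_top hF.1 a b).continuous.pow 2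
    · exact (cs_hess hF a b).comp_left (g := fun t : ℝ => t ^ 2) (by simp)
  refine ((h1.add h2).add h3).congr (ae_of_all _ fun x => ?_)
  simp only [Pi.add_apply]
  unfold rhs
  ring

/-- **LAPB** -/
theorem lapb (hV : Nice V c C) (h : MM ψ V c C M) : ∃ K : ℝ, 0 ≤ K ∧ ∀ F : E n → ℝ, Test F →
    ∫ x, (∑ b, (Lop ψ (pd b F) x) ^ 2) * Real.exp (-V x) ≤
      K * ∫ x, ((∑ b, (pd b (fun z => F z - Lop ψ F z) x) ^ 2) + (∑ b, (pd b F x) ^ 2)
        + ∑ a, ∑ b, (hess F x a b) ^ 2) * Real.exp (-V x) := by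
  set Q : ℝ := (Kt n c M) ^ 2 * (n : ℝ) ^ 2 with hQ
  have hQ0 : 0 ≤ Q := by positivity
  refine ⟨12 + 3 * ((n : ℝ) * Q), by positivity, fun F hF => ?_⟩
  rw [← integral_const_mul]
  refine integral_mono_of_nonneg ?_ ((integrable_rhs hV.toReg.cont h hF).const_mul _) ?_
  · exact ae_of_all _ fun x => mul_nonneg (Finset.sum_nonneg fun b _ => sq_nonneg _)
      (Real.exp_pos _).le
  · filter_upwards [ae_diff h] with x hx
    change (∑ b, (Lop ψ (pd b F) x) ^ 2) * Real.exp (-V x) ≤
      (12 + 3 * ((n : ℝ) * Q)) * (((∑ b, (pd b (fun z => F z - Lop ψ F z) x) ^ 2)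
        + (∑ b, (pd b F x) ^ 2) + ∑ a, ∑ b, (hess F x a b) ^ 2) * Real.exp (-V x))
    rw [← mul_assoc]
    refine mul_le_mul_of_nonneg_right ?_ (Real.exp_pos _).le
    set P : ℝ := ∑ b, (pd b (fun z => F z - Lop ψ F z) x) ^ 2 with hP
    set G : ℝ := ∑ b, (pd b F x) ^ 2 with hG
    set N : ℝ := ∑ a, ∑ b, (hess F x a b) ^ 2 with hN
    have hP0 : 0 ≤ P := Finset.sum_nonneg fun b _ => sq_nonneg _
    have hG0 : 0 ≤ G := Finset.sum_nonneg fun b _ => sq_nonneg _
    have hN0 : 0 ≤ N := Finset.sum_nonneg fun a _ => Finset.sum_nonneg fun b _ => sq_nonneg _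
    have h1 : ∀ b, (Lop ψ (pd b F) x) ^ 2 ≤
        3 * (pd b (fun z => F z - Lop ψ F z) x) ^ 2 + 12 * (pd b F x) ^ 2 + 3 * (Q * N) := by
      intro b
      have h2 := Lop_pd_eq hF.1 hx b
      have h3 := sb_sq_le h F b x
      have h4 : Lop ψ (pd b F) x =
          2 * pd b F x - sb ψ F b x - pd b (fun z => F z - Lop ψ F z) x := by
        rw [h2]; ring
      rw [h4]
      set a1 := pd b F x
      set a2 := sb ψ F b x
      set a3 := pd b (fun z => F z - Lop ψ F z) x
      have h5 : a2 ^ 2 ≤ Q * N := h3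
      nlinarith [sq_nonneg (2 * a1 + a2), sq_nonneg (2 * a1 + a3), sq_nonneg (a2 - a3)]
    calc ∑ b, (Lop ψ (pd b F) x) ^ 2
        ≤ ∑ b, (3 * (pd b (fun z => F z - Lop ψ F z) x) ^ 2 + 12 * (pd b F x) ^ 2
            + 3 * (Q * N)) := Finset.sum_le_sum fun b _ => h1 b
      _ = 3 * P + 12 * G + n * (3 * (Q * N)) := by
          rw [Finset.sum_add_distrib, Finset.sum_add_distrib, ← Finset.mul_sum, ← Finset.mul_sum,
            Finset.sum_const, Finset.card_univ, Fintype.card_fin, nsmul_eq_mul]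
      _ ≤ (12 + 3 * ((n : ℝ) * Q)) * (P + G + N) := by
          have h6 : 0 ≤ (n : ℝ) * Q := by positivity
          nlinarith [mul_nonneg h6 hP0, mul_nonneg h6 hG0, mul_nonneg h6 hN0]

end Vale.Agent.P227.M.LIN.Lapb
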