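import Mathlib

/-! # Mollification on a Euclidean space: `mo ρ f = ρ * f`, derivatives, `L²` bounds and convergence -/

open MeasureTheory Filter Topology
open scoped ContDiff

namespace Vale.Agent.P227.Moll

variable {E : Type*} [NormedAddCommGroup E] [InnerProductSpace ℝ E] [FiniteDimensional ℝ E]
  [MeasurableSpace E] [BorelSpace E]

section nsq

variable {F : Type*} [NormedAddCommGroup F]

/-- square of the `L²` norm -/
noncomputable def nsq (f : E → F) : ℝ := ∫ x, ‖f x‖ ^ 2

lemma nsq_nonneg (f : E → F) : 0 ≤ nsq f := integral_nonneg fun _ => by positivity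

lemma memLp_norm_sq_int {f : E → F} (hf : MemLp f 2 (volume : Measure E)) :
    Integrable (fun x => ‖f x‖ ^ 2) := hf.integrable_norm_pow (by norm_num)

lemma nsq_add_le {f g : E → F} (hf : MemLp f 2 (volume : Measure E))
    (hg : MemLp g 2 (volume : Measure E)) :
    nsq (fun x => f x + g x) ≤ 2 * nsq f + 2 * nsq g := by
  have i1 := (memLp_norm_sq_int hf).const_mul 2
  have i2 := (memLp_norm_sq_int hg).const_mul 2
  rw [nsq, nsq, nsq, ← integral_const_mul, ← integral_const_mul, ← integral_add i1 i2]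
  refine integral_mono_of_nonneg (Eventually.of_forall fun x => by positivity) (i1.add i2)
    (Eventually.of_forall fun x => ?_)
  have h := norm_add_le (f x) (g x)
  have h2 := pow_le_pow_left₀ (norm_nonneg _) h 2
  nlinarith [sq_nonneg (‖f x‖ - ‖g x‖)]

lemma nsq_le_of_eLpNorm {f : E → F} (hf : MemLp f 2 (volume : Measure E)) {s : ℝ} (hs : 0 ≤ s)
    (h : eLpNorm f 2 (volume : Measure E) ≤ ENNReal.ofReal s) : nsq f ≤ s ^ 2 := by
  have h1 : eLpNorm f 2 (volume : Measure E) ^ 2 = ∫⁻ x, ‖f x‖ₑ ^ 2 := by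
    rw [eLpNorm_eq_lintegral_rpow_enorm_toReal (by norm_num) (by norm_num)]
    simp only [ENNReal.toReal_ofNat, ENNReal.rpow_ofNat, one_div]
    rw [← ENNReal.rpow_natCast, ← ENNReal.rpow_mul]
    norm_num
  have h2 : ENNReal.ofReal (nsq f) = ∫⁻ x, ‖f x‖ₑ ^ 2 := by
    rw [nsq, ofReal_integral_eq_lintegral_ofReal (memLp_norm_sq_int hf)
      (Eventually.of_forall fun x => by positivity)]
    refine lintegral_congr fun x => ?_
    rw [ENNReal.ofReal_pow (norm_nonneg _), ofReal_norm]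
  have h3 : ENNReal.ofReal (nsq f) ≤ ENNReal.ofReal (s ^ 2) := by
    rw [h2, ← h1, ENNReal.ofReal_pow hs]
    gcongr
  exact (ENNReal.ofReal_le_ofReal_iff (by positivity)).1 h3

end nsq

section general

variable {G : Type*} [NormedAddCommGroup G] [NormedSpace ℝ G]

/-- mollification -/
noncomputable def mo (ρ : E → ℝ) (f : E → G) (x : E) : G := ∫ y, ρ (x - y) • f y

lemma mo_eq_conv (ρ : E → ℝ) (f : E → G) :
    mo ρ f = convolution f ρ (ContinuousLinearMap.lsmul ℝ ℝ).flip volume := rfl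

lemma mo_eq_conv' (ρ : E → ℝ) (f : E → G) :
    mo ρ f = convolution ρ f (ContinuousLinearMap.lsmul ℝ ℝ) volume := by
  rw [mo_eq_conv, convolution_flip]

lemma integrable_mo {ρ : E → ℝ} (hρ : Continuous ρ) (hc : HasCompactSupport ρ) {f : E → G}
    (hf : LocallyIntegrable f volume) (x : E) : Integrable (fun y => ρ (x - y) • f y) := by
  have h := HasCompactSupport.convolutionExists_right
    ((ContinuousLinearMap.lsmul ℝ ℝ : ℝ →L[ℝ] G →L[ℝ] G).flip) hc hf hρ x
  exact h

lemma contDiff_mo {ρ : E → ℝ} (hρ : ContDiff ℝ ∞ ρ) (hc : HasCompactSupport ρ) {f : E → G}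
    (hf : LocallyIntegrable f volume) : ContDiff ℝ ∞ (mo ρ f) := by
  rw [mo_eq_conv]
  exact hc.contDiff_convolution_right _ hf hρ

lemma fderiv_mo {ρ : E → ℝ} (hρ : ContDiff ℝ ∞ ρ) (hc : HasCompactSupport ρ) {f : E → G}
    (hf : LocallyIntegrable f volume) (x e : E) :
    fderiv ℝ (mo ρ f) x e = mo (fun z => fderiv ℝ ρ z e) f x := by
  have h1 := hc.hasFDerivAt_convolution_right
    ((ContinuousLinearMap.lsmul ℝ ℝ : ℝ →L[ℝ] G →L[ℝ] G).flip) hf (hρ.of_le (by simp)) x
  have h2 : fderiv ℝ (mo ρ f) x = _ := h1.fderiv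
  rw [h2, convolution_precompR_apply _ hf (hc.fderiv ℝ) (hρ.continuous_fderiv (by simp))]
  rfl

lemma mo_sub {ρ : E → ℝ} (hρ : Continuous ρ) (hc : HasCompactSupport ρ) {f g : E → G}
    (hf : LocallyIntegrable f volume) (hg : LocallyIntegrable g volume) (x : E) :
    mo ρ (fun y => f y - g y) x = mo ρ f x - mo ρ g x := by
  unfold mo
  rw [← integral_sub (integrable_mo hρ hc hf x) (integrable_mo hρ hc hg x)]
  simp only [smul_sub]

lemma mo_add {ρ : E → ℝ} (hρ : Continuous ρ) (hc : HasCompactSupport ρ) {f g : E → G}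
    (hf : LocallyIntegrable f volume) (hg : LocallyIntegrable g volume) (x : E) :
    mo ρ (fun y => f y + g y) x = mo ρ f x + mo ρ g x := by
  unfold mo
  rw [← integral_add (integrable_mo hρ hc hf x) (integrable_mo hρ hc hg x)]
  simp only [smul_add]

end general

/-- mollifiers of radius `ε` -/
structure IsMol (ε : ℝ) (ρ : E → ℝ) : Prop where
  contDiff : ContDiff ℝ ∞ ρ
  hcs : HasCompactSupport ρ
  nonneg : ∀ x, 0 ≤ ρ x
  supp : ∀ x, ε ≤ ‖x‖ → ρ x = 0
  one : ∫ x, ρ x = 1

section jensen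

variable {G : Type*} [NormedAddCommGroup G] [NormedSpace ℝ G] {ε : ℝ} {ρ : E → ℝ}

lemma IsMol.one' (h : IsMol ε ρ) (x : E) : ∫ y, ρ (x - y) = 1 := by
  rw [integral_sub_left_eq_self ρ volume x, h.one]

lemma IsMol.int (h : IsMol ε ρ) (x : E) : Integrable (fun y => ρ (x - y)) :=
  (h.contDiff.continuous.integrable_of_hasCompactSupport h.hcs).comp_sub_left x

lemma norm_mo_le' {ρ : E → ℝ} (h0 : ∀ x, 0 ≤ ρ x) (f : E → G) (x : E) :
    ‖mo ρ f x‖ ≤ mo ρ (fun y => ‖f y‖) x := by
  unfold mo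
  refine (norm_integral_le_integral_norm _).trans (le_of_eq ?_)
  refine integral_congr_ae (Eventually.of_forall fun y => ?_)
  simp only [norm_smul, Real.norm_of_nonneg (h0 _), smul_eq_mul]

lemma norm_mo_le (h : IsMol ε ρ) (f : E → G) (x : E) :
    ‖mo ρ f x‖ ≤ mo ρ (fun y => ‖f y‖) x := norm_mo_le' h.nonneg f x

end jensen

section L2

variable {F : Type*} [NormedAddCommGroup F] {ε : ℝ} {ρ : E → ℝ}

lemma locInt {f : E → F} (hf : MemLp f 2 (volume : Measure E)) :
    LocallyIntegrable f volume := hf.locallyIntegrable (by norm_num)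

lemma locInt_sq {f : E → F} (hf : MemLp f 2 (volume : Measure E)) :
    LocallyIntegrable (fun y => ‖f y‖ ^ 2) volume := (memLp_norm_sq_int hf).locallyIntegrable

/-- Cauchy-Schwarz for a nonnegative kernel of mass `m` -/
lemma sq_mo_le {ρ : E → ℝ} (hρ : Continuous ρ) (hc : HasCompactSupport ρ) (h0 : ∀ x, 0 ≤ ρ x)
    {f : E → F} (hf : LocallyIntegrable f volume)
    (hf2 : LocallyIntegrable (fun y => ‖f y‖ ^ 2) volume) (x : E) :
    (mo ρ (fun y => ‖f y‖) x) ^ 2 ≤ (∫ x, ρ x) * mo ρ (fun y => ‖f y‖ ^ 2) x := by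
  have i1 : Integrable (fun y => ρ (x - y) • ‖f y‖) :=
    integrable_mo hρ hc (fun z => (hf z).norm) x
  have i2 : Integrable (fun y => ρ (x - y) • ‖f y‖ ^ 2) :=
    integrable_mo hρ hc hf2 x
  have i3 : Integrable (fun y => ρ (x - y)) :=
    (hρ.integrable_of_hasCompactSupport hc).comp_sub_left x
  have hm : ∫ y, ρ (x - y) = ∫ x, ρ x := integral_sub_left_eq_self ρ volume x
  have hm0 : 0 ≤ ∫ x, ρ x := integral_nonneg h0
  set A := mo ρ (fun y => ‖f y‖) x with hA
  set B := mo ρ (fun y => ‖f y‖ ^ 2) x with hB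
  set M := ∫ x, ρ x with hM
  have h2 : ∀ t : ℝ, 0 ≤ M * t ^ 2 - 2 * t * A + B := by
    intro t
    have h1 : 0 ≤ ∫ y, ρ (x - y) * (t - ‖f y‖) ^ 2 :=
      integral_nonneg fun y => mul_nonneg (h0 _) (sq_nonneg _)
    have h2 : ∫ y, ρ (x - y) * (t - ‖f y‖) ^ 2 = B - 2 * t * A + t ^ 2 * M := by
      have i4 : Integrable (fun y => ρ (x - y) • ‖f y‖ ^ 2 - 2 * t * (ρ (x - y) • ‖f y‖)) :=
        i2.sub (i1.const_mul _)
      rw [hA, hB, ← hm]
      unfold mo
      rw [← integral_const_mul, ← integral_const_mul, ← integral_sub i2 (i1.const_mul _),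
        ← integral_add i4 (i3.const_mul _)]
      refine integral_congr_ae (Eventually.of_forall fun y => ?_)
      simp only [smul_eq_mul]
      ring
    rw [h2] at h1
    nlinarith
  have h3 := discrim_le_zero (a := M) (b := -2 * A) (c := B) (fun t => by have := h2 t; nlinarith)
  unfold discrim at h3
  nlinarith

lemma integral_mo_sq {ρ : E → ℝ} (hρ : Continuous ρ) (hc : HasCompactSupport ρ)
    {f : E → F} (hf : MemLp f 2 (volume : Measure E)) :
    Integrable (mo ρ (fun y => ‖f y‖ ^ 2)) ∧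
      ∫ x, mo ρ (fun y => ‖f y‖ ^ 2) x = (∫ x, ρ x) * nsq f := by
  have i1 := memLp_norm_sq_int hf
  have i2 : Integrable ρ := hρ.integrable_of_hasCompactSupport hc
  rw [mo_eq_conv]
  refine ⟨i1.integrable_convolution _ i2, ?_⟩
  rw [integral_convolution _ i1 i2]
  simp [nsq]

/-- bound for functions dominated by `ρ * |f|`, for a nonnegative kernel `ρ` -/
lemma nsq_le_mo {ρ : E → ℝ} (hρ : Continuous ρ) (hc : HasCompactSupport ρ) (h0 : ∀ x, 0 ≤ ρ x)
    {f : E → F} (hf : MemLp f 2 (volume : Measure E))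
    {F' : Type*} [NormedAddCommGroup F'] {w : E → F'} (hm : AEStronglyMeasurable w volume)
    (hw : ∀ x, ‖w x‖ ≤ mo ρ (fun y => ‖f y‖) x) :
    MemLp w 2 (volume : Measure E) ∧ nsq w ≤ (∫ x, ρ x) ^ 2 * nsq f := by
  obtain ⟨i1, i2⟩ := integral_mo_sq hρ hc hf
  have hb : ∀ x, ‖w x‖ ^ 2 ≤ (∫ x, ρ x) * mo ρ (fun y => ‖f y‖ ^ 2) x := by
    intro x
    calc ‖w x‖ ^ 2 ≤ (mo ρ (fun y => ‖f y‖) x) ^ 2 :=
          pow_le_pow_left₀ (norm_nonneg _) (hw x) 2
      _ ≤ _ := sq_mo_le hρ hc h0 (locInt hf) (locInt_sq hf) x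
  constructor
  · refine (memLp_two_iff_integrable_sq_norm hm).mpr ?_
    refine (i1.const_mul (∫ x, ρ x)).mono' (hm.norm.pow 2) (Eventually.of_forall fun x => ?_)
    rw [Real.norm_of_nonneg (by positivity)]
    exact hb x
  · have e : (∫ x, ρ x) ^ 2 * nsq f = ∫ x, (∫ x, ρ x) * mo ρ (fun y => ‖f y‖ ^ 2) x := by
      rw [integral_const_mul, i2]; ring
    rw [e]
    exact integral_mono_of_nonneg (Eventually.of_forall fun x => by positivity)
      (i1.const_mul _) (Eventually.of_forall hb)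

variable [NormedSpace ℝ F]

lemma nsq_mo_le (h : IsMol ε ρ) {f : E → F} (hf : MemLp f 2 (volume : Measure E)) :
    MemLp (mo ρ f) 2 (volume : Measure E) ∧ nsq (mo ρ f) ≤ nsq f := by
  have h1 := nsq_le_mo h.contDiff.continuous h.hcs h.nonneg hf
    (contDiff_mo h.contDiff h.hcs (locInt hf)).continuous.aestronglyMeasurable
    (fun x => norm_mo_le h f x)
  rw [h.one] at h1
  simpa using h1

/-- mollification of a continuous compactly supported function -/
lemma mo_approx_cont [CompleteSpace F] {g : E → F} (hg : Continuous g) (hgc : HasCompactSupport g)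
    {δ : ℝ} (hδ : 0 < δ) : ∃ ε₀ > 0, ∀ ε, ε ≤ ε₀ → ∀ ρ, IsMol ε ρ →
      nsq (fun x => mo ρ g x - g x) ≤ δ := by
  obtain ⟨r, hr⟩ := hgc.isCompact.isBounded.subset_closedBall (0 : E)
  have hg0 : ∀ x, r < ‖x‖ → g x = 0 := by
    intro x hx
    by_contra hne
    have h1 := hr (subset_tsupport _ hne)
    rw [Metric.mem_closedBall, dist_zero_right] at h1
    linarith
  obtain ⟨v, hv⟩ : ∃ v : ℝ, v = (volume (Metric.closedBall (0 : E) (r + 1))).toReal := ⟨_, rfl⟩
  have hv0 : 0 ≤ v := hv ▸ ENNReal.toReal_nonneg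
  obtain ⟨η, hη⟩ : ∃ η : ℝ, η = Real.sqrt (δ / (v + 1)) := ⟨_, rfl⟩
  have hη0 : 0 < η := hη ▸ Real.sqrt_pos.2 (by positivity)
  have huc : UniformContinuous g := hgc.uniformContinuous_of_continuous hg
  obtain ⟨ε₁, hε₁, h1⟩ := Metric.uniformContinuous_iff.1 huc η hη0
  refine ⟨min ε₁ 1, lt_min hε₁ one_pos, fun ε hε ρ hρ => ?_⟩
  have hsupp : Function.support ρ ⊆ Metric.ball (0 : E) ε := by
    intro z hz
    rw [Metric.mem_ball, dist_zero_right]
    by_contra hcon
    exact hz (hρ.supp z (not_lt.1 hcon))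
  have hbd : ∀ x, ‖mo ρ g x - g x‖ ^ 2 ≤
      (Metric.closedBall (0 : E) (r + 1)).indicator (fun _ => η ^ 2) x := by
    intro x
    by_cases hx : x ∈ Metric.closedBall (0 : E) (r + 1)
    · rw [Set.indicator_of_mem hx]
      refine pow_le_pow_left₀ (norm_nonneg _) ?_ 2
      rw [← dist_eq_norm, mo_eq_conv']
      refine dist_convolution_le hη0.le hsupp hρ.nonneg hρ.one hg.aestronglyMeasurable ?_
      intro y hy
      exact (h1 (lt_of_lt_of_le hy (hε.trans (min_le_left _ _)))).le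
    · rw [Set.indicator_of_notMem hx]
      have hx' : r + 1 < ‖x‖ := by
        rw [Metric.mem_closedBall, dist_zero_right, not_le] at hx
        exact hx
      have h2 : ‖mo ρ g x - g x‖ ≤ 0 := by
        rw [← dist_eq_norm, mo_eq_conv']
        refine dist_convolution_le le_rfl hsupp hρ.nonneg hρ.one hg.aestronglyMeasurable ?_
        intro y hy
        have hy1 : dist y x < 1 := lt_of_lt_of_le hy (hε.trans (min_le_right _ _))
        have hy2 : r < ‖y‖ := by
          have h3 : ‖x‖ ≤ ‖y‖ + dist y x := by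
            have := norm_sub_norm_le x y
            rw [dist_comm, dist_eq_norm]
            linarith
          linarith
        rw [hg0 y hy2, hg0 x (by linarith), dist_self]
      have h3 : ‖mo ρ g x - g x‖ = 0 := le_antisymm h2 (norm_nonneg _)
      rw [h3]
      norm_num
  have hfin : volume (Metric.closedBall (0 : E) (r + 1)) ≠ ⊤ :=
    (isCompact_closedBall (0 : E) (r + 1)).measure_lt_top.ne
  calc nsq (fun x => mo ρ g x - g x)
      ≤ ∫ x, (Metric.closedBall (0 : E) (r + 1)).indicator (fun _ => η ^ 2) x := by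
        refine integral_mono_of_nonneg (Eventually.of_forall fun x => by positivity) ?_
          (Eventually.of_forall hbd)
        exact (integrable_indicator_iff Metric.isClosed_closedBall.measurableSet).2
          (integrableOn_const hfin)
    _ = v * η ^ 2 := by
        rw [integral_indicator Metric.isClosed_closedBall.measurableSet, setIntegral_const,
          smul_eq_mul, hv]
        rfl
    _ ≤ δ := by
        rw [hη, Real.sq_sqrt (by positivity), mul_div_assoc']
        rw [div_le_iff₀ (by positivity)]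
        nlinarith

/-- mollification converges in `L²` -/
lemma mo_approx [CompleteSpace F] {f : E → F} (hf : MemLp f 2 (volume : Measure E)) {δ : ℝ}
    (hδ : 0 < δ) :
    ∃ ε₀ > 0, ∀ ε, ε ≤ ε₀ → ∀ ρ, IsMol ε ρ → nsq (fun x => mo ρ f x - f x) ≤ δ := by
  obtain ⟨s, hs⟩ : ∃ s : ℝ, s = Real.sqrt (δ / 12) := ⟨_, rfl⟩
  have hs0 : 0 < s := hs ▸ Real.sqrt_pos.2 (by positivity)
  obtain ⟨g, hgc, hfg, hg, hgm⟩ := hf.exists_hasCompactSupport_eLpNorm_sub_le (by norm_num)
    (ε := ENNReal.ofReal s) (by simpa using hs0)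
  have hd : MemLp (fun x => f x - g x) 2 (volume : Measure E) := hf.sub hgm
  have h1 : nsq (fun x => f x - g x) ≤ δ / 12 := by
    have e1 := nsq_le_of_eLpNorm hd hs0.le hfg
    rwa [hs, Real.sq_sqrt (by positivity)] at e1
  obtain ⟨ε₀, hε₀, h2⟩ := mo_approx_cont hg hgc (show 0 < δ / 12 by positivity)
  refine ⟨ε₀, hε₀, fun ε hε ρ hρ => ?_⟩
  have h3 := h2 ε hε ρ hρ
  have h4 := nsq_mo_le hρ hd
  have m1 : MemLp (mo ρ (fun x => f x - g x)) 2 (volume : Measure E) := h4.1
  have m2 : MemLp (fun x => mo ρ g x - g x) 2 (volume : Measure E) :=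
    (nsq_mo_le hρ hgm).1.sub hgm
  have m3 : MemLp (fun x => g x - f x) 2 (volume : Measure E) := hgm.sub hf
  have e : (fun x => mo ρ f x - f x) = fun x =>
      mo ρ (fun x => f x - g x) x + ((mo ρ g x - g x) + (g x - f x)) := by
    funext x
    rw [mo_sub hρ.contDiff.continuous hρ.hcs (locInt hf) (locInt hgm)]
    abel
  have e3 : nsq (fun x => g x - f x) = nsq (fun x => f x - g x) := by
    unfold nsq
    refine integral_congr_ae (Eventually.of_forall fun x => ?_)
    simp only [norm_sub_rev]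
  rw [e]
  have b1 := nsq_add_le m1 (m2.add m3)
  have b2 := nsq_add_le m2 m3
  have b3 : nsq (fun x => mo ρ (fun x => f x - g x) x + ((mo ρ g x - g x) + (g x - f x))) ≤
    2 * nsq (mo ρ (fun x => f x - g x)) + 2 * nsq (fun x => (mo ρ g x - g x) + (g x - f x)) := b1
  rw [e3] at b2
  linarith [h4.2]

end L2

end Vale.Agent.P227.Moll
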