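import Vale.Agent.P227.M.Defs
import Vale.Agent.P347.Poincare

/-! # P227/M, block LIN: Poincare inequality for `e^{-V}` (from the Prekopa-Leindler proof in P347). -/

open MeasureTheory
open scoped Topology

namespace Vale.Agent.P227.M.Poin

variable {n : ℕ}

/-- the vector of coordinates reconstructs the point -/
theorem sum_ei (v : E n) : v = ∑ i, v i • ei i := by
  ext j
  simp only [ei, WithLp.ofLp_sum, WithLp.ofLp_smul, Finset.sum_apply, Pi.smul_apply, smul_eq_mul,
    PiLp.single_apply]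
  simp

/-- the derivative in direction `v` is `∑ v_i ∂_i f` -/
theorem fderiv_eq_sum_pd (f : E n → ℝ) (x v : E n) :
    fderiv ℝ f x v = ∑ i, v i * pd i f x := by
  conv_lhs => rw [sum_ei v]
  rw [map_sum]
  refine Finset.sum_congr rfl fun i _ => ?_
  rw [map_smul, smul_eq_mul]
  rfl

theorem hasDerivAt_line {f : E n → ℝ} (hf : Differentiable ℝ f) (x v : E n) (t : ℝ) :
    HasDerivAt (fun t : ℝ => f (x + t • v)) (∑ i, v i * pd i f (x + t • v)) t := by
  have h1 : HasDerivAt (fun t : ℝ => x + t • v) v t := by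
    simpa using ((hasDerivAt_id t).smul_const v).const_add x
  have h2 := (hf (x + t • v)).hasFDerivAt.comp_hasDerivAt t h1
  rw [← fderiv_eq_sum_pd]
  exact h2

theorem contDiff_pd {f : E n → ℝ} {m k : WithTop ℕ∞} (hf : ContDiff ℝ k f) (hmk : m + 1 ≤ k)
    (i : Fin n) : ContDiff ℝ m (pd i f) := by
  have : ContDiff ℝ m (fun x => fderiv ℝ f x (ei i)) :=
    (hf.fderiv_right hmk).clm_apply contDiff_const
  exact this

theorem hasDerivAt_line2 {f : E n → ℝ} (hf : ContDiff ℝ 2 f) (x v : E n) (t : ℝ) :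
    HasDerivAt (fun t : ℝ => ∑ i, v i * pd i f (x + t • v)) (qf (hess f (x + t • v)) v) t := by
  have h : ∀ i, HasDerivAt (fun t : ℝ => pd i f (x + t • v))
      (∑ j, v j * pd j (pd i f) (x + t • v)) t := fun i =>
    hasDerivAt_line ((contDiff_pd (m := 1) hf (by norm_num) i).differentiable one_ne_zero) x v t
  have h2 := HasDerivAt.fun_sum (u := Finset.univ) fun i _ => (h i).const_mul (v i)
  refine h2.congr_deriv ?_
  unfold qf hess
  rw [Finset.sum_comm (f := fun i j => pd i (pd j f) (x + t • v) * v i * v j)]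
  refine Finset.sum_congr rfl fun i _ => ?_
  rw [Finset.mul_sum]
  refine Finset.sum_congr rfl fun j _ => ?_
  ring

/-- strong convexity along lines -/
theorem line_convex {f : E n → ℝ} (hf : ContDiff ℝ 2 f) {c : ℝ}
    (hc : ∀ x v, c * ‖v‖ ^ 2 ≤ qf (hess f x) v) (x v : E n) :
    ConvexOn ℝ Set.univ (fun t : ℝ => f (x + t • v) - c * ‖v‖ ^ 2 / 2 * t ^ 2) := by
  have hd : Differentiable ℝ f := hf.differentiable two_ne_zero
  refine convexOn_of_hasDerivWithinAt2_nonneg (f' := fun t => (∑ i, v i * pd i f (x + t • v))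
    - c * ‖v‖ ^ 2 * t) (f'' := fun t => qf (hess f (x + t • v)) v - c * ‖v‖ ^ 2)
    convex_univ ?_ ?_ ?_ ?_
  · refine Continuous.continuousOn ?_
    have h1 : Continuous fun t : ℝ => x + t • v := by fun_prop
    exact (hd.continuous.comp h1).sub (by fun_prop)
  · intro t _
    have h1 := hasDerivAt_line hd x v t
    have h2 : HasDerivAt (fun t : ℝ => c * ‖v‖ ^ 2 / 2 * t ^ 2) (c * ‖v‖ ^ 2 * t) t := by
      refine ((hasDerivAt_pow 2 t).const_mul (c * ‖v‖ ^ 2 / 2)).congr_deriv ?_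
      push_cast
      ring
    exact (h1.sub h2).hasDerivWithinAt
  · intro t _
    have h1 := hasDerivAt_line2 hf x v t
    have h2 : HasDerivAt (fun t : ℝ => c * ‖v‖ ^ 2 * t) (c * ‖v‖ ^ 2) t := by
      simpa using (hasDerivAt_id t).const_mul (c * ‖v‖ ^ 2)
    exact (h1.sub h2).hasDerivWithinAt
  · intro t _
    have := hc (x + t • v) v
    linarith

/-- midpoint strong convexity -/
theorem mid_sc {f : E n → ℝ} (hf : ContDiff ℝ 2 f) {c : ℝ}
    (hc : ∀ x v, c * ‖v‖ ^ 2 ≤ qf (hess f x) v) : P347.MidSC c f := by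
  intro x y
  have h := (line_convex hf hc x (y - x)).2 (Set.mem_univ (0 : ℝ)) (Set.mem_univ (1 : ℝ))
    (by norm_num : (0 : ℝ) ≤ 1 / 2) (by norm_num : (0 : ℝ) ≤ 1 / 2) (by norm_num)
  simp only [smul_eq_mul] at h
  have e1 : x + ((1 : ℝ) / 2 * 0 + 1 / 2 * 1) • (y - x) = (2 : ℝ)⁻¹ • (x + y) := by
    have e0 : ((1 : ℝ) / 2 * 0 + 1 / 2 * 1) = (2 : ℝ)⁻¹ := by norm_num
    rw [e0, smul_sub, smul_add]
    have : x = (2 : ℝ)⁻¹ • x + (2 : ℝ)⁻¹ • x := by
      rw [← add_smul]; norm_num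
    nth_rewrite 1 [this]
    abel
  have e2 : x + (0 : ℝ) • (y - x) = x := by simp
  have e3 : x + (1 : ℝ) • (y - x) = y := by simp
  rw [e1, e2, e3] at h
  rw [norm_sub_rev x y]
  nlinarith [h]

/-- quadratic lower bound -/
theorem quad_low {f : E n → ℝ} (hf : ContDiff ℝ 2 f) {c : ℝ} (hc0 : 0 < c)
    (hc : ∀ x v, c * ‖v‖ ^ 2 ≤ qf (hess f x) v) (x : E n) :
    c / 4 * ‖x‖ ^ 2 - (‖fderiv ℝ f 0‖ ^ 2 / c - f 0) ≤ f x := by
  have h := line_convex hf hc 0 x
  have hd : Differentiable ℝ f := hf.differentiable two_ne_zero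
  have h1 := hasDerivAt_line hd 0 x 0
  have h2 : HasDerivAt (fun t : ℝ => c * ‖x‖ ^ 2 / 2 * t ^ 2) 0 0 := by
    refine ((hasDerivAt_pow 2 (0 : ℝ)).const_mul (c * ‖x‖ ^ 2 / 2)).congr_deriv ?_
    norm_num
  have h3 := h.le_slope_of_hasDerivAt (Set.mem_univ (0 : ℝ)) (Set.mem_univ (1 : ℝ)) one_pos
    (h1.sub h2)
  rw [slope_def_field] at h3
  simp only [zero_smul, add_zero, one_smul, zero_add, sub_zero, ne_eq, OfNat.ofNat_ne_zero,
    not_false_eq_true, zero_pow, mul_zero, one_pow, mul_one, div_one] at h3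
  rw [← fderiv_eq_sum_pd] at h3
  have h4 : -(‖fderiv ℝ f 0‖ * ‖x‖) ≤ fderiv ℝ f 0 x := by
    have := (fderiv ℝ f 0).le_opNorm x
    rw [Real.norm_eq_abs] at this
    exact (neg_le_neg this).trans (neg_abs_le _)
  have h5 : ‖fderiv ℝ f 0‖ * ‖x‖ ≤ ‖fderiv ℝ f 0‖ ^ 2 / c + c / 4 * ‖x‖ ^ 2 := by
    have : 0 ≤ (‖fderiv ℝ f 0‖ - c / 2 * ‖x‖) ^ 2 / c := by positivity
    have e : (‖fderiv ℝ f 0‖ - c / 2 * ‖x‖) ^ 2 / c
        = ‖fderiv ℝ f 0‖ ^ 2 / c - ‖fderiv ℝ f 0‖ * ‖x‖ + c / 4 * ‖x‖ ^ 2 := by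
      field_simp
      ring
    linarith
  linarith

theorem contDiff_two_of_top {f : E n → ℝ} (hf : ContDiff ℝ (⊤ : ℕ∞) f) : ContDiff ℝ 2 f :=
  contDiff_infty.1 hf 2

theorem adm_of_reg {V : E n → ℝ} {c C : ℝ} (hV : Reg V c C) : P347.Adm V :=
  ⟨hV.smooth.continuous, c / 4, by have := hV.c_pos; positivity, _,
    fun x => quad_low (contDiff_two_of_top hV.smooth) hV.c_pos hV.lower x⟩

theorem midSC_of_reg {V : E n → ℝ} {c C : ℝ} (hV : Reg V c C) : P347.MidSC c V :=
  mid_sc (contDiff_two_of_top hV.smooth) hV.lower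

/-- `Ex V f` is the integral against the Gibbs probability measure -/
theorem Ex_eq_gibbs (V f : E n → ℝ) : Ex V f = ∫ x, f x ∂(P347.gibbs V) := by
  rw [P347.gibbs_integral]
  unfold Ex
  simp only [smul_eq_mul]
  rw [div_eq_inv_mul]
  congr 1
  refine integral_congr_ae (Filter.Eventually.of_forall fun x => ?_)
  simp [mul_comm]

/-- the gradient as a vector -/
noncomputable def gvec (f : E n → ℝ) (x : E n) : E n := WithLp.toLp 2 (fun i => pd i f x)

theorem gvec_apply (f : E n → ℝ) (x : E n) (i : Fin n) : gvec f x i = pd i f x := rfl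

theorem norm_gvec_sq (f : E n → ℝ) (x : E n) : ‖gvec f x‖ ^ 2 = ∑ i, pd i f x ^ 2 := by
  rw [EuclideanSpace.norm_sq_eq]
  simp [gvec_apply]

theorem innerSL_gvec (f : E n → ℝ) (x : E n) : innerSL ℝ (gvec f x) = fderiv ℝ f x := by
  ext v
  rw [innerSL_apply_apply, fderiv_eq_sum_pd, PiLp.inner_apply]
  refine Finset.sum_congr rfl fun i _ => ?_
  simp [gvec_apply]

theorem continuous_gvec {f : E n → ℝ} (hf : ContDiff ℝ 1 f) : Continuous (gvec f) := by
  have h : ∀ i, Continuous (pd i f) := fun i =>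
    (contDiff_pd (m := 0) hf (by norm_num) i).continuous
  exact (PiLp.continuous_toLp 2 _).comp (continuous_pi h)

/-- Poincare inequality for `e^{-V}` -/
theorem poinc {V : E n → ℝ} {c C : ℝ} (hV : Reg V c C) {f : E n → ℝ} (hf : ContDiff ℝ 1 f)
    (pf : P347.PG f) (pg : P347.PG (gvec f)) :
    Ex V (fun x => f x ^ 2) - (Ex V f) ^ 2 ≤ (1 / c) * Ex V (fun x => ∑ i, pd i f x ^ 2) := by
  have h := P347.poincare hV.c_pos (adm_of_reg hV) (midSC_of_reg hV) (f := f) (g := gvec f)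
    (fun x => by
      rw [innerSL_gvec]
      exact (hf.differentiable one_ne_zero x).hasFDerivAt) (continuous_gvec hf) pf pg
  rw [Ex_eq_gibbs, Ex_eq_gibbs, Ex_eq_gibbs]
  simpa only [norm_gvec_sq] using h

theorem pg_of_compact {F : Type*} [NormedAddCommGroup F] {f : E n → F} (hf : Continuous f)
    (hc : HasCompactSupport f) : P347.PG f := by
  obtain ⟨C, hC⟩ := hf.bounded_above_of_compact_support hc
  exact ⟨C, 0, fun x => by simpa using hC x⟩

theorem compact_gvec {f : E n → ℝ} (hc : HasCompactSupport f) : HasCompactSupport (gvec f) := by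
  refine (hc.fderiv (𝕜 := ℝ)).mono ?_
  intro x hx
  rw [Function.mem_support] at hx ⊢
  intro h0
  apply hx
  ext i
  show pd i f x = 0
  unfold pd
  rw [h0]
  rfl

/-- Poincare inequality for test functions -/
theorem poinc_test {V : E n → ℝ} {c C : ℝ} (hV : Reg V c C) {f : E n → ℝ} (hf : Test f) :
    Ex V (fun x => f x ^ 2) - (Ex V f) ^ 2 ≤ (1 / c) * Ex V (fun x => ∑ i, pd i f x ^ 2) := by
  have h1 : ContDiff ℝ 1 f := (contDiff_two_of_top hf.1).of_le (by norm_num)
  exact poinc hV h1 (pg_of_compact h1.continuous hf.2)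
    (pg_of_compact (continuous_gvec h1) (compact_gvec hf.2))

/-- Poincare inequality for compactly supported `C^1` functions -/
theorem poinc_c1 {V : E n → ℝ} {c C : ℝ} (hV : Reg V c C) {f : E n → ℝ} (hf : ContDiff ℝ 1 f)
    (hc : HasCompactSupport f) :
    Ex V (fun x => f x ^ 2) - (Ex V f) ^ 2 ≤ (1 / c) * Ex V (fun x => ∑ i, pd i f x ^ 2) :=
  poinc hV hf (pg_of_compact hf.continuous hc)
    (pg_of_compact (continuous_gvec hf) (compact_gvec hc))

/-- polynomial growth functions are integrable against `e^{-V}` -/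
theorem integrable_exp_pg {V : E n → ℝ} {c C : ℝ} (hV : Reg V c C) {f : E n → ℝ}
    (hf : P347.PG f) (hm : AEStronglyMeasurable f volume) :
    Integrable (fun x => f x * Real.exp (-V x)) := by
  obtain ⟨K, k, hK, h⟩ := hf.nonneg_bound
  have hA := adm_of_reg hV
  obtain ⟨a, ha, b, hab⟩ := hA.low
  have h0 := P347.integrable_pow_mul_exp (E := E n) ha K k b
  refine h0.mono' (hm.mul (Real.continuous_exp.comp hA.cont.neg).aestronglyMeasurable) ?_
  refine Filter.Eventually.of_forall fun x => ?_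
  rw [norm_mul, Real.norm_eq_abs (Real.exp _), abs_of_pos (Real.exp_pos _)]
  apply mul_le_mul (h x) _ (Real.exp_pos _).le (by positivity)
  apply Real.exp_le_exp.2
  linarith [hab x]

end Vale.Agent.P227.M.Poin
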