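import Mathlib

/-!
P227, block LIN, soft part: a symmetric nonpositive operator `L` on a core `D` such that
`(1 - L) D` is dense has a bounded symmetric resolvent `R = (1 - L)⁻¹`.
-/

open scoped InnerProductSpace
open Filter Topology

namespace Vale.Agent.P227.M.LIN.Soft

set_option linter.unusedSectionVars false

variable {H : Type*} [NormedAddCommGroup H] [InnerProductSpace ℝ H] [CompleteSpace H]
variable {D : Type*} [AddCommGroup D] [Module ℝ D]

/-- resolvent data of a pair `J, L : D → H` -/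
structure Resolvent (J L : D →ₗ[ℝ] H) (R : H →L[ℝ] H) : Prop where
  /-- `R` inverts `1 - L` on the core -/
  left : ∀ f, R (J f - L f) = J f
  /-- symmetric -/
  sym : ∀ x y, ⟪R x, y⟫_ℝ = ⟪x, R y⟫_ℝ
  /-- the range of `R` is approximated by the core in graph norm -/
  approx : ∀ h : H, ∀ ε > 0, ∃ f, ‖J f - R h‖ < ε ∧ ‖L f - (R h - h)‖ < ε
  /-- contraction -/
  norm_le : ∀ h, ‖R h‖ ≤ ‖h‖

theorem norm_sq_le {J L : D →ₗ[ℝ] H} (neg : ∀ f, ⟪L f, J f⟫_ℝ ≤ 0) (f : D) :
    ‖J f‖ ^ 2 + ‖L f‖ ^ 2 ≤ ‖J f - L f‖ ^ 2 := by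
  have h := neg f
  rw [@norm_sub_sq_real, real_inner_comm]
  nlinarith

theorem exists_resolvent (J L : D →ₗ[ℝ] H)
    (sym : ∀ f g, ⟪L f, J g⟫_ℝ = ⟪J f, L g⟫_ℝ)
    (neg : ∀ f, ⟪L f, J f⟫_ℝ ≤ 0)
    (esa : ∀ g : H, (∀ f, ⟪g, J f - L f⟫_ℝ = 0) → g = 0) :
    ∃ R : H →L[ℝ] H, Resolvent J L R := by
  classical
  -- density
  have hdense : ∀ h : H, ∀ ε > 0, ∃ f, ‖(J f - L f) - h‖ < ε := by
    intro h ε hε
    let S : Submodule ℝ H := LinearMap.range (J - L)
    have hS : Sᗮ = ⊥ := by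
      rw [Submodule.eq_bot_iff]
      intro g hg
      apply esa g
      intro f
      have := (Submodule.mem_orthogonal' S g).1 hg ((J - L) f) ⟨f, rfl⟩
      simpa using this
    have hS2 : S.topologicalClosure = ⊤ := by
      rw [Submodule.topologicalClosure_eq_top_iff]; exact hS
    have hmem : h ∈ closure (S : Set H) := by
      have : h ∈ S.topologicalClosure := by rw [hS2]; trivial
      rwa [← SetLike.mem_coe, Submodule.topologicalClosure_coe] at this
    obtain ⟨y, hy, hyε⟩ := Metric.mem_closure_iff.1 hmem ε hε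
    obtain ⟨f, hf⟩ := hy
    refine ⟨f, ?_⟩
    have : J f - L f = y := by rw [← hf]; rfl
    rw [this, ← dist_eq_norm, dist_comm]; exact hyε
  -- choose approximating sequences
  have hseq : ∀ h : H, ∃ u : ℕ → D, Tendsto (fun m => J (u m) - L (u m)) atTop (𝓝 h) := by
    intro h
    choose u hu using fun m : ℕ => hdense h (1 / ((m : ℝ) + 1)) (by positivity)
    refine ⟨u, ?_⟩
    rw [tendsto_iff_norm_sub_tendsto_zero]
    refine squeeze_zero (fun _ => norm_nonneg _) (fun m => (hu m).le) ?_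
    exact tendsto_one_div_add_atTop_nhds_zero_nat
  choose u hu using hseq
  have hJle : ∀ f, ‖J f‖ ≤ ‖J f - L f‖ := by
    intro f
    have := norm_sq_le neg f
    nlinarith [norm_nonneg (J f), norm_nonneg (J f - L f), sq_nonneg ‖L f‖]
  have hcauchy : ∀ h, CauchySeq fun m => J (u h m) := by
    intro h
    have hc := (hu h).cauchySeq
    rw [Metric.cauchySeq_iff] at hc ⊢
    intro ε hε
    obtain ⟨N, hN⟩ := hc ε hε
    refine ⟨N, fun m hm n hn => ?_⟩
    have := hN m hm n hn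
    rw [dist_eq_norm] at this ⊢
    calc ‖J (u h m) - J (u h n)‖ = ‖J (u h m - u h n)‖ := by rw [map_sub]
      _ ≤ ‖J (u h m - u h n) - L (u h m - u h n)‖ := hJle _
      _ = ‖(J (u h m) - L (u h m)) - (J (u h n) - L (u h n))‖ := by
          rw [map_sub, map_sub]; congr 1; abel
      _ < ε := this
  have hlim : ∀ h, ∃ y, Tendsto (fun m => J (u h m)) atTop (𝓝 y) := fun h =>
    cauchySeq_tendsto_of_complete (hcauchy h)
  choose R0 hR0 using hlim
  -- any approximating sequence gives the same limit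
  have huniq : ∀ h (v : ℕ → D), Tendsto (fun m => J (v m) - L (v m)) atTop (𝓝 h) →
      Tendsto (fun m => J (v m)) atTop (𝓝 (R0 h)) := by
    intro h v hv
    have h1 : Tendsto (fun m => J (v m) - J (u h m)) atTop (𝓝 0) := by
      have h2 : Tendsto (fun m => (J (v m) - L (v m)) - (J (u h m) - L (u h m))) atTop
          (𝓝 (h - h)) := hv.sub (hu h)
      rw [sub_self] at h2
      refine squeeze_zero_norm (fun m => ?_) (tendsto_norm_zero.comp h2)
      calc ‖J (v m) - J (u h m)‖ = ‖J (v m - u h m)‖ := by rw [map_sub]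
        _ ≤ ‖J (v m - u h m) - L (v m - u h m)‖ := hJle _
        _ = ‖(J (v m) - L (v m)) - (J (u h m) - L (u h m))‖ := by
          rw [map_sub, map_sub]; congr 1; abel
    have h3 := h1.add (hR0 h)
    simpa using h3
  have hadd : ∀ x y, R0 (x + y) = R0 x + R0 y := by
    intro x y
    have h1 : Tendsto (fun m => J (u x m + u y m) - L (u x m + u y m)) atTop (𝓝 (x + y)) := by
      have := (hu x).add (hu y)
      refine this.congr fun m => ?_
      rw [map_add, map_add]; abel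
    have h2 := huniq _ _ h1
    have h3 : Tendsto (fun m => J (u x m + u y m)) atTop (𝓝 (R0 x + R0 y)) := by
      refine ((hR0 x).add (hR0 y)).congr fun m => ?_
      rw [map_add]
    exact tendsto_nhds_unique h2 h3
  have hsmul : ∀ (c : ℝ) x, R0 (c • x) = c • R0 x := by
    intro c x
    have h1 : Tendsto (fun m => J (c • u x m) - L (c • u x m)) atTop (𝓝 (c • x)) := by
      have := (hu x).const_smul c
      refine this.congr fun m => ?_
      rw [map_smul, map_smul, smul_sub]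
    have h2 := huniq _ _ h1
    have h3 : Tendsto (fun m => J (c • u x m)) atTop (𝓝 (c • R0 x)) := by
      refine ((hR0 x).const_smul c).congr fun m => ?_
      rw [map_smul]
    exact tendsto_nhds_unique h2 h3
  have hbd : ∀ h, ‖R0 h‖ ≤ ‖h‖ := by
    intro h
    exact le_of_tendsto_of_tendsto' (hR0 h).norm (hu h).norm fun m => hJle _
  let Rl : H →ₗ[ℝ] H := ⟨⟨R0, hadd⟩, hsmul⟩
  let R : H →L[ℝ] H := Rl.mkContinuous 1 (fun h => by rw [one_mul]; exact hbd h)
  have hR : ∀ h, R h = R0 h := fun h => rfl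
  refine ⟨R, ?_, ?_, ?_, ?_⟩
  · intro f
    rw [hR]
    have h1 := huniq (J f - L f) (fun _ => f) tendsto_const_nhds
    exact tendsto_nhds_unique h1 tendsto_const_nhds
  · intro x y
    rw [hR, hR]
    -- < R x, y > = lim < J u_x, (J - L) u_y > = lim < (J-L) u_x, J u_y >
    have h1 : Tendsto (fun m => ⟪J (u x m), J (u y m) - L (u y m)⟫_ℝ) atTop
        (𝓝 ⟪R0 x, y⟫_ℝ) := (hR0 x).inner (hu y)
    have h2 : Tendsto (fun m => ⟪J (u x m) - L (u x m), J (u y m)⟫_ℝ) atTop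
        (𝓝 ⟪x, R0 y⟫_ℝ) := (hu x).inner (hR0 y)
    refine tendsto_nhds_unique h1 (h2.congr fun m => ?_)
    rw [inner_sub_left, inner_sub_right, sym]
  · intro h ε hε
    have h1 := hR0 h
    have h2 : Tendsto (fun m => L (u h m)) atTop (𝓝 (R0 h - h)) := by
      refine ((hR0 h).sub (hu h)).congr fun m => ?_
      abel
    rw [Metric.tendsto_atTop] at h1 h2
    obtain ⟨N1, hN1⟩ := h1 ε hε
    obtain ⟨N2, hN2⟩ := h2 ε hε
    refine ⟨u h (max N1 N2), ?_, ?_⟩
    · have := hN1 _ (le_max_left N1 N2); rwa [dist_eq_norm] at this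
    · have := hN2 _ (le_max_right N1 N2); rwa [dist_eq_norm] at this
  · intro h; exact hbd h

/-- maximality: a weak solution of `L g = l` lies in the domain of the closure -/
theorem Resolvent.max {J L : D →ₗ[ℝ] H} {R : H →L[ℝ] H} (hR : Resolvent J L R)
    (esa : ∀ g : H, (∀ f, ⟪g, J f - L f⟫_ℝ = 0) → g = 0)
    (g l : H) (h : ∀ f, ⟪g, L f⟫_ℝ = ⟪l, J f⟫_ℝ) : R (g - l) = g := by
  have : g - R (g - l) = 0 := by
    apply esa
    intro f
    rw [inner_sub_left, hR.sym, hR.left, inner_sub_right, inner_sub_left, h f]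
    ring
  exact (sub_eq_zero.1 this).symm

/-- the closure of the range of `(R - 1)(2R - 1)` is the orthogonal complement of its kernel -/
theorem Resolvent.range_dense {J L : D →ₗ[ℝ] H} {R : H →L[ℝ] H} (hR : Resolvent J L R)
    (r : H) (hr : ∀ h : H, R ((2:ℝ) • R h - h) = (2:ℝ) • R h - h → ⟪r, h⟫_ℝ = 0)
    {ε : ℝ} (hε : 0 < ε) :
    ∃ h : H, ‖(R ((2:ℝ) • R h - h) - ((2:ℝ) • R h - h)) - r‖ < ε := by
  let A : H →L[ℝ] H := (2:ℝ) • R - ContinuousLinearMap.id ℝ H
  let T : H →L[ℝ] H := (R - ContinuousLinearMap.id ℝ H).comp A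
  have hT : ∀ h, T h = R ((2:ℝ) • R h - h) - ((2:ℝ) • R h - h) := by
    intro h
    simp only [T, A, ContinuousLinearMap.comp_apply, sub_apply, smul_apply,
      ContinuousLinearMap.id_apply]
  have hA : ∀ x y, ⟪A x, y⟫_ℝ = ⟪x, A y⟫_ℝ := by
    intro x y
    simp only [A, sub_apply, smul_apply,
      ContinuousLinearMap.id_apply, inner_sub_left, inner_sub_right, inner_smul_left,
      inner_smul_right, hR.sym x y]
    simp
  have hRA : ∀ x, A (R x) = R (A x) := by
    intro x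
    simp [A]
  have hTsym : ∀ x y, ⟪T x, y⟫_ℝ = ⟪x, T y⟫_ℝ := by
    intro x y
    have e1 : T x = R (A x) - A x := by simp [T]
    have e2 : T y = R (A y) - A y := by simp [T]
    rw [e1, e2, inner_sub_left, inner_sub_right, hR.sym, hA, hA, hRA]
  let S : Submodule ℝ H := LinearMap.range (T : H →ₗ[ℝ] H)
  have hmem : r ∈ S.topologicalClosure := by
    rw [← Submodule.orthogonal_orthogonal_eq_closure]
    rw [Submodule.mem_orthogonal']
    intro h hh
    apply hr
    have h1 : T h = 0 := by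
      have h2 : ∀ x, ⟪x, T h⟫_ℝ = 0 := by
        intro x
        rw [← hTsym]
        exact (Submodule.mem_orthogonal _ _).1 hh (T x) ⟨x, rfl⟩
      have := h2 (T h)
      exact inner_self_eq_zero.1 this
    rw [hT] at h1
    exact sub_eq_zero.1 h1
  have hmem2 : r ∈ closure (S : Set H) := by
    rwa [← SetLike.mem_coe, Submodule.topologicalClosure_coe] at hmem
  obtain ⟨y, ⟨h, hh⟩, hy⟩ := Metric.mem_closure_iff.1 hmem2 ε hε
  refine ⟨h, ?_⟩
  rw [← hT, ← dist_eq_norm, dist_comm]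
  have : T h = y := hh
  rw [this]; exact hy

theorem Resolvent.norm_poly_le {i l : D →ₗ[ℝ] H} {R : H →L[ℝ] H} (hR : Resolvent i l R) (x : H) :
    ‖R ((2:ℝ) • R x - x) - ((2:ℝ) • R x - x)‖ ≤ 6 * ‖x‖ := by
  have a1 : ‖(2:ℝ) • R x - x‖ ≤ 3 * ‖x‖ := by
    calc ‖(2:ℝ) • R x - x‖ ≤ ‖(2:ℝ) • R x‖ + ‖x‖ := norm_sub_le _ _
      _ = 2 * ‖R x‖ + ‖x‖ := by rw [norm_smul]; norm_num
      _ ≤ 3 * ‖x‖ := by linarith [hR.norm_le x]
  calc _ ≤ ‖R ((2:ℝ) • R x - x)‖ + ‖(2:ℝ) • R x - x‖ := norm_sub_le _ _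
    _ ≤ ‖(2:ℝ) • R x - x‖ + ‖(2:ℝ) • R x - x‖ := by linarith [hR.norm_le ((2:ℝ) • R x - x)]
    _ ≤ 6 * ‖x‖ := by linarith

/-- **abstract density lemma** (`StmtHilb`, LIN-3) -/
theorem hilb_density (i l : D →ₗ[ℝ] H)
    (sym : ∀ f g, ⟪l f, i g⟫_ℝ = ⟪i f, l g⟫_ℝ)
    (neg : ∀ f, ⟪l f, i f⟫_ℝ ≤ 0)
    (hdr : DenseRange (fun f => i f - l f)) (f : H)
    (K0 : ∀ (h : H) (u : ℕ → D), Tendsto (fun n => i (u n)) atTop (𝓝 h) →
      Tendsto (fun n => l (u n)) atTop (𝓝 0) → ⟪f, h⟫_ℝ = 0)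
    (K1 : ∀ (h : H) (u : ℕ → D), Tendsto (fun n => i (u n)) atTop (𝓝 h) →
      Tendsto (fun n => l (u n)) atTop (𝓝 (-h)) → ⟪f, h⟫_ℝ = 0)
    {ε : ℝ} (hε : 0 < ε) :
    ∃ (w : D) (v : ℕ → D), Tendsto (fun n => i (v n) - l (v n)) atTop (𝓝 (i w)) ∧
      ∀ n, ‖f + l (w - (2:ℝ) • v n)‖ ≤ ε := by
  have hdense : ∀ h : H, ∀ η > 0, ∃ w, ‖(i w - l w) - h‖ < η := by
    intro h η hη
    obtain ⟨w, hw⟩ := hdr.exists_dist_lt h hη
    exact ⟨w, by rw [← dist_eq_norm, dist_comm]; exact hw⟩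
  have esa : ∀ g : H, (∀ f, ⟪g, i f - l f⟫_ℝ = 0) → g = 0 := by
    intro g hg
    have h1 : ∀ η > 0, ‖g‖ ^ 2 ≤ ‖g‖ * η := by
      intro η hη
      obtain ⟨w, hw⟩ := hdense g η hη
      have h2 : ⟪g, g⟫_ℝ = ⟪g, g - (i w - l w)⟫_ℝ := by
        rw [inner_sub_right, hg w, sub_zero]
      rw [← real_inner_self_eq_norm_sq, h2]
      refine (real_inner_le_norm _ _).trans ?_
      apply mul_le_mul_of_nonneg_left _ (norm_nonneg _)
      rw [norm_sub_rev]; exact hw.le
    by_contra hne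
    have hpos : 0 < ‖g‖ := norm_pos_iff.2 hne
    have := h1 (‖g‖ / 2) (by positivity)
    nlinarith
  obtain ⟨R, hR⟩ := exists_resolvent i l sym neg esa
  -- sequences in graph norm
  have hseq : ∀ h : H, ∃ u : ℕ → D, Tendsto (fun n => i (u n)) atTop (𝓝 (R h)) ∧
      Tendsto (fun n => l (u n)) atTop (𝓝 (R h - h)) := by
    intro h
    choose u hu using fun m : ℕ => hR.approx h (1 / ((m : ℝ) + 1)) (by positivity)
    refine ⟨u, ?_, ?_⟩
    · rw [tendsto_iff_norm_sub_tendsto_zero]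
      exact squeeze_zero (fun _ => norm_nonneg _) (fun m => (hu m).1.le)
        tendsto_one_div_add_atTop_nhds_zero_nat
    · rw [tendsto_iff_norm_sub_tendsto_zero]
      exact squeeze_zero (fun _ => norm_nonneg _) (fun m => (hu m).2.le)
        tendsto_one_div_add_atTop_nhds_zero_nat
  -- the kernel is orthogonal to f
  have hker : ∀ h : H, R ((2:ℝ) • R h - h) = (2:ℝ) • R h - h → ⟪f, h⟫_ℝ = 0 := by
    intro h hh
    set k := (2:ℝ) • R h - h with hk
    have hk0 : ⟪f, k⟫_ℝ = 0 := by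
      obtain ⟨u, hu1, hu2⟩ := hseq k
      rw [hh] at hu1 hu2
      rw [sub_self] at hu2
      exact K0 k u hu1 hu2
    have h2 : R h = (1/2 : ℝ) • (h + k) := by
      rw [hk]; module
    obtain ⟨u, hu1, hu2⟩ := hseq (h - k)
    have h5 : R (h - k) = (1/2 : ℝ) • (h - k) := by
      rw [map_sub, hh, h2]; module
    have h3 : R (h - k) - (h - k) = -(R (h - k)) := by
      rw [h5]; module
    rw [h3] at hu2
    have h4 := K1 (R (h - k)) u hu1 hu2
    rw [h5, inner_smul_right, inner_sub_right, hk0] at h4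
    linarith
  obtain ⟨k0, hk0⟩ := hR.range_dense f hker (ε := ε / 4) (by positivity)
  -- approximate k0 by (i - l) w
  obtain ⟨w, hw⟩ := hdense k0 (ε / 24) (by positivity)
  set k := i w - l w with hkdef
  have hRk : R k = i w := hR.left w
  have hTk : R ((2:ℝ) • R k - k) - ((2:ℝ) • R k - k) = (2:ℝ) • R (i w) - (2:ℝ) • i w - l w := by
    rw [map_sub, map_smul, hRk, hkdef]
    module
  obtain ⟨u, hu1, hu2⟩ := hseq (i w)
  have hlim : Tendsto (fun n => i (u n) - l (u n)) atTop (𝓝 (i w)) := by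
    have := hu1.sub hu2
    simpa using this
  have hmain : ‖f + (l w - (2:ℝ) • (R (i w) - i w))‖ < ε := by
    have e1 : f + (l w - (2:ℝ) • (R (i w) - i w)) =
        -((R ((2:ℝ) • R k - k) - ((2:ℝ) • R k - k)) - f) := by
      rw [hTk]; module
    have e2 : (R ((2:ℝ) • R k - k) - ((2:ℝ) • R k - k)) - f =
        ((R ((2:ℝ) • R k0 - k0) - ((2:ℝ) • R k0 - k0)) - f) +
        (R ((2:ℝ) • R (k - k0) - (k - k0)) - ((2:ℝ) • R (k - k0) - (k - k0))) := by
      simp only [map_sub, map_smul]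
      module
    rw [e1, norm_neg, e2]
    have e3 := hR.norm_poly_le (k - k0)
    calc _ ≤ _ + _ := norm_add_le _ _
      _ < ε := by linarith
  have hlim2 : Tendsto (fun n => ‖f + l (w - (2:ℝ) • u n)‖) atTop
      (𝓝 ‖f + (l w - (2:ℝ) • (R (i w) - i w))‖) := by
    refine (tendsto_const_nhds.add ?_).norm
    have := (tendsto_const_nhds (x := l w)).sub (hu2.const_smul (2:ℝ))
    refine this.congr fun n => ?_
    rw [map_sub, map_smul]
  have hev : ∀ᶠ n in atTop, ‖f + l (w - (2:ℝ) • u n)‖ < ε := hlim2.eventually_lt_const hmain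
  obtain ⟨N0, hN0⟩ := eventually_atTop.1 hev
  refine ⟨w, fun n => u (n + N0), hlim.comp (tendsto_add_atTop_nat N0), fun n => (hN0 _ ?_).le⟩
  omega

end Vale.Agent.P227.M.LIN.Soft
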