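import Vale.Agent.P227.M.LIN.Iface
import Vale.Agent.P227.M.LIN.Soft

/-! `StmtHilb` (LIN-3). -/

namespace Vale.Agent.P227.M.LIN.Soft

theorem stmtHilb : StmtHilb := by
  intro W H _ _ _ _ _ J A sym neg hd r K0 K1 ε hε
  exact hilb_density J A sym neg hd r K0 K1 hε

end Vale.Agent.P227.M.LIN.Soft
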