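import Vale.Agent.P227.M.Stmts

/-! # P227/M/LIN: the interface statements inside block LIN.

`StmtEsa`  : `(1-L) C_c^∞` is dense in `L²(μ)` (dual form).
`StmtBoch` : `E (LF)² = E tr (τNτN) + E ⟨τ∇F,∇F⟩`, `N = D²F`.
`StmtH1`   : for `w` a test function there is a test function `F` with `(1-L)F - w` small in `H¹(μ)`.
Assembly   : `StmtIBP → StmtBoch → StmtEsa → StmtH1 → StmtLin` (`u = w - 2F`, `LF + F + u = w - (1-L)F`). -/

open MeasureTheory
open scoped Topology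

namespace Vale.Agent.P227.M.LIN.Stm126

/-- ESA -/
def StmtEsa : Prop := ∀ (n : ℕ) (ψ V : E n → ℝ) (c C M : ℝ), Nice V c C → MM ψ V c C M →
  ∀ g : E n → ℝ, AEStronglyMeasurable g volume →
    Integrable (fun x => g x ^ 2 * Real.exp (-V x)) volume →
    (∀ F : E n → ℝ, Test F → ∫ x, g x * (F x - Lop ψ F x) * Real.exp (-V x) = 0) →
    g =ᵐ[volume] 0

/-- Bochner on test functions -/
def StmtBoch : Prop := ∀ (n : ℕ) (ψ V : E n → ℝ) (c C M : ℝ), Nice V c C → MM ψ V c C M →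
  ∀ F : E n → ℝ, Test F →
    Ex V (fun x => (Lop ψ F x) ^ 2) =
      Ex V (fun x => (tau ψ x * hess F x * tau ψ x * hess F x).trace)
        + Ex V (fun x => ∑ a, ∑ b, tau ψ x a b * pd a F x * pd b F x)

/-- second Friedrichs step: `(1-L)F → w` in `H¹(μ)` -/
def StmtH1 : Prop := ∀ (n : ℕ) (ψ V : E n → ℝ) (c C M : ℝ), Nice V c C → MM ψ V c C M →
  ∀ w : E n → ℝ, Test w → ∀ δ > 0, ∃ F : E n → ℝ, Test F ∧
    Ex V (fun x => (F x - Lop ψ F x - w x) ^ 2) ≤ δ ∧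
    Ex V (fun x => ∑ b, (pd b (fun z => F z - Lop ψ F z - w z) x) ^ 2) ≤ δ

end Vale.Agent.P227.M.LIN.Stm126
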