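import Mathlib.Analysis.InnerProductSpace.Projection.Basic
import Mathlib.Analysis.InnerProductSpace.Projection.Submodule

/-!
P227, block LIN: the T-coercivity lemma (helper510, note 10759 (5)), without Lax-Milgram.
-/

namespace Vale.Agent.P227.M.LIN

open Filter Topology

variable {X : Type*} [NormedAddCommGroup X] [InnerProductSpace ℝ X]

/-- If `‖A g‖ ≤ K ‖B g‖`, `c ‖B g‖² ≤ ⟪A g, B g⟫` and `B` has dense range, then a vector orthogonal
to the range of `A` is zero. -/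
theorem orth_zero {C : Type*} [AddCommGroup C] [Module ℝ C] (A B : C →ₗ[ℝ] X)
    {K c : ℝ} (hc : 0 < c) (hA : ∀ g, ‖A g‖ ≤ K * ‖B g‖)
    (hcoer : ∀ g, c * ‖B g‖ ^ 2 ≤ inner ℝ (A g) (B g))
    (hB : DenseRange B) (v : X) (hv : ∀ g, inner ℝ (A g) v = 0) : v = 0 := by
  have hK : ∀ g, c * ‖B g‖ ^ 2 ≤ K * ‖B g‖ * ‖B g - v‖ := by
    intro g
    have h1 : inner ℝ (A g) (B g) = inner ℝ (A g) (B g - v) := by
      rw [inner_sub_right, hv g, sub_zero]
    calc c * ‖B g‖ ^ 2 ≤ inner ℝ (A g) (B g) := hcoer g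
      _ = inner ℝ (A g) (B g - v) := h1
      _ ≤ ‖A g‖ * ‖B g - v‖ := real_inner_le_norm _ _
      _ ≤ K * ‖B g‖ * ‖B g - v‖ := by gcongr; exact hA g
  have hcl : v ∈ closure (Set.range B) := hB v
  rw [mem_closure_iff_seq_limit] at hcl
  obtain ⟨x, hx, hxv⟩ := hcl
  choose g hg using hx
  have hn : Tendsto (fun n => ‖x n‖) atTop (𝓝 ‖v‖) := hxv.norm
  have hd : Tendsto (fun n => ‖x n - v‖) atTop (𝓝 0) := by
    have : Tendsto (fun n => ‖x n - v‖) atTop (𝓝 ‖v - v‖) :=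
      (hxv.sub tendsto_const_nhds).norm
    simpa using this
  have hl : Tendsto (fun n => c * ‖x n‖ ^ 2) atTop (𝓝 (c * ‖v‖ ^ 2)) :=
    (hn.pow 2).const_mul c
  have hr : Tendsto (fun n => K * ‖x n‖ * ‖x n - v‖) atTop (𝓝 (K * ‖v‖ * 0)) :=
    (hn.const_mul K).mul hd
  have hle : c * ‖v‖ ^ 2 ≤ K * ‖v‖ * 0 := by
    refine le_of_tendsto_of_tendsto' hl hr ?_
    intro n
    rw [← hg n]
    exact hK (g n)
  have h0 : c * ‖v‖ ^ 2 ≤ 0 := by simpa using hle
  have h1 : ‖v‖ ^ 2 ≤ 0 := by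
    by_contra h
    push Not at h
    have := mul_pos hc h
    linarith
  have h2 : ‖v‖ = 0 := by nlinarith [norm_nonneg v, sq_nonneg ‖v‖]
  exact norm_eq_zero.1 h2

variable [CompleteSpace X]

/-- T-coercivity: density of the range of `B` implies density of the range of `A`. -/
theorem dense_of_coercive {C : Type*} [AddCommGroup C] [Module ℝ C] (A B : C →ₗ[ℝ] X)
    {K c : ℝ} (hc : 0 < c) (hA : ∀ g, ‖A g‖ ≤ K * ‖B g‖)
    (hcoer : ∀ g, c * ‖B g‖ ^ 2 ≤ inner ℝ (A g) (B g))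
    (hB : DenseRange B) : DenseRange A := by
  have h : (LinearMap.range A)ᗮ = ⊥ := by
    rw [Submodule.eq_bot_iff]
    intro v hv
    refine orth_zero A B hc hA hcoer hB v ?_
    intro g
    exact (Submodule.mem_orthogonal _ _).1 hv _ ⟨g, rfl⟩
  have h2 : (LinearMap.range A).topologicalClosure = ⊤ :=
    (Submodule.topologicalClosure_eq_top_iff).2 h
  have h3 : Dense ((LinearMap.range A : Submodule ℝ X) : Set X) :=
    Submodule.dense_iff_topologicalClosure_eq_top.2 h2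
  simpa [DenseRange, LinearMap.coe_range] using h3

/-- The form used in the text: a seminorm-like gauge `p`. -/
theorem dense_of_coercive_gauge {C : Type*} [AddCommGroup C] [Module ℝ C] (A B : C →ₗ[ℝ] X)
    (p : C → ℝ) (hp : ∀ g, 0 ≤ p g) {K c : ℝ} (hK : 0 ≤ K) (hc : 0 < c)
    (hA : ∀ g, ‖A g‖ ≤ K * p g) (hBp : ∀ g, ‖B g‖ ≤ K * p g)
    (hcoer : ∀ g, c * p g ^ 2 ≤ inner ℝ (A g) (B g))
    (hB : DenseRange B) : DenseRange A := by
  have h1 : ∀ g, c * p g ≤ K * ‖B g‖ := by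
    intro g
    rcases (hp g).eq_or_lt with h | h
    · rw [← h, mul_zero]
      positivity
    · have h2 : c * p g ^ 2 ≤ K * p g * ‖B g‖ :=
        (hcoer g).trans ((real_inner_le_norm _ _).trans
          (mul_le_mul_of_nonneg_right (hA g) (norm_nonneg _)))
      have h3 : (c * p g) * p g ≤ (K * ‖B g‖) * p g := by nlinarith
      exact le_of_mul_le_mul_right h3 h
  have hK1 : 0 < K + 1 := by linarith
  refine dense_of_coercive A B (K := K * (K / c)) (c := c / (K + 1) ^ 2) (by positivity) ?_ ?_ hB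
  · intro g
    refine (hA g).trans ?_
    rw [mul_assoc]
    refine mul_le_mul_of_nonneg_left ?_ hK
    rw [div_mul_eq_mul_div, le_div_iff₀ hc]
    linarith [h1 g]
  · intro g
    refine le_trans ?_ (hcoer g)
    rw [div_mul_eq_mul_div, div_le_iff₀ (by positivity)]
    have h4 : ‖B g‖ ≤ (K + 1) * p g := (hBp g).trans
      (mul_le_mul_of_nonneg_right (by linarith) (hp g))
    have h5 : ‖B g‖ ^ 2 ≤ ((K + 1) * p g) ^ 2 := by gcongr
    nlinarith [mul_le_mul_of_nonneg_left h5 hc.le]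

end Vale.Agent.P227.M.LIN
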