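import Vale.Agent.P227.M.LIN.Top332B

/-! # P227/M/LIN: assembly of `StmtLin` (helper332).

`StmtIBP → StmtESA → StmtBoch → StmtConst → StmtAff → StmtH1 → StmtHilb → StmtLin`. -/

open MeasureTheory Filter
open scoped Topology NNReal

namespace Vale.Agent.P227.M.LIN.T332

variable {n : ℕ} {ψ V : E n → ℝ} {c C M : ℝ}

/-! ### elements of `L²` -/

theorem inner_toLp_left {f : E n → ℝ} (hf : MemLp f 2 (mu V)) (g : Lp ℝ 2 (mu V)) :
    inner ℝ (hf.toLp f) g = ∫ x, f x * g x ∂(mu V) := by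
  rw [L2.inner_def]
  refine integral_congr_ae ?_
  filter_upwards [hf.coeFn_toLp] with x h1
  rw [h1]
  simp [mul_comm]

theorem norm_sq_Lp (u : Lp ℝ 2 (mu V)) : ‖u‖ ^ 2 = ∫ x, (u x) ^ 2 ∂(mu V) := by
  rw [← real_inner_self_eq_norm_sq, L2.inner_def]
  refine integral_congr_ae (Eventually.of_forall fun x => ?_)
  simp [sq]

theorem Ex_sub_norm (hV : Reg V c C) {f : E n → ℝ} (hf : MemLp f 2 (mu V)) (g : Lp ℝ 2 (mu V)) :
    Ex V (fun x => (f x - g x) ^ 2) = ‖hf.toLp f - g‖ ^ 2 / ∫ x, Real.exp (-V x) := by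
  rw [Ex_eq hV.cont, norm_sq_Lp]
  congr 1
  refine integral_congr_ae ?_
  filter_upwards [hf.coeFn_toLp, Lp.coeFn_sub (hf.toLp f) g] with x h1 h2
  rw [h2, Pi.sub_apply, h1]

/-! ### density -/

theorem dense (hE : StmtESA) (hN : Nice V c C) (h : MM ψ V c C M) :
    DenseRange (fun f => J hN.toReg f - A hN.toReg h f) := by
  set T : TS n →ₗ[ℝ] Lp ℝ 2 (mu V) := J hN.toReg - A hN.toReg h with hT
  have key : (LinearMap.range T).topologicalClosure = ⊤ := by
    rw [Submodule.topologicalClosure_eq_top_iff, Submodule.eq_bot_iff]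
    intro g hg
    have h1 : ∀ f : E n → ℝ, Test f →
        ∫ x, g x * (f x - Lop ψ f x) * Real.exp (-V x) = 0 := by
      intro f hf
      have h2 := (Submodule.mem_orthogonal _ g).1 hg (T ⟨f, hf⟩) ⟨⟨f, hf⟩, rfl⟩
      have m1 := memLp_gr hN.toReg (test_gr hf)
      have m2 := memLp_gr hN.toReg (gr_Lop h hf)
      have h3 : T ⟨f, hf⟩ = (m1.sub m2).toLp (f - Lop ψ f) := by
        rw [MemLp.toLp_sub m1 m2]
        rfl
      rw [h3, inner_toLp_left, integral_mu hN.toReg.cont] at h2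
      rw [← h2]
      refine integral_congr_ae (Eventually.of_forall fun x => ?_)
      simp only [Pi.sub_apply]
      ring
    have h4 := hE n ψ V c C M hN h g (Lp.memLp g) h1
    rw [Lp.eq_zero_iff_ae_eq_zero]
    exact ae_mu h4
  have h5 : Dense (LinearMap.range T : Set (Lp ℝ 2 (mu V))) :=
    Submodule.dense_iff_topologicalClosure_eq_top.2 key
  exact h5

/-! ### the kernels -/

theorem tends_norm {H : Type*} [NormedAddCommGroup H] {u : ℕ → H} {g : H} (Z : ℝ)
    (hu : Tendsto u atTop (𝓝 g)) : Tendsto (fun m => ‖u m - g‖ ^ 2 / Z) atTop (𝓝 0) := by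
  have h1 := tendsto_iff_norm_sub_tendsto_zero.1 hu
  have h2 := (h1.pow 2).div_const Z
  simpa using h2

theorem k0 (hI : StmtIBP) (hCo : StmtConst) (hN : Nice V c C) (h : MM ψ V c C M)
    {r : E n → ℝ} (hr : Gr r) (hr0 : Ex V r = 0) (g : Lp ℝ 2 (mu V)) (f : ℕ → TS n)
    (hJ : Tendsto (fun m => J hN.toReg (f m)) atTop (𝓝 g))
    (hA : Tendsto (fun m => A hN.toReg h (f m)) atTop (𝓝 0)) :
    inner ℝ ((memLp_gr hN.toReg hr).toLp r) g = 0 := by
  have hZ := hN.toReg.Z_pos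
  have q1 : Tendsto (fun m => Ex V (fun x => ((f m : E n → ℝ) x - g x) ^ 2)) atTop (𝓝 0) := by
    have h1 := tends_norm (∫ x, Real.exp (-V x)) hJ
    refine h1.congr fun m => ?_
    rw [J_apply, ← Ex_sub_norm hN.toReg]
  have q2 : Tendsto (fun m => Ex V (fun x => ∑ a, (pd a (f m : E n → ℝ) x) ^ 2)) atTop (𝓝 0) := by
    have h1 : Tendsto (fun m => |C| * DD ψ V (f m : E n → ℝ) (f m)) atTop (𝓝 0) := by
      have h2 : Tendsto (fun m => inner ℝ (A hN.toReg h (f m)) (J hN.toReg (f m))) atTop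
          (𝓝 (inner ℝ (0 : Lp ℝ 2 (mu V)) g)) := hA.inner hJ
      rw [inner_zero_left] at h2
      have h3 : Tendsto (fun m => |C| * (-(inner ℝ (A hN.toReg h (f m)) (J hN.toReg (f m))) /
          ∫ x, Real.exp (-V x))) atTop (𝓝 (|C| * (-0 / ∫ x, Real.exp (-V x)))) :=
        (h2.neg.div_const _).const_mul _
      rw [neg_zero, zero_div, mul_zero] at h3
      refine h3.congr fun m => ?_
      rw [inner_A_J hI hN h]
      field_simp
    refine squeeze_zero (fun m => ?_) (fun m => ?_) h1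
    · exact Ex_nonneg hN.toReg fun x => Finset.sum_nonneg fun b _ => sq_nonneg _
    · exact grad_Ex_le hN h (f m).2
  obtain ⟨a0, ha⟩ := hCo n V c C hN (fun m => (f m : E n → ℝ)) g (fun m => (f m).2)
    (Lp.memLp g) q1 q2
  rw [inner_toLp_left]
  have h1 : ∫ x, r x * g x ∂(mu V) = ∫ x, a0 * r x ∂(mu V) := by
    refine integral_congr_ae ?_
    filter_upwards [ae_mu (V := V) ha] with x hx
    rw [hx, mul_comm]
  rw [h1, integral_const_mul]
  rw [Ex_eq hN.toReg.cont, div_eq_zero_iff] at hr0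
  rcases hr0 with h2 | h2
  · rw [h2, mul_zero]
  · exact absurd h2 hZ.ne'

theorem odd_zero (hN : Nice V c C) {r : E n → ℝ} (hre : ∀ x, r (-x) = r x) (a : Fin n → ℝ) :
    ∫ x : E n, r x * (∑ i, a i * x i) * Real.exp (-V x) = 0 := by
  have h1 := integral_neg_eq_self (fun x : E n => r x * (∑ i, a i * x i) * Real.exp (-V x)) volume
  have h2 : (fun x : E n => r (-x) * (∑ i, a i * (-x) i) * Real.exp (-V (-x))) =
      fun x => -(r x * (∑ i, a i * x i) * Real.exp (-V x)) := by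
    funext x
    rw [hre, hN.even]
    have : ∑ i, a i * (-x) i = -∑ i, a i * x i := by
      rw [← Finset.sum_neg_distrib]
      exact Finset.sum_congr rfl fun i _ => by rw [PiLp.neg_apply]; ring
    rw [this]
    ring
  simp only [] at h1
  rw [h2, integral_neg] at h1
  linarith

theorem k1 (hI : StmtIBP) (hB : StmtBoch) (hAf : StmtAff) (hN : Nice V c C) (h : MM ψ V c C M)
    {r : E n → ℝ} (hr : Gr r) (hre : ∀ x, r (-x) = r x) (hr0 : Ex V r = 0)
    (g : Lp ℝ 2 (mu V)) (f : ℕ → TS n)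
    (hJ : Tendsto (fun m => J hN.toReg (f m)) atTop (𝓝 g))
    (hA : Tendsto (fun m => A hN.toReg h (f m)) atTop (𝓝 (-g))) :
    inner ℝ ((memLp_gr hN.toReg hr).toLp r) g = 0 := by
  have hZ := hN.toReg.Z_pos
  have q1 : Tendsto (fun m => Ex V (fun x => ((f m : E n → ℝ) x - g x) ^ 2)) atTop (𝓝 0) := by
    have h1 := tends_norm (∫ x, Real.exp (-V x)) hJ
    refine h1.congr fun m => ?_
    rw [J_apply, ← Ex_sub_norm hN.toReg]
  have q2 : Tendsto (fun m => Ex V (fun x => ∑ a, ∑ b, (hess (f m : E n → ℝ) x a b) ^ 2)) atTop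
      (𝓝 0) := by
    have h1 : Tendsto (fun m => |C| ^ 2 * (‖A hN.toReg h (f m)‖ ^ 2 / (∫ x, Real.exp (-V x)) +
        inner ℝ (A hN.toReg h (f m)) (J hN.toReg (f m)) / ∫ x, Real.exp (-V x))) atTop (𝓝 0) := by
      have h2 : Tendsto (fun m => inner ℝ (A hN.toReg h (f m)) (J hN.toReg (f m))) atTop
          (𝓝 (inner ℝ (-g) g)) := hA.inner hJ
      have h3 := (((hA.norm.pow 2).div_const (∫ x, Real.exp (-V x))).add
        (h2.div_const (∫ x, Real.exp (-V x)))).const_mul (|C| ^ 2)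
      have h4 : |C| ^ 2 * (‖-g‖ ^ 2 / (∫ x, Real.exp (-V x)) +
          inner ℝ (-g) g / ∫ x, Real.exp (-V x)) = 0 := by
        rw [inner_neg_left, norm_neg, real_inner_self_eq_norm_sq]
        ring
      rw [h4] at h3
      exact h3
    refine squeeze_zero (fun m => ?_) (fun m => ?_) h1
    · exact Ex_nonneg hN.toReg fun x => Finset.sum_nonneg fun b _ =>
        Finset.sum_nonneg fun b _ => sq_nonneg _
    · refine (hess_Ex_le hN h (f m).2).trans (le_of_eq ?_)
      congr 1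
      have h5 := hB n ψ V c C M hN h (f m) (f m).2
      have h6 : Ex V (fun x => ∑ b, pd b (f m : E n → ℝ) x * fld ψ (f m : E n → ℝ) b x) =
        DD ψ V (f m : E n → ℝ) (f m) := rfl
      rw [h6, Ex_norm hN.toReg (memLp_gr hN.toReg (gr_Lop h (f m).2))] at h5
      rw [inner_A_J hI hN h, A_apply, h5]
      field_simp
      ring
  obtain ⟨a0, a, ha⟩ := hAf n V c C hN (fun m => (f m : E n → ℝ)) g (fun m => (f m).2)
    (Lp.memLp g) q1 q2
  rw [inner_toLp_left]
  have h1 : ∫ x, r x * g x ∂(mu V) = ∫ x, r x * (a0 + ∑ i, a i * x i) ∂(mu V) := by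
    refine integral_congr_ae ?_
    filter_upwards [ae_mu (V := V) ha] with x hx
    rw [hx]
  rw [h1, integral_mu hN.toReg.cont]
  have g1 : Gr (fun x : E n => a0 * r x) := hr.const_mul a0
  have g2 : Gr (fun x : E n => r x * ∑ i, a i * x i) :=
    hr.mul (Gr.sum _ fun i _ => (Gr.coord i).const_mul (a i))
  have h2 : (fun x : E n => r x * (a0 + ∑ i, a i * x i) * Real.exp (-V x)) =
      fun x => a0 * r x * Real.exp (-V x) + r x * (∑ i, a i * x i) * Real.exp (-V x) := by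
    funext x
    ring
  rw [h2, integral_add (hN.toReg.integrable_gr g1) (hN.toReg.integrable_gr g2),
    odd_zero hN hre a, add_zero]
  have h3 : (fun x : E n => a0 * r x * Real.exp (-V x)) =
      fun x => a0 * (r x * Real.exp (-V x)) := by
    funext x
    ring
  rw [h3, integral_const_mul]
  have h4 : (∫ x, r x * Real.exp (-V x)) / ∫ x, Real.exp (-V x) = 0 := hr0
  rw [div_eq_zero_iff] at h4
  rcases h4 with h5 | h5
  · rw [h5, mul_zero]
  · exact absurd h5 hZ.ne'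

/-! ### the `H²` bound -/

theorem h2_bound (hI : StmtIBP) (hB : StmtBoch) (hN : Nice V c C) (h : MM ψ V c C M) (g : TS n) :
    Ex V (fun x => (g : E n → ℝ) x ^ 2 + (∑ a, (pd a (g : E n → ℝ) x) ^ 2)
      + ∑ a, ∑ b, (hess (g : E n → ℝ) x a b) ^ 2) ≤
      (1 + |C| + |C| ^ 2) * (‖J hN.toReg g - A hN.toReg h g‖ ^ 2 / ∫ x, Real.exp (-V x)) := by
  have hZ := hN.toReg.Z_pos
  have gr1 : Gr (fun x => (g : E n → ℝ) x ^ 2) := (test_gr g.2).pow 2
  have gr2 : Gr (fun x => ∑ a, (pd a (g : E n → ℝ) x) ^ 2) :=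
    Gr.sum _ fun a _ => (test_gr (test_pd g.2 a)).pow 2
  have gr3 : Gr (fun x => ∑ a, ∑ b, (hess (g : E n → ℝ) x a b) ^ 2) :=
    Gr.sum _ fun a _ => Gr.sum _ fun b _ => (test_gr (test_hess g.2 a b)).pow 2
  rw [Ex_add hN.toReg (gr1.add gr2) gr3, Ex_add hN.toReg gr1 gr2]
  have hs := norm_sub_sq hI hN h g
  have hD := DD_nonneg hN h (g : E n → ℝ)
  have e1 : Ex V (fun x => (g : E n → ℝ) x ^ 2) = ‖J hN.toReg g‖ ^ 2 / ∫ x, Real.exp (-V x) := by
    rw [Ex_norm hN.toReg (memLp_gr hN.toReg (test_gr g.2)), J_apply]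
  have e2 : Ex V (fun x => ∑ a, (pd a (g : E n → ℝ) x) ^ 2) ≤ |C| * DD ψ V (g : E n → ℝ) g :=
    grad_Ex_le hN h g.2
  have e3 := hess_Ex_le hN h g.2
  have h5 := hB n ψ V c C M hN h g g.2
  have h6 : Ex V (fun x => ∑ b, pd b (g : E n → ℝ) x * fld ψ (g : E n → ℝ) b x) =
    DD ψ V (g : E n → ℝ) g := rfl
  rw [h6, Ex_norm hN.toReg (memLp_gr hN.toReg (gr_Lop h g.2)), ← A_apply hN.toReg h] at h5
  set Z := ∫ x, Real.exp (-V x) with hZd
  set D := DD ψ V (g : E n → ℝ) g with hDd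
  have q : ‖J hN.toReg g - A hN.toReg h g‖ ^ 2 / Z =
      ‖J hN.toReg g‖ ^ 2 / Z + 2 * D + ‖A hN.toReg h g‖ ^ 2 / Z := by
    rw [hs]; field_simp
  have p1 : 0 ≤ ‖J hN.toReg g‖ ^ 2 / Z := by positivity
  have p2 : 0 ≤ ‖A hN.toReg h g‖ ^ 2 / Z := by positivity
  have hC := abs_nonneg C
  rw [e1, q]
  have e4 : Ex V (fun x => (tau ψ x * hess (g : E n → ℝ) x * tau ψ x *
      hess (g : E n → ℝ) x).trace) ≤ ‖A hN.toReg h g‖ ^ 2 / Z := by linarith
  have e5 := mul_le_mul_of_nonneg_left e4 (sq_nonneg |C|)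
  have e6 : |C| * D ≤ |C| * (‖J hN.toReg g‖ ^ 2 / Z + 2 * D + ‖A hN.toReg h g‖ ^ 2 / Z) :=
    mul_le_mul_of_nonneg_left (by linarith) hC
  have e7 : |C| ^ 2 * (‖A hN.toReg h g‖ ^ 2 / Z) ≤
      |C| ^ 2 * (‖J hN.toReg g‖ ^ 2 / Z + 2 * D + ‖A hN.toReg h g‖ ^ 2 / Z) :=
    mul_le_mul_of_nonneg_left (by linarith) (sq_nonneg _)
  calc _ ≤ ‖J hN.toReg g‖ ^ 2 / Z + |C| * D + |C| ^ 2 * (‖A hN.toReg h g‖ ^ 2 / Z) := by
        linarith
    _ ≤ (‖J hN.toReg g‖ ^ 2 / Z + 2 * D + ‖A hN.toReg h g‖ ^ 2 / Z) +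
        |C| * (‖J hN.toReg g‖ ^ 2 / Z + 2 * D + ‖A hN.toReg h g‖ ^ 2 / Z) +
        |C| ^ 2 * (‖J hN.toReg g‖ ^ 2 / Z + 2 * D + ‖A hN.toReg h g‖ ^ 2 / Z) := by
        linarith
    _ = _ := by ring

/-! ### bounded Lipschitz functions -/

/-- bounded and Lipschitz -/
def BL (f : E n → ℝ) : Prop := ∃ K B : ℝ, 0 ≤ K ∧ 0 ≤ B ∧ (∀ x y, |f x - f y| ≤ K * ‖x - y‖) ∧
  ∀ x, |f x| ≤ B

theorem BL.add {f g : E n → ℝ} (hf : BL f) (hg : BL g) : BL (fun x => f x + g x) := by
  obtain ⟨K, B, hK, hB, h1, h2⟩ := hf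
  obtain ⟨K', B', hK', hB', h1', h2'⟩ := hg
  refine ⟨K + K', B + B', by positivity, by positivity, fun x y => ?_, fun x => ?_⟩
  · have e : f x + g x - (f y + g y) = (f x - f y) + (g x - g y) := by ring
    rw [e]
    refine (abs_add_le _ _).trans ?_
    have := h1 x y
    have := h1' x y
    linarith
  · exact (abs_add_le _ _).trans (add_le_add (h2 x) (h2' x))

theorem BL.neg {f : E n → ℝ} (hf : BL f) : BL (fun x => -f x) := by
  obtain ⟨K, B, hK, hB, h1, h2⟩ := hf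
  refine ⟨K, B, hK, hB, fun x y => ?_, fun x => ?_⟩
  · have e : -f x - -f y = -(f x - f y) := by ring
    rw [e, abs_neg]
    exact h1 x y
  · rw [abs_neg]
    exact h2 x

theorem BL.sub {f g : E n → ℝ} (hf : BL f) (hg : BL g) : BL (fun x => f x - g x) := by
  have h := hf.add hg.neg
  simpa [sub_eq_add_neg] using h

theorem BL.mul {f g : E n → ℝ} (hf : BL f) (hg : BL g) : BL (fun x => f x * g x) := by
  obtain ⟨K, B, hK, hB, h1, h2⟩ := hf
  obtain ⟨K', B', hK', hB', h1', h2'⟩ := hg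
  refine ⟨B * K' + B' * K, B * B', by positivity, by positivity, fun x y => ?_, fun x => ?_⟩
  · have e : f x * g x - f y * g y = f x * (g x - g y) + g y * (f x - f y) := by ring
    rw [e]
    refine (abs_add_le _ _).trans ?_
    rw [abs_mul, abs_mul]
    have a1 : |f x| * |g x - g y| ≤ B * (K' * ‖x - y‖) :=
      mul_le_mul (h2 x) (h1' x y) (abs_nonneg _) hB
    have a2 : |g y| * |f x - f y| ≤ B' * (K * ‖x - y‖) :=
      mul_le_mul (h2' y) (h1 x y) (abs_nonneg _) hB'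
    linarith
  · rw [abs_mul]
    exact mul_le_mul (h2 x) (h2' x) (abs_nonneg _) hB

theorem BL.sum {ι : Type*} (s : Finset ι) {f : ι → E n → ℝ} (hf : ∀ i ∈ s, BL (f i)) :
    BL (fun x => ∑ i ∈ s, f i x) := by
  classical
  induction s using Finset.induction_on with
  | empty => exact ⟨0, 0, le_rfl, le_rfl, fun x y => by simp, fun x => by simp⟩
  | insert a s ha ih =>
    have h := (hf a (Finset.mem_insert_self a s)).add
      (ih fun i hi => hf i (Finset.mem_insert_of_mem hi))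
    simpa [Finset.sum_insert ha] using h

theorem BL.of_test {f : E n → ℝ} (hf : Test f) : BL f := by
  obtain ⟨B, hB⟩ := hf.1.continuous.bounded_above_of_compact_support hf.2
  obtain ⟨K, hK⟩ := hf.1.lipschitzWith_of_hasCompactSupport hf.2 (by simp)
  refine ⟨K, |B|, K.2, abs_nonneg _, fun x y => ?_, fun x => ?_⟩
  · have := hK.dist_le_mul x y
    rwa [Real.dist_eq, dist_eq_norm] at this
  · exact (hB x).trans (le_abs_self B)

theorem BL.tau (h : MM ψ V c C M) (i j : Fin n) : BL (fun x => tau ψ x i j) := by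
  refine ⟨ID169.KT n c M, c⁻¹, (ID169.KT n c M).2, inv_nonneg.2 h.c_pos.le, fun x y => ?_,
    fun x => ID169.abs_tau_le h x i j⟩
  have := (ID169.tau_lipschitz h i j).dist_le_mul x y
  rwa [Real.dist_eq, dist_eq_norm] at this

theorem test_coord_mul {f : E n → ℝ} (hf : Test f) (i : Fin n) :
    Test (fun x => x i * f x) := by
  refine ⟨ContDiff.mul (by fun_prop) hf.1, hf.2.mul_left⟩

theorem BL.lop (h : MM ψ V c C M) {f : E n → ℝ} (hf : Test f) : BL (Lop ψ f) := by
  unfold Lop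
  refine BL.sub (BL.sum _ fun i _ => BL.sum _ fun j _ => ?_) (BL.sum _ fun i _ => ?_)
  · exact (BL.tau h i j).mul (BL.of_test (test_hess hf i j))
  · exact BL.of_test (test_coord_mul (test_pd hf i) i)

theorem BL.pd_le {f : E n → ℝ} (hf : BL f) : ∃ K : ℝ, 0 ≤ K ∧ ∀ b x, |pd b f x| ≤ K := by
  obtain ⟨K, B, hK, hB, h1, h2⟩ := hf
  refine ⟨K, hK, fun b x => (abs_pd_le_norm f x b).trans ?_⟩
  have hl : LipschitzWith K.toNNReal f := by
    refine LipschitzWith.of_dist_le_mul fun x y => ?_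
    rw [Real.dist_eq, dist_eq_norm, Real.coe_toNNReal _ hK]
    exact h1 x y
  have := norm_fderiv_le_of_lipschitz ℝ hl (x₀ := x)
  rwa [Real.coe_toNNReal _ hK] at this

theorem BL.integrable (hV : Reg V c C) {f : E n → ℝ} (hf : BL f) :
    Integrable (fun x => (∑ b, (pd b f x) ^ 2) * Real.exp (-V x)) := by
  obtain ⟨K, hK, hKb⟩ := hf.pd_le
  refine (hV.integrable_exp.const_mul (n * K ^ 2)).mono' ?_ (Eventually.of_forall fun x => ?_)
  · refine AEStronglyMeasurable.mul (Measurable.aestronglyMeasurable ?_)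
      (Real.continuous_exp.comp hV.cont.neg).aestronglyMeasurable
    refine Finset.measurable_sum _ fun b _ => Measurable.pow_const ?_ 2
    exact measurable_fderiv_apply_const ℝ f (ei b)
  · rw [Real.norm_eq_abs, abs_mul, Real.abs_exp]
    refine mul_le_mul_of_nonneg_right ?_ (Real.exp_pos _).le
    rw [abs_of_nonneg (Finset.sum_nonneg fun b _ => sq_nonneg _)]
    calc ∑ b, (pd b f x) ^ 2 ≤ ∑ _b : Fin n, K ^ 2 := by
          refine Finset.sum_le_sum fun b _ => ?_
          rw [← sq_abs]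
          exact pow_le_pow_left₀ (abs_nonneg _) (hKb b x) 2
      _ = n * K ^ 2 := by simp

/-! ### the pointwise comparison -/

theorem pt_le (h : MM ψ V c C M) {F : E n → ℝ} (hF : Test F) (w v : TS n) (b : Fin n) (x : E n) :
    (pd b (fun z => Lop ψ F z + F z + ((w - (2 : ℝ) • v : TS n) : E n → ℝ) z) x) ^ 2 ≤
      2 * (pd b (fun z => F z - Lop ψ F z - (w : E n → ℝ) z) x) ^ 2 +
      8 * (pd b F x - pd b (v : E n → ℝ) x) ^ 2 := by
  have dF := test_diff hF x
  have dw := test_diff w.2 x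
  have dv := test_diff v.2 x
  have hu : ((w - (2 : ℝ) • v : TS n) : E n → ℝ) = fun z => (w : E n → ℝ) z - 2 * (v : E n → ℝ) z := by
    funext z
    rfl
  have du : DifferentiableAt ℝ (fun z => (w : E n → ℝ) z - 2 * (v : E n → ℝ) z) x :=
    dw.sub (dv.const_mul 2)
  rw [hu]
  by_cases hd : DifferentiableAt ℝ (Lop ψ F) x
  · have e1 : pd b (fun z => Lop ψ F z + F z + ((w : E n → ℝ) z - 2 * (v : E n → ℝ) z)) x =
        pd b (Lop ψ F) x + pd b F x + (pd b (w : E n → ℝ) x - 2 * pd b (v : E n → ℝ) x) := by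
      have := ((hd.hasFDerivAt.add dF.hasFDerivAt).add
        (dw.hasFDerivAt.sub (dv.hasFDerivAt.const_mul 2))).fderiv
      unfold pd
      refine (congrArg (fun l : E n →L[ℝ] ℝ => l (ei b)) this).trans ?_
      simp
    have e2 : pd b (fun z => F z - Lop ψ F z - (w : E n → ℝ) z) x =
        pd b F x - pd b (Lop ψ F) x - pd b (w : E n → ℝ) x := by
      have := ((dF.hasFDerivAt.sub hd.hasFDerivAt).sub dw.hasFDerivAt).fderiv
      unfold pd
      refine (congrArg (fun l : E n →L[ℝ] ℝ => l (ei b)) this).trans ?_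
      simp
    rw [e1, e2]
    nlinarith [sq_nonneg ((pd b F x - pd b (Lop ψ F) x - pd b (w : E n → ℝ) x) +
      2 * (pd b F x - pd b (v : E n → ℝ) x))]
  · have e1 : pd b (fun z => Lop ψ F z + F z + ((w : E n → ℝ) z - 2 * (v : E n → ℝ) z)) x = 0 := by
      have hnd : ¬ DifferentiableAt ℝ
          (fun z => Lop ψ F z + F z + ((w : E n → ℝ) z - 2 * (v : E n → ℝ) z)) x := by
        intro hdd
        apply hd
        have := (hdd.sub du).sub dF
        refine this.congr_of_eventuallyEq (Eventually.of_forall fun z => ?_)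
        simp only [Pi.sub_apply]
        ring
      unfold pd
      rw [fderiv_zero_of_not_differentiableAt hnd]
      rfl
    rw [e1]
    have p1 := sq_nonneg (pd b (fun z => F z - Lop ψ F z - (w : E n → ℝ) z) x)
    have p2 := sq_nonneg (pd b F x - pd b (v : E n → ℝ) x)
    linarith

/-! ### the assembly -/

theorem stmtLin_of (hI : StmtIBP) (hE : StmtESA) (hB : StmtBoch) (hCo : StmtConst)
    (hAf : StmtAff) (hH1 : StmtH1) (hHi : StmtHilb) : StmtLin := by
  intro n ψ V c C M hN h r hrc hre hrb hr0 ε hε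
  have hZ := hN.toReg.Z_pos
  have hr : Gr r := by
    obtain ⟨B, hB⟩ := hrb
    refine ⟨hrc, |B|, 2, abs_nonneg _, fun x => (hB x).trans ?_⟩
    have h1 : B * (1 + ‖x‖ ^ 2) ≤ |B| * (1 + ‖x‖ ^ 2) :=
      mul_le_mul_of_nonneg_right (le_abs_self B) (by positivity)
    refine h1.trans (mul_le_mul_of_nonneg_left ?_ (abs_nonneg B))
    nlinarith [norm_nonneg x]
  set Z := ∫ x, Real.exp (-V x) with hZd
  obtain ⟨w, v, hv, hu⟩ := hHi (TS n) (Lp ℝ 2 (mu V)) (J hN.toReg) (A hN.toReg h)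
    (fun f g => by
      rw [inner_A_J hI hN h, real_inner_comm, inner_A_J hI hN h, DD_comm h])
    (fun f => by
      rw [inner_A_J hI hN h]
      have := DD_nonneg hN h (f : E n → ℝ)
      have := mul_nonneg hZ.le this
      linarith)
    (dense hE hN h) ((memLp_gr hN.toReg hr).toLp r)
    (fun g f h1 h2 => k0 hI hCo hN h hr hr0 g f h1 h2)
    (fun g f h1 h2 => k1 hI hB hAf hN h hr hre hr0 g f h1 h2)
    (Real.sqrt (ε * Z)) (by positivity)
  have q1 : Tendsto (fun i => Ex V (fun x => ((v i : E n → ℝ) x - Lop ψ (v i : E n → ℝ) x -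
      (w : E n → ℝ) x) ^ 2)) atTop (𝓝 0) := by
    have h1 := tends_norm Z hv
    refine h1.congr fun i => ?_
    have m1 := memLp_gr hN.toReg (test_gr (v i).2)
    have m2 := memLp_gr hN.toReg (gr_Lop h (v i).2)
    have m3 := memLp_gr hN.toReg (test_gr w.2)
    have e1 := Ex_norm hN.toReg (f := (v i : E n → ℝ) - Lop ψ (v i : E n → ℝ) - (w : E n → ℝ))
      ((m1.sub m2).sub m3)
    have e2 : Ex V (fun x => ((v i : E n → ℝ) x - Lop ψ (v i : E n → ℝ) x - (w : E n → ℝ) x) ^ 2) =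
      Ex V (fun x => (((v i : E n → ℝ) - Lop ψ (v i : E n → ℝ) - (w : E n → ℝ)) x) ^ 2) := rfl
    rw [e2, e1, MemLp.toLp_sub (m1.sub m2) m3, MemLp.toLp_sub m1 m2, ← A_apply hN.toReg h,
      ← J_apply hN.toReg, ← J_apply hN.toReg]
  have q2 : ∀ ε' > 0, ∃ N : ℕ, ∀ i ≥ N, ∀ j ≥ N, Ex V (fun x =>
      ((v i : E n → ℝ) x - (v j : E n → ℝ) x) ^ 2
      + (∑ a, (pd a (v i : E n → ℝ) x - pd a (v j : E n → ℝ) x) ^ 2)
      + ∑ a, ∑ b, (hess (v i : E n → ℝ) x a b - hess (v j : E n → ℝ) x a b) ^ 2) ≤ ε' := by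
    intro ε' hε'
    have hK : 0 < 1 + |C| + |C| ^ 2 := by positivity
    have hc := hv.cauchySeq
    rw [Metric.cauchySeq_iff] at hc
    obtain ⟨N, hNc⟩ := hc (Real.sqrt (ε' * Z / (1 + |C| + |C| ^ 2))) (by positivity)
    refine ⟨N, fun i hi j hj => ?_⟩
    have h1 := h2_bound hI hB hN h (v i - v j)
    have h2 := hNc i hi j hj
    rw [dist_eq_norm] at h2
    have h3 : J hN.toReg (v i - v j) - A hN.toReg h (v i - v j) =
        (J hN.toReg (v i) - A hN.toReg h (v i)) - (J hN.toReg (v j) - A hN.toReg h (v j)) := by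
      rw [map_sub, map_sub]
      abel
    rw [h3] at h1
    have h4 : ‖(J hN.toReg (v i) - A hN.toReg h (v i)) -
        (J hN.toReg (v j) - A hN.toReg h (v j))‖ ^ 2 ≤ ε' * Z / (1 + |C| + |C| ^ 2) := by
      have := pow_le_pow_left₀ (norm_nonneg _) h2.le 2
      rwa [Real.sq_sqrt (by positivity)] at this
    have h5 : (1 + |C| + |C| ^ 2) * (‖(J hN.toReg (v i) - A hN.toReg h (v i)) -
        (J hN.toReg (v j) - A hN.toReg h (v j))‖ ^ 2 / Z) ≤ ε' := by
      calc _ ≤ (1 + |C| + |C| ^ 2) * ((ε' * Z / (1 + |C| + |C| ^ 2)) / Z) := by gcongr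
        _ = ε' := by field_simp
    refine le_trans (le_of_eq ?_) (h1.trans h5)
    congr 1
    funext x
    have hsub : ((v i - v j : TS n) : E n → ℝ) = (v i : E n → ℝ) + (-1 : ℝ) • (v j : E n → ℝ) := by
      funext z
      show (v i : E n → ℝ) z - (v j : E n → ℝ) z = (v i : E n → ℝ) z + (-1 : ℝ) * (v j : E n → ℝ) z
      ring
    have hneg : Test ((-1 : ℝ) • (v j : E n → ℝ)) := ((-1 : ℝ) • v j : TS n).2
    rw [hsub]
    simp only [pd_add (test_diff (v i).2) (test_diff hneg), pd_smul (test_diff (v j).2),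
      hess_add (v i).2 hneg, hess_smul (v j).2, Pi.add_apply, Pi.smul_apply, smul_eq_mul]
    congr 1
    · congr 1
      · ring
      · exact Finset.sum_congr rfl fun a _ => by ring
    · exact Finset.sum_congr rfl fun a _ => Finset.sum_congr rfl fun b _ => by ring
  obtain ⟨B, hBB⟩ := hH1 n ψ V c C M hN h w (fun i => (v i : E n → ℝ)) w.2 (fun i => (v i).2)
    q1 q2
  refine ⟨B, fun δ hδ => ?_⟩
  obtain ⟨F, N, hF, hF1, hF2, hF3⟩ := hBB (δ / 10) (by positivity)
  refine ⟨F, ((w - (2 : ℝ) • v N : TS n) : E n → ℝ), hF, (w - (2 : ℝ) • v N : TS n).2, ?_, ?_,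
    hF3⟩
  · have mA := memLp_gr hN.toReg (gr_Lop h (w - (2 : ℝ) • v N : TS n).2)
    have mr := memLp_gr hN.toReg hr
    have e1 := Ex_norm hN.toReg (f := Lop ψ ((w - (2 : ℝ) • v N : TS n) : E n → ℝ) + r)
      (mA.add mr)
    have e2 : Ex V (fun x => (Lop ψ ((w - (2 : ℝ) • v N : TS n) : E n → ℝ) x + r x) ^ 2) =
      Ex V (fun x => ((Lop ψ ((w - (2 : ℝ) • v N : TS n) : E n → ℝ) + r) x) ^ 2) := rfl
    rw [e2, e1, MemLp.toLp_add mA mr, ← A_apply hN.toReg h, add_comm]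
    have h1 := hu N
    rw [div_le_iff₀ hZ]
    calc ‖(memLp_gr hN.toReg hr).toLp r + A hN.toReg h (w - (2 : ℝ) • v N)‖ ^ 2
        ≤ (Real.sqrt (ε * Z)) ^ 2 := pow_le_pow_left₀ (norm_nonneg _) h1 2
      _ = ε * Z := Real.sq_sqrt (by positivity)
  · have i1 : Integrable (fun x => (∑ b, (pd b (fun z => F z - Lop ψ F z - (w : E n → ℝ) z) x) ^ 2)
        * Real.exp (-V x)) :=
      BL.integrable hN.toReg (((BL.of_test hF).sub (BL.lop h hF)).sub (BL.of_test w.2))
    have g2 : Gr (fun x => ∑ b, (pd b F x - pd b (v N : E n → ℝ) x) ^ 2) :=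
      Gr.sum _ fun b _ => ((test_gr (test_pd hF b)).sub (test_gr (test_pd (v N).2 b))).pow 2
    have i2 := hN.toReg.integrable_gr g2
    have i1' : Integrable (fun x =>
        (2 * ∑ b, (pd b (fun z => F z - Lop ψ F z - (w : E n → ℝ) z) x) ^ 2)
        * Real.exp (-V x)) := by
      refine (i1.const_mul 2).congr (Eventually.of_forall fun x => ?_)
      simp only []
      ring
    have i2' : Integrable (fun x => (8 * ∑ b, (pd b F x - pd b (v N : E n → ℝ) x) ^ 2)
        * Real.exp (-V x)) := by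
      refine (i2.const_mul 8).congr (Eventually.of_forall fun x => ?_)
      simp only []
      ring
    have i3 : Integrable (fun x =>
        ((2 * ∑ b, (pd b (fun z => F z - Lop ψ F z - (w : E n → ℝ) z) x) ^ 2) +
        8 * ∑ b, (pd b F x - pd b (v N : E n → ℝ) x) ^ 2) * Real.exp (-V x)) := by
      refine (i1'.add i2').congr (Eventually.of_forall fun x => ?_)
      simp only [Pi.add_apply]
      ring
    have m1 : Ex V (fun x => ∑ b, (pd b (fun z => Lop ψ F z + F z +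
        ((w - (2 : ℝ) • v N : TS n) : E n → ℝ) z) x) ^ 2) ≤
        Ex V (fun x => (2 * ∑ b, (pd b (fun z => F z - Lop ψ F z - (w : E n → ℝ) z) x) ^ 2) +
        8 * ∑ b, (pd b F x - pd b (v N : E n → ℝ) x) ^ 2) := by
      refine Ex_mono' hN.toReg (fun x => Finset.sum_nonneg fun b _ => sq_nonneg _) i3
        fun x => ?_
      rw [Finset.mul_sum, Finset.mul_sum, ← Finset.sum_add_distrib]
      exact Finset.sum_le_sum fun b _ => pt_le h hF w (v N) b x
    rw [Ex_add' i1' i2', Ex_const_mul, Ex_const_mul] at m1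
    have m2 := hF2 N le_rfl
    linarith
end Vale.Agent.P227.M.LIN.T332
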