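import Vale.Agent.P227.M.Bas
import Vale.Agent.P227.M.ID.Reg169
import Vale.Agent.P227.M.LIN.Iface

/-! # P227/M/LIN: service file for the assembly of `StmtLin` (helper332). -/

open MeasureTheory Filter Matrix
open scoped Topology

namespace Vale.Agent.P227.M.LIN.T332

variable {n : ℕ} {ψ V : E n → ℝ} {c C M : ℝ}

/-! ### traces -/

theorem trace_conj (P Y : Matrix (Fin n) (Fin n) ℝ) :
    (Y * P * Yᵀ).trace = ∑ a, qf P (WithLp.toLp 2 (Y a) : E n) := by
  unfold Matrix.trace qf
  refine Finset.sum_congr rfl fun a _ => ?_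
  rw [Matrix.diag_apply, Matrix.mul_apply, Finset.sum_comm]
  refine Finset.sum_congr rfl fun j _ => ?_
  rw [Matrix.mul_apply, Finset.sum_mul]
  refine Finset.sum_congr rfl fun i _ => ?_
  rw [Matrix.transpose_apply]
  show Y a i * P i j * Y a j = P i j * Y a i * Y a j
  ring

theorem sum_sq_le (h : MM ψ V c C M) (x : E n) (Y : Matrix (Fin n) (Fin n) ℝ) :
    ∑ a, ∑ b, Y a b ^ 2 ≤ |C| * (Y * tau ψ x * Yᵀ).trace := by
  rw [trace_conj, Finset.mul_sum]
  refine Finset.sum_le_sum fun a _ => ?_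
  have h1 := ID169.qf_tau_lower h x (WithLp.toLp 2 (Y a) : E n)
  have h2 := ID169.qf_tau_nonneg h x (WithLp.toLp 2 (Y a) : E n)
  have h3 : ‖(WithLp.toLp 2 (Y a) : E n)‖ ^ 2 = ∑ b, Y a b ^ 2 := by
    rw [norm_sq_eq_sum]
  rw [h3] at h1
  exact h1.trans (mul_le_mul_of_nonneg_right (le_abs_self C) h2)

open scoped MatrixOrder Matrix.Norms.L2Operator in
theorem root (h : MM ψ V c C M) (x : E n) : ∃ B : Matrix (Fin n) (Fin n) ℝ, tau ψ x = Bᵀ * B := by
  obtain ⟨B, hB⟩ := CStarAlgebra.nonneg_iff_eq_star_mul_self.1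
    (ID169.tau_posDef h x).posSemidef.nonneg
  refine ⟨B, ?_⟩
  rw [hB]
  rfl

theorem trace_eq_sum (Y : Matrix (Fin n) (Fin n) ℝ) : (Y * Yᵀ).trace = ∑ a, ∑ b, Y a b ^ 2 := by
  unfold Matrix.trace
  refine Finset.sum_congr rfl fun a _ => ?_
  rw [Matrix.diag_apply, Matrix.mul_apply]
  exact Finset.sum_congr rfl fun b _ => by rw [Matrix.transpose_apply]; ring

/-- `|N|² ≤ C² tr (τ N τ N)` -/
theorem hess_le (h : MM ψ V c C M) (x : E n) {N : Matrix (Fin n) (Fin n) ℝ} (hN : Nᵀ = N) :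
    ∑ a, ∑ b, N a b ^ 2 ≤ |C| ^ 2 * (tau ψ x * N * tau ψ x * N).trace := by
  obtain ⟨B, hB⟩ := root h x
  have h1 := sum_sq_le h x N
  have h2 := sum_sq_le h x (B * N)
  rw [← trace_eq_sum, Matrix.transpose_mul, hN] at h2
  rw [hN] at h1
  have e1 : (B * N * (N * Bᵀ)).trace = (N * tau ψ x * N).trace := by
    have t1 : B * N * (N * Bᵀ) = (B * N * N) * Bᵀ := by simp only [Matrix.mul_assoc]
    have t2 : Bᵀ * (B * N * N) = (Bᵀ * B) * (N * N) := by simp only [Matrix.mul_assoc]
    have t3 : N * tau ψ x * N = N * (tau ψ x * N) := Matrix.mul_assoc _ _ _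
    rw [t1, Matrix.trace_mul_comm, t2, ← hB, t3, Matrix.trace_mul_comm N, Matrix.mul_assoc]
  have e2 : (B * N * tau ψ x * (N * Bᵀ)).trace = (tau ψ x * N * tau ψ x * N).trace := by
    have t1 : B * N * tau ψ x * (N * Bᵀ) = (B * N * tau ψ x * N) * Bᵀ := by
      simp only [Matrix.mul_assoc]
    have t2 : Bᵀ * (B * N * tau ψ x * N) = (Bᵀ * B) * N * tau ψ x * N := by
      simp only [Matrix.mul_assoc]
    rw [t1, Matrix.trace_mul_comm, t2, ← hB]
  rw [e1, e2] at h2
  calc ∑ a, ∑ b, N a b ^ 2 ≤ |C| * (N * tau ψ x * N).trace := h1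
    _ ≤ |C| * (|C| * (tau ψ x * N * tau ψ x * N).trace) :=
        mul_le_mul_of_nonneg_left h2 (abs_nonneg C)
    _ = _ := by ring

/-! ### the measure `mu V` -/

theorem meas_dens (hV : Continuous V) : Measurable fun x : E n => ENNReal.ofReal (Real.exp (-V x)) :=
  ENNReal.measurable_ofReal.comp (Real.continuous_exp.comp hV.neg).measurable

theorem integral_mu (hV : Continuous V) (f : E n → ℝ) :
    ∫ x, f x ∂(mu V) = ∫ x, f x * Real.exp (-V x) := by
  unfold mu
  rw [integral_withDensity_eq_integral_toReal_smul (meas_dens hV)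
    (Filter.Eventually.of_forall fun x => ENNReal.ofReal_lt_top)]
  refine integral_congr_ae (Filter.Eventually.of_forall fun x => ?_)
  show (ENNReal.ofReal (Real.exp (-V x))).toReal • f x = _
  rw [ENNReal.toReal_ofReal (Real.exp_pos _).le, smul_eq_mul, mul_comm]

theorem integrable_mu (hV : Continuous V) (f : E n → ℝ) :
    Integrable f (mu V) ↔ Integrable (fun x => f x * Real.exp (-V x)) := by
  unfold mu
  rw [integrable_withDensity_iff (meas_dens hV)
    (Filter.Eventually.of_forall fun x => ENNReal.ofReal_lt_top)]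
  have : (fun x => f x * (ENNReal.ofReal (Real.exp (-V x))).toReal) =
      fun x => f x * Real.exp (-V x) := by
    funext x
    rw [ENNReal.toReal_ofReal (Real.exp_pos _).le]
  rw [this]

theorem ae_mu {p : E n → Prop} (h : ∀ᵐ x, p x) : ∀ᵐ x ∂(mu V), p x :=
  (withDensity_absolutelyContinuous _ _).ae_le h

theorem memLp_gr (hV : Reg V c C) {f : E n → ℝ} (hf : Gr f) : MemLp f 2 (mu V) := by
  rw [memLp_two_iff_integrable_sq hf.cont.aestronglyMeasurable, integrable_mu hV.cont]
  exact hV.integrable_gr (hf.pow 2)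

theorem Ex_eq (hV : Continuous V) (f : E n → ℝ) :
    Ex V f = (∫ x, f x ∂(mu V)) / ∫ x, Real.exp (-V x) := by
  rw [integral_mu hV]; rfl

/-! ### test functions -/

/-- the submodule of test functions -/
def TS (n : ℕ) : Submodule ℝ (E n → ℝ) where
  carrier := {f | Test f}
  zero_mem' := ⟨contDiff_const, HasCompactSupport.zero⟩
  add_mem' := fun ha hb => ⟨ha.1.add hb.1, ha.2.add hb.2⟩
  smul_mem' := fun a f hf => ⟨contDiff_const.smul hf.1, hf.2.smul_left (f := fun _ => a)⟩

theorem test_diff {f : E n → ℝ} (hf : Test f) : Differentiable ℝ f :=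
  hf.1.differentiable (by simp)

theorem test_pd {f : E n → ℝ} (hf : Test f) (i : Fin n) : Test (pd i f) :=
  ⟨contDiff_pd_top hf.1 i, hf.2.fderiv_apply (𝕜 := ℝ) (ei i)⟩

theorem test_hess {f : E n → ℝ} (hf : Test f) (i j : Fin n) : Test (fun x => hess f x i j) :=
  test_pd (test_pd hf j) i

theorem test_gr {f : E n → ℝ} (hf : Test f) : Gr f := Gr.of_test hf.1.continuous hf.2

theorem pd_add {f g : E n → ℝ} (hf : Differentiable ℝ f) (hg : Differentiable ℝ g) (i : Fin n) :
    pd i (f + g) = pd i f + pd i g := by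
  funext x
  unfold pd
  rw [fderiv_add (hf x) (hg x)]
  rfl

theorem pd_smul {f : E n → ℝ} (hf : Differentiable ℝ f) (a : ℝ) (i : Fin n) :
    pd i (a • f) = a • pd i f := by
  funext x
  unfold pd
  rw [fderiv_const_smul (hf x)]
  rfl

theorem hess_add {f g : E n → ℝ} (hf : Test f) (hg : Test g) (x : E n) (i j : Fin n) :
    hess (f + g) x i j = hess f x i j + hess g x i j := by
  unfold hess
  rw [pd_add (test_diff hf) (test_diff hg),
    pd_add (test_diff (test_pd hf j)) (test_diff (test_pd hg j))]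
  rfl

theorem hess_smul {f : E n → ℝ} (hf : Test f) (a : ℝ) (x : E n) (i j : Fin n) :
    hess (a • f) x i j = a * hess f x i j := by
  unfold hess
  rw [pd_smul (test_diff hf), pd_smul (test_diff (test_pd hf j))]
  rfl

theorem Lop_add {f g : E n → ℝ} (hf : Test f) (hg : Test g) (x : E n) :
    Lop ψ (f + g) x = Lop ψ f x + Lop ψ g x := by
  unfold Lop
  simp only [hess_add hf hg, pd_add (test_diff hf) (test_diff hg), Pi.add_apply, mul_add,
    Finset.sum_add_distrib]
  ring

theorem Lop_smul {f : E n → ℝ} (hf : Test f) (a : ℝ) (x : E n) :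
    Lop ψ (a • f) x = a * Lop ψ f x := by
  unfold Lop
  simp only [hess_smul hf, pd_smul (test_diff hf), Pi.smul_apply, smul_eq_mul]
  rw [mul_sub, Finset.mul_sum, Finset.mul_sum]
  congr 1
  · refine Finset.sum_congr rfl fun i _ => ?_
    rw [Finset.mul_sum]
    exact Finset.sum_congr rfl fun j _ => by ring
  · exact Finset.sum_congr rfl fun i _ => by ring

theorem gr_tau (h : MM ψ V c C M) (i j : Fin n) : Gr (fun x => tau ψ x i j) :=
  Gr.of_bound (ID169.tau_lipschitz h i j).continuous fun x => ID169.abs_tau_le h x i j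

theorem gr_Lop (h : MM ψ V c C M) {f : E n → ℝ} (hf : Test f) : Gr (Lop ψ f) := by
  unfold Lop
  refine Gr.sub (Gr.sum _ fun i _ => Gr.sum _ fun j _ => ?_) (Gr.sum _ fun i _ => ?_)
  · exact (gr_tau h i j).mul (test_gr (test_hess hf i j))
  · exact (Gr.coord i).mul (test_gr (test_pd hf i))

theorem gr_fld (h : MM ψ V c C M) {f : E n → ℝ} (hf : Test f) (b : Fin n) : Gr (fld ψ f b) := by
  unfold fld
  exact Gr.sum _ fun i _ => (gr_tau h b i).mul (test_gr (test_pd hf i))

end Vale.Agent.P227.M.LIN.T332
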