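import Vale.Agent.P227.M.LIN.Top332A

/-! # P227/M/LIN: the Hilbert space maps `J f = f`, `A f = L f` in `L²(e^{-V})` (helper332). -/

open MeasureTheory Filter
open scoped Topology

namespace Vale.Agent.P227.M.LIN.T332

variable {n : ℕ} {ψ V : E n → ℝ} {c C M : ℝ}

/-! ### expectations -/

theorem Ex_nonneg (hV : Reg V c C) {f : E n → ℝ} (h : ∀ x, 0 ≤ f x) : 0 ≤ Ex V f :=
  div_nonneg (integral_nonneg fun x => mul_nonneg (h x) (Real.exp_pos _).le) hV.Z_pos.le

theorem Ex_mono' (hV : Reg V c C) {f g : E n → ℝ} (hf : ∀ x, 0 ≤ f x)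
    (hg : Integrable (fun x => g x * Real.exp (-V x))) (h : ∀ x, f x ≤ g x) : Ex V f ≤ Ex V g := by
  refine div_le_div_of_nonneg_right ?_ hV.Z_pos.le
  refine integral_mono_of_nonneg (Eventually.of_forall fun x => mul_nonneg (hf x) (Real.exp_pos _).le)
    hg (Eventually.of_forall fun x => mul_le_mul_of_nonneg_right (h x) (Real.exp_pos _).le)

theorem Ex_mono (hV : Reg V c C) {f g : E n → ℝ} (hf : ∀ x, 0 ≤ f x) (hg : Gr g)
    (h : ∀ x, f x ≤ g x) : Ex V f ≤ Ex V g := Ex_mono' hV hf (hV.integrable_gr hg) h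

theorem Ex_add' {f g : E n → ℝ} (hf : Integrable (fun x => f x * Real.exp (-V x)))
    (hg : Integrable (fun x => g x * Real.exp (-V x))) :
    Ex V (fun x => f x + g x) = Ex V f + Ex V g := by
  unfold Ex
  rw [← add_div, ← integral_add hf hg]
  congr 1
  exact integral_congr_ae (Eventually.of_forall fun x => by simp only []; ring)

theorem Ex_add (hV : Reg V c C) {f g : E n → ℝ} (hf : Gr f) (hg : Gr g) :
    Ex V (fun x => f x + g x) = Ex V f + Ex V g :=
  Ex_add' (hV.integrable_gr hf) (hV.integrable_gr hg)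

theorem Ex_const_mul (a : ℝ) (f : E n → ℝ) : Ex V (fun x => a * f x) = a * Ex V f := by
  unfold Ex
  rw [← mul_div_assoc, ← integral_const_mul]
  congr 1
  exact integral_congr_ae (Eventually.of_forall fun x => by simp only []; ring)

/-! ### inner products -/

theorem inner_toLp {f g : E n → ℝ} (hf : MemLp f 2 (mu V)) (hg : MemLp g 2 (mu V)) :
    inner ℝ (hf.toLp f) (hg.toLp g) = ∫ x, f x * g x ∂(mu V) := by
  rw [L2.inner_def]
  refine integral_congr_ae ?_
  filter_upwards [hf.coeFn_toLp, hg.coeFn_toLp] with x h1 h2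
  rw [h1, h2]
  simp [mul_comm]

theorem inner_Ex (hV : Reg V c C) {f g : E n → ℝ} (hf : MemLp f 2 (mu V)) (hg : MemLp g 2 (mu V)) :
    inner ℝ (hf.toLp f) (hg.toLp g) = (∫ x, Real.exp (-V x)) * Ex V (fun x => f x * g x) := by
  rw [inner_toLp, Ex_eq hV.cont]
  have := hV.Z_pos.ne'
  field_simp

theorem norm_Ex (hV : Reg V c C) {f : E n → ℝ} (hf : MemLp f 2 (mu V)) :
    ‖hf.toLp f‖ ^ 2 = (∫ x, Real.exp (-V x)) * Ex V (fun x => f x ^ 2) := by
  rw [← real_inner_self_eq_norm_sq, inner_Ex hV]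
  congr 2
  funext x
  ring

theorem Ex_norm (hV : Reg V c C) {f : E n → ℝ} (hf : MemLp f 2 (mu V)) :
    Ex V (fun x => f x ^ 2) = ‖hf.toLp f‖ ^ 2 / ∫ x, Real.exp (-V x) := by
  rw [norm_Ex hV hf]
  have := hV.Z_pos.ne'
  field_simp

/-! ### the maps -/

/-- the inclusion -/
noncomputable def J (hV : Reg V c C) : TS n →ₗ[ℝ] Lp ℝ 2 (mu V) where
  toFun f := (memLp_gr hV (test_gr f.2)).toLp (f : E n → ℝ)
  map_add' f g := by
    rw [← MemLp.toLp_add]
    rfl
  map_smul' a f := by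
    rw [RingHom.id_apply, ← MemLp.toLp_const_smul]
    rfl

/-- the operator -/
noncomputable def A (hV : Reg V c C) (h : MM ψ V c C M) : TS n →ₗ[ℝ] Lp ℝ 2 (mu V) where
  toFun f := (memLp_gr hV (gr_Lop h f.2)).toLp (Lop ψ (f : E n → ℝ))
  map_add' f g := by
    rw [← MemLp.toLp_add]
    refine MemLp.toLp_congr _ _ (Eventually.of_forall fun x => ?_)
    exact Lop_add f.2 g.2 x
  map_smul' a f := by
    rw [RingHom.id_apply, ← MemLp.toLp_const_smul]
    refine MemLp.toLp_congr _ _ (Eventually.of_forall fun x => ?_)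
    exact Lop_smul f.2 a x

theorem J_apply (hV : Reg V c C) (f : TS n) :
    J hV f = (memLp_gr hV (test_gr f.2)).toLp (f : E n → ℝ) := rfl

theorem A_apply (hV : Reg V c C) (h : MM ψ V c C M) (f : TS n) :
    A hV h f = (memLp_gr hV (gr_Lop h f.2)).toLp (Lop ψ (f : E n → ℝ)) := rfl

/-! ### the energy -/

/-- the energy form -/
noncomputable def DD (ψ V : E n → ℝ) (f g : E n → ℝ) : ℝ :=
  Ex V (fun x => ∑ b, pd b f x * fld ψ g b x)

theorem DD_comm (h : MM ψ V c C M) (f g : E n → ℝ) : DD ψ V f g = DD ψ V g f := by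
  unfold DD fld
  congr 1
  funext x
  simp only [Finset.mul_sum]
  rw [Finset.sum_comm]
  refine Finset.sum_congr rfl fun i _ => Finset.sum_congr rfl fun j _ => ?_
  rw [ID169.tau_symm h x j i]
  ring

theorem inner_A_J (hI : StmtIBP) (hN : Nice V c C) (h : MM ψ V c C M) (u f : TS n) :
    inner ℝ (A hN.toReg h u) (J hN.toReg f) =
      -((∫ x, Real.exp (-V x)) * DD ψ V (f : E n → ℝ) u) := by
  rw [A_apply, J_apply, inner_Ex hN.toReg]
  have h1 := hI n ψ V c C M hN h u f u.2 f.2.1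
  have h2 : Ex V (fun x => -(Lop ψ (u : E n → ℝ) x) * (f : E n → ℝ) x) =
      -1 * Ex V (fun x => Lop ψ (u : E n → ℝ) x * (f : E n → ℝ) x) := by
    rw [← Ex_const_mul]
    congr 1
    funext x
    ring
  unfold DD
  rw [← h1, h2]
  ring

theorem grad_le (h : MM ψ V c C M) (x : E n) (f : E n → ℝ) :
    ∑ b, pd b f x ^ 2 ≤ |C| * ∑ b, pd b f x * fld ψ f b x := by
  have h1 := ID169.qf_tau_lower h x (WithLp.toLp 2 (fun b => pd b f x) : E n)
  have h2 := ID169.qf_tau_nonneg h x (WithLp.toLp 2 (fun b => pd b f x) : E n)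
  have h3 : ‖(WithLp.toLp 2 (fun b => pd b f x) : E n)‖ ^ 2 = ∑ b, pd b f x ^ 2 := by
    rw [norm_sq_eq_sum]
  have h4 : qf (tau ψ x) (WithLp.toLp 2 (fun b => pd b f x) : E n) =
      ∑ b, pd b f x * fld ψ f b x := by
    unfold qf fld
    refine Finset.sum_congr rfl fun i _ => ?_
    rw [Finset.mul_sum]
    refine Finset.sum_congr rfl fun j _ => ?_
    show tau ψ x i j * pd i f x * pd j f x = _
    ring
  rw [h3, h4] at h1
  rw [h4] at h2
  exact h1.trans (mul_le_mul_of_nonneg_right (le_abs_self C) h2)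

theorem qnn (h : MM ψ V c C M) (x : E n) (f : E n → ℝ) :
    0 ≤ ∑ b, pd b f x * fld ψ f b x := by
  have h2 := ID169.qf_tau_nonneg h x (WithLp.toLp 2 (fun b => pd b f x) : E n)
  have h4 : qf (tau ψ x) (WithLp.toLp 2 (fun b => pd b f x) : E n) =
      ∑ b, pd b f x * fld ψ f b x := by
    unfold qf fld
    refine Finset.sum_congr rfl fun i _ => ?_
    rw [Finset.mul_sum]
    refine Finset.sum_congr rfl fun j _ => ?_
    show tau ψ x i j * pd i f x * pd j f x = _
    ring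
  rwa [h4] at h2

theorem DD_nonneg (hN : Nice V c C) (h : MM ψ V c C M) (f : E n → ℝ) : 0 ≤ DD ψ V f f :=
  Ex_nonneg hN.toReg fun x => qnn h x f

theorem gr_DD (h : MM ψ V c C M) {f : E n → ℝ} (hf : Test f) :
    Gr (fun x => ∑ b, pd b f x * fld ψ f b x) :=
  Gr.sum _ fun b _ => (test_gr (test_pd hf b)).mul (gr_fld h hf b)

theorem grad_Ex_le (hN : Nice V c C) (h : MM ψ V c C M) {f : E n → ℝ} (hf : Test f) :
    Ex V (fun x => ∑ b, pd b f x ^ 2) ≤ |C| * DD ψ V f f := by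
  unfold DD
  rw [← Ex_const_mul]
  exact Ex_mono hN.toReg (fun x => Finset.sum_nonneg fun b _ => sq_nonneg _)
    ((gr_DD h hf).const_mul |C|) fun x => grad_le h x f

theorem gr_tr (h : MM ψ V c C M) {f : E n → ℝ} (hf : Test f) :
    Gr (fun x => (tau ψ x * hess f x * tau ψ x * hess f x).trace) := by
  have : (fun x => (tau ψ x * hess f x * tau ψ x * hess f x).trace) =
      fun x => ∑ i, ∑ l, (∑ k, (∑ j, tau ψ x i j * hess f x j k) * tau ψ x k l) * hess f x l i := by
    funext x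
    simp only [Matrix.trace, Matrix.diag_apply, Matrix.mul_apply]
  rw [this]
  refine Gr.sum _ fun i _ => Gr.sum _ fun l _ => Gr.mul (Gr.sum _ fun k _ => Gr.mul
    (Gr.sum _ fun j _ => ?_) (gr_tau h k l)) (test_gr (test_hess hf l i))
  exact (gr_tau h i j).mul (test_gr (test_hess hf j k))

theorem hess_Ex_le (hN : Nice V c C) (h : MM ψ V c C M) {f : E n → ℝ} (hf : Test f) :
    Ex V (fun x => ∑ a, ∑ b, hess f x a b ^ 2) ≤
      |C| ^ 2 * Ex V (fun x => (tau ψ x * hess f x * tau ψ x * hess f x).trace) := by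
  rw [← Ex_const_mul]
  refine Ex_mono hN.toReg (fun x => Finset.sum_nonneg fun a _ => Finset.sum_nonneg fun b _ =>
    sq_nonneg _) ((gr_tr h hf).const_mul _) fun x => ?_
  exact hess_le h x (hess_isSymm (hf.1.of_le (by norm_cast)) x)

/-- the three energies -/
theorem norm_sub_sq (hI : StmtIBP) (hN : Nice V c C) (h : MM ψ V c C M) (g : TS n) :
    ‖J hN.toReg g - A hN.toReg h g‖ ^ 2 = ‖J hN.toReg g‖ ^ 2 +
      2 * ((∫ x, Real.exp (-V x)) * DD ψ V (g : E n → ℝ) g) + ‖A hN.toReg h g‖ ^ 2 := by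
  rw [@norm_sub_sq_real, real_inner_comm, inner_A_J hI hN h]
  ring

end Vale.Agent.P227.M.LIN.T332
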