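import Vale.Agent.P227.M.LIN.Top671C

/-! P227, block LIN: `StmtLin` (helper671). -/

open MeasureTheory Filter
open scoped Topology NNReal

namespace Vale.Agent.P227.M.LIN.X671

variable {n : ℕ} {ψ V : E n → ℝ} {c C M : ℝ}

/-- Lipschitz functions -/
def LB (f : E n → ℝ) : Prop := ∃ K : ℝ≥0, LipschitzWith K f

theorem LB.add {f g : E n → ℝ} (hf : LB f) (hg : LB g) : LB (fun x => f x + g x) := by
  obtain ⟨K, hK⟩ := hf
  obtain ⟨K', hK'⟩ := hg
  exact ⟨K + K', hK.add hK'⟩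

theorem LB.sub {f g : E n → ℝ} (hf : LB f) (hg : LB g) : LB (fun x => f x - g x) := by
  obtain ⟨K, hK⟩ := hf
  obtain ⟨K', hK'⟩ := hg
  exact ⟨K + K', hK.sub hK'⟩

theorem LB.sum {ι : Type*} (s : Finset ι) {f : ι → E n → ℝ} (hf : ∀ i ∈ s, LB (f i)) :
    LB (fun x => ∑ i ∈ s, f i x) := by
  classical
  induction s using Finset.induction_on with
  | empty => exact ⟨0, by simpa using LipschitzWith.const (0 : ℝ)⟩
  | insert a s ha ih =>
    simp only [Finset.sum_insert ha]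
    exact (hf a (by simp)).add (ih fun i hi => hf i (by simp [hi]))

theorem LB.mul {f g : E n → ℝ} (hf : LB f) (hg : LB g) {A B : ℝ} (hA : ∀ x, |f x| ≤ A)
    (hB : ∀ x, |g x| ≤ B) : LB (fun x => f x * g x) := by
  obtain ⟨K, hK⟩ := hf
  obtain ⟨K', hK'⟩ := hg
  have hA0 : 0 ≤ A := (abs_nonneg _).trans (hA 0)
  have hB0 : 0 ≤ B := (abs_nonneg _).trans (hB 0)
  refine ⟨A.toNNReal * K' + B.toNNReal * K, LipschitzWith.of_dist_le_mul fun x y => ?_⟩
  have h1 := hK.dist_le_mul x y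
  have h2 := hK'.dist_le_mul x y
  rw [Real.dist_eq] at h1 h2 ⊢
  have e : f x * g x - f y * g y = f x * (g x - g y) + g y * (f x - f y) := by ring
  rw [e]
  refine (abs_add_le _ _).trans ?_
  rw [abs_mul, abs_mul]
  have h3 : |f x| * |g x - g y| ≤ A * (K' * dist x y) :=
    mul_le_mul (hA x) h2 (abs_nonneg _) hA0
  have h4 : |g y| * |f x - f y| ≤ B * (K * dist x y) :=
    mul_le_mul (hB y) h1 (abs_nonneg _) hB0
  have e2 : ((A.toNNReal * K' + B.toNNReal * K : ℝ≥0) : ℝ) * dist x y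
      = A * (K' * dist x y) + B * (K * dist x y) := by
    rw [NNReal.coe_add, NNReal.coe_mul, NNReal.coe_mul, Real.coe_toNNReal A hA0,
      Real.coe_toNNReal B hB0]
    ring
  rw [e2]
  exact add_le_add h3 h4

theorem test_LB {f : E n → ℝ} (hf : Test f) : LB f :=
  hf.1.lipschitzWith_of_hasCompactSupport hf.2 (by simp)

theorem test_bdd {f : E n → ℝ} (hf : Test f) : ∃ B, ∀ x, |f x| ≤ B := by
  obtain ⟨B, hB⟩ := hf.2.exists_bound_of_continuous hf.1.continuous
  exact ⟨B, fun x => by simpa using hB x⟩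

theorem test_mul_coord {f : E n → ℝ} (hf : Test f) (i : Fin n) :
    Test (fun x : E n => x i * f x) := by
  refine ⟨?_, (CC.mul (by fun_prop) (test_cc hf)).2⟩
  have h1 : ContDiff ℝ (⊤ : ℕ∞) (fun x : E n => x i) := by fun_prop
  exact h1.mul hf.1

theorem Lop_LB (hM : MM ψ V c C M) {f : E n → ℝ} (hf : Test f) : LB (Lop ψ f) := by
  unfold Lop
  obtain ⟨K, hK⟩ := AE.tau_lip hM
  refine LB.sub ?_ ?_
  · refine LB.sum _ fun i _ => LB.sum _ fun j _ => ?_
    obtain ⟨B, hB⟩ := test_bdd (test_hess hf i j)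
    exact LB.mul ⟨K, hK i j⟩ (test_LB (test_hess hf i j)) (fun x => AE.tau_bound hM x i j) hB
  · exact LB.sum _ fun i _ => test_LB (test_mul_coord (test_pd hf i) i)

theorem integrable_pd_sq (h : Nice V c C) {g : E n → ℝ} (hg : LB g) (b : Fin n) :
    Integrable fun x => (pd b g x) ^ 2 * Real.exp (-V x) := by
  obtain ⟨K, hK⟩ := hg
  have h1 : Integrable fun x => (K : ℝ) ^ 2 * Real.exp (-V x) :=
    h.toReg.integrable_exp.const_mul _
  refine h1.mono' ?_ (Eventually.of_forall fun x => ?_)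
  · have hm : Measurable (pd b g) := measurable_fderiv_apply_const ℝ g (ei b)
    exact ((hm.pow_const 2).mul
      (Real.continuous_exp.comp h.toReg.cont.neg).measurable).aestronglyMeasurable
  · rw [Real.norm_eq_abs, abs_of_nonneg (by positivity)]
    refine mul_le_mul_of_nonneg_right ?_ (Real.exp_pos _).le
    have h2 : |pd b g x| ≤ K := (abs_pd_le_norm g x b).trans (norm_fderiv_le_of_lipschitz ℝ hK)
    rw [← sq_abs]
    exact pow_le_pow_left₀ (abs_nonneg _) h2 2

theorem norm_Hil (h : Nice V c C) (hM : MM ψ V c C M) (u : TS n) {r : E n → ℝ}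
    (hr : MemLp r 2 (mu V)) :
    Ex V (fun x => (Lop ψ (u : E n → ℝ) x + r x) ^ 2)
      = ‖hr.toLp r + Am h hM u‖ ^ 2 / ∫ x, Real.exp (-V x) := by
  have e : hr.toLp r + Am h hM u
      = (hr.add (memLp_cc h (Lop_cc hM (TS.test u)))).toLp (r + Lop ψ (u : E n → ℝ)) := by
    rw [MemLp.toLp_add hr (memLp_cc h (Lop_cc hM (TS.test u)))]
    rfl
  rw [e, norm_sq_toLp h]
  have := (Z_pos h).ne'
  field_simp
  simp only [Pi.add_apply, add_comm]

theorem norm_JAw (h : Nice V c C) (hM : MM ψ V c C M) (v w : TS n) :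
    Ex V (fun x => ((v : E n → ℝ) x - Lop ψ v x - (w : E n → ℝ) x) ^ 2)
      = ‖Jm h v - Am h hM v - Jm h w‖ ^ 2 / ∫ x, Real.exp (-V x) := by
  have e : Jm h v - Am h hM v - Jm h w
      = (((memLp_cc h (test_cc (TS.test v))).sub (memLp_cc h (Lop_cc hM (TS.test v)))).sub
          (memLp_cc h (test_cc (TS.test w)))).toLp
          ((v : E n → ℝ) - Lop ψ (v : E n → ℝ) - (w : E n → ℝ)) := by
    rw [MemLp.toLp_sub ((memLp_cc h (test_cc (TS.test v))).sub
      (memLp_cc h (Lop_cc hM (TS.test v)))) (memLp_cc h (test_cc (TS.test w))),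
      MemLp.toLp_sub (memLp_cc h (test_cc (TS.test v))) (memLp_cc h (Lop_cc hM (TS.test v)))]
    rfl
  rw [e, norm_sq_toLp h]
  have := (Z_pos h).ne'
  field_simp
  rfl

/-- second order energy is controlled by `(1 - L) d` -/
theorem full_energy (hI : StmtIBP) (hB : StmtBoch) (h : Nice V c C) (hM : MM ψ V c C M)
    (d : TS n) :
    Ex V (fun x => (d : E n → ℝ) x ^ 2 + (∑ a, (pd a (d : E n → ℝ) x) ^ 2)
      + ∑ a, ∑ b, (hess (d : E n → ℝ) x a b) ^ 2) ≤
      (1 + 2 * max C c + 2 * (max C c) ^ 2) / (∫ x, Real.exp (-V x)) *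
        ‖Jm h d - Am h hM d‖ ^ 2 := by
  have hC' : 0 < max C c := lt_max_of_lt_right hM.c_pos
  have hZ := Z_pos h
  have hn := norm_i_le (Jm h) (Am h hM) (fun u => AJ_neg h hM hI u) d
  have hn1 : ‖Jm h d‖ ≤ ‖Jm h d - Am h hM d‖ := hn.1
  have hn2 : ‖Am h hM d‖ ≤ ‖Jm h d - Am h hM d‖ := hn.2
  have hd := TS.test d
  rw [ex_add h ((test_cc hd).sq.add (CC.sum _ fun a _ => (test_cc (test_pd hd a)).sq))
    (CC.sum _ fun a _ => CC.sum _ fun b _ => (test_cc (test_hess hd a b)).sq),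
    ex_add h (test_cc hd).sq (CC.sum _ fun a _ => (test_cc (test_pd hd a)).sq)]
  have e1 : Ex V (fun x => (d : E n → ℝ) x ^ 2) = ‖Jm h d‖ ^ 2 / ∫ x, Real.exp (-V x) := by
    rw [Jm_apply, norm_sq_toLp h]
    field_simp
  have hin : |inner ℝ (Am h hM d) (Jm h d)| ≤ ‖Jm h d - Am h hM d‖ ^ 2 := by
    refine (abs_real_inner_le_norm _ _).trans ?_
    rw [sq]
    exact mul_le_mul hn2 hn1 (norm_nonneg _) (norm_nonneg _)
  have hs1 : ‖Jm h d‖ ^ 2 ≤ ‖Jm h d - Am h hM d‖ ^ 2 := pow_le_pow_left₀ (norm_nonneg _) hn1 2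
  have hs2 : ‖Am h hM d‖ ^ 2 ≤ ‖Jm h d - Am h hM d‖ ^ 2 := pow_le_pow_left₀ (norm_nonneg _) hn2 2
  have hin' := abs_le.1 hin
  set q : ℝ := ‖Jm h d - Am h hM d‖ ^ 2 with hq
  set Z : ℝ := ∫ x, Real.exp (-V x) with hZdef
  have g1 := grad_le h hM hI d
  have g2 := hess_le h hM hI hB d
  have t1 : -(max C c / Z * inner ℝ (Am h hM d) (Jm h d)) ≤ max C c / Z * q := by
    rw [← mul_neg]
    refine mul_le_mul_of_nonneg_left ?_ (by positivity)
    linarith
  have t2 : (max C c) ^ 2 / Z * (‖Am h hM d‖ ^ 2 + inner ℝ (Am h hM d) (Jm h d))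
      ≤ (max C c) ^ 2 / Z * (2 * q) := by
    refine mul_le_mul_of_nonneg_left ?_ (by positivity)
    linarith
  have t3 : ‖Jm h d‖ ^ 2 / Z ≤ q / Z := div_le_div_of_nonneg_right hs1 hZ.le
  rw [e1]
  have hq0 : 0 ≤ q := by positivity
  have t4 : (1 + 2 * max C c + 2 * (max C c) ^ 2) / Z * q
      = q / Z + (max C c / Z * q + max C c / Z * q) + (max C c) ^ 2 / Z * (2 * q) := by
    field_simp
    ring
  have t5 : 0 ≤ max C c / Z * q := by positivity
  rw [t4]
  linarith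

theorem stmtLin_of (hI : StmtIBP) (hE : StmtESA) (hB : StmtBoch) (hCst : StmtConst)
    (hA : StmtAff) (hH : StmtH1) : StmtLin := by
  intro n ψ V c C M h hM r hrc hre hrb hr0 ε hε
  obtain ⟨B0, hB0⟩ := hrb
  have hrg : Gr r := by
    refine ⟨hrc, max B0 0, 2, le_max_right _ _, fun x => (hB0 x).trans ?_⟩
    have h1 : B0 * (1 + ‖x‖ ^ 2) ≤ max B0 0 * (1 + ‖x‖ ^ 2) :=
      mul_le_mul_of_nonneg_right (le_max_left _ _) (by positivity)
    refine h1.trans (mul_le_mul_of_nonneg_left ?_ (le_max_right _ _))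
    nlinarith [norm_nonneg x]
  have hr := memLp_gr h hrg
  have hZ := Z_pos h
  obtain ⟨w, v, hv1, hv2⟩ := stmtHilb (TS n) (Lp ℝ 2 (mu V)) (Jm h) (Am h hM)
    (fun f g => AJ_symm h hM hI f g) (fun f => AJ_neg h hM hI f) (dense_JA hE h hM) (hr.toLp r)
    (fun g f h1 h2 => kerL hI hCst h hM hr hr0 g f h1 h2)
    (fun g f h1 h2 => kerL1 hI hB hA h hM hr hrg hre hr0 g f h1 h2)
    (Real.sqrt (ε * ∫ x, Real.exp (-V x))) (Real.sqrt_pos.2 (by positivity))
  have c1 : Tendsto (fun i => Ex V (fun x => ((v i : E n → ℝ) x - Lop ψ (v i) x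
      - (w : E n → ℝ) x) ^ 2)) atTop (𝓝 0) := by
    simp only [norm_JAw h hM]
    have h1 : Tendsto (fun i => Jm h (v i) - Am h hM (v i) - Jm h w) atTop
        (𝓝 (Jm h w - Jm h w)) := hv1.sub tendsto_const_nhds
    rw [sub_self] at h1
    have h2 := (h1.norm.pow 2).div_const (∫ x, Real.exp (-V x))
    simpa using h2
  have c2 : ∀ ε > 0, ∃ N : ℕ, ∀ i ≥ N, ∀ j ≥ N, Ex V (fun x => ((v i : E n → ℝ) x
      - (v j : E n → ℝ) x) ^ 2
      + (∑ a, (pd a (v i : E n → ℝ) x - pd a (v j : E n → ℝ) x) ^ 2)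
      + ∑ a, ∑ b, (hess (v i : E n → ℝ) x a b - hess (v j : E n → ℝ) x a b) ^ 2) ≤ ε := by
    intro η hη
    have hC' : 0 < max C c := lt_max_of_lt_right hM.c_pos
    set K : ℝ := (1 + 2 * max C c + 2 * (max C c) ^ 2) / (∫ x, Real.exp (-V x)) with hK
    have hKpos : 0 < K := by positivity
    have hcau := hv1.cauchySeq
    obtain ⟨N, hN⟩ := Metric.cauchySeq_iff.1 hcau (Real.sqrt (η / K)) (Real.sqrt_pos.2 (by positivity))
    refine ⟨N, fun i hi j hj => ?_⟩
    have h1 := hN i hi j hj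
    have h2 := full_energy hI hB h hM (v i - v j)
    have e1 : Jm h (v i - v j) - Am h hM (v i - v j)
        = (Jm h (v i) - Am h hM (v i)) - (Jm h (v j) - Am h hM (v j)) := by
      rw [map_sub, map_sub]
      abel
    rw [e1] at h2
    rw [dist_eq_norm] at h1
    have h3 : ‖(Jm h (v i) - Am h hM (v i)) - (Jm h (v j) - Am h hM (v j))‖ ^ 2 ≤ η / K := by
      have h4 := Real.sq_sqrt (show 0 ≤ η / K by positivity)
      rw [← h4]
      exact pow_le_pow_left₀ (norm_nonneg _) h1.le 2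
    have h5 : K * ‖(Jm h (v i) - Am h hM (v i)) - (Jm h (v j) - Am h hM (v j))‖ ^ 2 ≤ η := by
      calc _ ≤ K * (η / K) := mul_le_mul_of_nonneg_left h3 hKpos.le
        _ = η := by field_simp
    refine le_trans (le_of_eq ?_) (h2.trans h5)
    congr 1
    ext x
    have hvi := TS.test (v i)
    have hvj := TS.test (v j)
    have q1 : ((v i - v j : TS n) : E n → ℝ) = (v i : E n → ℝ) + (-1 : ℝ) • (v j : E n → ℝ) := by
      ext y
      simp [sub_eq_add_neg]
    have q2 : ∀ a, pd a ((v i - v j : TS n) : E n → ℝ) x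
        = pd a (v i : E n → ℝ) x - pd a (v j : E n → ℝ) x := by
      intro a
      rw [q1, pd_add' (test_diff hvi) (test_diff (test_smul _ hvj)), pd_smul' _ (test_diff hvj)]
      simp [sub_eq_add_neg]
    have q3 : ∀ a b, hess ((v i - v j : TS n) : E n → ℝ) x a b
        = hess (v i : E n → ℝ) x a b - hess (v j : E n → ℝ) x a b := by
      intro a b
      rw [q1, hess_add' hvi (test_smul _ hvj), hess_smul' _ hvj]
      simp [sub_eq_add_neg]
    simp only [q2, q3]
    rfl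
  obtain ⟨B, hBd⟩ := hH n ψ V c C M h hM (w : E n → ℝ) (fun i => (v i : E n → ℝ)) (TS.test w)
    (fun i => TS.test (v i)) c1 c2
  refine ⟨B, fun δ hδ => ?_⟩
  obtain ⟨F, N, hF, h1, h2, h3⟩ := hBd (δ / 16) (by positivity)
  refine ⟨F, ((w - (2 : ℝ) • v N : TS n) : E n → ℝ), hF, TS.test _, ?_, ?_, h3⟩
  · rw [norm_Hil h hM _ hr, div_le_iff₀ hZ]
    have h4 := hv2 N
    have h5 := Real.sq_sqrt (show 0 ≤ ε * ∫ x, Real.exp (-V x) by positivity)
    rw [← h5]
    exact pow_le_pow_left₀ (norm_nonneg _) h4 2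
  · have hN := h2 N le_rfl
    have i1 : Integrable fun x => (2 * (∑ b, (pd b (fun z => F z - Lop ψ F z
        - (w : E n → ℝ) z) x) ^ 2)) * Real.exp (-V x) := by
      have : (fun x => (2 * (∑ b, (pd b (fun z => F z - Lop ψ F z
        - (w : E n → ℝ) z) x) ^ 2)) * Real.exp (-V x))
        = fun x => 2 * ∑ b, ((pd b (fun z => F z - Lop ψ F z - (w : E n → ℝ) z) x) ^ 2
          * Real.exp (-V x)) := by
        ext x
        rw [← Finset.sum_mul]
        ring
      rw [this]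
      refine (integrable_finsetSum _ fun b _ => ?_).const_mul 2
      exact integrable_pd_sq h (LB.sub (LB.sub (test_LB hF) (Lop_LB hM hF))
        (test_LB (TS.test w))) b
    have i2 : Integrable fun x => (8 * ∑ b, (pd b F x - pd b (v N : E n → ℝ) x) ^ 2)
        * Real.exp (-V x) := by
      refine integrable_cc h ?_
      refine CC.mul continuous_const (CC.sum _ fun b _ => ?_)
      exact ((test_cc (test_pd hF b)).sub (test_cc (test_pd (TS.test (v N)) b))).sq
    have key : Ex V (fun x => ∑ b, (pd b (fun z => Lop ψ F z + F z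
        + ((w - (2 : ℝ) • v N : TS n) : E n → ℝ) z) x) ^ 2)
        ≤ 2 * Ex V (fun x => ∑ b, (pd b (fun z => F z - Lop ψ F z - (w : E n → ℝ) z) x) ^ 2)
          + 8 * Ex V (fun x => ∑ b, (pd b F x - pd b (v N : E n → ℝ) x) ^ 2) := by
      rw [← ex_const_mul, ← ex_const_mul]
      unfold Ex
      rw [← add_div, ← integral_add i1 i2]
      refine div_le_div_of_nonneg_right ?_ hZ.le
      refine integral_mono_of_nonneg (Eventually.of_forall fun x => ?_) (i1.add i2)
        (Eventually.of_forall fun x => ?_)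
      · exact mul_nonneg (Finset.sum_nonneg fun b _ => sq_nonneg _) (Real.exp_pos _).le
      · simp only [Pi.add_apply]
        rw [← add_mul]
        refine mul_le_mul_of_nonneg_right ?_ (Real.exp_pos _).le
        rw [Finset.mul_sum, Finset.mul_sum, ← Finset.sum_add_distrib]
        refine Finset.sum_le_sum fun b _ => ?_
        exact Lop_ptw ψ F 0 w (v N) hF (TS.test w) (TS.test (v N)) b x
    linarith

end Vale.Agent.P227.M.LIN.X671
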