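import Vale.Agent.P227.M.LIN.Iface
import Vale.Agent.P227.M.LIN.AE
import Vale.Agent.P227.M.LIN.HilbPf671
import Vale.Agent.P227.M.LIN.MatX671

/-! P227, block LIN: set-up of the assembly (helper671). -/

open MeasureTheory Filter
open scoped Topology NNReal

namespace Vale.Agent.P227.M.LIN.X671

variable {n : ℕ}

/-- continuous functions with compact support -/
def CC (f : E n → ℝ) : Prop := Continuous f ∧ HasCompactSupport f

theorem CC.add {f g : E n → ℝ} (hf : CC f) (hg : CC g) : CC (fun x => f x + g x) :=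
  ⟨hf.1.add hg.1, hf.2.add hg.2⟩

theorem CC.zero : CC (fun _ : E n => (0 : ℝ)) := ⟨continuous_const, HasCompactSupport.zero⟩

theorem CC.mul {f g : E n → ℝ} (hf : Continuous f) (hg : CC g) : CC (fun x => f x * g x) :=
  ⟨hf.mul hg.1, hg.2.mul_left⟩

theorem CC.neg {f : E n → ℝ} (hf : CC f) : CC (fun x => -f x) := by
  have := CC.mul (f := fun _ => (-1 : ℝ)) continuous_const hf
  simpa using this

theorem CC.sub {f g : E n → ℝ} (hf : CC f) (hg : CC g) : CC (fun x => f x - g x) := by
  simpa [sub_eq_add_neg] using hf.add hg.neg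

theorem CC.sum {ι : Type*} (s : Finset ι) {f : ι → E n → ℝ} (hf : ∀ i ∈ s, CC (f i)) :
    CC (fun x => ∑ i ∈ s, f i x) := by
  classical
  induction s using Finset.induction_on with
  | empty => simpa using CC.zero
  | insert a s ha ih =>
    simp only [Finset.sum_insert ha]
    exact (hf a (by simp)).add (ih fun i hi => hf i (by simp [hi]))

theorem CC.sq {f : E n → ℝ} (hf : CC f) : CC (fun x => f x ^ 2) := by
  have e : (fun x => f x ^ 2) = fun x => f x * f x := by
    ext x
    ring
  rw [e]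
  exact CC.mul hf.1 hf

theorem test_cc {f : E n → ℝ} (hf : Test f) : CC f := ⟨hf.1.continuous, hf.2⟩

theorem test_pd {f : E n → ℝ} (hf : Test f) (i : Fin n) : Test (pd i f) := by
  refine ⟨contDiff_pd_top hf.1 i, ?_⟩
  have h := hf.2.fderiv (𝕜 := ℝ)
  exact h.comp_left (g := fun L : E n →L[ℝ] ℝ => L (ei i)) (by simp)

theorem test_hess {f : E n → ℝ} (hf : Test f) (i j : Fin n) : Test (fun x => hess f x i j) :=
  test_pd (test_pd hf j) i

theorem test_add {f g : E n → ℝ} (hf : Test f) (hg : Test g) : Test (f + g) :=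
  ⟨hf.1.add hg.1, hf.2.add hg.2⟩

theorem test_smul {f : E n → ℝ} (a : ℝ) (hf : Test f) : Test (a • f) := by
  refine ⟨hf.1.const_smul a, ?_⟩
  have := CC.mul (f := fun _ => a) continuous_const (test_cc hf)
  exact this.2

theorem test_zero : Test (0 : E n → ℝ) := ⟨contDiff_const, HasCompactSupport.zero⟩

/-- the space of test functions -/
def TS (n : ℕ) : Submodule ℝ (E n → ℝ) where
  carrier := {f | Test f}
  add_mem' := fun hf hg => test_add hf hg
  zero_mem' := test_zero
  smul_mem' := fun a _ hf => test_smul a hf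

theorem TS.test (f : TS n) : Test (f : E n → ℝ) := f.2

theorem pd_add' {f g : E n → ℝ} (hf : Differentiable ℝ f) (hg : Differentiable ℝ g) (i : Fin n) :
    pd i (f + g) = pd i f + pd i g := by
  ext x
  simp only [pd, Pi.add_apply]
  rw [fderiv_add (hf x) (hg x)]
  rfl

theorem pd_smul' {f : E n → ℝ} (a : ℝ) (hf : Differentiable ℝ f) (i : Fin n) :
    pd i (a • f) = a • pd i f := by
  ext x
  simp only [pd, Pi.smul_apply]
  rw [fderiv_const_smul (hf x)]
  rfl

theorem test_diff {f : E n → ℝ} (hf : Test f) : Differentiable ℝ f :=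
  hf.1.differentiable (by simp)

theorem hess_add' {f g : E n → ℝ} (hf : Test f) (hg : Test g) (x : E n) :
    hess (f + g) x = hess f x + hess g x := by
  ext i j
  simp only [hess, Matrix.add_apply]
  rw [pd_add' (test_diff hf) (test_diff hg), pd_add' (test_diff (test_pd hf j))
    (test_diff (test_pd hg j))]
  rfl

theorem hess_smul' {f : E n → ℝ} (a : ℝ) (hf : Test f) (x : E n) :
    hess (a • f) x = a • hess f x := by
  ext i j
  simp only [hess, Matrix.smul_apply]
  rw [pd_smul' a (test_diff hf), pd_smul' a (test_diff (test_pd hf j))]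
  rfl

theorem Lop_add' (ψ : E n → ℝ) {f g : E n → ℝ} (hf : Test f) (hg : Test g) :
    Lop ψ (f + g) = Lop ψ f + Lop ψ g := by
  ext x
  simp only [Lop, Pi.add_apply]
  rw [hess_add' hf hg]
  simp only [Matrix.add_apply, mul_add, Finset.sum_add_distrib]
  have : ∀ i, pd i (f + g) x = pd i f x + pd i g x := fun i => by
    rw [pd_add' (test_diff hf) (test_diff hg)]; rfl
  simp only [this, mul_add, Finset.sum_add_distrib]
  ring

theorem Lop_smul' (ψ : E n → ℝ) (a : ℝ) {f : E n → ℝ} (hf : Test f) :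
    Lop ψ (a • f) = a • Lop ψ f := by
  ext x
  simp only [Lop, Pi.smul_apply, smul_eq_mul]
  rw [hess_smul' a hf]
  have : ∀ i, pd i (a • f) x = a * pd i f x := fun i => by
    rw [pd_smul' a (test_diff hf)]; rfl
  simp only [this, Matrix.smul_apply, smul_eq_mul, mul_sub, Finset.mul_sum]
  congr 1
  · refine Finset.sum_congr rfl fun i _ => Finset.sum_congr rfl fun j _ => by ring
  · refine Finset.sum_congr rfl fun i _ => by ring

section mm

variable {ψ V : E n → ℝ} {c C M : ℝ}

theorem mm_lower (h : MM ψ V c C M) (x : E n) (p : Fin n → ℝ) :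
    c * ∑ i, p i ^ 2 ≤ qd (hess ψ x) p := by
  have h1 := h.lower x (WithLp.toLp 2 p)
  rw [norm_sq_eq_sum] at h1
  simpa [qf, qd] using h1

theorem mm_upper (h : MM ψ V c C M) (x : E n) (p : Fin n → ℝ) :
    qd (hess ψ x) p ≤ C * ∑ i, p i ^ 2 := by
  have h1 := h.upper x (WithLp.toLp 2 p)
  rw [norm_sq_eq_sum] at h1
  simpa [qf, qd] using h1

theorem tau_lower (h : MM ψ V c C M) (hC : 0 < C) (x : E n) (p : Fin n → ℝ) :
    C⁻¹ * ∑ i, p i ^ 2 ≤ qd (tau ψ x) p :=
  inv_lower (hess_isSymm h.C2 x) h.c_pos hC (mm_lower h x) (mm_upper h x) p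

theorem tau_isSymm (h : MM ψ V c C M) (x : E n) : (tau ψ x).IsSymm :=
  inv_isSymm (hess_isSymm h.C2 x)

theorem tau_cont (h : MM ψ V c C M) (i j : Fin n) : Continuous fun x => tau ψ x i j := by
  obtain ⟨K, hK⟩ := AE.tau_lip h
  exact (hK i j).continuous

theorem Lop_cc (h : MM ψ V c C M) {f : E n → ℝ} (hf : Test f) : CC (Lop ψ f) := by
  unfold Lop
  refine CC.sub ?_ ?_
  · refine CC.sum _ fun i _ => CC.sum _ fun j _ => ?_
    exact CC.mul (tau_cont h i j) (test_cc (test_hess hf i j))
  · refine CC.sum _ fun i _ => ?_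
    exact CC.mul (by fun_prop) (test_cc (test_pd hf i))

end mm

section measure

variable {V : E n → ℝ} {c C : ℝ}

theorem mu_finite (h : Nice V c C) : IsFiniteMeasure (mu V) := by
  have h1 := h.toReg.integrable_exp
  exact isFiniteMeasure_withDensity_ofReal h1.2

theorem integral_mu (h : Nice V c C) (f : E n → ℝ) :
    ∫ x, f x ∂(mu V) = ∫ x, f x * Real.exp (-V x) := by
  have hm : Measurable fun x => ENNReal.ofReal (Real.exp (-V x)) :=
    (Real.continuous_exp.comp h.toReg.cont.neg).measurable.ennreal_ofReal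
  unfold mu
  rw [integral_withDensity_eq_integral_toReal_smul hm (Eventually.of_forall fun x => by simp)]
  refine integral_congr_ae (Eventually.of_forall fun x => ?_)
  simp only [smul_eq_mul]
  rw [ENNReal.toReal_ofReal (Real.exp_pos _).le, mul_comm]

theorem mu_ac : mu V ≪ (volume : Measure (E n)) := withDensity_absolutelyContinuous _ _

theorem memLp_cc (h : Nice V c C) {f : E n → ℝ} (hf : CC f) : MemLp f 2 (mu V) := by
  have := mu_finite h
  exact hf.1.memLp_of_hasCompactSupport hf.2

theorem memLp_gr (h : Nice V c C) {f : E n → ℝ} (hf : Gr f) : MemLp f 2 (mu V) := by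
  have := mu_finite h
  rw [memLp_two_iff_integrable_sq hf.cont.aestronglyMeasurable]
  have hm : Measurable fun x => ENNReal.ofReal (Real.exp (-V x)) :=
    (Real.continuous_exp.comp h.toReg.cont.neg).measurable.ennreal_ofReal
  unfold mu
  rw [integrable_withDensity_iff hm (Eventually.of_forall fun x => by simp)]
  have h1 := h.toReg.integrable_gr (hf.pow 2)
  refine h1.congr (Eventually.of_forall fun x => ?_)
  simp only
  rw [ENNReal.toReal_ofReal (Real.exp_pos _).le]

theorem Z_pos (h : Nice V c C) : 0 < ∫ x, Real.exp (-V x) := h.toReg.Z_pos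

theorem inner_toLp (h : Nice V c C) {f g : E n → ℝ} (hf : MemLp f 2 (mu V))
    (hg : MemLp g 2 (mu V)) :
    inner ℝ (hf.toLp f) (hg.toLp g) = ∫ x, f x * g x * Real.exp (-V x) := by
  rw [L2.inner_def, ← integral_mu h]
  refine integral_congr_ae ?_
  filter_upwards [hf.coeFn_toLp, hg.coeFn_toLp] with x h1 h2
  rw [h1, h2]
  simp [mul_comm]

theorem inner_toLp_ex (h : Nice V c C) {f g : E n → ℝ} (hf : MemLp f 2 (mu V))
    (hg : MemLp g 2 (mu V)) :
    inner ℝ (hf.toLp f) (hg.toLp g) = (∫ x, Real.exp (-V x)) * Ex V (fun x => f x * g x) := by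
  rw [inner_toLp h, Ex]
  field_simp [(Z_pos h).ne']

theorem norm_sq_toLp (h : Nice V c C) {f : E n → ℝ} (hf : MemLp f 2 (mu V)) :
    ‖hf.toLp f‖ ^ 2 = (∫ x, Real.exp (-V x)) * Ex V (fun x => f x ^ 2) := by
  rw [← real_inner_self_eq_norm_sq, inner_toLp_ex h]
  simp only [sq]

end measure

end Vale.Agent.P227.M.LIN.X671
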