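import Vale.Agent.P227.M.LIN.Top671A

/-! P227, block LIN: the operators on `L²(μ)` (helper671). -/

open MeasureTheory Filter
open scoped Topology NNReal

namespace Vale.Agent.P227.M.LIN.X671

variable {n : ℕ} {ψ V : E n → ℝ} {c C M : ℝ}

theorem integrable_cc (h : Nice V c C) {f : E n → ℝ} (hf : CC f) :
    Integrable fun x => f x * Real.exp (-V x) := by
  have h1 : CC fun x => Real.exp (-V x) * f x :=
    CC.mul (Real.continuous_exp.comp h.toReg.cont.neg) hf
  have h2 := h1.1.integrable_of_hasCompactSupport (μ := volume) h1.2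
  refine h2.congr (Eventually.of_forall fun x => ?_)
  simp only
  ring

theorem ex_mono (h : Nice V c C) {f g : E n → ℝ} (hf : CC f) (hg : CC g)
    (hfg : ∀ x, f x ≤ g x) : Ex V f ≤ Ex V g := by
  unfold Ex
  refine div_le_div_of_nonneg_right ?_ (Z_pos h).le
  refine integral_mono (integrable_cc h hf) (integrable_cc h hg) fun x => ?_
  exact mul_le_mul_of_nonneg_right (hfg x) (Real.exp_pos _).le

theorem ex_nonneg {f : E n → ℝ} (hf : ∀ x, 0 ≤ f x) : 0 ≤ Ex V f := by
  unfold Ex
  refine div_nonneg (integral_nonneg fun x => mul_nonneg (hf x) (Real.exp_pos _).le)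
    (integral_nonneg fun x => (Real.exp_pos _).le)

theorem ex_neg (f : E n → ℝ) : Ex V (fun x => -f x) = -Ex V f := by
  unfold Ex
  rw [← neg_div, ← integral_neg]
  simp only [neg_mul]

theorem ex_const_mul (a : ℝ) (f : E n → ℝ) : Ex V (fun x => a * f x) = a * Ex V f := by
  unfold Ex
  rw [mul_div_assoc', ← integral_const_mul]
  simp only [mul_assoc]

theorem ex_add (h : Nice V c C) {f g : E n → ℝ} (hf : CC f) (hg : CC g) :
    Ex V (fun x => f x + g x) = Ex V f + Ex V g := by
  unfold Ex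
  rw [← add_div, ← integral_add (integrable_cc h hf) (integrable_cc h hg)]
  simp only [add_mul]

/-- energy density -/
noncomputable def en (ψ : E n → ℝ) (f g : E n → ℝ) (x : E n) : ℝ := ∑ b, pd b g x * fld ψ f b x

theorem en_symm (hM : MM ψ V c C M) (f g : E n → ℝ) (x : E n) : en ψ f g x = en ψ g f x := by
  unfold en fld
  simp only [Finset.mul_sum]
  rw [Finset.sum_comm]
  refine Finset.sum_congr rfl fun a _ => Finset.sum_congr rfl fun b _ => ?_
  rw [AE.tau_symm hM x b a]
  ring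

theorem en_cc (hM : MM ψ V c C M) {f g : E n → ℝ} (hf : Test f) (hg : Test g) :
    CC (en ψ f g) := by
  unfold en fld
  refine CC.sum _ fun b _ => ?_
  refine CC.mul (test_cc (test_pd hg b)).1 ?_
  refine CC.sum _ fun a _ => ?_
  exact CC.mul (tau_cont hM b a) (test_cc (test_pd hf a))

/-- `C' = max C c` is positive even for `n = 0` -/
theorem tau_lower' (h : MM ψ V c C M) (x : E n) (p : Fin n → ℝ) :
    (max C c)⁻¹ * ∑ i, p i ^ 2 ≤ qd (tau ψ x) p := by
  refine inv_lower (hess_isSymm h.C2 x) h.c_pos (lt_max_of_lt_right h.c_pos) (mm_lower h x)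
    (fun p => (mm_upper h x p).trans ?_) p
  exact mul_le_mul_of_nonneg_right (le_max_left _ _) (Finset.sum_nonneg fun i _ => sq_nonneg _)

theorem en_lower (hM : MM ψ V c C M) (f : E n → ℝ) (x : E n) :
    (max C c)⁻¹ * ∑ b, (pd b f x) ^ 2 ≤ en ψ f f x := by
  have h := tau_lower' hM x (fun b => pd b f x)
  refine h.trans (le_of_eq ?_)
  unfold qd en fld
  refine Finset.sum_congr rfl fun a _ => ?_
  rw [Finset.mul_sum]
  exact Finset.sum_congr rfl fun b _ => by ring

theorem en_nonneg (hM : MM ψ V c C M) (f : E n → ℝ) (x : E n) : 0 ≤ en ψ f f x := by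
  refine le_trans ?_ (en_lower hM f x)
  have : 0 < max C c := lt_max_of_lt_right hM.c_pos
  exact mul_nonneg (inv_pos.2 this).le (Finset.sum_nonneg fun i _ => sq_nonneg _)

/-- `J` -/
noncomputable def Jm (h : Nice V c C) : TS n →ₗ[ℝ] Lp ℝ 2 (mu V) where
  toFun f := (memLp_cc h (test_cc (TS.test f))).toLp (f : E n → ℝ)
  map_add' f g := by
    rw [← MemLp.toLp_add]
    rfl
  map_smul' a f := by
    rw [RingHom.id_apply, ← MemLp.toLp_const_smul]
    rfl

/-- `A = L` -/
noncomputable def Am (h : Nice V c C) (hM : MM ψ V c C M) : TS n →ₗ[ℝ] Lp ℝ 2 (mu V) where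
  toFun f := (memLp_cc h (Lop_cc hM (TS.test f))).toLp (Lop ψ f)
  map_add' f g := by
    rw [← MemLp.toLp_add]
    refine MemLp.toLp_congr _ _ (Eventually.of_forall fun x => ?_)
    have := Lop_add' ψ (TS.test f) (TS.test g)
    exact congrFun this x
  map_smul' a f := by
    rw [RingHom.id_apply, ← MemLp.toLp_const_smul]
    refine MemLp.toLp_congr _ _ (Eventually.of_forall fun x => ?_)
    have := Lop_smul' ψ a (TS.test f)
    exact congrFun this x

variable (h : Nice V c C) (hM : MM ψ V c C M)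

theorem Jm_apply (f : TS n) : Jm h f = (memLp_cc h (test_cc (TS.test f))).toLp (f : E n → ℝ) := rfl

theorem Am_apply (f : TS n) : Am h hM f = (memLp_cc h (Lop_cc hM (TS.test f))).toLp (Lop ψ f) := rfl

theorem inner_AJ (hI : StmtIBP) (f g : TS n) :
    inner ℝ (Am h hM f) (Jm h g) = -((∫ x, Real.exp (-V x)) * Ex V (en ψ f g)) := by
  rw [Am_apply, Jm_apply, inner_toLp_ex h]
  have h1 := hI n ψ V c C M h hM f g (TS.test f) (TS.test g).1
  have h2 : Ex V (fun x => -(Lop ψ f x) * (g : E n → ℝ) x)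
      = -Ex V (fun x => Lop ψ f x * (g : E n → ℝ) x) := by
    rw [← ex_neg]
    simp only [neg_mul]
  rw [h2] at h1
  have h3 : Ex V (en ψ f g) = Ex V (fun x => ∑ b, pd b (g : E n → ℝ) x * fld ψ f b x) := rfl
  rw [h3, ← h1]
  ring

theorem AJ_symm (hI : StmtIBP) (f g : TS n) :
    inner ℝ (Am h hM f) (Jm h g) = inner ℝ (Jm h f) (Am h hM g) := by
  rw [real_inner_comm (Am h hM g), inner_AJ h hM hI, inner_AJ h hM hI]
  have : en ψ (f : E n → ℝ) g = en ψ (g : E n → ℝ) f := by
    ext x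
    exact en_symm hM _ _ x
  rw [this]

theorem AJ_neg (hI : StmtIBP) (f : TS n) : inner ℝ (Am h hM f) (Jm h f) ≤ 0 := by
  rw [inner_AJ h hM hI]
  have h1 := ex_nonneg (V := V) (en_nonneg hM (f : E n → ℝ))
  have h2 := mul_nonneg (Z_pos h).le h1
  linarith

/-- gradient energy -/
theorem grad_le (hI : StmtIBP) (f : TS n) :
    Ex V (fun x => ∑ a, (pd a (f : E n → ℝ) x) ^ 2) ≤
      -(max C c / (∫ x, Real.exp (-V x)) * inner ℝ (Am h hM f) (Jm h f)) := by
  have hC' : 0 < max C c := lt_max_of_lt_right hM.c_pos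
  have hZ := Z_pos h
  have h1 : Ex V (fun x => (max C c)⁻¹ * ∑ b, (pd b (f : E n → ℝ) x) ^ 2)
      ≤ Ex V (en ψ (f : E n → ℝ) f) := by
    refine ex_mono h ?_ (en_cc hM (TS.test f) (TS.test f)) (en_lower hM _)
    exact CC.mul continuous_const (CC.sum _ fun b _ => (test_cc (test_pd (TS.test f) b)).sq)
  rw [ex_const_mul] at h1
  rw [inner_AJ h hM hI]
  have h2 : Ex V (fun x => ∑ a, (pd a (f : E n → ℝ) x) ^ 2)
      ≤ max C c * Ex V (en ψ (f : E n → ℝ) f) := by
    rw [inv_mul_le_iff₀ hC'] at h1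
    exact h1
  refine h2.trans (le_of_eq ?_)
  field_simp

/-- Hessian energy -/
theorem hess_le (hI : StmtIBP) (hB : StmtBoch) (f : TS n) :
    Ex V (fun x => ∑ a, ∑ b, (hess (f : E n → ℝ) x a b) ^ 2) ≤
      (max C c) ^ 2 / (∫ x, Real.exp (-V x)) *
        (‖Am h hM f‖ ^ 2 + inner ℝ (Am h hM f) (Jm h f)) := by
  have hC' : 0 < max C c := lt_max_of_lt_right hM.c_pos
  have hZ := Z_pos h
  have hb := hB n ψ V c C M h hM f (TS.test f)
  have hN : ‖Am h hM f‖ ^ 2 = (∫ x, Real.exp (-V x)) * Ex V (fun x => Lop ψ f x ^ 2) := by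
    rw [Am_apply, norm_sq_toLp h]
  have h3 : Ex V (en ψ (f : E n → ℝ) f)
      = Ex V (fun x => ∑ b, pd b (f : E n → ℝ) x * fld ψ f b x) := rfl
  rw [hN, inner_AJ h hM hI, hb, h3]
  have h1 : Ex V (fun x => ((max C c)⁻¹) ^ 2 * ∑ a, ∑ b, (hess (f : E n → ℝ) x a b) ^ 2)
      ≤ Ex V (fun x => (tau ψ x * hess f x * tau ψ x * hess f x).trace) := by
    refine ex_mono h ?_ ?_ fun x => ?_
    · exact CC.mul continuous_const (CC.sum _ fun a _ => CC.sum _ fun b _ =>
        (test_cc (test_hess (TS.test f) a b)).sq)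
    · simp only [Matrix.trace, Matrix.diag_apply, Matrix.mul_apply]
      refine CC.sum _ fun i _ => CC.sum _ fun j _ => ?_
      refine CC.mul ?_ (test_cc (test_hess (TS.test f) j i))
      refine continuous_finsetSum _ fun k _ => ?_
      refine Continuous.mul ?_ (tau_cont hM k j)
      refine continuous_finsetSum _ fun l _ => ?_
      exact (tau_cont hM i l).mul (test_cc (test_hess (TS.test f) l k)).1
    · exact trace_lower (tau_isSymm hM x)
        (hess_isSymm ((TS.test f).1.of_le (by norm_cast)) x)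
        (inv_pos.2 hC').le (tau_lower' hM x)
  rw [ex_const_mul, inv_pow, inv_mul_le_iff₀ (by positivity)] at h1
  refine h1.trans (le_of_eq ?_)
  field_simp
  ring

end Vale.Agent.P227.M.LIN.X671
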