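import Vale.Agent.P227.M.LIN.Top671B

/-! P227, block LIN: the final assembly (helper671). -/

open MeasureTheory Filter
open scoped Topology NNReal

namespace Vale.Agent.P227.M.LIN.X671

variable {n : ℕ} {ψ V : E n → ℝ} {c C M : ℝ}

theorem toLp_coe (_h : Nice V c C) (g : Lp ℝ 2 (mu V)) : (Lp.memLp g).toLp g = g :=
  Lp.toLp_coeFn g (Lp.memLp g)

/-- density of the range of `1 - L` -/
theorem dense_JA (hE : StmtESA) (h : Nice V c C) (hM : MM ψ V c C M) :
    DenseRange fun f : TS n => Jm h f - Am h hM f := by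
  have e : (fun f : TS n => Jm h f - Am h hM f) = ⇑(Jm h - Am h hM) := rfl
  rw [e]
  have h0 : (LinearMap.range (Jm h - Am h hM))ᗮ = ⊥ := by
    rw [Submodule.eq_bot_iff]
    intro g hg
    have h1 : ∀ f : E n → ℝ, Test f →
        ∫ x, g x * (f x - Lop ψ f x) * Real.exp (-V x) = 0 := by
      intro f hf
      have h2 := (Submodule.mem_orthogonal _ _).1 hg _ ⟨(⟨f, hf⟩ : TS n), rfl⟩
      have h3 : (Jm h - Am h hM) (⟨f, hf⟩ : TS n)
          = ((memLp_cc h (test_cc hf)).sub (memLp_cc h (Lop_cc hM hf))).toLp (f - Lop ψ f) := by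
        rw [MemLp.toLp_sub (memLp_cc h (test_cc hf)) (memLp_cc h (Lop_cc hM hf))]
        rfl
      rw [h3, real_inner_comm] at h2
      have h4 := inner_toLp h (Lp.memLp g)
        ((memLp_cc h (test_cc hf)).sub (memLp_cc h (Lop_cc hM hf)))
      rw [toLp_coe h g, h2] at h4
      exact h4.symm
    have h5 := hE n ψ V c C M h hM g (Lp.memLp g) h1
    have h6 : (g : E n → ℝ) =ᵐ[mu V] 0 := mu_ac.ae_le h5
    exact (Lp.eq_zero_iff_ae_eq_zero).2 h6
  have h2 : (LinearMap.range (Jm h - Am h hM)).topologicalClosure = ⊤ :=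
    (Submodule.topologicalClosure_eq_top_iff).2 h0
  have h3 := Submodule.dense_iff_topologicalClosure_eq_top.2 h2
  rw [DenseRange, ← LinearMap.coe_range]
  exact h3

/-- `L²` distance as `Ex` -/
theorem norm_sub_sq (h : Nice V c C) {f g : E n → ℝ} (hf : MemLp f 2 (mu V))
    (hg : MemLp g 2 (mu V)) :
    Ex V (fun x => (f x - g x) ^ 2) = ‖hf.toLp f - hg.toLp g‖ ^ 2 / ∫ x, Real.exp (-V x) := by
  rw [← MemLp.toLp_sub, norm_sq_toLp h]
  have := (Z_pos h).ne'
  field_simp
  rfl

theorem ex_sub_sq (h : Nice V c C) (f : TS n) (g : Lp ℝ 2 (mu V)) :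
    Ex V (fun x => ((f : E n → ℝ) x - g x) ^ 2)
      = ‖Jm h f - g‖ ^ 2 / ∫ x, Real.exp (-V x) := by
  rw [norm_sub_sq h (memLp_cc h (test_cc (TS.test f))) (Lp.memLp g), toLp_coe h g]
  rfl

theorem tendsto_ex_sub_sq (h : Nice V c C) {f : ℕ → TS n} {g : Lp ℝ 2 (mu V)}
    (hfg : Tendsto (fun m => Jm h (f m)) atTop (𝓝 g)) :
    Tendsto (fun m => Ex V (fun x => ((f m : E n → ℝ) x - g x) ^ 2)) atTop (𝓝 0) := by
  simp only [ex_sub_sq h]
  have h1 : Tendsto (fun m => Jm h (f m) - g) atTop (𝓝 (g - g)) := hfg.sub tendsto_const_nhds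
  rw [sub_self] at h1
  have h2 := (h1.norm.pow 2).div_const (∫ x, Real.exp (-V x))
  simpa using h2

/-- kernel of `L` -/
theorem kerL (hI : StmtIBP) (hC : StmtConst) (h : Nice V c C) (hM : MM ψ V c C M)
    {r : E n → ℝ} (hr : MemLp r 2 (mu V)) (hr0 : Ex V r = 0)
    (g : Lp ℝ 2 (mu V)) (f : ℕ → TS n) (h1 : Tendsto (fun m => Jm h (f m)) atTop (𝓝 g))
    (h2 : Tendsto (fun m => Am h hM (f m)) atTop (𝓝 0)) : inner ℝ (hr.toLp r) g = 0 := by
  have h3 : Tendsto (fun m => Ex V (fun x => ∑ a, (pd a (f m : E n → ℝ) x) ^ 2)) atTop (𝓝 0) := by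
    have h4 : Tendsto (fun m => -(max C c / (∫ x, Real.exp (-V x)) *
        inner ℝ (Am h hM (f m)) (Jm h (f m)))) atTop (𝓝 0) := by
      have h5 := (h2.inner h1).const_mul (max C c / (∫ x, Real.exp (-V x)))
      simpa using h5.neg
    refine squeeze_zero (fun m => ?_) (fun m => grad_le h hM hI (f m)) h4
    exact ex_nonneg fun x => Finset.sum_nonneg fun i _ => sq_nonneg _
  obtain ⟨a0, ha0⟩ := hC n V c C h (fun m => (f m : E n → ℝ)) g (fun m => TS.test (f m))
    (Lp.memLp g) (tendsto_ex_sub_sq h h1) h3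
  rw [← toLp_coe h g, inner_toLp h]
  have h6 : ∫ x, r x * g x * Real.exp (-V x) = ∫ x, a0 * (r x * Real.exp (-V x)) := by
    refine integral_congr_ae ?_
    filter_upwards [ha0] with x hx
    rw [hx]
    ring
  rw [h6, integral_const_mul]
  have h7 : ∫ x, r x * Real.exp (-V x) = 0 := by
    unfold Ex at hr0
    rcases div_eq_zero_iff.1 hr0 with h8 | h8
    · exact h8
    · exact absurd h8 (Z_pos h).ne'
  rw [h7, mul_zero]

/-- kernel of `L + 1` -/
theorem kerL1 (hI : StmtIBP) (hB : StmtBoch) (hA : StmtAff) (h : Nice V c C) (hM : MM ψ V c C M)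
    {r : E n → ℝ} (hr : MemLp r 2 (mu V)) (hrg : Gr r) (hre : ∀ x, r (-x) = r x)
    (hr0 : Ex V r = 0)
    (g : Lp ℝ 2 (mu V)) (f : ℕ → TS n) (h1 : Tendsto (fun m => Jm h (f m)) atTop (𝓝 g))
    (h2 : Tendsto (fun m => Am h hM (f m)) atTop (𝓝 (-g))) : inner ℝ (hr.toLp r) g = 0 := by
  have h3 : Tendsto (fun m => Ex V (fun x => ∑ a, ∑ b, (hess (f m : E n → ℝ) x a b) ^ 2))
      atTop (𝓝 0) := by
    have h4 : Tendsto (fun m => (max C c) ^ 2 / (∫ x, Real.exp (-V x)) *
        (‖Am h hM (f m)‖ ^ 2 + inner ℝ (Am h hM (f m)) (Jm h (f m)))) atTop (𝓝 0) := by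
      have h5 := ((h2.norm.pow 2).add (h2.inner h1)).const_mul
        ((max C c) ^ 2 / (∫ x, Real.exp (-V x)))
      have h6 : ‖-g‖ ^ 2 + inner ℝ (-g) g = (0 : ℝ) := by
        rw [norm_neg, inner_neg_left, real_inner_self_eq_norm_sq]
        ring
      rw [h6, mul_zero] at h5
      exact h5
    refine squeeze_zero (fun m => ?_) (fun m => hess_le h hM hI hB (f m)) h4
    exact ex_nonneg fun x => Finset.sum_nonneg fun i _ => Finset.sum_nonneg fun j _ => sq_nonneg _
  obtain ⟨a0, a, ha⟩ := hA n V c C h (fun m => (f m : E n → ℝ)) g (fun m => TS.test (f m))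
    (Lp.memLp g) (tendsto_ex_sub_sq h h1) h3
  rw [← toLp_coe h g, inner_toLp h]
  have hlin : Gr (fun x : E n => ∑ i, a i * x i) :=
    Gr.sum _ fun i _ => (Gr.coord i).const_mul (a i)
  have i1 : Integrable fun x => a0 * (r x * Real.exp (-V x)) :=
    (h.toReg.integrable_gr hrg).const_mul a0
  have i2 : Integrable fun x => (r x * ∑ i, a i * x i) * Real.exp (-V x) :=
    h.toReg.integrable_gr (hrg.mul hlin)
  have h6 : ∫ x, r x * g x * Real.exp (-V x)
      = ∫ x, (a0 * (r x * Real.exp (-V x)) + (r x * ∑ i, a i * x i) * Real.exp (-V x)) := by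
    refine integral_congr_ae ?_
    filter_upwards [ha] with x hx
    rw [hx]
    ring
  rw [h6, integral_add i1 i2, integral_const_mul]
  have h7 : ∫ x, r x * Real.exp (-V x) = 0 := by
    unfold Ex at hr0
    rcases div_eq_zero_iff.1 hr0 with h8 | h8
    · exact h8
    · exact absurd h8 (Z_pos h).ne'
  have h8 : ∫ x, (r x * ∑ i, a i * x i) * Real.exp (-V x) = 0 := by
    have h9 := integral_neg_eq_self
      (fun x : E n => (r x * ∑ i, a i * x i) * Real.exp (-V x)) volume
    have h10 : (fun x : E n => (r (-x) * ∑ i, a i * (-x) i) * Real.exp (-V (-x)))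
        = fun x => -((r x * ∑ i, a i * x i) * Real.exp (-V x)) := by
      ext x
      rw [hre, h.even]
      simp only [PiLp.neg_apply, mul_neg, Finset.sum_neg_distrib]
      ring
    rw [h10, integral_neg] at h9
    linarith
  rw [h7, h8, mul_zero, zero_add]

/-- Lipschitz bound for continuous products -/
theorem Lop_ptw (ψ : E n → ℝ) (F u w : E n → ℝ) (v : E n → ℝ)
    (hF : Test F) (hw : Test w) (hv : Test v) (b : Fin n) (x : E n) :
    (pd b (fun z => Lop ψ F z + F z + (w - (2 : ℝ) • v) z) x) ^ 2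
      ≤ 2 * (pd b (fun z => F z - Lop ψ F z - w z) x) ^ 2 + 8 * (pd b F x - pd b v x) ^ 2 := by
  have e : (fun z => Lop ψ F z + F z + (w - (2 : ℝ) • v) z)
      = fun z => (2 * F z - 2 * v z) - (F z - Lop ψ F z - w z) := by
    ext z
    simp only [Pi.sub_apply, Pi.smul_apply, smul_eq_mul]
    ring
  have hs : DifferentiableAt ℝ (fun z => 2 * F z - 2 * v z) x :=
    ((test_diff hF x).const_mul 2).sub ((test_diff hv x).const_mul 2)
  have hps : pd b (fun z => 2 * F z - 2 * v z) x = 2 * (pd b F x - pd b v x) := by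
    unfold pd
    rw [fderiv_fun_sub ((test_diff hF x).const_mul 2) ((test_diff hv x).const_mul 2),
      fderiv_const_mul (test_diff hF x), fderiv_const_mul (test_diff hv x)]
    simp only [_root_.sub_apply, _root_.smul_apply, smul_eq_mul]
    ring
  by_cases hd : DifferentiableAt ℝ (fun z => F z - Lop ψ F z - w z) x
  · have h1 : pd b (fun z => Lop ψ F z + F z + (w - (2 : ℝ) • v) z) x
        = 2 * (pd b F x - pd b v x) - pd b (fun z => F z - Lop ψ F z - w z) x := by
      rw [e, ← hps]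
      unfold pd
      rw [fderiv_fun_sub hs hd]
      rfl
    rw [h1]
    nlinarith [sq_nonneg (2 * (pd b F x - pd b v x) + pd b (fun z => F z - Lop ψ F z - w z) x)]
  · have h1 : ¬ DifferentiableAt ℝ (fun z => Lop ψ F z + F z + (w - (2 : ℝ) • v) z) x := by
      intro hh
      apply hd
      have h2 : (fun z => F z - Lop ψ F z - w z)
          = fun z => (2 * F z - 2 * v z) - (Lop ψ F z + F z + (w - (2 : ℝ) • v) z) := by
        ext z
        simp only [Pi.sub_apply, Pi.smul_apply, smul_eq_mul]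
        ring
      rw [h2]
      exact hs.sub hh
    unfold pd
    rw [fderiv_zero_of_not_differentiableAt h1]
    have h3 : ((0 : E n →L[ℝ] ℝ) (ei b)) ^ 2 = 0 := by simp
    rw [h3]
    positivity

end Vale.Agent.P227.M.LIN.X671
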