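import Vale.Agent.P227.M.LIN.TopA

/-! # P227/M/LIN/TopB: `tr (τNτN) ≥ a² |N|²` (helper592). -/

open MeasureTheory Filter Matrix
open scoped Topology

namespace Vale.Agent.P227.M.LIN.T592

variable {n : ℕ}

theorem trace_quad (X τ : Matrix (Fin n) (Fin n) ℝ) :
    (X * τ * Xᵀ).trace = ∑ m, ∑ i, ∑ j, τ i j * X m i * X m j := by
  simp only [Matrix.trace, Matrix.diag, Matrix.mul_apply, Matrix.transpose_apply]
  refine Finset.sum_congr rfl fun m _ => ?_
  rw [Finset.sum_congr rfl fun j _ => Finset.sum_mul _ _ _, Finset.sum_comm]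
  refine Finset.sum_congr rfl fun i _ => Finset.sum_congr rfl fun j _ => by ring

theorem trace_ge (X τ : Matrix (Fin n) (Fin n) ℝ) (a : ℝ)
    (hl : ∀ g : Fin n → ℝ, a * ∑ i, g i ^ 2 ≤ ∑ i, ∑ j, τ i j * g i * g j) :
    a * ∑ m, ∑ i, X m i ^ 2 ≤ (X * τ * Xᵀ).trace := by
  rw [trace_quad, Finset.mul_sum]
  exact Finset.sum_le_sum fun m _ => hl (fun i => X m i)

theorem quad_tensor (τ N : Matrix (Fin n) (Fin n) ℝ) (hτ : τ.PosSemidef) (a : ℝ) (ha : 0 ≤ a)
    (hl : ∀ g : Fin n → ℝ, a * ∑ i, g i ^ 2 ≤ ∑ i, ∑ j, τ i j * g i * g j) (hN : Nᵀ = N) :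
    a ^ 2 * ∑ i, ∑ j, N i j ^ 2 ≤ (τ * N * τ * N).trace := by
  obtain ⟨B, hB'⟩ : ∃ B : Matrix (Fin n) (Fin n) ℝ, τ = Bᵀ * B := by
    open scoped MatrixOrder in
    open scoped ComplexOrder in
    obtain ⟨B, hB⟩ := CStarAlgebra.nonneg_iff_eq_star_mul_self.mp hτ.nonneg
    exact ⟨B, by rw [hB, Matrix.star_eq_conjTranspose, Matrix.conjTranspose_eq_transpose_of_trivial]⟩
  set X := B * N with hX
  have h1 : (τ * N * τ * N).trace = (X * τ * Xᵀ).trace := by
    have : X * τ * Xᵀ = B * (N * τ * N * Bᵀ) := by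
      rw [hX, Matrix.transpose_mul, hN]; simp only [Matrix.mul_assoc]
    have h2 : N * τ * N * Bᵀ * B = (N * τ * N) * τ := by
      rw [Matrix.mul_assoc, ← hB']
    have h3 : τ * N * τ * N = τ * (N * τ * N) := by simp only [Matrix.mul_assoc]
    rw [this, Matrix.trace_mul_comm B, h2, h3, Matrix.trace_mul_comm]
  have h2 : ∑ m, ∑ i, X m i ^ 2 = (Nᵀ * τ * N).trace := by
    have h3 : Nᵀ * τ * N = Xᵀ * X := by
      rw [hX, Matrix.transpose_mul, hB']; simp only [Matrix.mul_assoc]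
    rw [h3, Matrix.trace_mul_comm]
    simp only [Matrix.trace, Matrix.diag, Matrix.mul_apply, Matrix.transpose_apply, sq]
  have h4 : a * ∑ i, ∑ j, N i j ^ 2 ≤ (Nᵀ * τ * N).trace := by
    have := trace_ge Nᵀ τ a hl
    rw [Matrix.transpose_transpose] at this
    refine le_trans (le_of_eq ?_) this
    rw [Finset.sum_comm]
    rfl
  have h5 := trace_ge X τ a hl
  rw [h1]
  refine le_trans ?_ h5
  rw [h2, sq, mul_assoc]
  exact mul_le_mul_of_nonneg_left h4 ha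

end Vale.Agent.P227.M.LIN.T592
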