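import Vale.Agent.P227.M.LIN.TopB

/-! # P227/M/LIN/TopC: bounded Lipschitz functions, `L` on test functions, the maps `J`, `A` (helper592). -/

open MeasureTheory Filter
open scoped Topology

namespace Vale.Agent.P227.M.LIN.T592

variable {n : ℕ} {ψ V : E n → ℝ} {c C M : ℝ}

/-- what we need from `MM` about `τ` -/
structure TauF (ψ : E n → ℝ) (a K : ℝ) : Prop where
  a_pos : 0 < a
  psd : ∀ x, (tau ψ x).PosSemidef
  symm : ∀ x i j, tau ψ x i j = tau ψ x j i
  lower : ∀ x (g : Fin n → ℝ), a * ∑ i, g i ^ 2 ≤ ∑ i, ∑ j, tau ψ x i j * g i * g j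
  bdd : ∀ x i j, |tau ψ x i j| ≤ K
  lip : ∀ x y i j, |tau ψ x i j - tau ψ y i j| ≤ K * ‖x - y‖

/-- bounded Lipschitz functions -/
def BL (f : E n → ℝ) : Prop := ∃ K : ℝ, 0 ≤ K ∧ (∀ x, |f x| ≤ K) ∧ ∀ x y, |f x - f y| ≤ K * ‖x - y‖

theorem BL.add {f g : E n → ℝ} (hf : BL f) (hg : BL g) : BL (fun x => f x + g x) := by
  obtain ⟨K, hK, h1, h2⟩ := hf
  obtain ⟨L, hL, h3, h4⟩ := hg
  refine ⟨K + L, by positivity, fun x => (abs_add_le _ _).trans (add_le_add (h1 x) (h3 x)), fun x y => ?_⟩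
  have : f x + g x - (f y + g y) = (f x - f y) + (g x - g y) := by ring
  rw [this, add_mul]
  exact (abs_add_le _ _).trans (add_le_add (h2 x y) (h4 x y))

theorem BL.mul {f g : E n → ℝ} (hf : BL f) (hg : BL g) : BL (fun x => f x * g x) := by
  obtain ⟨K, hK, h1, h2⟩ := hf
  obtain ⟨L, hL, h3, h4⟩ := hg
  refine ⟨K * L + K * L + K * L, by positivity, fun x => ?_, fun x y => ?_⟩
  · rw [abs_mul]
    have := mul_le_mul (h1 x) (h3 x) (abs_nonneg _) hK
    have h5 : 0 ≤ K * L := by positivity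
    linarith
  · have : f x * g x - f y * g y = (f x - f y) * g x + f y * (g x - g y) := by ring
    rw [this]
    refine (abs_add_le _ _).trans ?_
    rw [abs_mul, abs_mul]
    have e1 : |f x - f y| * |g x| ≤ K * ‖x - y‖ * L :=
      mul_le_mul (h2 x y) (h3 x) (abs_nonneg _) (by positivity)
    have e2 : |f y| * |g x - g y| ≤ K * (L * ‖x - y‖) :=
      mul_le_mul (h1 y) (h4 x y) (abs_nonneg _) hK
    have e3 : 0 ≤ K * L * ‖x - y‖ := by positivity
    nlinarith

theorem BL.neg {f : E n → ℝ} (hf : BL f) : BL (fun x => -f x) := by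
  obtain ⟨K, hK, h1, h2⟩ := hf
  refine ⟨K, hK, fun x => by rw [abs_neg]; exact h1 x, fun x y => ?_⟩
  have : -f x - -f y = -(f x - f y) := by ring
  rw [this, abs_neg]; exact h2 x y

theorem BL.sub {f g : E n → ℝ} (hf : BL f) (hg : BL g) : BL (fun x => f x - g x) := by
  have := hf.add hg.neg
  simpa [sub_eq_add_neg] using this

theorem BL.zero : BL (fun _ : E n => (0 : ℝ)) := ⟨0, le_rfl, by simp, by simp⟩

theorem BL.sum {ι : Type*} (s : Finset ι) {f : ι → E n → ℝ} (hf : ∀ i ∈ s, BL (f i)) :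
    BL (fun x => ∑ i ∈ s, f i x) := by
  classical
  induction s using Finset.induction_on with
  | empty => simpa using BL.zero (n := n)
  | insert a s ha ih =>
    have h := (hf a (Finset.mem_insert_self a s)).add
      (ih fun i hi => hf i (Finset.mem_insert_of_mem hi))
    simpa [Finset.sum_insert ha] using h

theorem BL.of_test {f : E n → ℝ} (hf : Test f) : BL f := by
  obtain ⟨B, hB⟩ := hf.1.continuous.bounded_above_of_compact_support hf.2
  obtain ⟨L, hL⟩ := ContDiff.lipschitzWith_of_hasCompactSupport hf.2 hf.1 (by simp)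
  refine ⟨|B| + L, by positivity, fun x => ?_, fun x y => ?_⟩
  · have := hB x
    rw [Real.norm_eq_abs] at this
    have h2 := le_abs_self B
    have h3 : (0 : ℝ) ≤ L := L.2
    linarith
  · have := hL.dist_le_mul x y
    rw [Real.dist_eq, dist_eq_norm] at this
    have h2 : 0 ≤ |B| * ‖x - y‖ := by positivity
    linarith [add_mul |B| (L : ℝ) ‖x - y‖]

theorem BL.cont {f : E n → ℝ} (hf : BL f) : Continuous f := by
  obtain ⟨K, hK, h1, h2⟩ := hf
  have : LipschitzWith ⟨K, hK⟩ f := LipschitzWith.of_dist_le_mul fun x y => by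
    rw [Real.dist_eq, dist_eq_norm]; exact h2 x y
  exact this.continuous

theorem BL.gr {f : E n → ℝ} (hf : BL f) : Gr f := by
  obtain ⟨K, hK, h1, h2⟩ := id hf
  exact Gr.of_bound hf.cont h1

theorem BL.pd_le {f : E n → ℝ} (hf : BL f) : ∃ K : ℝ, ∀ (b : Fin n) x, |pd b f x| ≤ K := by
  obtain ⟨K, hK, h1, h2⟩ := hf
  have hl : LipschitzWith ⟨K, hK⟩ f := LipschitzWith.of_dist_le_mul fun x y => by
    rw [Real.dist_eq, dist_eq_norm]; exact h2 x y
  refine ⟨K, fun b x => ?_⟩
  have h3 := norm_fderiv_le_of_lipschitz ℝ hl (x₀ := x)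
  exact (abs_pd_le_norm f x b).trans h3

theorem test_coord_mul {f : E n → ℝ} (hf : Test f) (i : Fin n) : Test (fun x => x i * f x) := by
  refine ⟨ContDiff.mul (by fun_prop) hf.1, ?_⟩
  exact hf.2.mul_left (f := fun x : E n => x i)

theorem test_hess {f : E n → ℝ} (hf : Test f) (i j : Fin n) : Test (fun x => hess f x i j) :=
  test_pd (test_pd hf j) i

theorem bl_tau {a K : ℝ} (hτ : TauF ψ a K) (i j : Fin n) : BL (fun x => tau ψ x i j) :=
  ⟨K, (abs_nonneg _).trans (hτ.bdd 0 i j), fun x => hτ.bdd x i j, fun x y => hτ.lip x y i j⟩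

theorem bl_Lop {a K : ℝ} (hτ : TauF ψ a K) {f : E n → ℝ} (hf : Test f) : BL (Lop ψ f) := by
  have h1 : BL (fun x => ∑ i, ∑ j, tau ψ x i j * hess f x i j) :=
    BL.sum _ fun i _ => BL.sum _ fun j _ => (bl_tau hτ i j).mul (BL.of_test (test_hess hf i j))
  have h2 : BL (fun x => ∑ i, x i * pd i f x) :=
    BL.sum _ fun i _ => BL.of_test (test_coord_mul (test_pd hf i) i)
  exact h1.sub h2

theorem gr_fld {a K : ℝ} (hτ : TauF ψ a K) {f : E n → ℝ} (hf : Test f) (b : Fin n) :
    Gr (fld ψ f b) := by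
  have h1 : BL (fun x => ∑ c, tau ψ x b c * pd c f x) :=
    BL.sum _ fun c _ => (bl_tau hτ b c).mul (BL.of_test (test_pd hf c))
  exact h1.gr

/-- embedding of test functions -/
noncomputable def Jm (h : Reg V c C) : TF n →ₗ[ℝ] Lp ℝ 2 (mu V) where
  toFun f := (memLp_gr h (gr_test f.2)).toLp f.1
  map_add' f g := by
    rw [← MemLp.toLp_add]
    rfl
  map_smul' r f := by
    rw [RingHom.id_apply, ← MemLp.toLp_const_smul]
    rfl

/-- `L` as a map into `L²` -/
noncomputable def Am (h : Reg V c C) {a K : ℝ} (hτ : TauF ψ a K) : TF n →ₗ[ℝ] Lp ℝ 2 (mu V) where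
  toFun f := (memLp_gr h (bl_Lop hτ f.2).gr).toLp (Lop ψ f.1)
  map_add' f g := by
    rw [← MemLp.toLp_add]
    refine MemLp.toLp_congr _ _ (Eventually.of_forall fun x => ?_)
    exact Lop_add f.2 g.2 x
  map_smul' r f := by
    rw [RingHom.id_apply, ← MemLp.toLp_const_smul]
    refine MemLp.toLp_congr _ _ (Eventually.of_forall fun x => ?_)
    exact Lop_smul f.2 r x

end Vale.Agent.P227.M.LIN.T592
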