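import Vale.Agent.P227.M.LIN.TopC

/-! # P227/M/LIN/TopD: integration by parts, kernels, density in `L²(e^{-V})` (helper592). -/

open MeasureTheory Filter
open scoped Topology

namespace Vale.Agent.P227.M.LIN.T592

variable {n : ℕ} {ψ V : E n → ℝ} {c C M : ℝ}

theorem Ex_eq (V f : E n → ℝ) : Ex V f = (∫ x, f x * Real.exp (-V x)) / (∫ x, Real.exp (-V x)) := rfl

theorem Ex_mono (h : Reg V c C) {f g : E n → ℝ} (hf : Integrable (fun x => f x * Real.exp (-V x)))
    (hg : Integrable (fun x => g x * Real.exp (-V x))) (hle : ∀ x, f x ≤ g x) : Ex V f ≤ Ex V g := by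
  unfold Ex
  refine div_le_div_of_nonneg_right ?_ h.Z_pos.le
  exact integral_mono hf hg fun x => mul_le_mul_of_nonneg_right (hle x) (Real.exp_pos _).le

theorem Ex_nonneg (h : Reg V c C) {f : E n → ℝ} (hle : ∀ x, 0 ≤ f x) : 0 ≤ Ex V f :=
  div_nonneg (integral_nonneg fun x => mul_nonneg (hle x) (Real.exp_pos _).le) h.Z_pos.le

theorem Ex_const_mul (V : E n → ℝ) (r : ℝ) (f : E n → ℝ) : Ex V (fun x => r * f x) = r * Ex V f := by
  unfold Ex
  rw [← mul_div_assoc, ← integral_const_mul]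
  congr 2
  funext x; ring

theorem Ex_add {f g : E n → ℝ} (hf : Integrable (fun x => f x * Real.exp (-V x)))
    (hg : Integrable (fun x => g x * Real.exp (-V x))) :
    Ex V (fun x => f x + g x) = Ex V f + Ex V g := by
  unfold Ex
  rw [← add_div, ← integral_add hf hg]
  congr 2
  funext x; ring

theorem int_eq_Ex (h : Reg V c C) (f : E n → ℝ) :
    ∫ x, f x * Real.exp (-V x) = (∫ x, Real.exp (-V x)) * Ex V f := by
  unfold Ex
  rw [mul_div_cancel₀ _ h.Z_pos.ne']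

/-- gradient form -/
noncomputable def Gf (ψ f g : E n → ℝ) (x : E n) : ℝ := ∑ b, pd b g x * fld ψ f b x

theorem Gf_symm {a K : ℝ} (hτ : TauF ψ a K) (f g : E n → ℝ) (x : E n) : Gf ψ f g x = Gf ψ g f x := by
  unfold Gf fld
  simp only [Finset.mul_sum]
  rw [Finset.sum_comm]
  refine Finset.sum_congr rfl fun i _ => Finset.sum_congr rfl fun j _ => ?_
  rw [hτ.symm x j i]; ring

theorem Gf_ge {a K : ℝ} (hτ : TauF ψ a K) (f : E n → ℝ) (x : E n) :
    a * ∑ i, pd i f x ^ 2 ≤ Gf ψ f f x := by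
  refine (hτ.lower x (fun i => pd i f x)).trans (le_of_eq ?_)
  unfold Gf fld
  simp only [Finset.mul_sum]
  refine Finset.sum_congr rfl fun i _ => Finset.sum_congr rfl fun j _ => by ring

theorem Gf_nonneg {a K : ℝ} (hτ : TauF ψ a K) (f : E n → ℝ) (x : E n) : 0 ≤ Gf ψ f f x :=
  (mul_nonneg hτ.a_pos.le (Finset.sum_nonneg fun _ _ => sq_nonneg _)).trans (Gf_ge hτ f x)

theorem gr_Gf {a K : ℝ} (hτ : TauF ψ a K) {f g : E n → ℝ} (hf : Test f) (hg : Test g) :
    Gr (Gf ψ f g) :=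
  Gr.sum _ fun b _ => (gr_test (test_pd hg b)).mul (gr_fld hτ hf b)

theorem ibp (hI : StmtIBP) (hN : Nice V c C) (hM : MM ψ V c C M) {u f : E n → ℝ} (hu : Test u)
    (hf : Test f) : ∫ x, Lop ψ u x * f x * Real.exp (-V x) =
      -((∫ x, Real.exp (-V x)) * Ex V (Gf ψ u f)) := by
  have h := hI n ψ V c C M hN hM u f hu hf.1
  have h2 : Ex V (fun x => -(Lop ψ u x) * f x) = -Ex V (fun x => Lop ψ u x * f x) := by
    unfold Ex
    rw [← neg_div, ← integral_neg]
    congr 2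
    funext x; ring
  rw [h2] at h
  have h3 := int_eq_Ex hN.toReg (fun x => Lop ψ u x * f x)
  rw [h3]
  have h4 : Ex V (fun x => Lop ψ u x * f x) = -Ex V (Gf ψ u f) := by
    rw [← neg_eq_iff_eq_neg]; exact h
  rw [h4]; ring

section maps

variable {a K : ℝ} (hI : StmtIBP) (hN : Nice V c C) (hM : MM ψ V c C M) (hτ : TauF ψ a K)
include hI hN hM hτ

theorem inner_A_J (f g : TF n) : inner ℝ (Am hN.toReg hτ f) (Jm hN.toReg g) =
    -((∫ x, Real.exp (-V x)) * Ex V (Gf ψ f.1 g.1)) := by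
  rw [← ibp hI hN hM f.2 g.2]
  exact inner_toLp hN.toReg.cont (memLp_gr hN.toReg (bl_Lop hτ f.2).gr)
    (memLp_gr hN.toReg (gr_test g.2))

theorem inner_J_A (f g : TF n) : inner ℝ (Jm hN.toReg f) (Am hN.toReg hτ g) =
    -((∫ x, Real.exp (-V x)) * Ex V (Gf ψ g.1 f.1)) := by
  rw [real_inner_comm, inner_A_J hI hN hM hτ]

theorem sym_AJ (f g : TF n) : inner ℝ (Am hN.toReg hτ f) (Jm hN.toReg g) =
    inner ℝ (Jm hN.toReg f) (Am hN.toReg hτ g) := by
  rw [inner_A_J hI hN hM hτ, inner_J_A hI hN hM hτ]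
  have : Gf ψ f.1 g.1 = Gf ψ g.1 f.1 := by funext x; exact Gf_symm hτ _ _ x
  rw [this]

theorem neg_AJ (f : TF n) : inner ℝ (Am hN.toReg hτ f) (Jm hN.toReg f) ≤ 0 := by
  rw [inner_A_J hI hN hM hτ]
  have h1 := Ex_nonneg hN.toReg (f := Gf ψ f.1 f.1) (Gf_nonneg hτ f.1)
  have h2 := hN.toReg.Z_pos
  have : 0 ≤ (∫ x, Real.exp (-V x)) * Ex V (Gf ψ f.1 f.1) := by positivity
  linarith

end maps

theorem dense_JA {a K : ℝ} (hE : StmtESA) (hN : Nice V c C) (hM : MM ψ V c C M) (hτ : TauF ψ a K) :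
    DenseRange (fun f : TF n => Jm hN.toReg f - Am hN.toReg hτ f) := by
  have h1 : (LinearMap.range (Jm hN.toReg - Am hN.toReg hτ)).topologicalClosure = ⊤ := by
    rw [Submodule.topologicalClosure_eq_top_iff, Submodule.eq_bot_iff]
    intro h hh
    rw [Submodule.mem_orthogonal'] at hh
    have h2 : (h : E n → ℝ) =ᵐ[volume] 0 := by
      refine hE n ψ V c C M hN hM h (Lp.memLp h) fun f hf => ?_
      have h3 := hh ((Jm hN.toReg - Am hN.toReg hτ) ⟨f, hf⟩) (LinearMap.mem_range_self _ _)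
      rw [LinearMap.sub_apply, inner_sub_right] at h3
      have e1 : inner ℝ h (Jm hN.toReg ⟨f, hf⟩) = ∫ x, h x * f x * Real.exp (-V x) :=
        inner_lp_toLp hN.toReg.cont h (memLp_gr hN.toReg (gr_test hf))
      have e2 : inner ℝ h (Am hN.toReg hτ ⟨f, hf⟩) = ∫ x, h x * Lop ψ f x * Real.exp (-V x) :=
        inner_lp_toLp hN.toReg.cont h (memLp_gr hN.toReg (bl_Lop hτ hf).gr)
      rw [e1, e2] at h3
      have i1 : Integrable (fun x => h x * f x * Real.exp (-V x)) := by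
        have := (Lp.memLp h).integrable_mul (memLp_gr hN.toReg (gr_test hf))
        exact (integrable_mu hN.toReg.cont _).1 this
      have i2 : Integrable (fun x => h x * Lop ψ f x * Real.exp (-V x)) := by
        have := (Lp.memLp h).integrable_mul (memLp_gr hN.toReg (bl_Lop hτ hf).gr)
        exact (integrable_mu hN.toReg.cont _).1 this
      rw [← h3, ← integral_sub i1 i2]
      refine integral_congr_ae (Eventually.of_forall fun x => ?_)
      ring
    rw [Lp.eq_zero_iff_ae_eq_zero]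
    exact (mu_ac V).ae_eq h2
  have h2 := Submodule.dense_iff_topologicalClosure_eq_top.2 h1
  have h3 : Set.range (fun f : TF n => Jm hN.toReg f - Am hN.toReg hτ f)
      = ((LinearMap.range (Jm hN.toReg - Am hN.toReg hτ) : Submodule ℝ _) : Set _) := by
    ext y; simp
  rw [DenseRange, h3]
  exact h2

/-- `‖toLp f - h‖² = Z E (f-h)²` -/
theorem normsq_sub (h : Reg V c C) {f : E n → ℝ} (hf : MemLp f 2 (mu V)) (g : Lp ℝ 2 (mu V)) :
    ‖hf.toLp f - g‖ ^ 2 = (∫ x, Real.exp (-V x)) * Ex V (fun x => (f x - g x) ^ 2) := by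
  have h1 : hf.toLp f - g = (hf.sub (Lp.memLp g)).toLp (f - (g : E n → ℝ)) := by
    rw [MemLp.toLp_sub hf (Lp.memLp g), Lp.toLp_coeFn]
  rw [h1, normsq_toLp h]
  rfl

theorem normsq_J (h : Reg V c C) (f : TF n) :
    ‖Jm h f‖ ^ 2 = (∫ x, Real.exp (-V x)) * Ex V (fun x => f.1 x ^ 2) :=
  normsq_toLp h (memLp_gr h (gr_test f.2))

theorem normsq_A (h : Reg V c C) {a K : ℝ} (hτ : TauF ψ a K) (f : TF n) :
    ‖Am h hτ f‖ ^ 2 = (∫ x, Real.exp (-V x)) * Ex V (fun x => Lop ψ f.1 x ^ 2) :=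
  normsq_toLp h (memLp_gr h (bl_Lop hτ f.2).gr)

/-- Bochner as an identity in `L²` -/
theorem boch_id {a K : ℝ} (hB : StmtBoch) (hN : Nice V c C) (hM : MM ψ V c C M) (hτ : TauF ψ a K)
    {f : E n → ℝ} (hf : Test f) :
    a ^ 2 * Ex V (fun x => ∑ i, ∑ j, hess f x i j ^ 2) + Ex V (Gf ψ f f)
      ≤ Ex V (fun x => Lop ψ f x ^ 2) := by
  rw [hB n ψ V c C M hN hM f hf]
  refine add_le_add ?_ le_rfl
  rw [← Ex_const_mul]
  have hgr : Gr (fun x => ∑ i, ∑ j, hess f x i j ^ 2) :=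
    Gr.sum _ fun i _ => Gr.sum _ fun j _ => (gr_test (test_hess hf i j)).pow 2
  have hmul : ∀ {A B : E n → Matrix (Fin n) (Fin n) ℝ}, (∀ i j, Gr (fun x => A x i j)) →
      (∀ i j, Gr (fun x => B x i j)) → ∀ i j, Gr (fun x => (A x * B x) i j) := by
    intro A B hA hB i j
    simp only [Matrix.mul_apply]
    exact Gr.sum _ fun k _ => (hA i k).mul (hB k j)
  have gτ : ∀ i j, Gr (fun x => tau ψ x i j) := fun i j => (bl_tau hτ i j).gr
  have gh : ∀ i j, Gr (fun x => hess f x i j) := fun i j => gr_test (test_hess hf i j)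
  have htr : Gr (fun x => (tau ψ x * hess f x * tau ψ x * hess f x).trace) := by
    simp only [Matrix.trace, Matrix.diag]
    exact Gr.sum _ fun i _ => hmul (hmul (hmul gτ gh) gτ) gh i i
  refine Ex_mono hN.toReg (hN.toReg.integrable_gr (hgr.const_mul _)) (hN.toReg.integrable_gr htr)
    fun x => ?_
  refine quad_tensor (tau ψ x) (hess f x) (hτ.psd x) a hτ.a_pos.le (hτ.lower x) ?_
  exact hess_isSymm (hf.1.of_le (by norm_cast)) x

end Vale.Agent.P227.M.LIN.T592
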