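import Vale.Agent.P227.M.LIN.TopD

/-! # P227/M/LIN/TopE: the two kernel facts (helper592). -/

open MeasureTheory Filter
open scoped Topology

namespace Vale.Agent.P227.M.LIN.T592

variable {n : ℕ} {ψ V : E n → ℝ} {c C M : ℝ}

/-- `J f_m → h` gives `E (f_m - h)² → 0` -/
theorem tendsto_Ex_sub (h : Reg V c C) (g : Lp ℝ 2 (mu V)) (f : ℕ → TF n)
    (hf : Tendsto (fun m => Jm h (f m)) atTop (𝓝 g)) :
    Tendsto (fun m => Ex V (fun x => ((f m).1 x - g x) ^ 2)) atTop (𝓝 0) := by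
  have h1 : Tendsto (fun m => ‖Jm h (f m) - g‖ ^ 2 / (∫ x, Real.exp (-V x))) atTop (𝓝 0) := by
    have h2 : Tendsto (fun m => ‖Jm h (f m) - g‖) atTop (𝓝 0) := tendsto_iff_norm_sub_tendsto_zero.1 hf
    have := (h2.pow 2).div_const (∫ x, Real.exp (-V x))
    simpa using this
  refine h1.congr fun m => ?_
  have := normsq_sub h (memLp_gr h (gr_test (f m).2)) g
  rw [div_eq_iff h.Z_pos.ne', mul_comm]
  exact this

theorem odd_int (hN : Nice V c C) {r g : E n → ℝ} (hr : ∀ x, r (-x) = r x)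
    (hg : ∀ x, g (-x) = -g x) : ∫ x, r x * g x * Real.exp (-V x) = 0 := by
  have h1 : ∫ x, r (-x) * g (-x) * Real.exp (-V (-x)) = ∫ x, r x * g x * Real.exp (-V x) :=
    integral_neg_eq_self (fun x => r x * g x * Real.exp (-V x)) volume
  have h2 : ∫ x, r (-x) * g (-x) * Real.exp (-V (-x)) = -∫ x, r x * g x * Real.exp (-V x) := by
    rw [← integral_neg]
    congr 1
    funext x
    rw [hr, hg, hN.even]; ring
  linarith

variable {a K : ℝ}

theorem ker0 (hC : StmtConst) (hB : StmtBoch) (hN : Nice V c C) (hM : MM ψ V c C M)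
    (hτ : TauF ψ a K) {r : E n → ℝ} (hr : Gr r) (hr0 : Ex V r = 0) (h : Lp ℝ 2 (mu V))
    (f : ℕ → TF n) (hf : Tendsto (fun m => Jm hN.toReg (f m)) atTop (𝓝 h))
    (hA : Tendsto (fun m => Am hN.toReg hτ (f m)) atTop (𝓝 0)) :
    inner ℝ ((memLp_gr hN.toReg hr).toLp r) h = 0 := by
  have hZ := hN.toReg.Z_pos
  have t1 : Tendsto (fun m => Ex V (fun x => Lop ψ (f m).1 x ^ 2)) atTop (𝓝 0) := by
    have h2 : Tendsto (fun m => ‖Am hN.toReg hτ (f m)‖ ^ 2 / (∫ x, Real.exp (-V x))) atTop (𝓝 0) := by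
      have := (hA.norm.pow 2).div_const (∫ x, Real.exp (-V x))
      simpa using this
    refine h2.congr fun m => ?_
    rw [normsq_A, mul_div_cancel_left₀ _ hZ.ne']
  have t2 : Tendsto (fun m => Ex V (fun x => ∑ i, pd i (f m).1 x ^ 2)) atTop (𝓝 0) := by
    have t3 := t1.const_mul a⁻¹
    rw [mul_zero] at t3
    refine squeeze_zero (fun m => Ex_nonneg hN.toReg fun x => Finset.sum_nonneg fun _ _ => sq_nonneg _)
      (fun m => ?_) t3
    have h1 := boch_id hB hN hM hτ (f m).2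
    have h2 : 0 ≤ a ^ 2 * Ex V (fun x => ∑ i, ∑ j, hess (f m).1 x i j ^ 2) :=
      mul_nonneg (sq_nonneg _) (Ex_nonneg hN.toReg fun x =>
        Finset.sum_nonneg fun _ _ => Finset.sum_nonneg fun _ _ => sq_nonneg _)
    have h3 : a * Ex V (fun x => ∑ i, pd i (f m).1 x ^ 2) ≤ Ex V (Gf ψ (f m).1 (f m).1) := by
      rw [← Ex_const_mul]
      refine Ex_mono hN.toReg (hN.toReg.integrable_gr ?_)
        (hN.toReg.integrable_gr (gr_Gf hτ (f m).2 (f m).2)) fun x => Gf_ge hτ _ x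
      exact (Gr.sum _ fun i _ => (gr_test (test_pd (f m).2 i)).pow 2).const_mul a
    rw [inv_mul_eq_div, le_div_iff₀ hτ.a_pos]
    linarith
  obtain ⟨a0, ha0⟩ := hC n V c C hN (fun m => (f m).1) h (fun m => (f m).2) (Lp.memLp h)
    (tendsto_Ex_sub hN.toReg h f hf) t2
  rw [real_inner_comm, inner_lp_toLp hN.toReg.cont]
  have h1 : ∫ x, h x * r x * Real.exp (-V x) = ∫ x, a0 * (r x * Real.exp (-V x)) := by
    refine integral_congr_ae ?_
    filter_upwards [ha0] with x hx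
    rw [hx]; ring
  rw [h1, integral_const_mul, int_eq_Ex hN.toReg, hr0]
  ring

theorem ker1 (hI : StmtIBP) (hAf : StmtAff) (hB : StmtBoch) (hN : Nice V c C) (hM : MM ψ V c C M)
    (hτ : TauF ψ a K) {r : E n → ℝ} (hr : Gr r) (hr0 : Ex V r = 0) (hre : ∀ x, r (-x) = r x)
    (h : Lp ℝ 2 (mu V))
    (f : ℕ → TF n) (hf : Tendsto (fun m => Jm hN.toReg (f m)) atTop (𝓝 h))
    (hA : Tendsto (fun m => Am hN.toReg hτ (f m)) atTop (𝓝 (-h))) :
    inner ℝ ((memLp_gr hN.toReg hr).toLp r) h = 0 := by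
  have hZ := hN.toReg.Z_pos
  have t1 : Tendsto (fun m => Ex V (fun x => Lop ψ (f m).1 x ^ 2)) atTop
      (𝓝 (‖h‖ ^ 2 / (∫ x, Real.exp (-V x)))) := by
    have h2 : Tendsto (fun m => ‖Am hN.toReg hτ (f m)‖ ^ 2 / (∫ x, Real.exp (-V x))) atTop
        (𝓝 (‖h‖ ^ 2 / (∫ x, Real.exp (-V x)))) := by
      have := (hA.norm.pow 2).div_const (∫ x, Real.exp (-V x))
      simpa using this
    refine h2.congr fun m => ?_
    rw [normsq_A, mul_div_cancel_left₀ _ hZ.ne']
  have t2 : Tendsto (fun m => Ex V (Gf ψ (f m).1 (f m).1)) atTop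
      (𝓝 (‖h‖ ^ 2 / (∫ x, Real.exp (-V x)))) := by
    have h2 : Tendsto (fun m => -(inner ℝ (Am hN.toReg hτ (f m)) (Jm hN.toReg (f m)) : ℝ)
        / (∫ x, Real.exp (-V x))) atTop (𝓝 (‖h‖ ^ 2 / (∫ x, Real.exp (-V x)))) := by
      have := ((hA.inner hf).neg).div_const (∫ x, Real.exp (-V x))
      simpa [inner_neg_left, real_inner_self_eq_norm_sq] using this
    refine h2.congr fun m => ?_
    rw [inner_A_J hI hN hM hτ, neg_neg, mul_div_cancel_left₀ _ hZ.ne']
  have t3 : Tendsto (fun m => Ex V (fun x => ∑ i, ∑ j, hess (f m).1 x i j ^ 2)) atTop (𝓝 0) := by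
    have t4 := (t1.sub t2).const_mul (a ^ 2)⁻¹
    rw [sub_self, mul_zero] at t4
    refine squeeze_zero (fun m => Ex_nonneg hN.toReg fun x =>
      Finset.sum_nonneg fun _ _ => Finset.sum_nonneg fun _ _ => sq_nonneg _) (fun m => ?_) t4
    have h1 := boch_id hB hN hM hτ (f m).2
    have ha : 0 < a ^ 2 := pow_pos hτ.a_pos 2
    rw [inv_mul_eq_div, le_div_iff₀ ha]
    linarith
  obtain ⟨a0, b, hb⟩ := hAf n V c C hN (fun m => (f m).1) h (fun m => (f m).2) (Lp.memLp h)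
    (tendsto_Ex_sub hN.toReg h f hf) t3
  rw [real_inner_comm, inner_lp_toLp hN.toReg.cont]
  have h1 : ∫ x, h x * r x * Real.exp (-V x) =
      ∫ x, (a0 * (r x * Real.exp (-V x)) + ∑ i, b i * (r x * x i * Real.exp (-V x))) := by
    refine integral_congr_ae ?_
    filter_upwards [hb] with x hx
    rw [hx, add_mul, add_mul, Finset.sum_mul, Finset.sum_mul]
    congr 1
    · ring
    · exact Finset.sum_congr rfl fun i _ => by ring
  have i1 : Integrable (fun x => a0 * (r x * Real.exp (-V x))) :=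
    (hN.toReg.integrable_gr hr).const_mul a0
  have i2 : ∀ i, Integrable (fun x : E n => b i * (r x * x i * Real.exp (-V x))) := fun i =>
    (hN.toReg.integrable_gr (hr.mul (Gr.coord i))).const_mul (b i)
  rw [h1, integral_add i1 (integrable_finsetSum _ fun i _ => i2 i),
    integral_finsetSum _ fun i _ => i2 i, integral_const_mul, int_eq_Ex hN.toReg, hr0]
  have h3 : ∀ i, ∫ x : E n, b i * (r x * x i * Real.exp (-V x)) = 0 := fun i => by
    rw [integral_const_mul, odd_int hN (g := fun x : E n => x i) hre (by simp), mul_zero]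
  simp [h3]

end Vale.Agent.P227.M.LIN.T592
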