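import Vale.Agent.P227.M.LIN.TopE

/-! # P227/M/LIN/TopF: assembly of `StmtLin` (helper592). -/

open MeasureTheory Filter
open scoped Topology

namespace Vale.Agent.P227.M.LIN.T592

variable {n : ℕ} {ψ V : E n → ℝ} {c C M a K : ℝ}

theorem pd_sub' {f g : E n → ℝ} (hf : Differentiable ℝ f) (hg : Differentiable ℝ g) (i : Fin n)
    (x : E n) : pd i (f - g) x = pd i f x - pd i g x := by
  unfold pd
  rw [fderiv_sub (hf x) (hg x)]; rfl

theorem hess_sub' {f g : E n → ℝ} (hf : Test f) (hg : Test g) (i j : Fin n) (x : E n) :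
    hess (f - g) x i j = hess f x i j - hess g x i j := by
  unfold hess
  have : pd j (f - g) = pd j f - pd j g := by
    funext y; exact pd_sub' (test_diff hf) (test_diff hg) j y
  rw [this]
  exact pd_sub' (test_diff (test_pd hf j)) (test_diff (test_pd hg j)) i x

/-- energy bound: everything is controlled by `‖(J-A)f‖²` -/
theorem energy (hI : StmtIBP) (hB : StmtBoch) (hN : Nice V c C) (hM : MM ψ V c C M)
    (hτ : TauF ψ a K) (f : TF n) :
    Ex V (fun x => f.1 x ^ 2 + (∑ i, pd i f.1 x ^ 2) + ∑ i, ∑ j, hess f.1 x i j ^ 2) ≤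
      (1 + a⁻¹ + (a ^ 2)⁻¹) / (∫ x, Real.exp (-V x)) * ‖Jm hN.toReg f - Am hN.toReg hτ f‖ ^ 2 := by
  have hZ := hN.toReg.Z_pos
  have ha := hτ.a_pos
  have g1 : Gr (fun x => f.1 x ^ 2) := (gr_test f.2).pow 2
  have g2 : Gr (fun x => ∑ i, pd i f.1 x ^ 2) := Gr.sum _ fun i _ => (gr_test (test_pd f.2 i)).pow 2
  have g3 : Gr (fun x => ∑ i, ∑ j, hess f.1 x i j ^ 2) :=
    Gr.sum _ fun i _ => Gr.sum _ fun j _ => (gr_test (test_hess f.2 i j)).pow 2
  have e1 : Ex V (fun x => f.1 x ^ 2 + (∑ i, pd i f.1 x ^ 2) + ∑ i, ∑ j, hess f.1 x i j ^ 2) =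
      Ex V (fun x => f.1 x ^ 2) + Ex V (fun x => ∑ i, pd i f.1 x ^ 2)
        + Ex V (fun x => ∑ i, ∑ j, hess f.1 x i j ^ 2) := by
    rw [← Ex_add (hN.toReg.integrable_gr g1) (hN.toReg.integrable_gr g2),
      ← Ex_add (hN.toReg.integrable_gr (g1.add g2)) (hN.toReg.integrable_gr g3)]
  set P := Ex V (fun x => f.1 x ^ 2) with hP
  set Q := Ex V (fun x => Lop ψ f.1 x ^ 2) with hQ
  have hP0 : 0 ≤ P := Ex_nonneg hN.toReg fun x => sq_nonneg _
  have hQ0 : 0 ≤ Q := Ex_nonneg hN.toReg fun x => sq_nonneg _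
  have hb := boch_id hB hN hM hτ f.2
  have h2 : 0 ≤ a ^ 2 * Ex V (fun x => ∑ i, ∑ j, hess f.1 x i j ^ 2) :=
    mul_nonneg (sq_nonneg _) (Ex_nonneg hN.toReg fun x =>
      Finset.sum_nonneg fun _ _ => Finset.sum_nonneg fun _ _ => sq_nonneg _)
  have hG0 : 0 ≤ Ex V (Gf ψ f.1 f.1) := Ex_nonneg hN.toReg (Gf_nonneg hτ f.1)
  have h3 : a * Ex V (fun x => ∑ i, pd i f.1 x ^ 2) ≤ Ex V (Gf ψ f.1 f.1) := by
    rw [← Ex_const_mul]
    exact Ex_mono hN.toReg (hN.toReg.integrable_gr (g2.const_mul a))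
      (hN.toReg.integrable_gr (gr_Gf hτ f.2 f.2)) fun x => Gf_ge hτ _ x
  have b2 : Ex V (fun x => ∑ i, pd i f.1 x ^ 2) ≤ a⁻¹ * Q := by
    rw [inv_mul_eq_div, le_div_iff₀ ha]; linarith
  have b3 : Ex V (fun x => ∑ i, ∑ j, hess f.1 x i j ^ 2) ≤ (a ^ 2)⁻¹ * Q := by
    rw [inv_mul_eq_div, le_div_iff₀ (pow_pos ha 2)]; linarith
  have h4 : (∫ x, Real.exp (-V x)) * P + (∫ x, Real.exp (-V x)) * Q
      ≤ ‖Jm hN.toReg f - Am hN.toReg hτ f‖ ^ 2 := by
    rw [← normsq_J hN.toReg f, ← normsq_A hN.toReg hτ f, @norm_sub_sq_real, real_inner_comm]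
    have := neg_AJ hI hN hM hτ f
    linarith
  rw [e1]
  have h5 : P + Q ≤ ‖Jm hN.toReg f - Am hN.toReg hτ f‖ ^ 2 / (∫ x, Real.exp (-V x)) := by
    rw [le_div_iff₀ hZ]; linarith
  have hk : 0 ≤ 1 + a⁻¹ + (a ^ 2)⁻¹ := by positivity
  calc P + Ex V (fun x => ∑ i, pd i f.1 x ^ 2) + Ex V (fun x => ∑ i, ∑ j, hess f.1 x i j ^ 2)
      ≤ P + a⁻¹ * Q + (a ^ 2)⁻¹ * Q := by linarith
    _ ≤ (1 + a⁻¹ + (a ^ 2)⁻¹) * (P + Q) := by
        have i1 : 0 ≤ a⁻¹ * P := by positivity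
        have i2 : 0 ≤ (a ^ 2)⁻¹ * P := by positivity
        nlinarith
    _ ≤ (1 + a⁻¹ + (a ^ 2)⁻¹) * (‖Jm hN.toReg f - Am hN.toReg hτ f‖ ^ 2 / (∫ x, Real.exp (-V x))) :=
        mul_le_mul_of_nonneg_left h5 hk
    _ = _ := by ring

theorem int_sq_pd (h : Reg V c C) {f : E n → ℝ} (hf : BL f) :
    Integrable (fun x => (∑ b, pd b f x ^ 2) * Real.exp (-V x)) := by
  obtain ⟨K, hK⟩ := hf.pd_le
  have hm : ∀ b : Fin n, Measurable (pd b f) := fun b => measurable_fderiv_apply_const ℝ f (ei b)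
  refine (h.integrable_exp.const_mul (∑ _b : Fin n, K ^ 2)).mono'
    (((Finset.measurable_sum _ fun b _ => (hm b).pow_const 2).mul
      (by have := h.cont; fun_prop)).aestronglyMeasurable) (Eventually.of_forall fun x => ?_)
  rw [Real.norm_eq_abs, abs_of_nonneg
    (mul_nonneg (Finset.sum_nonneg fun _ _ => sq_nonneg _) (Real.exp_pos _).le)]
  refine mul_le_mul_of_nonneg_right (Finset.sum_le_sum fun b _ => ?_) (Real.exp_pos _).le
  exact sq_le_sq' (neg_le_of_abs_le (hK b x)) (le_of_abs_le (hK b x))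

theorem pd_split (hτ : TauF ψ a K) {F w v : E n → ℝ} (hF : Test F) (hw : Test w) (hv : Test v)
    (b : Fin n) (x : E n) :
    pd b (fun z => Lop ψ F z + F z + (w - (2 : ℝ) • v) z) x ^ 2 ≤
      2 * pd b (fun z => F z - Lop ψ F z - w z) x ^ 2 + 8 * (pd b F x - pd b v x) ^ 2 := by
  by_cases hd : DifferentiableAt ℝ (Lop ψ F) x
  · have dF := test_diff hF x
    have dw := test_diff hw x
    have dv := test_diff hv x
    have e1 : pd b (fun z => Lop ψ F z + F z + (w - (2 : ℝ) • v) z) x =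
        pd b (Lop ψ F) x + pd b F x + (pd b w x - 2 * pd b v x) := by
      have h : HasFDerivAt (fun z => Lop ψ F z + F z + (w - (2 : ℝ) • v) z)
          (fderiv ℝ (Lop ψ F) x + fderiv ℝ F x + (fderiv ℝ w x - (2 : ℝ) • fderiv ℝ v x)) x :=
        (hd.hasFDerivAt.add dF.hasFDerivAt).add (dw.hasFDerivAt.sub (dv.hasFDerivAt.const_smul 2))
      unfold pd
      rw [h.fderiv]; rfl
    have e2 : pd b (fun z => F z - Lop ψ F z - w z) x = pd b F x - pd b (Lop ψ F) x - pd b w x := by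
      have h : HasFDerivAt (fun z => F z - Lop ψ F z - w z)
          (fderiv ℝ F x - fderiv ℝ (Lop ψ F) x - fderiv ℝ w x) x :=
        (dF.hasFDerivAt.sub hd.hasFDerivAt).sub dw.hasFDerivAt
      unfold pd
      rw [h.fderiv]; rfl
    rw [e1, e2]
    nlinarith [sq_nonneg ((pd b F x - pd b (Lop ψ F) x - pd b w x) + 2 * (pd b F x - pd b v x))]
  · have hnd : ¬ DifferentiableAt ℝ (fun z => Lop ψ F z + F z + (w - (2 : ℝ) • v) z) x := by
      intro h
      apply hd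
      have h2 : DifferentiableAt ℝ (fun z => (Lop ψ F z + F z + (w - (2 : ℝ) • v) z)
          - (F z + (w - (2 : ℝ) • v) z)) x :=
        h.sub ((test_diff hF x).add ((test_diff hw x).sub ((test_diff hv x).const_smul 2)))
      refine h2.congr_of_eventuallyEq (Eventually.of_forall fun z => ?_)
      ring
    have : pd b (fun z => Lop ψ F z + F z + (w - (2 : ℝ) • v) z) x = 0 := by
      unfold pd
      rw [fderiv_zero_of_not_differentiableAt hnd]; rfl
    rw [this, zero_pow two_ne_zero]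
    positivity

theorem stmtLin_of' (hT : ∀ (n : ℕ) (ψ V : E n → ℝ) (c C M : ℝ), MM ψ V c C M → ∃ a K, TauF ψ a K)
    (hI : StmtIBP) (hE : StmtESA) (hB : StmtBoch) (hC : StmtConst) (hAf : StmtAff) (hH1 : StmtH1)
    (hH : StmtHilb) : StmtLin := by
  intro n ψ V c C M hN hM r hrc hre hrB hr0 ε hε
  obtain ⟨a, K, hτ⟩ := hT n ψ V c C M hM
  have hZ := hN.toReg.Z_pos
  have hr : Gr r := by
    obtain ⟨B, hB'⟩ := hrB
    refine ⟨hrc, |B|, 2, abs_nonneg _, fun x => (hB' x).trans ?_⟩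
    have h1 : B * (1 + ‖x‖ ^ 2) ≤ |B| * (1 + ‖x‖ ^ 2) :=
      mul_le_mul_of_nonneg_right (le_abs_self B) (by positivity)
    refine h1.trans (mul_le_mul_of_nonneg_left ?_ (abs_nonneg _))
    nlinarith [norm_nonneg x]
  set Z := ∫ x, Real.exp (-V x) with hZdef
  have hε' : 0 < Real.sqrt (ε * Z) := Real.sqrt_pos.2 (mul_pos hε hZ)
  obtain ⟨w, v, hv1, hv2⟩ := hH (TF n) (Lp ℝ 2 (mu V)) (Jm hN.toReg) (Am hN.toReg hτ)
    (sym_AJ hI hN hM hτ) (neg_AJ hI hN hM hτ) (dense_JA hE hN hM hτ)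
    ((memLp_gr hN.toReg hr).toLp r)
    (fun h f h1 h2 => ker0 hC hB hN hM hτ hr hr0 h f h1 h2)
    (fun h f h1 h2 => ker1 hI hAf hB hN hM hτ hr hr0 hre h f h1 h2) _ hε'
  -- the hypotheses of `StmtH1`
  have t1 : Tendsto (fun i => Ex V (fun x => ((v i).1 x - Lop ψ (v i).1 x - w.1 x) ^ 2))
      atTop (𝓝 0) := by
    have h2 : Tendsto (fun i => ‖(Jm hN.toReg (v i) - Am hN.toReg hτ (v i)) - Jm hN.toReg w‖ ^ 2 / Z)
        atTop (𝓝 0) := by
      have := ((tendsto_iff_norm_sub_tendsto_zero.1 hv1).pow 2).div_const Z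
      simpa using this
    refine h2.congr fun i => ?_
    have e : (Jm hN.toReg (v i) - Am hN.toReg hτ (v i)) - Jm hN.toReg w =
        (((memLp_gr hN.toReg (gr_test (v i).2)).sub (memLp_gr hN.toReg (bl_Lop hτ (v i).2).gr)).sub
          (memLp_gr hN.toReg (gr_test w.2))).toLp ((v i).1 - Lop ψ (v i).1 - w.1) := by
      rw [MemLp.toLp_sub ((memLp_gr hN.toReg (gr_test (v i).2)).sub
          (memLp_gr hN.toReg (bl_Lop hτ (v i).2).gr)) (memLp_gr hN.toReg (gr_test w.2)),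
        MemLp.toLp_sub (memLp_gr hN.toReg (gr_test (v i).2))
          (memLp_gr hN.toReg (bl_Lop hτ (v i).2).gr)]; rfl
    rw [e, normsq_toLp hN.toReg, mul_div_cancel_left₀ _ hZ.ne']
    rfl
  have t2 : ∀ η > 0, ∃ N : ℕ, ∀ i ≥ N, ∀ j ≥ N, Ex V (fun x => ((v i).1 x - (v j).1 x) ^ 2
      + (∑ b, (pd b (v i).1 x - pd b (v j).1 x) ^ 2)
      + ∑ b, ∑ d, (hess (v i).1 x b d - hess (v j).1 x b d) ^ 2) ≤ η := by
    intro η hη
    set κ := (1 + a⁻¹ + (a ^ 2)⁻¹) / Z with hκ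
    have ha := hτ.a_pos
    have hκ0 : 0 < κ := by positivity
    have hcau := hv1.cauchySeq
    have hs : 0 < Real.sqrt (η / κ) := Real.sqrt_pos.2 (div_pos hη hκ0)
    obtain ⟨N, hN'⟩ := Metric.cauchySeq_iff.1 hcau _ hs
    refine ⟨N, fun i hi j hj => ?_⟩
    have h1 := hN' i hi j hj
    rw [dist_eq_norm] at h1
    have h2 : (Jm hN.toReg (v i) - Am hN.toReg hτ (v i)) - (Jm hN.toReg (v j) - Am hN.toReg hτ (v j))
        = Jm hN.toReg (v i - v j) - Am hN.toReg hτ (v i - v j) := by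
      rw [map_sub, map_sub]; abel
    rw [h2] at h1
    have h3 := energy hI hB hN hM hτ (v i - v j)
    have e : (fun x => ((v i).1 x - (v j).1 x) ^ 2
      + (∑ b, (pd b (v i).1 x - pd b (v j).1 x) ^ 2)
      + ∑ b, ∑ d, (hess (v i).1 x b d - hess (v j).1 x b d) ^ 2) =
      (fun x => (v i - v j : TF n).1 x ^ 2 + (∑ b, pd b (v i - v j : TF n).1 x ^ 2)
        + ∑ b, ∑ d, hess (v i - v j : TF n).1 x b d ^ 2) := by
      funext x
      have q1 : (v i - v j : TF n).1 = (v i).1 - (v j).1 := rfl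
      rw [q1]
      simp only [pd_sub' (test_diff (v i).2) (test_diff (v j).2), hess_sub' (v i).2 (v j).2]
      rfl
    rw [e]
    refine h3.trans ?_
    have h4 : ‖Jm hN.toReg (v i - v j) - Am hN.toReg hτ (v i - v j)‖ ^ 2 ≤ η / κ := by
      have := pow_le_pow_left₀ (norm_nonneg _) h1.le 2
      rwa [Real.sq_sqrt (div_pos hη hκ0).le] at this
    calc κ * ‖Jm hN.toReg (v i - v j) - Am hN.toReg hτ (v i - v j)‖ ^ 2 ≤ κ * (η / κ) :=
          mul_le_mul_of_nonneg_left h4 hκ0.le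
      _ = η := by field_simp
  obtain ⟨B, hBB⟩ := hH1 n ψ V c C M hN hM w.1 (fun i => (v i).1) w.2 (fun i => (v i).2) t1 t2
  refine ⟨B, fun δ hδ => ?_⟩
  obtain ⟨F, N, hF, h1, h2, h3⟩ := hBB (δ / 10) (by positivity)
  have hu : Test (w.1 - (2 : ℝ) • (v N).1) := (w - (2 : ℝ) • v N).2
  refine ⟨F, w.1 - (2 : ℝ) • (v N).1, hF, hu, ?_, ?_, h3⟩
  · have h4 := hv2 N
    have h5 : (memLp_gr hN.toReg hr).toLp r + Am hN.toReg hτ (w - (2 : ℝ) • v N) =
        ((memLp_gr hN.toReg hr).add (memLp_gr hN.toReg (bl_Lop hτ hu).gr)).toLp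
          (r + Lop ψ (w.1 - (2 : ℝ) • (v N).1)) := by
      rw [MemLp.toLp_add (memLp_gr hN.toReg hr) (memLp_gr hN.toReg (bl_Lop hτ hu).gr)]; rfl
    rw [h5] at h4
    have h6 := pow_le_pow_left₀ (norm_nonneg _) h4 2
    rw [normsq_toLp hN.toReg, Real.sq_sqrt (mul_pos hε hZ).le] at h6
    have h7 : Ex V (fun x => (r + Lop ψ (w.1 - (2 : ℝ) • (v N).1)) x ^ 2) ≤ ε := by
      have : Z * Ex V (fun x => (r + Lop ψ (w.1 - (2 : ℝ) • (v N).1)) x ^ 2) ≤ Z * ε := by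
        rw [mul_comm Z ε]; exact h6
      exact le_of_mul_le_mul_left this hZ
    refine le_trans (le_of_eq ?_) h7
    congr 1
    funext x
    simp only [Pi.add_apply]
    ring
  · have blF := bl_Lop hτ hF
    have blG : BL (fun z => F z - Lop ψ F z - w.1 z) := ((BL.of_test hF).sub blF).sub (BL.of_test w.2)
    have blH : BL (fun z => Lop ψ F z + F z + (w.1 - (2 : ℝ) • (v N).1) z) :=
      (blF.add (BL.of_test hF)).add (BL.of_test hu)
    have gD : Gr (fun x => ∑ b, (pd b F x - pd b (v N).1 x) ^ 2) :=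
      Gr.sum _ fun b _ => ((gr_test (test_pd hF b)).sub (gr_test (test_pd (v N).2 b))).pow 2
    have iG := int_sq_pd hN.toReg blG
    have iH := int_sq_pd hN.toReg blH
    have iD := hN.toReg.integrable_gr gD
    have iG2 : Integrable (fun x => (2 * ∑ b, pd b (fun z => F z - Lop ψ F z - w.1 z) x ^ 2)
        * Real.exp (-V x)) := by
      refine (iG.const_mul 2).congr (Eventually.of_forall fun x => ?_)
      simp only; ring
    have iD2 := hN.toReg.integrable_gr (gD.const_mul 8)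
    have hle : Ex V (fun x => ∑ b, pd b (fun z => Lop ψ F z + F z + (w.1 - (2 : ℝ) • (v N).1) z) x ^ 2)
        ≤ Ex V (fun x => (2 * ∑ b, pd b (fun z => F z - Lop ψ F z - w.1 z) x ^ 2)
          + 8 * ∑ b, (pd b F x - pd b (v N).1 x) ^ 2) := by
      refine Ex_mono hN.toReg iH ?_ fun x => ?_
      · refine (iG2.add iD2).congr (Eventually.of_forall fun x => ?_)
        simp only [Pi.add_apply]; ring
      · rw [Finset.mul_sum, Finset.mul_sum, ← Finset.sum_add_distrib]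
        exact Finset.sum_le_sum fun b _ => pd_split hτ hF w.2 (v N).2 b x
    rw [Ex_add iG2 iD2, Ex_const_mul, Ex_const_mul] at hle
    have h2N := h2 N le_rfl
    linarith

end Vale.Agent.P227.M.LIN.T592
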